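import Vale.Agent.P011.One.TwoChain
import Vale.Agent.P011.Even.GChoice

/-!
Almost all places which split the centre split the algebra, and the local chains there.
-/

open NumberField IsDedekindDomain TensorProduct Module Matrix Relation

set_option linter.unusedSectionVars false

namespace Vale.Agent.P011.One

open Vale.Agent.P011.Arith Vale.Agent.P011.Even Vale.Agent.P011.Two
open Vale.Agent.P011.W (Spl HasNrd hasNrd_iff hasNrd_of_det Nice)

open Polynomial in
/-- A place at which the structure constants are integral splits the algebra over every complete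
field in which the centre embeds compatibly. -/
theorem nice_spl {K D : Type} [Field K] [NumberField K] [DivisionRing D] [Algebra K D]
    [FiniteDimensional K D] [Algebra.IsCentral K D] {N : ℕ} {b : Basis (Fin N) K D}
    {w : HeightOneSpectrum (𝓞 K)} (h : Nice b (w.valuation K)) {q : ℕ} (hq0 : 0 < q)
    (hq : finrank K D = q ^ 2) (hfac : w.valuation K (q.factorial : K) = 1)
    {R : Type} [NormedField R] [IsUltrametricDist R] [CompleteSpace R] (φ : K →+* R)
    (hle : ∀ y : K, w.valuation K y ≤ 1 → ‖φ y‖ ≤ 1)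
    (hlt : ∀ y : K, w.valuation K y < 1 → ‖φ y‖ < 1) : Spl D q φ := by
  obtain ⟨x, c, hx, hc0, hcle, h0, h1⟩ := h.exists_elt hq0 hq hfac
  set g : K[X] := C c * minpoly K x with hg
  have hgc : ∀ i, g.coeff i = c * (minpoly K x).coeff i := fun i => coeff_C_mul _
  have hge : ∀ y : K, 1 ≤ w.valuation K y → 1 ≤ ‖φ y‖ := by
    intro y hy
    have hy0 : y ≠ 0 := by
      rintro rfl
      rw [map_zero] at hy
      exact absurd hy (by simp)
    have h2 : w.valuation K y⁻¹ ≤ 1 := by
      rw [map_inv₀]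
      exact inv_le_one_of_one_le₀ hy
    have h3 := hle _ h2
    rw [map_inv₀, norm_inv] at h3
    have h4 : 0 < ‖φ y‖ := norm_pos_iff.mpr ((map_ne_zero φ).mpr hy0)
    rwa [inv_le_one₀ h4] at h3
  have e0 : (g.map φ).eval 0 = φ (g.coeff 0) := by
    rw [← coeff_zero_eq_eval_zero, coeff_map]
  have e1 : (g.map φ).derivative.eval 0 = φ (g.coeff 1) := by
    rw [← coeff_zero_eq_eval_zero, coeff_derivative, coeff_map]
    simp
  obtain ⟨r, hr⟩ := Vale.Agent.P011.W.exists_root (g.map φ) 0 (M := 1) (fun k => by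
    rw [taylor_zero, coeff_map, hgc]
    exact hle _ (hcle k)) (by
    rw [e0, e1, one_mul, hgc, hgc]
    have h2 : ‖φ (c * (minpoly K x).coeff 1)‖ = 1 := le_antisymm (hle _ h1.le) (hge _ h1.ge)
    rw [h2, one_pow]
    exact hlt _ h0)
  refine Vale.Agent.P011.W.spl_of_eval hq0 hq hx φ (r := r) ?_
  rw [eval_map, hg, eval₂_mul, eval₂_C] at hr
  rcases mul_eq_zero.mp hr with h2 | h2
  · exact absurd ((map_eq_zero φ).mp h2) hc0
  · exact h2

/-- The structure constants are integral at almost all places. -/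
theorem nice_almost {F D : Type} [Field F] [NumberField F] [DivisionRing D] [Algebra F D]
    [FiniteDimensional F D] [Algebra.IsCentral F D] (q : ℕ) :
    ∃ S : Set (HeightOneSpectrum (𝓞 F)), S.Finite ∧ ∀ v ∉ S,
      Nice (finBasis F D) (v.valuation F) ∧ v.valuation F (q.factorial : F) = 1 := by
  classical
  let b := finBasis F D
  have hsand : ∀ s t, ∃ a : Fin (finrank F D) → D, ∀ x, b.repr x t • b s = ∑ i, a i * x * b i := by
    intro s t
    obtain ⟨a, ha⟩ := Vale.Agent.P011.T2.sandwich_surj b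
      ((b.coord t).smulRight (b s))
    exact ⟨a, fun x => ha x⟩
  choose a ha using hsand
  obtain ⟨t0, ht0⟩ : ∃ t, b.repr 1 t ≠ 0 := by
    by_contra hcon
    push Not at hcon
    have h1 : b.repr 1 = 0 := Finsupp.ext hcon
    exact one_ne_zero ((LinearEquiv.map_eq_zero_iff _).mp h1)
  let S1 : Set (HeightOneSpectrum (𝓞 F)) := ⋃ i, ⋃ j, ⋃ l,
    {v | ¬ v.valuation F (b.repr (b i * b j) l) ≤ 1}
  let S2 : Set (HeightOneSpectrum (𝓞 F)) := ⋃ i, {v | ¬ v.valuation F (b.repr 1 i) ≤ 1}
  let S3 : Set (HeightOneSpectrum (𝓞 F)) := {v | v.valuation F (b.repr 1 t0) ≠ 1}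
  let S4 : Set (HeightOneSpectrum (𝓞 F)) := ⋃ s, ⋃ t, ⋃ i, ⋃ l,
    {v | ¬ v.valuation F (b.repr (a s t i) l) ≤ 1}
  let S5 : Set (HeightOneSpectrum (𝓞 F)) := {v | v.valuation F (q.factorial : F) ≠ 1}
  have hq' : (q.factorial : F) ≠ 0 := Nat.cast_ne_zero.mpr q.factorial_ne_zero
  refine ⟨S1 ∪ S2 ∪ S3 ∪ S4 ∪ S5, ?_, ?_⟩
  · refine ((((Set.finite_iUnion fun i => Set.finite_iUnion fun j => Set.finite_iUnion fun l =>
      finite_not_le _).union (Set.finite_iUnion fun i => finite_not_le _)).union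
      (finite_ne_one (Units.mk0 _ ht0))).union (Set.finite_iUnion fun s =>
      Set.finite_iUnion fun t => Set.finite_iUnion fun i => Set.finite_iUnion fun l =>
      finite_not_le _)).union (finite_ne_one (Units.mk0 _ hq'))
  · intro v hv
    simp only [S1, S2, S3, S4, S5, Set.mem_union, Set.mem_iUnion, Set.mem_ofPred_eq, not_or,
      not_exists, not_not] at hv
    obtain ⟨⟨⟨⟨h1, h2⟩, h3⟩, h4⟩, h5⟩ := hv
    exact ⟨{ mul := h1
             one := h2
             one' := ⟨t0, h3⟩
             sand := fun s t => ⟨a s t, h4 s t, ha s t⟩ }, h5⟩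

/-- The place of an embedding into a completion. -/
theorem exists_place_of_hom {k K : Type} [Field k] [NumberField k] [Field K] [NumberField K]
    [Algebra k K] {v : HeightOneSpectrum (𝓞 k)} (φ : K →+* v.adicCompletion k)
    (hφ : ∀ c : k, φ (algebraMap k K c) = algebraMap k (v.adicCompletion k) c) :
    ∃ w : HeightOneSpectrum (𝓞 K), w.asIdeal.comap (algebraMap (𝓞 k) (𝓞 K)) = v.asIdeal ∧
      (∀ y : K, w.valuation K y ≤ 1 → ‖φ y‖ ≤ 1) ∧ ∀ y : K, w.valuation K y < 1 → ‖φ y‖ < 1 := by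
  have hU := isUltra v
  -- integers are integral
  let ρ : 𝓞 K →+* v.adicCompletion k := φ.comp (algebraMap (𝓞 K) K)
  have hint : ∀ x : 𝓞 K, ‖ρ x‖ ≤ 1 := by
    intro x
    have h1 : IsIntegral ℤ (x : K) := RingOfIntegers.isIntegral_coe x
    refine Vale.Agent.P011.W.norm_root_le (f := (minpoly ℤ (x : K)).map
      (Int.castRingHom (v.adicCompletion k))) ((minpoly.monic h1).map _) le_rfl (fun i => ?_) ?_
    · rw [Polynomial.coeff_map]
      exact IsUltrametricDist.norm_intCast_le_one _ _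
    · have h2 : (minpoly ℤ (x : K)).eval₂ (algebraMap ℤ K) (x : K) = 0 := minpoly.aeval ℤ (x : K)
      have h3 := congrArg φ h2
      rw [Polynomial.hom_eval₂, map_zero] at h3
      rw [Polynomial.eval_map, ← h3]
      congr 1
      exact RingHom.ext_int _ _
  let P : Ideal (𝓞 K) :=
    { carrier := {x | ‖ρ x‖ < 1}
      add_mem' := fun {x y} hx hy => by
        change ‖ρ (x + y)‖ < 1
        rw [map_add]
        exact (IsUltrametricDist.norm_add_le_max _ _).trans_lt (max_lt hx hy)
      zero_mem' := by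
        change ‖ρ 0‖ < 1
        rw [map_zero, norm_zero]
        exact one_pos
      smul_mem' := fun c x hx => by
        change ‖ρ (c * x)‖ < 1
        rw [map_mul, norm_mul]
        exact (mul_le_of_le_one_left (norm_nonneg _) (hint c)).trans_lt hx }
  have hP : ∀ x : 𝓞 K, x ∈ P ↔ ‖ρ x‖ < 1 := fun _ => Iff.rfl
  have hprime : P.IsPrime := by
    refine ⟨?_, fun {x y} hxy => ?_⟩
    · rw [Ideal.ne_top_iff_one, hP, map_one, norm_one]
      exact lt_irrefl _
    · rw [hP, map_mul, norm_mul] at hxy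
      rw [hP, hP]
      by_contra hcon
      rw [not_or, not_lt, not_lt] at hcon
      exact absurd hxy (not_lt.mpr (one_le_mul_of_one_le_of_one_le hcon.1 hcon.2))
  have hcomap : P.comap (algebraMap (𝓞 k) (𝓞 K)) = v.asIdeal := by
    ext x
    rw [Ideal.mem_comap, hP]
    have h1 : ρ (algebraMap (𝓞 k) (𝓞 K) x) = φ (algebraMap k K (algebraMap (𝓞 k) k x)) := rfl
    rw [h1, hφ, norm_lt_one_iff, valued_alg]
    exact v.valuation_lt_one_iff_mem (K := k) x
  have hbot : P ≠ ⊥ := by
    intro h0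
    rw [h0] at hcomap
    have h1 : (⊥ : Ideal (𝓞 K)).comap (algebraMap (𝓞 k) (𝓞 K)) = ⊥ := by
      rw [← RingHom.ker_eq_comap_bot]
      exact (RingHom.injective_iff_ker_eq_bot _).mp (FaithfulSMul.algebraMap_injective (𝓞 k) (𝓞 K))
    rw [h1] at hcomap
    exact v.ne_bot hcomap.symm
  let w : HeightOneSpectrum (𝓞 K) := ⟨P, hprime, hbot⟩
  have hd1 : ∀ x : w.asIdeal.primeCompl, ‖ρ x‖ = 1 := by
    intro x
    have h1 : ¬ (x : 𝓞 K) ∈ P := x.2
    rw [hP, not_lt] at h1
    exact le_antisymm (hint _) h1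
  have hy : ∀ (y : K) (n : 𝓞 K) (c : w.asIdeal.primeCompl),
      y * algebraMap (𝓞 K) K c = algebraMap (𝓞 K) K n → ‖φ y‖ = ‖ρ n‖ := by
    intro y n c hc
    have h1 := congrArg (fun z => ‖φ z‖) hc
    simp only [map_mul, norm_mul] at h1
    rw [show ‖φ (algebraMap (𝓞 K) K (c : 𝓞 K))‖ = 1 from hd1 c, mul_one] at h1
    exact h1
  refine ⟨w, hcomap, fun y hy1 => ?_, fun y hy1 => ?_⟩
  · obtain ⟨n, c, hc⟩ := w.exists_primeCompl_mul_eq_of_integer y hy1
    rw [hy y n c hc]
    exact hint n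
  · obtain ⟨n, c, hc⟩ := w.exists_primeCompl_mul_eq_of_integer y hy1.le
    rw [hy y n c hc]
    have h2 : n ∈ w.asIdeal := by
      have h3 : w.valuation K (algebraMap (𝓞 K) K n) < 1 := by
        rw [← hc, map_mul]
        exact (mul_le_of_le_one_right' (w.valuation_le_one _)).trans_lt hy1
      exact (w.valuation_lt_one_iff_mem (K := K) n).mp h3
    exact h2

theorem exists_hom {k K D : Type} [Field k] [NumberField k] [Field K] [StarRing K]
    [DivisionRing D] [StarRing D] [Algebra k K] [Algebra k D] [Algebra K D] [IsScalarTower k K D]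
    {d : kˣ} {s : K} (hS : Setting k K D d s) {v : HeightOneSpectrum (𝓞 k)}
    (hd : d ∈ LS (v.valuation k)) : ∃ φ : K →+* v.adicCompletion k,
      ∀ c : k, φ (algebraMap k K c) = algebraMap k (v.adicCompletion k) c := by
  have : FiniteDimensional k K := FiniteDimensional.of_finrank_pos (by rw [hS.rank]; norm_num)
  obtain ⟨δ, hδ⟩ := (isSquare_iff v d).mpr hd
  let Ω := AlgebraicClosure (v.adicCompletion k)
  let g : v.adicCompletion k →+* Ω := algebraMap _ _
  let ψ : K →ₐ[k] Ω := IsAlgClosed.lift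
  have hψs : ψ s = g δ ∨ ψ s = -g δ := by
    rw [← sq_eq_sq_iff_eq_or_eq_neg, ← map_pow, hS.sq, AlgHom.commutes,
      IsScalarTower.algebraMap_apply k (v.adicCompletion k) Ω, hδ, pow_two, map_mul]
  have hr : ∀ x : K, (ψ : K →+* Ω) x ∈ g.range := by
    intro x
    obtain ⟨p, q, rfl⟩ := exists_coord hS x
    change ψ _ ∈ _
    rw [map_add, map_mul, AlgHom.commutes, AlgHom.commutes,
      IsScalarTower.algebraMap_apply k (v.adicCompletion k) Ω,
      IsScalarTower.algebraMap_apply k (v.adicCompletion k) Ω]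
    rcases hψs with h | h
    · exact ⟨algebraMap k _ p + algebraMap k _ q * δ, by rw [map_add, map_mul, h]⟩
    · exact ⟨algebraMap k _ p - algebraMap k _ q * δ, by
        rw [map_sub, map_mul, h, mul_neg, ← sub_eq_add_neg]⟩
  let e := RingEquiv.ofLeftInverse (f := g) (Function.leftInverse_invFun g.injective)
  refine ⟨(e.symm : g.range →+* v.adicCompletion k).comp ((ψ : K →+* Ω).codRestrict _ hr),
    fun c => ?_⟩
  apply g.injective
  have h1 : ∀ z : g.range, g (e.symm z) = z := fun z => congrArg Subtype.val (e.apply_symm_apply z)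
  refine (h1 _).trans ?_
  change ψ (algebraMap k K c) = _
  rw [AlgHom.commutes, IsScalarTower.algebraMap_apply k (v.adicCompletion k) Ω]

/-- Almost all places which split the centre split the algebra. -/
theorem splAt_almost {k K D : Type} [Field k] [NumberField k] [Field K] [StarRing K]
    [DivisionRing D] [StarRing D] [Algebra k K] [Algebra k D] [Algebra K D] [IsScalarTower k K D]
    {d : kˣ} {s : K} (hS : Setting k K D d s) {n : ℕ} (hn : 0 < n) (hdeg : finrank K D = n ^ 2) :
    ∃ S : Set (HeightOneSpectrum (𝓞 k)), S.Finite ∧ ∀ v ∉ S, d ∈ LS (v.valuation k) →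
      ∃ (φ : K →+* v.adicCompletion k) (f : D →+* Matrix (Fin n) (Fin n) (v.adicCompletion k)),
        SplAt K D n v φ f := by
  have : FiniteDimensional k K := FiniteDimensional.of_finrank_pos (by rw [hS.rank]; norm_num)
  have : NumberField K := Vale.Agent.P011.T2.numberField_of_finite (K := k)
  have := hS.fin
  have := hS.cen
  obtain ⟨S, hSf, hSn⟩ := nice_almost (F := K) (D := D) n
  let S' : Set (HeightOneSpectrum (𝓞 k)) :=
    {v | ∃ w ∈ S, w.asIdeal.comap (algebraMap (𝓞 k) (𝓞 K)) = v.asIdeal}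
  have hS' : S'.Finite := by
    have h1 : (Set.image (fun v : HeightOneSpectrum (𝓞 k) => v.asIdeal) S').Finite := by
      refine (hSf.image fun w => w.asIdeal.comap (algebraMap (𝓞 k) (𝓞 K))).subset ?_
      rintro _ ⟨v, ⟨w, hw, hwv⟩, rfl⟩
      exact ⟨w, hw, hwv⟩
    exact h1.of_finite_image (fun v _ v' _ h => HeightOneSpectrum.ext h)
  refine ⟨S', hS', fun v hv hd => ?_⟩
  obtain ⟨φ, hφ⟩ := exists_hom hS hd
  obtain ⟨w, hw, hle, hlt⟩ := exists_place_of_hom φ hφ
  have hwS : w ∉ S := fun h => hv ⟨w, h, hw⟩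
  have := isUltra v
  obtain ⟨f, hf⟩ := nice_spl (hSn w hwS).1 hn hdeg (hSn w hwS).2 φ hle hlt
  exact ⟨φ, f, hφ, hf⟩

/-- Local chains at almost all places which split the centre. -/
theorem local_chain_two {k K D : Type} [Field k] [NumberField k] [Field K] [StarRing K]
    [DivisionRing D] [StarRing D] [Algebra k K] [Algebra k D] [Algebra K D] [IsScalarTower k K D]
    {d : kˣ} {s : K} (hS : Setting k K D d s) {n : ℕ} (hn : 0 < n) (hdeg : finrank K D = n ^ 2)
    {Ω : Type} [Field Ω] [Algebra K Ω] (F : D →ₐ[K] Matrix (Fin n) (Fin n) Ω) :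
    ∃ S : Set (HeightOneSpectrum (𝓞 k)), S.Finite ∧ ∀ v ∉ S, d ∈ LS (v.valuation k) →
      ∀ a : kˣ, a ∉ LS (v.valuation k) → ∀ σ ∈ Xa D a, ∀ g : D, g * star g = 1 →
      (F g).det = 1 → ReflTransGen (LStep1 hS a v) (1 ⊗ₜ σ) (1 ⊗ₜ (g * σ * star g)) := by
  have : CharZero K := charZero_of_injective_algebraMap (algebraMap k K).injective
  have := hS.fin
  have := hS.cen
  obtain ⟨S, hSf, h⟩ := splAt_almost hS hn hdeg
  refine ⟨S, hSf, fun v hv hd a ha σ hσ g hg hFg => ?_⟩
  obtain ⟨φ, f, hf⟩ := h v hv hd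
  refine hf.chain hS hn hdeg ha hσ hg ?_
  have h1 : HasNrd K n g 1 := hasNrd_of_det hdeg F (by rw [hFg, map_one])
  have h2 := hasNrd_iff.mp h1 _ φ f hf.map
  rw [h2, map_one]

end Vale.Agent.P011.One
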