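import Vale.Agent.P011.One.Close
import Vale.Agent.P011.T2.MaxSub

/-!
The centralizer of a symmetric square root in a division algebra of degree four.
-/

open NumberField IsDedekindDomain Polynomial Module

set_option linter.unusedSectionVars false

namespace Vale.Agent.P011.One

open Vale.Agent.P011.Arith Vale.Agent.P011.Even Vale.Agent.P011.Two Vale.Agent.P011.MPQ

section quad

variable {K D : Type} [Field K] [DivisionRing D] [Algebra K D]

/-- The elements `u + v t`. -/
def lt2 (K : Type) {D : Type} [Field K] [DivisionRing D] [Algebra K D] (t : D) :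
    (K × K) →ₗ[K] D where
  toFun x := algebraMap K D x.1 + algebraMap K D x.2 * t
  map_add' x y := by
    rw [Prod.fst_add, Prod.snd_add, map_add, map_add, add_mul]
    abel
  map_smul' c x := by
    rw [Prod.smul_fst, Prod.smul_snd, smul_eq_mul, smul_eq_mul, map_mul, map_mul,
      RingHom.id_apply, Algebra.smul_def, mul_add, mul_assoc]

theorem lt2_apply (t : D) (x : K × K) : lt2 K t x = algebraMap K D x.1 + algebraMap K D x.2 * t :=
  rfl

/-- The subalgebra `K + K t`. -/
def Lt2 (K : Type) {D : Type} [Field K] [DivisionRing D] [Algebra K D] {t : D} {a : K}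
    (ht : t * t = algebraMap K D a) : Subalgebra K D where
  carrier := {x | ∃ u v : K, x = algebraMap K D u + algebraMap K D v * t}
  mul_mem' := by
    rintro _ _ ⟨u, v, rfl⟩ ⟨u', v', rfl⟩
    refine ⟨u * u' + v * v' * a, u * v' + v * u', ?_⟩
    have h1 : t * algebraMap K D u' = algebraMap K D u' * t := (Algebra.commutes _ _).symm
    have h2 : t * algebraMap K D v' = algebraMap K D v' * t := (Algebra.commutes _ _).symm
    simp only [map_add, map_mul]
    rw [← ht, add_mul, mul_add, mul_add, mul_assoc (algebraMap K D v) t, h1,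
      mul_assoc (algebraMap K D v) t (algebraMap K D v' * t), ← mul_assoc t, h2]
    simp only [add_mul, mul_assoc]
    abel
  one_mem' := ⟨1, 0, by rw [map_one, map_zero, zero_mul, add_zero]⟩
  add_mem' := by
    rintro _ _ ⟨u, v, rfl⟩ ⟨u', v', rfl⟩
    exact ⟨u + u', v + v', by rw [map_add, map_add, add_mul]; abel⟩
  zero_mem' := ⟨0, 0, by rw [map_zero, zero_mul, add_zero]⟩
  algebraMap_mem' r := ⟨r, 0, by rw [map_zero, zero_mul, add_zero]⟩

theorem mem_Lt2 {t : D} {a : K} (ht : t * t = algebraMap K D a) {x : D} :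
    x ∈ Lt2 K ht ↔ ∃ u v : K, x = algebraMap K D u + algebraMap K D v * t := Iff.rfl

theorem lt2_inj {t : D} (hnt : ∀ c : K, algebraMap K D c ≠ t) : Function.Injective (lt2 K t) := by
  rw [← LinearMap.ker_eq_bot, LinearMap.ker_eq_bot']
  rintro ⟨u, v⟩ h
  rw [lt2_apply] at h
  change algebraMap K D u + algebraMap K D v * t = 0 at h
  by_cases hv : v = 0
  · subst hv
    rw [map_zero, zero_mul, add_zero, map_eq_zero] at h
    rw [h]
    rfl
  · exfalso
    apply hnt (-(v⁻¹ * u))
    have hv' : algebraMap K D v ≠ 0 := (_root_.map_ne_zero _).mpr hv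
    have h1 : t = -((algebraMap K D v)⁻¹ * algebraMap K D u) := by
      have h2 : algebraMap K D v * t = -algebraMap K D u := by
        rw [eq_neg_iff_add_eq_zero, add_comm]
        exact h
      rw [← inv_mul_cancel_left₀ hv' t, h2, mul_neg]
    rw [h1, map_neg, map_mul, map_inv₀]

theorem lt2_coe {t : D} {a : K} (ht : t * t = algebraMap K D a) :
    Subalgebra.toSubmodule (Lt2 K ht) = LinearMap.range (lt2 K t) := by
  ext x
  rw [Subalgebra.mem_toSubmodule, mem_Lt2, LinearMap.mem_range]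
  constructor
  · rintro ⟨u, v, rfl⟩
    exact ⟨(u, v), rfl⟩
  · rintro ⟨⟨u, v⟩, rfl⟩
    exact ⟨u, v, rfl⟩

theorem finrank_Lt2 {t : D} {a : K} (ht : t * t = algebraMap K D a)
    (hnt : ∀ c : K, algebraMap K D c ≠ t) : finrank K (Lt2 K ht) = 2 := by
  have h1 : finrank K (Lt2 K ht) = finrank K (LinearMap.range (lt2 K t)) := by
    rw [← lt2_coe ht]
    rfl
  rw [h1, LinearMap.finrank_range_of_inj (lt2_inj hnt), Module.finrank_prod, Module.finrank_self]

/-- Inverses in `K + K t`. -/
theorem Lt2_inv {t : D} {a : K} (ht : t * t = algebraMap K D a) {x : D} (hx : x ∈ Lt2 K ht) :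
    x⁻¹ ∈ Lt2 K ht := by
  by_cases hx0 : x = 0
  · rw [hx0, inv_zero]
    exact (Lt2 K ht).zero_mem
  obtain ⟨u, v, hx'⟩ := hx
  have h1 : t * algebraMap K D u = algebraMap K D u * t := (Algebra.commutes _ _).symm
  have h2 : t * algebraMap K D v = algebraMap K D v * t := (Algebra.commutes _ _).symm
  have key : x * (algebraMap K D u - algebraMap K D v * t) = algebraMap K D (u ^ 2 - v ^ 2 * a) := by
    rw [hx', map_sub, map_mul, map_pow, map_pow, ← ht, add_mul, mul_sub, mul_sub,
      mul_assoc (algebraMap K D v) t, mul_assoc (algebraMap K D v) t, h1,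
      ← mul_assoc t (algebraMap K D v), h2]
    have h3 : algebraMap K D u * (algebraMap K D v * t) = algebraMap K D v * (algebraMap K D u * t) := by
      rw [← mul_assoc, ← mul_assoc, ← map_mul, ← map_mul, mul_comm]
    rw [h3]
    simp only [pow_two, mul_assoc]
    abel
  by_cases hn : u ^ 2 - v ^ 2 * a = 0
  · rw [hn, map_zero, mul_eq_zero, or_iff_right hx0] at key
    refine ⟨(2 * u)⁻¹, 0, ?_⟩
    have h3 : x = algebraMap K D (2 * u) := by
      rw [hx', map_mul, map_ofNat, ← sub_eq_zero.mp key, two_mul]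
    rw [h3, map_zero, zero_mul, add_zero, map_inv₀]
  · refine ⟨u * (u ^ 2 - v ^ 2 * a)⁻¹, -v * (u ^ 2 - v ^ 2 * a)⁻¹, ?_⟩
    have hn' : algebraMap K D (u ^ 2 - v ^ 2 * a) ≠ 0 := (_root_.map_ne_zero _).mpr hn
    have h4 : x⁻¹ = (algebraMap K D u - algebraMap K D v * t) *
        (algebraMap K D (u ^ 2 - v ^ 2 * a))⁻¹ := by
      rw [← key, mul_inv_rev, ← mul_assoc, mul_inv_cancel₀, one_mul]
      intro h0
      apply hn'
      rw [← key, h0, mul_zero]
    have h5 : t * algebraMap K D (u ^ 2 - v ^ 2 * a)⁻¹ =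
      algebraMap K D (u ^ 2 - v ^ 2 * a)⁻¹ * t := (Algebra.commutes _ _).symm
    rw [h4, ← map_inv₀, sub_mul, mul_assoc _ t, h5, map_mul, map_mul, map_neg, neg_mul, neg_mul,
      mul_assoc, sub_eq_add_neg]

variable [FiniteDimensional K D] [Algebra.IsCentral K D]

theorem finrank_cent {t : D} {a : K} (hdeg : finrank K D = 16) (ht : t * t = algebraMap K D a)
    (hnt : ∀ c : K, algebraMap K D c ≠ t) :
    finrank K (Subalgebra.centralizer K (Lt2 K ht : Set D)) = 8 := by
  have h1 := T2.finrank_centralizer (K := K) (Lt2 K ht)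
  rw [finrank_Lt2 ht hnt, hdeg] at h1
  omega

theorem mem_centL {t : D} {a : K} (ht : t * t = algebraMap K D a) {x : D} :
    x ∈ Subalgebra.centralizer K (Lt2 K ht : Set D) ↔ x * t = t * x := by
  rw [Subalgebra.mem_centralizer_iff]
  constructor
  · intro h
    exact (h t ⟨0, 1, by rw [map_zero, map_one, one_mul, zero_add]⟩).symm
  · rintro h _ ⟨u, v, rfl⟩
    rw [add_mul, mul_add, mul_assoc, ← h, Algebra.commutes, ← mul_assoc, ← mul_assoc,
      Algebra.commutes v x]

/-- There is an element commuting with `t` which is not in `K + K t`. -/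
theorem exists_outside {t : D} {a : K} (hdeg : finrank K D = 16) (ht : t * t = algebraMap K D a)
    (hnt : ∀ c : K, algebraMap K D c ≠ t) : ∃ x, x * t = t * x ∧ x ∉ Lt2 K ht := by
  by_contra h
  push Not at h
  have h1 : Subalgebra.centralizer K (Lt2 K ht : Set D) ≤ Lt2 K ht := fun x hx =>
    h x ((mem_centL ht).mp hx)
  have h2 : finrank K (Subalgebra.toSubmodule (Subalgebra.centralizer K (Lt2 K ht : Set D))) ≤
      finrank K (Subalgebra.toSubmodule (Lt2 K ht)) := Submodule.finrank_mono h1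
  have h3 : finrank K (Subalgebra.toSubmodule (Subalgebra.centralizer K (Lt2 K ht : Set D))) = 8 :=
    finrank_cent hdeg ht hnt
  have h4 : finrank K (Subalgebra.toSubmodule (Lt2 K ht)) = 2 := finrank_Lt2 ht hnt
  omega

/-- The elements `c₀ + c₁ t + (c₂ + c₃ t) s`. -/
def lt4 (K : Type) {D : Type} [Field K] [DivisionRing D] [Algebra K D] (t s : D) :
    ((K × K) × (K × K)) →ₗ[K] D where
  toFun x := lt2 K t x.1 + lt2 K t x.2 * s
  map_add' x y := by
    rw [Prod.fst_add, Prod.snd_add, map_add, map_add, add_mul]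
    abel
  map_smul' c x := by
    rw [Prod.smul_fst, Prod.smul_snd, map_smul, map_smul, RingHom.id_apply, smul_add,
      smul_mul_assoc]

/-- The elements commuting with `t` and `s`, and an element commuting with `t` but not with
`s`. -/
theorem cent_two {t s : D} {a : K} (hdeg : finrank K D = 16) (ht : t * t = algebraMap K D a)
    (hnt : ∀ c : K, algebraMap K D c ≠ t) (hs : s * t = t * s) (hsL : s ∉ Lt2 K ht) :
    (∀ x, x * t = t * x → x * s = s * x → ∃ l ∈ Lt2 K ht, ∃ l' ∈ Lt2 K ht, x = l + l' * s) ∧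
    ∃ z, z * t = t * z ∧ z * s ≠ s * z := by
  let E : Subalgebra K D := Algebra.adjoin K {t, s}
  have hcomm : ∀ x : D, x * t = t * x → x * s = s * x → ∀ y ∈ E, y * x = x * y := by
    intro x hxt hxs y hy
    refine (Algebra.commute_of_mem_adjoin_of_forall_mem_commute (a := x) hy ?_).eq.symm
    rintro b (rfl | rfl)
    · exact hxt
    · exact hxs
  have htE : t ∈ E := Algebra.subset_adjoin (by simp)
  have hsE : s ∈ E := Algebra.subset_adjoin (by simp)
  have hmem : ∀ x : D, x ∈ Subalgebra.centralizer K (E : Set D) ↔ x * t = t * x ∧ x * s = s * x := by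
    intro x
    rw [Subalgebra.mem_centralizer_iff]
    constructor
    · intro h
      exact ⟨(h t htE).symm, (h s hsE).symm⟩
    · rintro ⟨h1, h2⟩ y hy
      exact hcomm x h1 h2 y hy
  have hEc : E ≤ Subalgebra.centralizer K (E : Set D) := by
    refine Algebra.adjoin_le ?_
    rintro b (rfl | rfl)
    · exact (hmem _).mpr ⟨rfl, hs.symm⟩
    · exact (hmem _).mpr ⟨hs, rfl⟩
  have hinj : Function.Injective (lt4 K t s) := by
    rw [← LinearMap.ker_eq_bot, LinearMap.ker_eq_bot']
    rintro ⟨x, y⟩ h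
    have h' : lt2 K t x + lt2 K t y * s = 0 := h
    have hL : ∀ z : K × K, lt2 K t z ∈ Lt2 K ht := fun z => ⟨z.1, z.2, rfl⟩
    by_cases hy : lt2 K t y = 0
    · rw [hy, zero_mul, add_zero] at h'
      have h1 := lt2_inj hnt (h'.trans (map_zero (lt2 K t)).symm)
      have h2 := lt2_inj hnt (hy.trans (map_zero (lt2 K t)).symm)
      rw [h1, h2]
      rfl
    · exfalso
      apply hsL
      have h1 : lt2 K t y * s = -lt2 K t x := by
        rw [eq_neg_iff_add_eq_zero, add_comm]
        exact h'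
      have h2 : s = (lt2 K t y)⁻¹ * -lt2 K t x := by
        rw [← h1, inv_mul_cancel_left₀ hy]
      rw [h2]
      exact (Lt2 K ht).mul_mem (Lt2_inv ht (hL y)) ((Lt2 K ht).neg_mem (hL x))
  have hWE : LinearMap.range (lt4 K t s) ≤ Subalgebra.toSubmodule E := by
    rintro _ ⟨⟨x, y⟩, rfl⟩
    have h1 : ∀ z : K × K, lt2 K t z ∈ E := fun z =>
      E.add_mem (E.algebraMap_mem _) (E.mul_mem (E.algebraMap_mem _) htE)
    exact E.add_mem (h1 x) (E.mul_mem (h1 y) hsE)
  have hW : finrank K (LinearMap.range (lt4 K t s)) = 4 := by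
    rw [LinearMap.finrank_range_of_inj hinj]
    simp only [Module.finrank_prod, Module.finrank_self]
  have h1 : 4 ≤ finrank K (Subalgebra.toSubmodule E) := by
    rw [← hW]
    exact Submodule.finrank_mono hWE
  have h2 : finrank K (Subalgebra.toSubmodule E) ≤
      finrank K (Subalgebra.toSubmodule (Subalgebra.centralizer K (E : Set D))) :=
    Submodule.finrank_mono hEc
  have h3 : finrank K (Subalgebra.toSubmodule E) *
      finrank K (Subalgebra.toSubmodule (Subalgebra.centralizer K (E : Set D))) = 16 := by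
    rw [← hdeg]
    exact T2.finrank_centralizer (K := K) E
  have h4 : finrank K (Subalgebra.toSubmodule E) = 4 ∧
      finrank K (Subalgebra.toSubmodule (Subalgebra.centralizer K (E : Set D))) = 4 := by
    constructor <;> nlinarith
  have hWC : LinearMap.range (lt4 K t s) =
      Subalgebra.toSubmodule (Subalgebra.centralizer K (E : Set D)) := by
    refine Submodule.eq_of_le_of_finrank_eq (hWE.trans hEc) ?_
    rw [hW, h4.2]
  constructor
  · intro x hxt hxs
    have h5 : x ∈ LinearMap.range (lt4 K t s) := by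
      rw [hWC]
      exact (hmem x).mpr ⟨hxt, hxs⟩
    obtain ⟨⟨y, z⟩, rfl⟩ := h5
    exact ⟨_, ⟨y.1, y.2, rfl⟩, _, ⟨z.1, z.2, rfl⟩, rfl⟩
  · by_contra h
    push Not at h
    have h5 : Subalgebra.centralizer K (Lt2 K ht : Set D) ≤
        Subalgebra.centralizer K (E : Set D) := by
      intro x hx
      rw [mem_centL] at hx
      exact (hmem x).mpr ⟨hx, h x hx⟩
    have h6 : finrank K (Subalgebra.toSubmodule (Subalgebra.centralizer K (Lt2 K ht : Set D))) ≤
        finrank K (Subalgebra.toSubmodule (Subalgebra.centralizer K (E : Set D))) :=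
      Submodule.finrank_mono h5
    have h7 : finrank K (Subalgebra.toSubmodule (Subalgebra.centralizer K (Lt2 K ht : Set D))) = 8 :=
      finrank_cent hdeg ht hnt
    omega

end quad

section frame

variable {k K D : Type} [Field k] [NumberField k] [Field K] [StarRing K]
    [DivisionRing D] [StarRing D] [Algebra k K] [Algebra k D] [Algebra K D] [IsScalarTower k K D]
    {d : kˣ} {s : K} {F : Type} [Field F] [NumberField F] [Algebra k F]

/-- The element of the quaternion algebra with given coordinates. -/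
noncomputable def qv (ι : F →ₐ[k] D) {α β : Fˣ} (i j : D) (q : Qt α β) : D :=
  ι q.re + ι q.imI * i + ι q.imJ * j + ι q.imK * (i * j)

theorem star_algK (hS : Setting k K D d s) (c : K) :
    star (algebraMap K D c) = algebraMap K D (star c) := by
  have h1 := hS.star_smul c (1 : D)
  rwa [star_one, Algebra.smul_def, mul_one, Algebra.smul_def, mul_one] at h1

theorem frame_inj (hS : Setting k K D d s) {ι : F →ₐ[k] D} {α β : Fˣ} {i j : D}
    (h : QFr ι α β i j) {q₀ q₁ : Qt α β}
    (h0 : qv ι i j q₀ + algebraMap K D s * qv ι i j q₁ = 0) : q₀ = 0 ∧ q₁ = 0 := by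
  obtain ⟨φ, hφ⟩ := exists_qhom h
  obtain ⟨δ, hδ⟩ : ∃ δ : D, δ = algebraMap K D s := ⟨_, rfl⟩
  have hδc : ∀ z : D, δ * z = z * δ := fun z => by rw [hδ]; exact Algebra.commutes _ _
  have hδs : star δ = -δ := by rw [hδ]; exact star_S hS
  have hδ0 : δ ≠ 0 := by
    rw [hδ, ne_eq, map_eq_zero]
    intro h1
    have h2 := hS.sq
    rw [h1, zero_pow two_ne_zero, eq_comm, map_eq_zero] at h2
    exact d.ne_zero h2
  have h1 : φ q₀ = -(δ * φ q₁) := by
    rw [hφ, hφ, hδ]
    exact eq_neg_of_add_eq_zero_left h0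
  obtain ⟨n, hn⟩ : ∃ n, n = nrd q₁ := ⟨_, rfl⟩
  obtain ⟨q₂, hq₂⟩ : ∃ q₂, q₂ = star q₁ * q₀ := ⟨_, rfl⟩
  have hιn : φ (algebraMap F (Qt α β) n) = ι n := by
    rw [hφ]
    simp [QuaternionAlgebra.algebraMap_eq]
  have h2 : φ q₂ = -(δ * ι n) := by
    rw [hq₂, map_mul, h1, mul_neg, ← mul_assoc, ← hδc, mul_assoc, ← map_mul, star_mul_self_qt,
      ← hn, hιn]
  have h3 : φ (star q₂ + q₂) = 0 := by
    rw [map_add, ← star_qhom h hφ, h2, star_neg, star_mul, h.sym, hδs, mul_neg, neg_neg, ← hδc,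
      add_neg_cancel]
  have h4 := qhom_inj h hφ h3
  have hre : q₂.re = 0 := by
    have := congrArg QuaternionAlgebra.re h4
    simp only [QuaternionAlgebra.re_add, QuaternionAlgebra.re_star, zero_mul, add_zero,
      QuaternionAlgebra.re_zero] at this
    have h5 : 2 * q₂.re = 0 := by rw [two_mul]; exact this
    exact (mul_eq_zero.mp h5).resolve_left two_ne_zero
  have hci : φ q₂ * i = i * φ q₂ := by
    rw [h2, neg_mul, mul_neg, mul_assoc, h.ci, ← mul_assoc, hδc, mul_assoc, hδc]
  have hcj : φ q₂ * j = j * φ q₂ := by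
    rw [h2, neg_mul, mul_neg, mul_assoc, h.cj, ← mul_assoc, hδc, mul_assoc, hδc]
  have hi : φ ⟨0, 1, 0, 0⟩ = i := by rw [hφ]; simp
  have hj : φ ⟨0, 0, 1, 0⟩ = j := by rw [hφ]; simp
  have h5 : q₂ * ⟨0, 1, 0, 0⟩ - ⟨0, 1, 0, 0⟩ * q₂ = 0 := by
    apply qhom_inj h hφ
    rw [map_sub, map_mul, map_mul, hi, hci, sub_self]
  have h6 : q₂ * ⟨0, 0, 1, 0⟩ - ⟨0, 0, 1, 0⟩ * q₂ = 0 := by
    apply qhom_inj h hφ
    rw [map_sub, map_mul, map_mul, hj, hcj, sub_self]
  have h2α : (2 : F) * α ≠ 0 := mul_ne_zero two_ne_zero α.ne_zero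
  have h2β : (2 : F) * β ≠ 0 := mul_ne_zero two_ne_zero β.ne_zero
  have hK : q₂.imK = 0 := by
    have := congrArg QuaternionAlgebra.imJ h5
    simp only [QuaternionAlgebra.imJ_sub, QuaternionAlgebra.imJ_mul, QuaternionAlgebra.imJ_zero]
      at this
    have h7 : (2 * (α : F)) * q₂.imK = 0 := by linear_combination -this
    exact (mul_eq_zero.mp h7).resolve_left h2α
  have hJ : q₂.imJ = 0 := by
    have := congrArg QuaternionAlgebra.imK h5
    simp only [QuaternionAlgebra.imK_sub, QuaternionAlgebra.imK_mul, QuaternionAlgebra.imK_zero]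
      at this
    have h7 : (2 : F) * q₂.imJ = 0 := by linear_combination -this
    exact (mul_eq_zero.mp h7).resolve_left two_ne_zero
  have hI : q₂.imI = 0 := by
    have := congrArg QuaternionAlgebra.imK h6
    simp only [QuaternionAlgebra.imK_sub, QuaternionAlgebra.imK_mul, QuaternionAlgebra.imK_zero]
      at this
    have h7 : (2 : F) * q₂.imI = 0 := by linear_combination this
    exact (mul_eq_zero.mp h7).resolve_left two_ne_zero
  have hq0 : q₂ = 0 := by
    ext
    · exact hre
    · exact hI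
    · exact hJ
    · exact hK
  have hn0 : n = 0 := by
    rw [hq0, map_zero, eq_comm, neg_eq_zero, mul_eq_zero, or_iff_right hδ0, map_eq_zero] at h2
    exact h2
  have hq1 : q₁ = 0 := h.aniso q₁ (by rw [← hn, hn0])
  refine ⟨?_, hq1⟩
  apply qhom_inj h hφ
  rw [h1, hq1, map_zero, mul_zero, neg_zero]

/-- A symmetric element outside `k` whose square is in `k`. -/
theorem Xa_ne (hS : Setting k K D d s) {a : kˣ} (ha : ¬ IsSquare (a : k)) {t : D}
    (ht : t ∈ Xa D a) (c : K) : algebraMap K D c ≠ t := by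
  intro h
  have h1 := ht.1
  rw [← h, star_algK hS] at h1
  have h2 : star c = c := (algebraMap K D).injective h1
  obtain ⟨r, rfl⟩ := (hS.fix c).mp h2
  rw [← IsScalarTower.algebraMap_apply] at h
  apply ha
  refine ⟨r, (algebraMap k D).injective ?_⟩
  rw [← ht.2, ← h, map_mul]

theorem Xa_sq {a : kˣ} {t : D} (ht : t ∈ Xa D a) :
    t * t = algebraMap K D (algebraMap k K a) := by
  rw [ht.2, ← IsScalarTower.algebraMap_apply]

theorem star_mem_Lt2 (hS : Setting k K D d s) {a : K} {t : D} (hts : star t = t)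
    (ht : t * t = algebraMap K D a) {x : D} (hx : x ∈ Lt2 K ht) : star x ∈ Lt2 K ht := by
  obtain ⟨u, v, rfl⟩ := hx
  refine ⟨star u, star v, ?_⟩
  rw [star_add, star_mul, hts, star_algK hS, star_algK hS, Algebra.commutes]

theorem sym_Lt2 (hS : Setting k K D d s) {a : K} {t : D} (hts : star t = t)
    (ht : t * t = algebraMap K D a) (hnt : ∀ c : K, algebraMap K D c ≠ t) {x : D}
    (hx : x ∈ Lt2 K ht) (hxs : star x = x) :
    ∃ u v : k, x = algebraMap k D u + algebraMap k D v * t := by
  obtain ⟨u, v, rfl⟩ := hx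
  rw [star_add, star_mul, hts, star_algK hS, star_algK hS, ← Algebra.commutes] at hxs
  have h1 : ((star u, star v) : K × K) = (u, v) := lt2_inj hnt hxs
  obtain ⟨u', hu'⟩ := (hS.fix u).mp (congrArg Prod.fst h1)
  obtain ⟨v', hv'⟩ := (hS.fix v).mp (congrArg Prod.snd h1)
  refine ⟨u', v', ?_⟩
  rw [← hu', ← hv', ← IsScalarTower.algebraMap_apply, ← IsScalarTower.algebraMap_apply]

/-- The elements `i` and `j`. -/
theorem exists_ij (hS : Setting k K D d s) (hdeg : finrank K D = 16) {a : kˣ}
    (ha : ¬ IsSquare (a : k)) {t : D} (ht : t ∈ Xa D a) :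
    ∃ (i j : D) (u v u' v' : k), i ≠ 0 ∧ j ≠ 0 ∧ star i = -i ∧ star j = -j ∧ i * t = t * i ∧
      j * t = t * j ∧ i * j = -(j * i) ∧ i * i = algebraMap k D u + algebraMap k D v * t ∧
      j * j = algebraMap k D u' + algebraMap k D v' * t := by
  have := hS.fin
  have := hS.cen
  have hnt := Xa_ne hS ha ht
  obtain ⟨a', ha'⟩ : ∃ a', a' = algebraMap k K a := ⟨_, rfl⟩
  have htt : t * t = algebraMap K D a' := by rw [ha']; exact Xa_sq ht
  have hts : star t = t := ht.1
  obtain ⟨δ, hδ⟩ : ∃ δ : D, δ = algebraMap K D s := ⟨_, rfl⟩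
  have hδc : ∀ z : D, δ * z = z * δ := fun z => by rw [hδ]; exact Algebra.commutes _ _
  have hδs : star δ = -δ := by rw [hδ]; exact star_S hS
  have hδδ : δ * δ = algebraMap k D d := by
    rw [hδ, ← map_mul, ← pow_two, hS.sq, ← IsScalarTower.algebraMap_apply]
  have hδ0 : δ ≠ 0 := by
    intro h1
    rw [h1, zero_mul, eq_comm, map_eq_zero] at hδδ
    exact d.ne_zero hδδ
  have hδL : δ ∈ Lt2 K htt := by
    rw [hδ]
    exact (Lt2 K htt).algebraMap_mem s
  have hLc : ∀ {l : D}, l ∈ Lt2 K htt → ∀ {z : D}, z * t = t * z → l * z = z * l := by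
    rintro _ ⟨u, v, rfl⟩ z hz
    rw [add_mul, mul_add, mul_assoc, ← hz, Algebra.commutes, ← mul_assoc, ← mul_assoc,
      Algebra.commutes v z]
  have hst : ∀ {z : D}, z * t = t * z → star z * t = t * star z := by
    intro z hz
    have := congrArg star hz
    rw [star_mul, star_mul, hts] at this
    exact this.symm
  have h2 : (2 : D) ≠ 0 := by
    rw [← map_ofNat (algebraMap k D) 2, ne_eq, map_eq_zero]
    exact two_ne_zero
  -- a symmetric element
  obtain ⟨s₁, hs₁s, hs₁t, hs₁L⟩ : ∃ s₁ : D, star s₁ = s₁ ∧ s₁ * t = t * s₁ ∧ s₁ ∉ Lt2 K htt := by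
    obtain ⟨x, hx, hxL⟩ := exists_outside hdeg htt hnt
    by_cases h1 : x + star x ∈ Lt2 K htt
    · refine ⟨δ * (x - star x), ?_, ?_, ?_⟩
      · rw [star_mul, star_sub, star_star, hδs, mul_neg, ← hδc, ← mul_neg, neg_sub]
      · rw [mul_assoc, sub_mul, hx, hst hx, ← mul_sub, ← mul_assoc, hδc, mul_assoc]
      · intro h3
        apply hxL
        have h4 : x - star x ∈ Lt2 K htt := by
          rw [← inv_mul_cancel_left₀ hδ0 (x - star x)]
          exact (Lt2 K htt).mul_mem (Lt2_inv htt hδL) h3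
        have h5 : x + x ∈ Lt2 K htt := by
          have := (Lt2 K htt).add_mem h1 h4
          rwa [add_add_sub_cancel] at this
        rw [← two_mul] at h5
        have h6 : (2 : D) ∈ Lt2 K htt := by
          rw [← map_ofNat (algebraMap K D) 2]
          exact (Lt2 K htt).algebraMap_mem _
        rw [← inv_mul_cancel_left₀ h2 x]
        exact (Lt2 K htt).mul_mem (Lt2_inv htt h6) h5
    · refine ⟨x + star x, ?_, ?_, h1⟩
      · rw [star_add, star_star, add_comm]
      · rw [add_mul, mul_add, hx, hst hx]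
  obtain ⟨hC1, z, hzt, hzs⟩ := cent_two hdeg htt hnt hs₁t hs₁L
  -- its square
  obtain ⟨l, hl, l', hl', hll⟩ := hC1 (s₁ * s₁) (by rw [mul_assoc, hs₁t, ← mul_assoc, hs₁t,
    mul_assoc]) (mul_assoc _ _ _)
  have hl's : star l' = l' := by
    have h3 := congrArg star hll
    rw [star_mul, star_add, star_mul, hs₁s, ← hLc (star_mem_Lt2 hS hts htt hl') hs₁t, hll] at h3
    have h4 : (l' - star l') * s₁ = star l - l := by
      rw [sub_mul]
      rw [sub_eq_sub_iff_add_eq_add, add_comm (l' * s₁), h3]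
    by_contra hne
    have h5 : l' - star l' ≠ 0 := fun h => hne (sub_eq_zero.mp h).symm
    apply hs₁L
    rw [← inv_mul_cancel_left₀ h5 s₁, h4]
    exact (Lt2 K htt).mul_mem (Lt2_inv htt ((Lt2 K htt).sub_mem hl'
      (star_mem_Lt2 hS hts htt hl'))) ((Lt2 K htt).sub_mem (star_mem_Lt2 hS hts htt hl) hl)
  obtain ⟨h, hh⟩ : ∃ h, h = algebraMap k D (1 / 2) * l' := ⟨_, rfl⟩
  have hhh : h + h = l' := by
    rw [hh, ← add_mul, ← map_add, add_halves, map_one, one_mul]
  have hhL : h ∈ Lt2 K htt := by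
    rw [hh, IsScalarTower.algebraMap_apply k K D]
    exact (Lt2 K htt).mul_mem ((Lt2 K htt).algebraMap_mem _) hl'
  have hhs : star h = h := by
    rw [hh, star_mul, hl's, star_alg hS, Algebra.commutes]
  obtain ⟨y, hy⟩ : ∃ y, y = s₁ - h := ⟨_, rfl⟩
  have hys : star y = y := by rw [hy, star_sub, hs₁s, hhs]
  have hyt : y * t = t * y := by
    rw [hy, sub_mul, mul_sub, hs₁t, hLc hhL rfl]
  have hy0 : y ≠ 0 := by
    intro h0
    apply hs₁L
    rw [sub_eq_zero.mp (hy.symm.trans h0)]
    exact hhL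
  have hyy : y * y = l + h * h := by
    have h3 : h * s₁ = s₁ * h := hLc hhL hs₁t
    rw [hy, sub_mul, mul_sub, mul_sub, hll, ← hhh, h3, add_mul, h3]
    abel
  have heL : y * y ∈ Lt2 K htt := by
    rw [hyy]
    exact (Lt2 K htt).add_mem hl ((Lt2 K htt).mul_mem hhL hhL)
  have hes : star (y * y) = y * y := by rw [star_mul, hys]
  obtain ⟨u₁, v₁, he⟩ := sym_Lt2 hS hts htt hnt heL hes
  -- an element which anticommutes with `y`
  have hzy : y * z - z * y ≠ 0 := by
    intro h0
    apply hzs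
    have h3 : h * z = z * h := hLc hhL hzt
    have h4 : s₁ = y + h := by rw [hy, sub_add_cancel]
    rw [h4, mul_add, add_mul, h3, sub_eq_zero.mp h0]
  obtain ⟨w, hw⟩ : ∃ w, w = y * z - z * y := ⟨_, rfl⟩
  have hwt : w * t = t * w := by
    rw [hw, sub_mul, mul_sub, mul_assoc y z, hzt, ← mul_assoc y t, hyt, mul_assoc t,
      mul_assoc z y, hyt, ← mul_assoc z t, hzt, mul_assoc t]
  have hyw : y * w = -(w * y) := by
    have h3 : (y * y) * z = z * (y * y) := hLc heL hzt
    rw [hw, mul_sub, sub_mul, ← mul_assoc y y, h3, neg_sub, mul_assoc z y y, mul_assoc y z y]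
  have hysw : y * star w = -(star w * y) := by
    have := congrArg star hyw
    rw [star_mul, star_neg, star_mul, hys, eq_comm, neg_eq_iff_eq_neg] at this
    exact this
  obtain ⟨j, hj0, hjs, hyj, hjt⟩ : ∃ j : D, j ≠ 0 ∧ star j = -j ∧ y * j = -(j * y) ∧
      j * t = t * j := by
    by_cases hws : star w = w
    · refine ⟨δ * w, mul_ne_zero hδ0 (by rw [hw]; exact hzy), ?_, ?_, ?_⟩
      · rw [star_mul, hws, hδs, mul_neg, hδc]
      · rw [← mul_assoc, ← hδc, mul_assoc, hyw, mul_neg, mul_assoc]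
      · rw [mul_assoc, hwt, ← mul_assoc, hδc, mul_assoc]
    · refine ⟨w - star w, fun h0 => hws (sub_eq_zero.mp h0).symm, ?_, ?_, ?_⟩
      · rw [star_sub, star_star, neg_sub]
      · rw [mul_sub, sub_mul, hyw, hysw]
        abel
      · rw [sub_mul, mul_sub, hwt, hst hwt]
  have hjjy : (j * j) * y = y * (j * j) := by
    rw [← mul_assoc y j, hyj, neg_mul, mul_assoc j y j, hyj, mul_neg, neg_neg, mul_assoc]
  have hjjt : (j * j) * t = t * (j * j) := by
    rw [mul_assoc, hjt, ← mul_assoc, hjt, mul_assoc]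
  have hjjL : j * j ∈ Lt2 K htt := by
    obtain ⟨m, hm, m', hm', hmm⟩ := hC1 (j * j) hjjt (by
      have h4 : s₁ = y + h := by rw [hy, sub_add_cancel]
      rw [h4, mul_add, add_mul, hjjy, hLc hhL hjjt])
    have h4 : s₁ = y + h := by rw [hy, sub_add_cancel]
    have hmj := hLc hm hjt
    have hm'j := hLc hm' hjt
    have hhj := hLc hhL hjt
    rw [h4] at hmm
    have h5 : j * (j * j) = (j * j) * j := (mul_assoc _ _ _).symm
    rw [hmm] at h5
    have h6 : j * (m' * y) = (m' * y) * j := by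
      have e1 : j * (m + m' * (y + h)) = m * j + j * (m' * y) + m' * h * j := by
        rw [mul_add, mul_add, mul_add, hmj]
        have : j * (m' * h) = m' * h * j := by rw [← mul_assoc, ← hm'j, mul_assoc, ← hhj, mul_assoc]
        rw [this, add_assoc]
      have e2 : (m + m' * (y + h)) * j = m * j + m' * y * j + m' * h * j := by
        rw [add_mul, mul_add m', add_mul, add_assoc]
      rw [e1, e2] at h5
      exact add_left_cancel (add_right_cancel h5)
    have h7 : m' = 0 := by
      rw [← mul_assoc, ← hm'j, mul_assoc m' y, hyj, mul_assoc, mul_neg, eq_neg_iff_add_eq_zero,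
        ← two_mul, mul_eq_zero, or_iff_right h2, mul_eq_zero] at h6
      exact h6.resolve_right (mul_ne_zero hj0 hy0)
    rw [hmm, h7, zero_mul, add_zero]
    exact hm
  have hjjs : star (j * j) = j * j := by rw [star_mul, hjs, neg_mul_neg]
  obtain ⟨u₂, v₂, he₂⟩ := sym_Lt2 hS hts htt hnt hjjL hjjs
  refine ⟨δ * y, j, d * u₁, d * v₁, u₂, v₂, mul_ne_zero hδ0 hy0, hj0, ?_, hjs, ?_, hjt, ?_, ?_,
    he₂⟩
  · rw [star_mul, hys, hδs, mul_neg, hδc]
  · rw [mul_assoc, hyt, ← mul_assoc, hδc, mul_assoc]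
  · rw [mul_assoc, hyj, mul_neg, ← mul_assoc, hδc, mul_assoc]
  · have : δ * y * (δ * y) = (δ * δ) * (y * y) := by
      rw [mul_assoc δ y, ← mul_assoc y δ, ← hδc y, mul_assoc δ y, ← mul_assoc δ δ]
    rw [this, hδδ, he, mul_add, map_mul, map_mul, mul_assoc]

/-- The linear map with the coordinates with respect to `1, i, j, i j`. -/
noncomputable def qv4 (ι : F →ₐ[k] D) (i j : D) : ((F × F) × (F × F)) →ₗ[k] D where
  toFun x := ι x.1.1 + ι x.1.2 * i + ι x.2.1 * j + ι x.2.2 * (i * j)
  map_add' x y := by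
    simp only [Prod.fst_add, Prod.snd_add, map_add, add_mul]
    abel
  map_smul' c x := by
    simp only [Prod.smul_fst, Prod.smul_snd, map_smul, RingHom.id_apply, smul_add,
      smul_mul_assoc]

theorem qv4_apply (ι : F →ₐ[k] D) (α β : Fˣ) (i j : D) (x : (F × F) × (F × F)) :
    qv4 ι i j x = qv ι i j (⟨x.1.1, x.1.2, x.2.1, x.2.2⟩ : Qt α β) := rfl

/-- The linear map with the coordinates with respect to the quaternion algebra over `F` and the
central element `δ`. -/
noncomputable def qv8 (ι : F →ₐ[k] D) (δ i j : D) :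
    (((F × F) × (F × F)) × ((F × F) × (F × F))) →ₗ[k] D where
  toFun x := qv4 ι i j x.1 + δ * qv4 ι i j x.2
  map_add' x y := by
    simp only [Prod.fst_add, Prod.snd_add, map_add, mul_add]
    abel
  map_smul' c x := by
    simp only [Prod.smul_fst, Prod.smul_snd, map_smul, RingHom.id_apply, smul_add,
      mul_smul_comm]

/-- The structure of the centralizer of a symmetric square root of `a` in degree four. -/
theorem exists_frame (hS : Setting k K D d s) (hdeg : finrank K D = 16) {a : kˣ}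
    (ha : ¬ IsSquare (a : k)) {t : D} (ht : t ∈ Xa D a) :
    ∃ (F : Type) (_ : Field F) (_ : NumberField F) (_ : Algebra k F) (ι : F →ₐ[k] D) (T : F)
      (α β : Fˣ) (i j : D), T ^ 2 = algebraMap k F a ∧ ι T = t ∧ finrank k F = 2 ∧
      (∀ x : F, ∃ u v : k, x = algebraMap k F u + algebraMap k F v * T) ∧ QFr ι α β i j ∧
      ∀ x, x * t = t * x → ∃ q₀ q₁ : Qt α β, x = qv ι i j q₀ + algebraMap K D s * qv ι i j q₁ := by
  have := hS.fin
  have := hS.cen
  have hnt := Xa_ne hS ha ht
  have htt := Xa_sq (K := K) ht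
  have : FiniteDimensional k K := Module.finite_of_finrank_pos (by rw [hS.rank]; norm_num)
  have : FiniteDimensional k D := Module.Finite.trans K D
  obtain ⟨F, _, _, _, ι, T, hT, hgen⟩ := Even.exists_gen (Module.finBasis k D) t
  have hTT : T ^ 2 = algebraMap k F a := by
    apply ι.toRingHom.injective
    change ι (T ^ 2) = ι (algebraMap k F a)
    rw [map_pow, hT, pow_two, ht.2, AlgHom.commutes]
  have hTk : ∀ c : k, algebraMap k F c ≠ T := by
    intro c hc
    apply ha
    refine ⟨c, (algebraMap k F).injective ?_⟩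
    rw [← hTT, ← hc, pow_two, map_mul]
  have hcoord : ∀ x : F, ∃ u v : k, x = algebraMap k F u + algebraMap k F v * T := by
    have hT' : T * T = algebraMap k F a := by rw [← pow_two, hTT]
    intro x
    obtain ⟨p, rfl⟩ := hgen x
    have h1 : aeval T p ∈ Lt2 k hT' :=
      Algebra.adjoin_le (S := Lt2 k hT') (by
        rintro _ rfl
        exact ⟨0, 1, by rw [map_zero, map_one, one_mul, zero_add]⟩)
        (aeval_mem_adjoin_singleton k T)
    exact h1
  have hrank : finrank k F = 2 := by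
    have hT' : T * T = algebraMap k F a := by rw [← pow_two, hTT]
    have h1 : Lt2 k hT' = ⊤ := by
      rw [eq_top_iff]
      rintro x -
      exact hcoord x
    rw [← finrank_Lt2 hT' hTk, h1]
    exact (Subalgebra.topEquiv (R := k) (A := F)).toLinearEquiv.finrank_eq.symm
  obtain ⟨i, j, u, v, u', v', hi0, hj0, his, hjs, hit, hjt, hij, hii, hjj⟩ :=
    exists_ij hS hdeg ha ht
  have hαx : ι (algebraMap k F u + algebraMap k F v * T) = i * i := by
    rw [hii, map_add, map_mul, AlgHom.commutes, AlgHom.commutes, hT]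
  have hβx : ι (algebraMap k F u' + algebraMap k F v' * T) = j * j := by
    rw [hjj, map_add, map_mul, AlgHom.commutes, AlgHom.commutes, hT]
  have hα0 : algebraMap k F u + algebraMap k F v * T ≠ 0 := by
    intro h0
    rw [h0, map_zero, eq_comm] at hαx
    exact mul_ne_zero hi0 hi0 hαx
  have hβ0 : algebraMap k F u' + algebraMap k F v' * T ≠ 0 := by
    intro h0
    rw [h0, map_zero, eq_comm] at hβx
    exact mul_ne_zero hj0 hj0 hβx
  have hcom : ∀ z : D, z * t = t * z → ∀ x : F, ι x * z = z * ι x := by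
    intro z hz x
    obtain ⟨u, v, rfl⟩ := hcoord x
    rw [map_add, map_mul, AlgHom.commutes, AlgHom.commutes, hT, add_mul, mul_add,
      Algebra.commutes, mul_assoc, ← hz, ← mul_assoc, ← mul_assoc, Algebra.commutes v]
  have hfr : QFr ι (Units.mk0 _ hα0) (Units.mk0 _ hβ0) i j := by
    refine ⟨?_, his, hjs, hαx.symm, hβx.symm, hij, hcom i hit, hcom j hjt⟩
    intro x
    obtain ⟨u, v, rfl⟩ := hcoord x
    rw [map_add, map_mul, AlgHom.commutes, AlgHom.commutes, hT, star_add, star_mul, ht.1,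
      star_alg hS, star_alg hS, Algebra.commutes]
  refine ⟨F, inferInstance, inferInstance, inferInstance, ι, T, Units.mk0 _ hα0,
    Units.mk0 _ hβ0, i, j, hTT, hT, hrank, hcoord, hfr, ?_⟩
  -- dimensions
  have hfF : FiniteDimensional k F := Module.finite_of_finrank_pos (by rw [hrank]; norm_num)
  obtain ⟨δ, hδ⟩ : ∃ δ : D, δ = algebraMap K D s := ⟨_, rfl⟩
  have hinj : Function.Injective (qv8 ι δ i j) := by
    rw [← LinearMap.ker_eq_bot, LinearMap.ker_eq_bot']
    rintro x hx
    have h1 : qv ι i j (⟨x.1.1.1, x.1.1.2, x.1.2.1, x.1.2.2⟩ : Qt (Units.mk0 _ hα0)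
        (Units.mk0 _ hβ0)) + algebraMap K D s * qv ι i j (⟨x.2.1.1, x.2.1.2, x.2.2.1, x.2.2.2⟩ :
        Qt (Units.mk0 _ hα0) (Units.mk0 _ hβ0)) = 0 := by
      rw [← hδ]
      exact hx
    obtain ⟨h2, h3⟩ := frame_inj hS hfr h1
    have e1 := congrArg QuaternionAlgebra.re h2
    have e2 := congrArg QuaternionAlgebra.imI h2
    have e3 := congrArg QuaternionAlgebra.imJ h2
    have e4 := congrArg QuaternionAlgebra.imK h2
    have e5 := congrArg QuaternionAlgebra.re h3
    have e6 := congrArg QuaternionAlgebra.imI h3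
    have e7 := congrArg QuaternionAlgebra.imJ h3
    have e8 := congrArg QuaternionAlgebra.imK h3
    exact Prod.ext (Prod.ext (Prod.ext e1 e2) (Prod.ext e3 e4))
      (Prod.ext (Prod.ext e5 e6) (Prod.ext e7 e8))
  let C := Subalgebra.centralizer K (Lt2 K htt : Set D)
  have hC : finrank k C = 16 := by
    have h1 : finrank k K * finrank K C = finrank k C := Module.finrank_mul_finrank k K C
    rw [← h1, hS.rank, finrank_cent hdeg htt hnt]
  have hR : finrank k (LinearMap.range (qv8 ι δ i j)) = 16 := by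
    rw [LinearMap.finrank_range_of_inj hinj]
    simp only [Module.finrank_prod, hrank]
  have hδc : ∀ z : D, δ * z = z * δ := fun z => by rw [hδ]; exact Algebra.commutes _ _
  have hιt : ∀ x : F, ι x * t = t * ι x := hcom t rfl
  have hle : LinearMap.range (qv8 ι δ i j) ≤ (Subalgebra.toSubmodule C).restrictScalars k := by
    rintro _ ⟨x, rfl⟩
    change _ ∈ C
    rw [mem_centL]
    have h1 : ∀ y : (F × F) × (F × F), qv4 ι i j y * t = t * qv4 ι i j y := by
      intro y
      change (ι y.1.1 + ι y.1.2 * i + ι y.2.1 * j + ι y.2.2 * (i * j)) * t =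
        t * (ι y.1.1 + ι y.1.2 * i + ι y.2.1 * j + ι y.2.2 * (i * j))
      simp only [add_mul, mul_add]
      rw [hιt, mul_assoc _ i, hit, ← mul_assoc _ t, hιt, mul_assoc _ j, hjt, ← mul_assoc _ t j,
        hιt, mul_assoc _ (i * j), mul_assoc i j t, hjt, ← mul_assoc i t j, hit,
        mul_assoc t i j, ← mul_assoc _ t (i * j), hιt]
      simp only [mul_assoc]
    change (qv4 ι i j x.1 + δ * qv4 ι i j x.2) * t = t * (qv4 ι i j x.1 + δ * qv4 ι i j x.2)
    rw [add_mul, mul_add, h1, mul_assoc, h1, ← mul_assoc, hδc, mul_assoc]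
  have heq : LinearMap.range (qv8 ι δ i j) = (Subalgebra.toSubmodule C).restrictScalars k := by
    refine Submodule.eq_of_le_of_finrank_eq hle ?_
    rw [hR]
    exact hC.symm
  intro x hx
  have h1 : x ∈ LinearMap.range (qv8 ι δ i j) := by
    rw [heq]
    exact (mem_centL htt).mpr hx
  obtain ⟨y, rfl⟩ := h1
  refine ⟨⟨y.1.1.1, y.1.1.2, y.1.2.1, y.1.2.2⟩, ⟨y.2.1.1, y.2.1.2, y.2.2.1, y.2.2.2⟩, ?_⟩
  rw [← hδ]
  rfl

end frame

end Vale.Agent.P011.One
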