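import Vale.Agent.P011.One.AbX

/-!
The unitary elements of norm one commuting with a symmetric square root, in degree four: the
decomposition.
-/

open NumberField IsDedekindDomain

set_option linter.unusedSectionVars false

namespace Vale.Agent.P011.One

open Vale.Agent.P011.Arith Vale.Agent.P011.Even Vale.Agent.P011.MPQ

variable {k D : Type} [Field k] [NumberField k] [DivisionRing D] [StarRing D] [Algebra k D]
    {F : Type} [Field F] [NumberField F] [Algebra k F] {α β : Fˣ} {ι : F →ₐ[k] D} {i j : D}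
    {φ : Qt α β →+* D} {δ : D} {a d : kˣ} {T : F} {e₀ : ℕ} {N : Set D}

/-- The element of the quadratic field belongs to `N`. -/
theorem x_mem (hN : HQ1 k e₀ N) {ω : D} {F' : Type} [Field F'] [NumberField F'] [Algebra k F']
    {ι' : F' →ₐ[k] D} {S' : F'} {β' : F'ˣ} {j' : D}
    (fr' : QFr ι' (inc k F' (a * d)) β' ω j') {y κ : k} {g C : HeightOneSpectrum (𝓞 k) → kˣ}
    {a' : kˣ} (hS' : S' ^ 2 = algebraMap k F' a')
    (ha' : (a' : k) = 1 - 2 * y + a * d * y ^ 2 * κ ^ 2)
    {S : Set (HeightOneSpectrum (𝓞 k))} (hne : S.Nonempty)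
    (hyv : ∀ v ∈ S, v.valuation k y = v.valuation k (g v : k))
    (hC : ∀ v ∈ S, v.valuation k (C v : k) ≤ v.valuation k (2 * (g v : k)) ^ 2 ∧
      v.valuation k (C v : k) ≤ v.valuation k (2 * (g v : k)))
    (hc : ∀ v ∈ S, v.valuation k (a * d * y ^ 2 * κ ^ 2) <
      v.valuation k ((C v : k) * (e₀ : k) ^ 4))
    (hgood : ∀ v ∉ S, ∀ w : HeightOneSpectrum (𝓞 F'), Ab w v →
      β' ∈ NF (inc k F' (a * d)) ⊔ LS (w.valuation F')) :
    ∃ x ∈ N, 1 + ι' S' - algebraMap k D (y * κ) * ω ≠ 0 ∧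
      x * (1 + ι' S' - algebraMap k D (y * κ) * ω) =
        1 + ι' S' + algebraMap k D (y * κ) * ω := by
  obtain ⟨c, hcd⟩ : ∃ c : F', c = algebraMap k F' (a * d * y ^ 2 * κ ^ 2) := ⟨_, rfl⟩
  have hint : ∀ v : HeightOneSpectrum (𝓞 k), v.valuation k ((e₀ : k) ^ 4) ≤ 1 := by
    intro v
    have h1 : v.valuation k (e₀ : k) ≤ 1 := by
      have h2 : v.valuation k (algebraMap (𝓞 k) k (e₀ : 𝓞 k)) ≤ 1 := v.valuation_le_one _
      rwa [map_natCast] at h2
    rw [map_pow]
    exact pow_le_one' h1 4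
  have key : ∀ v ∈ S, ∀ w : HeightOneSpectrum (𝓞 F'), Ab w v → (1 + S') ^ 2 - c ≠ 0 ∧
      w.valuation F' (2 - 2 * (((1 + S') ^ 2 + c) / ((1 + S') ^ 2 - c))) <
        w.valuation F' (4 * (e₀ : F') ^ 4) := by
    intro v hv w hw
    refine near_p (w.valuation F') (a := algebraMap k F' a') (g := algebraMap k F' (g v))
      (y := algebraMap k F' y) (C := algebraMap k F' (C v)) (E := (e₀ : F') ^ 4) hS' ?_ ?_ ?_ ?_ ?_
      ?_ ?_ (val_four_ne _)
    · rw [ha', hcd]
      simp only [map_add, map_sub, map_one, map_mul, map_ofNat, map_pow]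
    · have h1 := hyv v hv
      refine le_antisymm ((val_le_val_iff hw _ _).mpr h1.le) ((val_le_val_iff hw _ _).mpr h1.ge)
    · have h1 : (2 : F') * algebraMap k F' (g v) = algebraMap k F' (2 * (g v : k)) := by
        rw [map_mul, map_ofNat]
      rw [h1, hcd, val_lt_val_iff hw]
      refine (hc v hv).trans_le ((le_of_eq (map_mul _ _ _)).trans ?_)
      exact ((mul_le_mul' le_rfl (hint v)).trans (mul_one _).le).trans (hC v hv).2
    · have h1 : ((2 : F') * algebraMap k F' (g v)) ^ 2 = algebraMap k F' ((2 * (g v : k)) ^ 2) := by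
        rw [map_pow, map_mul, map_ofNat]
      rw [← map_pow, h1, val_le_val_iff hw, map_pow]
      exact (hC v hv).1
    · have h1 : (2 : F') * algebraMap k F' (g v) = algebraMap k F' (2 * (g v : k)) := by
        rw [map_mul, map_ofNat]
      rw [h1, val_le_val_iff hw]
      exact (hC v hv).2
    · have h1 : algebraMap k F' (C v) * (e₀ : F') ^ 4 =
          algebraMap k F' ((C v : k) * (e₀ : k) ^ 4) := by
        rw [map_mul, map_pow, map_natCast]
      rw [h1, hcd, val_lt_val_iff hw]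
      exact hc v hv
    · have h1 : (e₀ : F') ^ 4 = algebraMap k F' ((e₀ : k) ^ 4) := by rw [map_pow, map_natCast]
      rw [h1]
      exact (val_le_one_iff hw _).mpr (hint v)
  obtain ⟨v₀, hv₀⟩ := hne
  obtain ⟨w₀, hw₀⟩ := exists_above (F := k) (E := F') v₀
  have hne0 : (1 + S') ^ 2 - c ≠ 0 := (key v₀ hv₀ w₀ hw₀).1
  obtain ⟨B, hB⟩ : ∃ B : F', B = algebraMap k F' (y * κ) := ⟨_, rfl⟩
  obtain ⟨m, hm⟩ : ∃ m : F', m = (inc k F' (a * d) : F'ˣ) := ⟨_, rfl⟩
  have hcB : c = m * B ^ 2 := by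
    rw [hcd, hm, hB, inc_val, ← map_pow, ← map_mul]
    congr 1
    rw [Units.val_mul]
    ring
  have hωω : ω * ω = ι' m := by rw [hm]; exact fr'.ii
  have hBD : algebraMap k D (y * κ) = ι' B := by rw [hB, AlgHom.commutes]
  have e1 : 1 + ι' S' - algebraMap k D (y * κ) * ω = ι' (1 + S') + ι' (-B) * ω := by
    rw [hBD, map_add, map_one, map_neg, neg_mul, ← sub_eq_add_neg]
  have e2 : 1 + ι' S' + algebraMap k D (y * κ) * ω = ι' (1 + S') + ι' B * ω := by
    rw [hBD, map_add, map_one]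
  obtain ⟨p₀, hp₀⟩ : ∃ p₀ : F', p₀ = ((1 + S') ^ 2 + c) / ((1 + S') ^ 2 - c) := ⟨_, rfl⟩
  obtain ⟨p₁, hp₁⟩ : ∃ p₁ : F', p₁ = 2 * B * (1 + S') / ((1 + S') ^ 2 - c) := ⟨_, rfl⟩
  refine ⟨ι' p₀ + ι' p₁ * ω, ?_, ?_, ?_⟩
  · refine hN F' ι' (inc k F' (a * d)) β' ω j' p₀ p₁ 0 0 _ ⟨fr', ?_, ?_⟩ fun w hw => ?_
    · rw [← hm, hp₀, hp₁]
      rw [hcB] at hne0 ⊢
      field_simp
      ring
    · rw [map_zero, zero_mul, zero_mul, add_zero, add_zero]
    · obtain ⟨v, hv⟩ := Sch.exists_below (F := k) w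
      by_cases hvS : v ∈ S
      · rw [hp₀]
        exact (key v hvS w hv).2
      · exact absurd (hgood v hvS w hv) hw
  · rw [e1]
    intro h0
    have h1 := pair_mul fr'.ci hωω (1 + S') (-B) (1 + S') B
    rw [h0, zero_mul] at h1
    have h2 : (1 + S') * B + -B * (1 + S') = 0 := by ring
    have h3 : (1 + S') * (1 + S') + m * (-B * B) = (1 + S') ^ 2 - c := by rw [hcB]; ring
    rw [h2, h3, map_zero, zero_mul, add_zero, eq_comm, map_eq_zero] at h1
    exact hne0 h1
  · rw [e1, e2, pair_mul fr'.ci hωω]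
    have h2 : p₀ * -B + p₁ * (1 + S') = B := by
      rw [hp₀, hp₁]
      field_simp
      ring
    have h3 : p₀ * (1 + S') + m * (p₁ * -B) = 1 + S' := by
      rw [hp₀, hp₁]
      rw [hcB] at hne0 ⊢
      field_simp
      ring
    rw [h2, h3]

/-- The element of the quaternion algebra belongs to `N`. -/
theorem u_mem (hN : HQ1 k e₀ N) (fr : QFr ι α β i j)
    (hφ : ∀ q, φ q = ι q.re + ι q.imI * i + ι q.imJ * j + ι q.imK * (i * j))
    {m y : F} {q Q : Qt α β} (hq : nrd q * (1 - m) = 1) (hQ : nrd Q = 1 - m)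
    (hQ1 : nrd (Q - 1) = -(m * (1 - 2 * y)))
    (hw : ∀ w : HeightOneSpectrum (𝓞 F), β ∉ NF α ⊔ LS (w.valuation F) →
      w.valuation F m < 1 ∧ w.valuation F (nrd (q - 1)) < w.valuation F (64 * (e₀ : F) ^ 4) ∧
      w.valuation F (m * (1 - 2 * y)) < w.valuation F (64 * (e₀ : F) ^ 4)) :
    φ (q * star Q) ∈ N := by
  have h1 : nrd (q * star Q) = 1 := by rw [nrd_mul, nrd_star_qt, hQ, hq]
  refine hN F ι α β i j _ _ _ _ _ ⟨fr, h1, hφ _⟩ fun w hw' => ?_
  obtain ⟨h2, h3, h4⟩ := hw w hw'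
  rw [re_of_nrd_one h1]
  have e : q * star Q - 1 = (q - 1) * star Q + (star Q - 1) := by noncomm_ring
  have h5 := ram_add hw' ((q - 1) * star Q) (star Q - 1)
  rw [← e] at h5
  have h6 : w.valuation F (nrd ((q - 1) * star Q)) < w.valuation F (64 * (e₀ : F) ^ 4) := by
    rw [nrd_mul, nrd_star_qt, hQ, map_mul]
    have h7 : w.valuation F (1 - m) = 1 := by
      rw [← map_one (w.valuation F)] at h2
      rw [Valuation.map_sub_eq_of_lt_left _ h2, map_one]
    rwa [h7, mul_one]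
  have h7 : w.valuation F (nrd (star Q - 1)) < w.valuation F (64 * (e₀ : F) ^ 4) := by
    have h8 : star Q - 1 = star (Q - 1) := by rw [star_sub, star_one]
    rwa [h8, nrd_star_qt, hQ1, Valuation.map_neg]
  have h8 := h5.trans_lt (max_lt h6 h7)
  have h9 : (64 : F) * (e₀ : F) ^ 4 = 16 * (4 * (e₀ : F) ^ 4) := by ring
  rw [h9, map_mul _ 16] at h8
  have h10 : (0 : Z0) < w.valuation F 16 :=
    zero_lt_iff.mpr ((Valuation.ne_zero_iff _).mpr (by norm_num))
  exact (mul_lt_mul_iff_right₀ h10).mp h8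

/-- **The abelian part.** The unitary elements `q (1 + κ ω)` of norm one, with `ω = δ t`, belong to
`N` when they are close to one. -/
theorem ab_core (cr : CRt δ d) (hfr : Module.finrank k F = 2) (ha : ¬ IsSquare (a : k))
    (hT : T ^ 2 = algebraMap k F a) (fr : QFr ι α β i j) (he₀ : 0 < e₀) (hN : HQ1 k e₀ N)
    (hmul : ∀ x ∈ N, ∀ y ∈ N, x * y ∈ N) {S : Set (HeightOneSpectrum (𝓞 k))} (hS : S.Finite)
    (hne : S.Nonempty) (hram : ∀ w : HeightOneSpectrum (𝓞 F), β ∉ NF α ⊔ LS (w.valuation F) →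
      ∀ v : HeightOneSpectrum (𝓞 k), Ab w v → v ∈ S) :
    ∃ l h : HeightOneSpectrum (𝓞 k) → kˣ, ∀ (κ : k) (q : Qt α β),
      nrd q * (1 - algebraMap k F (a * d * κ ^ 2)) = 1 →
      (∀ v ∈ S, v.valuation k κ < v.valuation k (l v : k)) →
      (∀ v ∈ S, ∀ w : HeightOneSpectrum (𝓞 F), Ab w v →
        w.valuation F (nrd (q - 1)) < w.valuation F (inc k F (h v) : Fˣ)) →
      ∃ (s' : D) (a' : kˣ), star s' = s' ∧ s' * s' = algebraMap k D a' ∧
        s' * ι T = ι T * s' ∧ ¬ IL ι δ s' ∧ ∀ r : Qt α β, r ≠ 0 →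
        ∀ (F' : Type) [Field F'] [NumberField F'] [Algebra k F'] (ι' : F' →ₐ[k] D) (S' : F')
          (β' : F'ˣ) (j' : D), S' ^ 2 = algebraMap k F' a' →
          ι' S' = qv ι i j r * s' * (qv ι i j r)⁻¹ →
          QFr ι' (inc k F' (a * d)) β' (δ * ι T) j' →
          (∀ v ∉ S, ∀ w : HeightOneSpectrum (𝓞 F'), Ab w v →
            β' ∈ NF (inc k F' (a * d)) ⊔ LS (w.valuation F')) →
          qv ι i j q * (1 + algebraMap k D κ * (δ * ι T)) ∈ N := by
  obtain ⟨φ, hφ⟩ := exists_qhom fr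
  have hqv : ∀ q, qv ι i j q = φ q := fun q => (hφ q).symm
  have h20 : (2 : k) ≠ 0 := two_ne_zero
  have hd0 : (d : k) ≠ 0 := d.ne_zero
  have he0 : (e₀ : k) ≠ 0 := Nat.cast_ne_zero.mpr he₀.ne'
  obtain ⟨g, l₀, hy⟩ := exists_y hfr ha hT d α β hS hne hram
  obtain ⟨two, htwo⟩ : ∃ two : kˣ, (two : k) = 2 := ⟨Units.mk0 2 h20, rfl⟩
  obtain ⟨E₀, hE₀⟩ : ∃ E₀ : kˣ, (E₀ : k) = (e₀ : k) ^ 4 :=
    ⟨Units.mk0 _ (pow_ne_zero 4 he0), rfl⟩
  obtain ⟨E, hE⟩ : ∃ E : kˣ, (E : k) = 64 * (e₀ : k) ^ 4 :=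
    ⟨Units.mk0 _ (mul_ne_zero (by norm_num) (pow_ne_zero 4 he0)), rfl⟩
  choose C hC1 hC2 using fun v : HeightOneSpectrum (𝓞 k) =>
    exists_min_unit (v.valuation k) ((two * g v) ^ 2) (two * g v)
  choose C' hC1' hC2' using fun v : HeightOneSpectrum (𝓞 k) =>
    exists_min_unit (v.valuation k) 1 (two * g v)⁻¹
  choose l₁ hl₁ using fun v => exists_small_ab v (a * d * g v ^ 2) (C v * E₀)
  choose l₂ hl₂ using fun v => exists_small_ab v (a * d) (E * C' v)
  choose l₃ hl₃ hl₃' using fun v : HeightOneSpectrum (𝓞 k) =>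
    exists_min_unit (v.valuation k) (l₀ v) (l₁ v)
  choose l hl hl' using fun v : HeightOneSpectrum (𝓞 k) =>
    exists_min_unit (v.valuation k) (l₃ v) (l₂ v)
  have hEint : ∀ v : HeightOneSpectrum (𝓞 k), v.valuation k (E : k) ≤ 1 := by
    intro v
    have h2 : v.valuation k (algebraMap (𝓞 k) k ((64 * e₀ ^ 4 : ℕ) : 𝓞 k)) ≤ 1 :=
      v.valuation_le_one _
    rw [map_natCast] at h2
    rw [hE]
    push_cast at h2
    exact h2
  refine ⟨l, fun _ => E, fun κ q hq hκ hqn => ?_⟩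
  have hκ₀ : ∀ v ∈ S, v.valuation k κ < v.valuation k (l₀ v : k) := fun v hv =>
    (hκ v hv).trans_le ((hl v).trans (hl₃ v))
  have hκ₁ : ∀ v ∈ S, v.valuation k κ < v.valuation k (l₁ v : k) := fun v hv =>
    (hκ v hv).trans_le ((hl v).trans (hl₃' v))
  have hκ₂ : ∀ v ∈ S, v.valuation k κ < v.valuation k (l₂ v : k) := fun v hv =>
    (hκ v hv).trans_le (hl' v)
  obtain ⟨y, a', ha', hyv, hfin, hreal⟩ := hy κ hκ₀ fun ψ hα hβ => by
    have h1 := congrArg ψ hq
    rw [map_mul, map_one, map_sub, map_one] at h1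
    have h2 : 0 ≤ ψ (nrd q) := by
      simp only [nrd, map_add, map_sub, map_mul, map_pow]
      have h3 : 0 ≤ -ψ α * ψ q.imI ^ 2 := mul_nonneg (by linarith) (sq_nonneg _)
      have h4 : 0 ≤ -ψ β * ψ q.imJ ^ 2 := mul_nonneg (by linarith) (sq_nonneg _)
      have h5 : 0 ≤ ψ α * ψ β * ψ q.imK ^ 2 :=
        mul_nonneg (mul_nonneg_of_nonpos_of_nonpos hα.le hβ.le) (sq_nonneg _)
      have h6 := sq_nonneg (ψ q.re)
      linarith
    by_contra h3
    rw [not_lt] at h3
    have h4 := mul_nonpos_of_nonneg_of_nonpos h2 h3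
    linarith
  -- the pure quaternion
  have hαsq : ¬ IsSquare (α : F) := by
    rintro ⟨r, hr⟩
    have h1 : nrd (⟨r, 1, 0, 0⟩ : Qt α β) = 0 := by
      rw [nrd_mk, hr]
      ring
    have h2 := congrArg QuaternionAlgebra.imI (fr.aniso _ h1)
    exact one_ne_zero h2
  obtain ⟨y', p, q', hη, -⟩ := Two2.ternary hαsq β (inc k F (a' / d)) hfin hreal
  obtain ⟨η, hηd⟩ : ∃ η : Qt α β, η = ⟨0, y', p, q'⟩ := ⟨_, rfl⟩
  have hη0 : η.re = 0 := by rw [hηd]
  have hηn : nrd η = -algebraMap k F ((a' : k) / d) := by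
    rw [hηd, nrd_mk]
    rw [inc_val, Units.val_div_eq_div_val] at hη
    rw [hη]
    ring
  have ha'd : (a' : k) / d ≠ 0 := div_ne_zero a'.ne_zero hd0
  have hstarη : star η = -η := by
    have h1 := add_star_self_qt η
    rw [hη0, mul_zero, map_zero] at h1
    exact eq_neg_of_add_eq_zero_right h1
  have hcT : ∀ x : Qt α β, φ x * ι T = ι T * φ x := by
    intro x
    rw [← phi_alg hφ, ← map_mul, ← map_mul, Algebra.commutes]
  refine ⟨δ * φ η, a', ?_, ?_, ?_, ?_, ?_⟩
  · rw [star_mul, star_qhom fr hφ, cr.st, hstarη, map_neg, neg_mul_neg, cr.comm]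
  · have h1 : φ η * φ η = algebraMap k D ((a' : k) / d) := by
      rw [← map_mul, pure_sq hη0, phi_alg hφ, hηn, neg_neg, AlgHom.commutes]
    calc δ * φ η * (δ * φ η) = δ * (φ η * δ) * φ η := by simp only [mul_assoc]
      _ = δ * δ * (φ η * φ η) := by rw [← cr.comm]; simp only [mul_assoc]
      _ = algebraMap k D a' := by rw [cr.sq, h1, ← map_mul, mul_div_cancel₀ _ hd0]
  · rw [mul_assoc, hcT, ← mul_assoc, cr.comm, mul_assoc]
  · rintro ⟨p₁, r₁, h1⟩
    have h2 : φ (algebraMap F (Qt α β) p₁) + δ * φ (algebraMap F (Qt α β) r₁ - η) = 0 := by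
      rw [map_sub, phi_alg hφ, phi_alg hφ, mul_sub, h1]
      abel
    have h3 := (phi_inj cr fr hφ h2).2
    have h4 : η = algebraMap F (Qt α β) r₁ := (sub_eq_zero.mp h3).symm
    have h5 : r₁ = 0 := by
      have h6 := congrArg QuaternionAlgebra.re h4
      rw [hη0, QuaternionAlgebra.algebraMap_eq] at h6
      exact h6.symm
    rw [h4, h5, map_zero] at hηn
    have h6 : nrd (0 : Qt α β) = 0 := by simp [nrd]
    rw [h6, eq_comm, neg_eq_zero, map_eq_zero] at hηn
    exact ha'd hηn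
  intro r hr F' _ _ _ ι' S' β' j' hS' hιS' fr' hgood
  obtain ⟨η', hη'0, hη'n, hη'φ⟩ := pure_conj fr hφ hη0 hr
  have hS'φ : ι' S' = δ * φ η' := by
    rw [hιS', hqv, hη'φ, ← mul_assoc, ← mul_assoc, ← mul_assoc, cr.comm (φ r)]
  -- the element of the quadratic field
  obtain ⟨x, hx, hx0, hxe⟩ := x_mem hN (ω := δ * ι T) fr' (κ := κ) (g := g) (C := C) hS' ha' hne
    hyv (fun v _ => by
      have h1 := hC1 v
      have h2 := hC2 v
      rw [Units.val_pow_eq_pow_val, Units.val_mul, htwo, map_pow] at h1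
      rw [Units.val_mul, htwo] at h2
      exact ⟨h1, h2⟩) (fun v hv => by
      have h1 := hl₁ v κ (hκ₁ v hv)
      rw [Units.val_mul, Units.val_mul, Units.val_mul, Units.val_pow_eq_pow_val, hE₀] at h1
      refine lt_of_eq_of_lt ?_ h1
      simp only [map_mul, map_pow, hyv v hv]) hgood
  -- the element of the quaternion algebra
  obtain ⟨m, hm⟩ : ∃ m : k, m = a * d * κ ^ 2 := ⟨_, rfl⟩
  obtain ⟨Q, hQ⟩ : ∃ Q : Qt α β, Q = algebraMap F (Qt α β) (algebraMap k F (1 - m * y)) -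
      algebraMap F (Qt α β) (algebraMap k F (κ * d) * T) * η' := ⟨_, rfl⟩
  have hη'n2 : algebraMap k F (κ * d) ^ 2 * T ^ 2 * nrd η' = -algebraMap k F (m * a') := by
    rw [hη'n, hηn, hT, hm, mul_neg, ← map_pow, ← map_mul, ← map_mul]
    congr 2
    field_simp
  have hnQ : nrd Q = 1 - algebraMap k F m := by
    rw [hQ, nrd_lin hη'0, mul_pow, hη'n2, ha', hm]
    simp only [map_sub, map_mul, map_pow, map_one, map_add, map_ofNat]
    ring
  have hnQ1 : nrd (Q - 1) = -(algebraMap k F m * (1 - 2 * algebraMap k F y)) := by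
    have h1 : Q - 1 = algebraMap F (Qt α β) (-algebraMap k F (m * y)) -
        algebraMap F (Qt α β) (algebraMap k F (κ * d) * T) * η' := by
      rw [hQ, map_sub (algebraMap k F), map_one, map_sub, map_one, map_neg]
      abel
    rw [h1, nrd_lin hη'0, mul_pow, hη'n2, ha', hm]
    simp only [map_sub, map_mul, map_pow, map_one, map_add, map_ofNat]
    ring
  have hu : φ (q * star Q) ∈ N := by
    refine u_mem hN fr hφ (m := algebraMap k F m) (y := algebraMap k F y) (by rw [hm]; exact hq)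
      hnQ hnQ1 fun w hw => ?_
    obtain ⟨v, hv⟩ := Sch.exists_below (F := k) w
    have hvS := hram w hw v hv
    have hE' : algebraMap k F (E : k) = 64 * (e₀ : F) ^ 4 := by
      rw [hE, map_mul, map_pow, map_natCast, map_ofNat]
    have h1 := hl₂ v κ (hκ₂ v hvS)
    rw [Units.val_mul, Units.val_mul, ← hm] at h1
    have h3 : v.valuation k (E : k) * v.valuation k (C' v : k) ≤ v.valuation k (E : k) := by
      have h4 := hC1' v
      rw [Units.val_one, map_one] at h4
      exact (mul_le_mul' le_rfl h4).trans (mul_one _).le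
    rw [map_mul _ (E : k)] at h1
    refine ⟨?_, ?_, ?_⟩
    · exact (val_lt_one_iff hv _).mpr (h1.trans_le (h3.trans (hEint v)))
    · rw [← hE']
      exact hqn v hvS w hv
    · have h5 : algebraMap k F m * (1 - 2 * algebraMap k F y) =
          algebraMap k F (m * (1 - 2 * y)) := by
        simp only [map_sub, map_mul, map_one, map_ofNat]
      rw [← hE', h5, val_lt_val_iff hv, map_mul]
      have h6 : v.valuation k (1 - 2 * y) ≤ max 1 (v.valuation k ((two * g v : kˣ) : k)) := by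
        have h7 := (v.valuation k).map_sub 1 (2 * y)
        have h8 : v.valuation k (2 * y) = v.valuation k ((two * g v : kˣ) : k) := by
          rw [Units.val_mul, htwo, map_mul, map_mul, hyv v hvS]
        rwa [map_one, h8] at h7
      have h9 : v.valuation k (C' v : k) * max 1 (v.valuation k ((two * g v : kˣ) : k)) ≤ 1 := by
        rcases le_total 1 (v.valuation k ((two * g v : kˣ) : k)) with h10 | h10
        · rw [max_eq_right h10]
          have h11 := hC2' v
          have h12 : v.valuation k ((two * g v : kˣ) : k) ≠ 0 :=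
            (Valuation.ne_zero_iff _).mpr (Units.ne_zero _)
          rw [Units.val_inv_eq_inv_val, map_inv₀] at h11
          refine (mul_le_mul' h11 le_rfl).trans ?_
          rw [inv_mul_cancel₀ h12]
        · rw [max_eq_left h10, mul_one]
          have h11 := hC1' v
          rwa [Units.val_one, map_one] at h11
      have hmax : (0 : Z0) < max 1 (v.valuation k ((two * g v : kˣ) : k)) :=
        lt_of_lt_of_le zero_lt_one (le_max_left _ _)
      calc v.valuation k m * v.valuation k (1 - 2 * y) ≤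
            v.valuation k m * max 1 (v.valuation k ((two * g v : kˣ) : k)) :=
            mul_le_mul' le_rfl h6
        _ < v.valuation k (E : k) * v.valuation k (C' v : k) *
            max 1 (v.valuation k ((two * g v : kˣ) : k)) :=
            (mul_lt_mul_iff_left₀ hmax).mpr h1
        _ ≤ v.valuation k (E : k) := by
            rw [mul_assoc]
            exact (mul_le_mul' le_rfl h9).trans (mul_one _).le
  -- the product
  have hstarη' : star η' = -η' := by
    have h1 := add_star_self_qt η'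
    rw [hη'0, mul_zero, map_zero] at h1
    exact eq_neg_of_add_eq_zero_right h1
  have hφQ : φ (star Q) = algebraMap k D (1 - m * y) + algebraMap k D (κ * d) * ι T * φ η' := by
    rw [hQ, star_sub, star_mul, star_alg_qt, star_alg_qt, hstarη', neg_mul, sub_neg_eq_add,
      ← Algebra.commutes, map_add, map_mul, phi_alg hφ, phi_alg hφ, AlgHom.commutes, map_mul ι,
      AlgHom.commutes]
  have hid := core_id (δ := δ) (τ := ι T) (E := φ η') (a := (a : k)) (d := (d : k))
    (a' := (a' : k)) (κ := κ) (y := y) (cr.comm _) (cr.comm _) (hcT _).symm cr.sq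
    (by rw [← map_mul, ← sq, hT, AlgHom.commutes]) hd0
    (by rw [← map_mul, pure_sq hη'0, phi_alg hφ, hη'n, hηn, neg_neg, AlgHom.commutes]) ha'
  rw [← hm, ← hφQ] at hid
  have h1 : (1 + ι' S' - algebraMap k D (y * κ) * (δ * ι T)) =
      1 - algebraMap k D (y * κ) * (δ * ι T) + δ * φ η' := by
    rw [hS'φ]
    abel
  have h2 : (1 + ι' S' + algebraMap k D (y * κ) * (δ * ι T)) =
      1 + algebraMap k D (y * κ) * (δ * ι T) + δ * φ η' := by
    rw [hS'φ]
    abel
  rw [h1] at hx0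
  rw [h1, h2] at hxe
  have h3 : φ q * (1 + algebraMap k D κ * (δ * ι T)) = φ (q * star Q) * x := by
    refine mul_right_cancel₀ hx0 ?_
    rw [mul_assoc, hid, mul_assoc, hxe, ← mul_assoc, map_mul φ]
  rw [hqv, h3]
  exact hmul _ hu _ hx

end Vale.Agent.P011.One
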