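import Vale.Agent.P011.One.Quat
import Vale.Agent.P011.Arith.Quad

/-!
The class, modulo the norms, of the norm of the square of an antisymmetric element anticommuting
with a given symmetric square root.
-/

open NumberField IsDedekindDomain

set_option linter.unusedSectionVars false

namespace Vale.Agent.P011.One

open Vale.Agent.P011.Arith Vale.Agent.P011.MPQ

variable {k D : Type} [Field k] [NumberField k] [DivisionRing D] [StarRing D] [Algebra k D]
    {F : Type} [Field F] [NumberField F] [Algebra k F]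

/-- A central antisymmetric square root of `d`. -/
structure CRt (δ : D) (d : kˣ) : Prop where
  comm : ∀ x, δ * x = x * δ
  st : star δ = -δ
  sq : δ * δ = algebraMap k D d

/-- Membership in the field generated by `F` and `δ`. -/
def IL (ι : F →ₐ[k] D) (δ x : D) : Prop := ∃ p r : F, x = ι p + δ * ι r

/-- The relation `y` is the quaternion conjugate of `x`. -/
def Bar {α β : Fˣ} (φ : Qt α β →+* D) (δ x y : D) : Prop :=
  ∃ q₀ q₁, x = φ q₀ + δ * φ q₁ ∧ y = φ (star q₀) + δ * φ (star q₁)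

section il

variable {ι : F →ₐ[k] D} {δ : D} {d : kˣ}

theorem CRt.ne_zero (h : CRt δ d) : δ ≠ 0 := by
  rintro rfl
  have h1 := h.sq
  rw [mul_zero, eq_comm, map_eq_zero] at h1
  exact d.ne_zero h1

/-- Products of elements `A + δ B`. -/
theorem CRt.mul_form (h : CRt δ d) {R : Type*} [Ring R] (φ : R →+* D) (c : R)
    (hc : φ c = algebraMap k D d) (p r p' r' : R) :
    (φ p + δ * φ r) * (φ p' + δ * φ r') =
      φ (p * p' + c * (r * r')) + δ * φ (p * r' + r * p') := by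
  have e : δ * φ r * (δ * φ r') = φ c * (φ r * φ r') := by
    rw [hc, ← h.sq, ← mul_assoc, mul_assoc δ (φ r) δ, ← h.comm]
    simp only [mul_assoc]
  rw [add_mul, mul_add, mul_add, e]
  simp only [map_add, map_mul, mul_add]
  rw [← mul_assoc (φ p) δ, ← h.comm]
  simp only [mul_assoc]
  abel

theorem CRt.mul_formF (h : CRt δ d) (ι : F →ₐ[k] D) (p r p' r' : F) :
    (ι p + δ * ι r) * (ι p' + δ * ι r') =
      ι (p * p' + algebraMap k F d * (r * r')) + δ * ι (p * r' + r * p') :=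
  h.mul_form ι.toRingHom (algebraMap k F d) (ι.commutes _) p r p' r'

theorem IL.comm (h : CRt δ d) {x y : D} (hx : IL ι δ x) (hy : IL ι δ y) : x * y = y * x := by
  obtain ⟨p, r, rfl⟩ := hx
  obtain ⟨p', r', rfl⟩ := hy
  rw [h.mul_formF, h.mul_formF]
  congr 2 <;> ring_nf

theorem IL.add {x y : D} (hx : IL ι δ x) (hy : IL ι δ y) : IL ι δ (x + y) := by
  obtain ⟨p, r, rfl⟩ := hx
  obtain ⟨p', r', rfl⟩ := hy
  exact ⟨p + p', r + r', by rw [map_add, map_add, mul_add]; abel⟩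

theorem IL.neg {x : D} (hx : IL ι δ x) : IL ι δ (-x) := by
  obtain ⟨p, r, rfl⟩ := hx
  exact ⟨-p, -r, by rw [map_neg, map_neg, mul_neg]; abel⟩

theorem IL.sub {x y : D} (hx : IL ι δ x) (hy : IL ι δ y) : IL ι δ (x - y) := by
  rw [sub_eq_add_neg]
  exact hx.add hy.neg

theorem IL.mul (h : CRt δ d) {x y : D} (hx : IL ι δ x) (hy : IL ι δ y) : IL ι δ (x * y) := by
  obtain ⟨p, r, rfl⟩ := hx
  obtain ⟨p', r', rfl⟩ := hy
  exact ⟨_, _, h.mul_formF ι _ _ _ _⟩

theorem IL.of (p : F) : IL ι δ (ι p) := ⟨p, 0, by rw [map_zero, mul_zero, add_zero]⟩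

theorem CRt.star_form (h : CRt δ d) (hs : ∀ x, star (ι x) = ι x) (p r : F) :
    star (ι p + δ * ι r) = ι p + δ * ι (-r) := by
  rw [star_add, star_mul, hs, hs, h.st, map_neg, mul_neg, mul_neg, h.comm]

theorem IL.inv (h : CRt δ d) (hs : ∀ x, star (ι x) = ι x) {x : D} (hx : IL ι δ x) :
    IL ι δ x⁻¹ := by
  obtain ⟨p, r, rfl⟩ := hx
  by_cases h0 : ι p + δ * ι r = 0
  · rw [h0, inv_zero]
    exact ⟨0, 0, by simp⟩
  have e1 : (ι p + δ * ι r) * (ι p + δ * ι (-r)) = ι (p ^ 2 - algebraMap k F d * r ^ 2) := by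
    rw [h.mul_formF, show p * -r + r * p = 0 by ring, map_zero, mul_zero, add_zero]
    congr 1
    ring
  have h2 : (ι p + δ * ι (-r)) ≠ 0 := by
    rw [← h.star_form hs, Ne, star_eq_zero]
    exact h0
  have h3 : p ^ 2 - algebraMap k F d * r ^ 2 ≠ 0 := by
    intro h4
    rw [h4, map_zero] at e1
    exact (mul_ne_zero h0 h2) e1
  have h4 : (ι p + δ * ι r)⁻¹ =
      (ι p + δ * ι (-r)) * ι (p ^ 2 - algebraMap k F d * r ^ 2)⁻¹ := by
    rw [inv_eq_of_mul_eq_one_right]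
    rw [← mul_assoc, e1, ← map_mul, mul_inv_cancel₀ h3, map_one]
  rw [h4]
  exact IL.mul h ⟨p, -r, rfl⟩ (IL.of _)

end il

section bar

variable {ι : F →ₐ[k] D} {δ : D} {d : kˣ} {α β : Fˣ} {i j : D} {φ : Qt α β →+* D}

theorem phi_alg (hφ : ∀ q, φ q = ι q.re + ι q.imI * i + ι q.imJ * j + ι q.imK * (i * j)) (x : F) :
    φ (algebraMap F (Qt α β) x) = ι x := by
  rw [hφ]
  simp [QuaternionAlgebra.algebraMap_eq]

theorem mul_star_self_qt (q : Qt α β) : q * star q = algebraMap F (Qt α β) (nrd q) := by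
  have h := star_mul_self_qt (star q)
  rw [star_star] at h
  rw [h]
  congr 1
  simp only [nrd, QuaternionAlgebra.re_star, QuaternionAlgebra.imI_star,
    QuaternionAlgebra.imJ_star, QuaternionAlgebra.imK_star]
  ring

theorem add_star_self_qt (q : Qt α β) : q + star q = algebraMap F (Qt α β) (2 * q.re) := by
  ext
  · simp [QuaternionAlgebra.algebraMap_eq, two_mul]
  · simp [QuaternionAlgebra.algebraMap_eq]
  · simp [QuaternionAlgebra.algebraMap_eq]
  · simp [QuaternionAlgebra.algebraMap_eq]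

theorem star_alg_qt (x : F) : star (algebraMap F (Qt α β) x) = algebraMap F (Qt α β) x := by
  ext
  · simp [QuaternionAlgebra.algebraMap_eq]
  · simp [QuaternionAlgebra.algebraMap_eq]
  · simp [QuaternionAlgebra.algebraMap_eq]
  · simp [QuaternionAlgebra.algebraMap_eq]

/-- The representation `A + δ B` is unique. -/
theorem phi_inj (h : CRt δ d) (fr : QFr ι α β i j)
    (hφ : ∀ q, φ q = ι q.re + ι q.imI * i + ι q.imJ * j + ι q.imK * (i * j))
    {q₀ q₁ : Qt α β} (h0 : φ q₀ + δ * φ q₁ = 0) : q₀ = 0 ∧ q₁ = 0 := by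
  by_cases h1 : q₁ = 0
  · subst h1
    rw [map_zero, mul_zero, add_zero] at h0
    exact ⟨qhom_inj fr hφ h0, rfl⟩
  exfalso
  -- `w = q₀ * star q₁` has `φ w = - δ * nrd q₁`
  have h2 : nrd q₁ ≠ 0 := fun h2 => h1 (fr.aniso q₁ h2)
  set n := nrd q₁ with hn
  obtain ⟨w, hw⟩ : ∃ w, w = q₀ * star q₁ := ⟨_, rfl⟩
  have e1 : φ w = -(δ * ι n) := by
    have h3 : (φ q₀ + δ * φ q₁) * φ (star q₁) = 0 := by rw [h0, zero_mul]
    rw [add_mul, mul_assoc, ← map_mul, ← map_mul, mul_star_self_qt, phi_alg hφ, ← hw] at h3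
    exact eq_neg_of_add_eq_zero_left h3
  have e2 : φ (star w) = φ (-w) := by
    rw [← star_qhom fr hφ, e1, star_neg, star_mul, fr.sym, h.st, map_neg, e1, h.comm, mul_neg]
  have e3 : star w = -w := by
    have h3 : φ (star w - -w) = 0 := by rw [map_sub, e2, sub_self]
    exact sub_eq_zero.mp (qhom_inj fr hφ h3)
  have e4 : ∀ q : Qt α β, w * q = q * w := by
    intro q
    have h4 : ι n * φ q = φ q * ι n := by
      rw [← phi_alg hφ, ← map_mul, ← map_mul, Algebra.commutes]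
    have h5 : φ w * φ q = -(δ * (ι n * φ q)) := by
      rw [e1, neg_mul, mul_assoc]
    have h6 : φ q * φ w = -(δ * (φ q * ι n)) := by
      rw [e1, mul_neg, ← mul_assoc, ← h.comm, mul_assoc]
    have h3 : φ (w * q - q * w) = 0 := by
      rw [map_sub, map_mul φ w q, map_mul φ q w, h5, h6, h4, sub_self]
    exact sub_eq_zero.mp (qhom_inj fr hφ h3)
  have e5 := e4 ⟨0, 1, 0, 0⟩
  have e6 := e4 ⟨0, 0, 1, 0⟩
  have i3 := congrArg QuaternionAlgebra.imK e5
  have i4 := congrArg QuaternionAlgebra.imJ e5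
  have i5 := congrArg QuaternionAlgebra.imK e6
  have i6 := congrArg QuaternionAlgebra.re e3
  simp only [QuaternionAlgebra.imK_mul, QuaternionAlgebra.imJ_mul, mul_zero, mul_one, zero_mul,
    add_zero, zero_add, sub_zero, zero_sub, one_mul, QuaternionAlgebra.re_star,
    QuaternionAlgebra.re_neg] at i3 i4 i5 i6
  have hα := α.ne_zero
  have j1 : w.imJ = 0 := by
    have : (2 : F) * w.imJ = 0 := by linear_combination -i3
    exact (mul_eq_zero.mp this).resolve_left two_ne_zero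
  have j2 : w.imK = 0 := by
    have : (2 : F) * (α : F) * w.imK = 0 := by linear_combination -i4
    exact (mul_eq_zero.mp this).resolve_left (mul_ne_zero two_ne_zero hα)
  have j3 : w.imI = 0 := by
    have : (2 : F) * w.imI = 0 := by linear_combination i5
    exact (mul_eq_zero.mp this).resolve_left two_ne_zero
  have j4 : w.re = 0 := by
    have : (2 : F) * w.re = 0 := by linear_combination i6
    exact (mul_eq_zero.mp this).resolve_left two_ne_zero
  have j5 : w = 0 := by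
    ext
    · exact j4
    · exact j3
    · exact j1
    · exact j2
  rw [j5, map_zero, eq_comm, neg_eq_zero] at e1
  exact mul_ne_zero h.ne_zero ((map_ne_zero ι).mpr h2) e1

theorem Bar.unique (h : CRt δ d) (fr : QFr ι α β i j)
    (hφ : ∀ q, φ q = ι q.re + ι q.imI * i + ι q.imJ * j + ι q.imK * (i * j))
    {x y y' : D} (h1 : Bar φ δ x y) (h2 : Bar φ δ x y') : y = y' := by
  obtain ⟨q₀, q₁, rfl, rfl⟩ := h1
  obtain ⟨r₀, r₁, hx, rfl⟩ := h2
  have h3 : φ (q₀ - r₀) + δ * φ (q₁ - r₁) = 0 := by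
    rw [map_sub, map_sub, mul_sub]
    have := sub_eq_zero.mpr hx
    rw [← this]
    abel
  obtain ⟨h4, h5⟩ := phi_inj h fr hφ h3
  rw [sub_eq_zero.mp h4, sub_eq_zero.mp h5]

theorem Bar.mul (h : CRt δ d)
    (hφ : ∀ q, φ q = ι q.re + ι q.imI * i + ι q.imJ * j + ι q.imK * (i * j))
    {x y x' y' : D} (h1 : Bar φ δ x y) (h2 : Bar φ δ x' y') : Bar φ δ (x * x') (y' * y) := by
  obtain ⟨q₀, q₁, rfl, rfl⟩ := h1
  obtain ⟨r₀, r₁, rfl, rfl⟩ := h2
  set c := algebraMap F (Qt α β) (algebraMap k F d) with hc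
  have hc' : φ c = algebraMap k D d := by rw [hc, phi_alg hφ, AlgHom.commutes]
  refine ⟨q₀ * r₀ + c * (q₁ * r₁), q₀ * r₁ + q₁ * r₀, h.mul_form φ c hc' _ _ _ _, ?_⟩
  rw [h.mul_form φ c hc']
  simp only [star_add, star_mul]
  have e : star c = c := star_alg_qt _
  have e' : ∀ z, c * z = z * c := fun z => Algebra.commutes _ _
  rw [e, e', add_comm (star r₀ * star q₁)]

theorem Bar.st (h : CRt δ d) (fr : QFr ι α β i j)
    (hφ : ∀ q, φ q = ι q.re + ι q.imI * i + ι q.imJ * j + ι q.imK * (i * j))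
    {x y : D} (h1 : Bar φ δ x y) : Bar φ δ (star x) (star y) := by
  obtain ⟨q₀, q₁, rfl, rfl⟩ := h1
  refine ⟨star q₀, -star q₁, ?_, ?_⟩
  · rw [star_add, star_mul, h.st, star_qhom fr hφ, star_qhom fr hφ, map_neg, mul_neg, mul_neg,
      h.comm]
  · rw [star_add, star_mul, h.st, star_qhom fr hφ, star_qhom fr hφ, star_neg, map_neg, mul_neg,
      mul_neg, h.comm]

theorem Bar.il_add (hφ : ∀ q, φ q = ι q.re + ι q.imI * i + ι q.imJ * j + ι q.imK * (i * j))
    {x y : D} (h1 : Bar φ δ x y) : IL ι δ (x + y) := by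
  obtain ⟨q₀, q₁, rfl, rfl⟩ := h1
  refine ⟨2 * q₀.re, 2 * q₁.re, ?_⟩
  rw [← phi_alg hφ, ← phi_alg hφ, ← add_star_self_qt, ← add_star_self_qt, map_add, map_add, mul_add]
  abel

theorem Bar.il_mul (h : CRt δ d)
    (hφ : ∀ q, φ q = ι q.re + ι q.imI * i + ι q.imJ * j + ι q.imK * (i * j))
    {x y : D} (h1 : Bar φ δ x y) : IL ι δ (x * y) := by
  obtain ⟨q₀, q₁, rfl, rfl⟩ := h1
  set c := algebraMap F (Qt α β) (algebraMap k F d) with hc
  have hc' : φ c = algebraMap k D d := by rw [hc, phi_alg hφ, AlgHom.commutes]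
  refine ⟨nrd q₀ + algebraMap k F d * nrd q₁, 2 * (q₀ * star q₁).re, ?_⟩
  rw [h.mul_form φ c hc', ← phi_alg hφ, ← phi_alg hφ, map_add (algebraMap F (Qt α β)),
    map_mul (algebraMap F (Qt α β)), ← mul_star_self_qt, ← mul_star_self_qt, ← add_star_self_qt,
    star_mul, star_star]

theorem Bar.of_il (hφ : ∀ q, φ q = ι q.re + ι q.imI * i + ι q.imJ * j + ι q.imK * (i * j))
    {x : D} (hx : IL ι δ x) : Bar φ δ x x := by
  obtain ⟨p, r, rfl⟩ := hx
  refine ⟨algebraMap F _ p, algebraMap F _ r, ?_, ?_⟩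
  · rw [phi_alg hφ, phi_alg hφ]
  · rw [star_alg_qt, star_alg_qt, phi_alg hφ, phi_alg hφ]

theorem Bar.char (h : CRt δ d) (fr : QFr ι α β i j)
    (hφ : ∀ q, φ q = ι q.re + ι q.imI * i + ι q.imJ * j + ι q.imK * (i * j))
    {x y y' : D} (h1 : Bar φ δ x y) (hx : ¬ IL ι δ x) (h2 : IL ι δ (x + y'))
    (h3 : IL ι δ (x * y')) : y' = y := by
  by_contra hne
  apply hx
  have e1 : x * y - x * y' = x * ((x + y) - (x + y')) := by
    rw [← mul_sub]
    congr 1
    abel
  have e2 : (x + y) - (x + y') ≠ 0 := by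
    intro h4
    apply hne
    have h5 : y - y' = 0 := by rw [← h4]; abel
    exact (sub_eq_zero.mp h5).symm
  have e3 : x = (x * y - x * y') * ((x + y) - (x + y'))⁻¹ := by
    rw [e1, mul_assoc, mul_inv_cancel₀ e2, mul_one]
  rw [e3]
  exact ((h1.il_mul h hφ).sub h3).mul h (((h1.il_add hφ).sub h2).inv h fr.sym)

/-- Conjugation by an element anticommuting with the square root. -/
theorem Bar.conj (h : CRt δ d) (hfr : Module.finrank k F = 2) {a : kˣ} (ha : ¬ IsSquare (a : k))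
    {T : F} (hT : T ^ 2 = algebraMap k F a) (fr : QFr ι α β i j)
    (hφ : ∀ q, φ q = ι q.re + ι q.imI * i + ι q.imJ * j + ι q.imK * (i * j))
    (hall : ∀ x, x * ι T = ι T * x → ∃ q₀ q₁ : Qt α β, x = φ q₀ + δ * φ q₁) {g : D} (hg : g ≠ 0)
    (hgT : g * ι T = -(ι T * g)) {x y : D} (h1 : Bar φ δ x y) (hx : x * ι T = ι T * x) :
    Bar φ δ (g * x * g⁻¹) (g * y * g⁻¹) := by
  obtain ⟨σ, hσ⟩ := exists_sigma hfr ha hT
  -- conjugation of the elements of `F`
  have c1 : ∀ p : F, g * ι p = ι (σ p) * g := by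
    intro p
    obtain ⟨p₀, p₁, rfl⟩ := exists_coords hfr ha hT p
    rw [sigma_coords hσ]
    simp only [map_add, map_sub, map_mul, AlgHom.commutes, mul_add, sub_mul]
    rw [← Algebra.commutes p₀ g, ← mul_assoc, ← Algebra.commutes p₁ g, mul_assoc, hgT, mul_neg,
      mul_assoc, sub_eq_add_neg]
  have c2 : ∀ z, IL ι δ z → IL ι δ (g * z * g⁻¹) := by
    rintro _ ⟨p, r, rfl⟩
    refine ⟨σ p, σ r, ?_⟩
    rw [mul_inv_eq_iff_eq_mul₀ hg, mul_add, add_mul, c1, ← mul_assoc, ← h.comm, mul_assoc, c1,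
      mul_assoc]
  have c3 : ∀ z, IL ι δ (g * z * g⁻¹) → IL ι δ z := by
    rintro z ⟨p, r, hz⟩
    refine ⟨σ p, σ r, ?_⟩
    have e : g * (ι (σ p) + δ * ι (σ r)) = g * z := by
      rw [mul_inv_eq_iff_eq_mul₀ hg] at hz
      rw [hz, mul_add, add_mul, c1, ← mul_assoc, ← h.comm, mul_assoc, c1, sigma_sigma hfr ha hT hσ,
        sigma_sigma hfr ha hT hσ, mul_assoc]
    exact (mul_left_cancel₀ hg e).symm
  by_cases hxL : IL ι δ x
  · have h2 := h1.unique h fr hφ (Bar.of_il hφ hxL)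
    rw [h2]
    exact Bar.of_il hφ (c2 _ hxL)
  · have hxT : g * x * g⁻¹ * ι T = ι T * (g * x * g⁻¹) := by
      have e1 : g⁻¹ * ι T = -(ι T * g⁻¹) := by
        have e2 : ι T * g = -(g * ι T) := by rw [hgT, neg_neg]
        rw [inv_mul_eq_iff_eq_mul₀ hg, mul_neg, ← mul_assoc, ← neg_mul, ← e2, mul_assoc,
          mul_inv_cancel₀ hg, mul_one]
      rw [mul_assoc (g * x), e1, mul_neg, ← mul_assoc, mul_assoc g x, hx, ← mul_assoc g, hgT,
        neg_mul, neg_mul, neg_neg]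
      simp only [mul_assoc]
    obtain ⟨q₀, q₁, hq⟩ := hall _ hxT
    have h3 : Bar φ δ (g * x * g⁻¹) (φ (star q₀) + δ * φ (star q₁)) := ⟨q₀, q₁, hq, rfl⟩
    have h4 : g * y * g⁻¹ = φ (star q₀) + δ * φ (star q₁) := by
      refine h3.char h fr hφ (fun h5 => hxL (c3 _ h5)) ?_ ?_
      · rw [← add_mul, ← mul_add]
        exact c2 _ (h1.il_add hφ)
      · have e1 : g * x * g⁻¹ * (g * y * g⁻¹) = g * (x * y) * g⁻¹ := by
          rw [mul_assoc (g * x), ← mul_assoc g⁻¹, ← mul_assoc g⁻¹, inv_mul_cancel₀ hg, one_mul]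
          simp only [mul_assoc]
        rw [e1]
        exact c2 _ (h1.il_mul h hφ)
    rw [h4]
    exact h3

theorem Bar.comm (h : CRt δ d)
    (hφ : ∀ q, φ q = ι q.re + ι q.imI * i + ι q.imJ * j + ι q.imK * (i * j))
    {x y : D} (h1 : Bar φ δ x y) : y * x = x * y := by
  have h2 : Bar φ δ y x := by
    obtain ⟨q₀, q₁, rfl, rfl⟩ := h1
    exact ⟨star q₀, star q₁, rfl, by rw [star_star, star_star]⟩
  obtain ⟨q₀, q₁, rfl, rfl⟩ := h1
  set c := algebraMap F (Qt α β) (algebraMap k F d) with hc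
  have hc' : φ c = algebraMap k D d := by rw [hc, phi_alg hφ, AlgHom.commutes]
  rw [h.mul_form φ c hc', h.mul_form φ c hc', mul_star_self_qt, star_mul_self_qt,
    mul_star_self_qt, star_mul_self_qt]
  congr 3
  have e1 : ∀ a b : Qt α β, star a * b + star b * a = a * star b + b * star a := by
    intro a b
    ext
    · simp
    · simp; ring
    · simp; ring
    · simp; ring
  exact e1 _ _

/-- The elements of `k(T, δ)` commute with the elements of the centralizer. -/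
theorem IL.comm_phi (h : CRt δ d)
    (hφ : ∀ q, φ q = ι q.re + ι q.imI * i + ι q.imJ * j + ι q.imK * (i * j))
    {z x : D} (hz : IL ι δ z) (hx : ∃ q₀ q₁ : Qt α β, x = φ q₀ + δ * φ q₁) : z * x = x * z := by
  obtain ⟨p, r, rfl⟩ := hz
  obtain ⟨q₀, q₁, rfl⟩ := hx
  set c := algebraMap F (Qt α β) (algebraMap k F d) with hc
  have hc' : φ c = algebraMap k D d := by rw [hc, phi_alg hφ, AlgHom.commutes]
  rw [← phi_alg hφ, ← phi_alg hφ, h.mul_form φ c hc', h.mul_form φ c hc']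
  simp only [Algebra.commutes]
  rw [add_comm (q₁ * _)]

theorem Bar.add {x y x' y' : D} (h1 : Bar φ δ x y) (h2 : Bar φ δ x' y') :
    Bar φ δ (x + x') (y + y') := by
  obtain ⟨q₀, q₁, rfl, rfl⟩ := h1
  obtain ⟨r₀, r₁, rfl, rfl⟩ := h2
  refine ⟨q₀ + r₀, q₁ + r₁, ?_, ?_⟩
  · rw [map_add, map_add, mul_add]; abel
  · rw [star_add, star_add, map_add, map_add, mul_add]; abel

theorem IL.inj (h : CRt δ d) (hs : ∀ x, star (ι x) = ι x) {p r p' r' : F}
    (h0 : ι p + δ * ι r = ι p' + δ * ι r') : p = p' ∧ r = r' := by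
  have h1 := congrArg star h0
  rw [h.star_form hs, h.star_form hs, map_neg, map_neg, mul_neg, mul_neg] at h1
  have h2 : ι ((2 : F) * p) = ι (2 * p') := by
    have e1 : ι ((2 : F) * p) = (ι p + δ * ι r) + (ι p + -(δ * ι r)) := by
      rw [two_mul, map_add]; abel
    have e2 : ι ((2 : F) * p') = (ι p' + δ * ι r') + (ι p' + -(δ * ι r')) := by
      rw [two_mul, map_add]; abel
    rw [e1, e2, h1, h0]
  have h3 : p = p' := mul_left_cancel₀ two_ne_zero (ι.toRingHom.injective h2)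
  refine ⟨h3, ?_⟩
  subst h3
  have h4 := add_left_cancel h0
  exact ι.toRingHom.injective (mul_left_cancel₀ h.ne_zero h4)

end bar

/-- V3: the class of the norm of `j' ^ 2`. -/
theorem classN {ι : F →ₐ[k] D} {δ : D} {d : kˣ} {α β : Fˣ} {i j : D} (h : CRt δ d)
    (hfr : Module.finrank k F = 2) {a : kˣ} (ha : ¬ IsSquare (a : k)) {T : F}
    (hT : T ^ 2 = algebraMap k F a) (fr : QFr ι α β i j)
    (hall : ∀ x, x * ι T = ι T * x → ∃ q₀ q₁ : Qt α β,
      x = (ι q₀.re + ι q₀.imI * i + ι q₀.imJ * j + ι q₀.imK * (i * j)) +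
        δ * (ι q₁.re + ι q₁.imI * i + ι q₁.imJ * j + ι q₁.imK * (i * j))) :
    ∃ γ₀ : kˣ, ∀ (s' j' : D) (u v : k) (a' b : kˣ), s' * s' = algebraMap k D a' →
      s' * ι T = ι T * s' → ¬ IL ι δ s' → star j' = -j' → j' * ι T = -(ι T * j') →
      j' * j' = algebraMap k D u + algebraMap k D v * s' → (b : k) = u ^ 2 - a' * v ^ 2 →
      γ₀⁻¹ * b ∈ NF (a * d) := by
  obtain ⟨φ, hφ⟩ := exists_qhom fr
  have hall' : ∀ x, x * ι T = ι T * x → ∃ q₀ q₁ : Qt α β, x = φ q₀ + δ * φ q₁ := by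
    intro x hx
    obtain ⟨q₀, q₁, e⟩ := hall x hx
    exact ⟨q₀, q₁, by rw [e, hφ, hφ]⟩
  obtain ⟨σ, hσ⟩ := exists_sigma hfr ha hT
  have hne : ∀ (s' j' : D) (u v : k) (a' b : kˣ), s' * s' = algebraMap k D a' →
      ¬ IL ι δ s' →
      j' * j' = algebraMap k D u + algebraMap k D v * s' → (b : k) = u ^ 2 - a' * v ^ 2 →
      j' ≠ 0 := by
    rintro s' j' u v a' b hs hsL hj hb rfl
    rw [mul_zero] at hj
    by_cases hv : v = 0
    · subst hv
      rw [map_zero, zero_mul, add_zero, eq_comm, map_eq_zero] at hj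
      subst hj
      rw [zero_pow two_ne_zero, mul_zero, sub_zero] at hb
      exact b.ne_zero hb
    · apply hsL
      refine ⟨algebraMap k F (-(v⁻¹ * u)), 0, ?_⟩
      rw [map_zero, mul_zero, add_zero, AlgHom.commutes]
      have e1 : algebraMap k D v * s' = -algebraMap k D u := (neg_eq_of_add_eq_zero_right hj.symm).symm
      have e2 : algebraMap k D v ≠ 0 := (map_ne_zero _).mpr hv
      apply mul_left_cancel₀ e2
      rw [e1, ← map_mul, mul_neg, ← mul_assoc, mul_inv_cancel₀ hv, one_mul, map_neg]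
  by_cases hj : ∃ j₀ : D, j₀ ≠ 0 ∧ star j₀ = -j₀ ∧ j₀ * ι T = -(ι T * j₀)
  swap
  · refine ⟨1, fun s' j' u v a' b h1 h2 h3 h4 h5 h6 h7 => ?_⟩
    exact absurd ⟨j', hne s' j' u v a' b h1 h3 h6 h7, h4, h5⟩ hj
  obtain ⟨j₀, hj0, hjs, hjT⟩ := hj
  have hcT : (j₀ * j₀) * ι T = ι T * (j₀ * j₀) := by
    rw [mul_assoc, hjT, mul_neg, ← mul_assoc, hjT, neg_mul, neg_neg, mul_assoc]
  obtain ⟨c₀, hc₀⟩ : ∃ y, Bar φ δ (j₀ * j₀) y := by
    obtain ⟨q₀, q₁, e⟩ := hall' _ hcT
    exact ⟨_, q₀, q₁, e, rfl⟩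
  have key : ∀ (s' j' : D) (u v : k) (a' b : kˣ), s' * s' = algebraMap k D a' →
      s' * ι T = ι T * s' → ¬ IL ι δ s' → star j' = -j' → j' * ι T = -(ι T * j') →
      j' * j' = algebraMap k D u + algebraMap k D v * s' → (b : k) = u ^ 2 - a' * v ^ 2 →
      ∃ m : kˣ, m ∈ NF (a * d) ∧ (j₀ * j₀) * c₀ * algebraMap k D m = algebraMap k D b := by
    intro s' j' u v a' b h1 h2 h3 h4 h5 h6 h7
    obtain ⟨g, hg⟩ : ∃ g, g = j₀⁻¹ * j' := ⟨_, rfl⟩
    have e1 : j' = j₀ * g := by rw [hg, ← mul_assoc, mul_inv_cancel₀ hj0, one_mul]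
    have hj0T : j₀⁻¹ * ι T = -(ι T * j₀⁻¹) := by
      have e2 : ι T * j₀ = -(j₀ * ι T) := by rw [hjT, neg_neg]
      rw [inv_mul_eq_iff_eq_mul₀ hj0, mul_neg, ← mul_assoc, ← neg_mul, ← e2, mul_assoc,
        mul_inv_cancel₀ hj0, mul_one]
    have hgT : g * ι T = ι T * g := by
      rw [hg, mul_assoc, h5, mul_neg, ← mul_assoc, hj0T, neg_mul, neg_neg, mul_assoc]
    have hgs : star g = j₀ * g * j₀⁻¹ := by
      rw [← e1, hg, star_mul, h4, star_inv₀, hjs, inv_neg, neg_mul_neg]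
    obtain ⟨g', hg'⟩ : ∃ y, Bar φ δ g y := by
      obtain ⟨q₀, q₁, e⟩ := hall' _ hgT
      exact ⟨_, q₀, q₁, e, rfl⟩
    have b1 : Bar φ δ (star g) (star g') := hg'.st h fr hφ
    have b2 : Bar φ δ (star g) (j₀ * g' * j₀⁻¹) := by
      rw [hgs]
      exact Bar.conj h hfr ha hT fr hφ hall' hj0 hjT hg' hgT
    have hgs' : star g' = j₀ * g' * j₀⁻¹ := b1.unique h fr hφ b2
    have e3 : j' * j' = star g * (j₀ * j₀) * g := by
      rw [hgs, e1]
      simp only [mul_assoc]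
      rw [inv_mul_cancel_left₀ hj0]
    have b3 : Bar φ δ (j' * j') (g' * (c₀ * star g')) := by
      rw [e3]
      exact Bar.mul h hφ (Bar.mul h hφ b1 hc₀) hg'
    have b4 : Bar φ δ s' (-s') := by
      obtain ⟨q₀, q₁, e⟩ := hall' _ h2
      have b5 : Bar φ δ s' (φ (star q₀) + δ * φ (star q₁)) := ⟨q₀, q₁, e, rfl⟩
      have e5 : -s' = φ (star q₀) + δ * φ (star q₁) := by
        refine b5.char h fr hφ h3 ?_ ?_
        · rw [add_neg_cancel]
          exact ⟨0, 0, by rw [map_zero, mul_zero, add_zero]⟩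
        · rw [mul_neg, h1, ← AlgHom.commutes ι]
          exact (IL.of _).neg
      rw [e5]
      exact b5
    have b6 : Bar φ δ (j' * j') (algebraMap k D u - algebraMap k D v * s') := by
      have b7 : Bar φ δ (algebraMap k D u) (algebraMap k D u) := by
        rw [← AlgHom.commutes ι]
        exact Bar.of_il hφ (IL.of _)
      have b8 : Bar φ δ (algebraMap k D v) (algebraMap k D v) := by
        rw [← AlgHom.commutes ι]
        exact Bar.of_il hφ (IL.of _)
      have b9 := b7.add (b8.mul h hφ b4)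
      rw [h6]
      rwa [neg_mul, ← Algebra.commutes v s', ← sub_eq_add_neg] at b9
    have e6 : g' * (c₀ * star g') = algebraMap k D u - algebraMap k D v * s' :=
      b3.unique h fr hφ b6
    -- the product
    have e7 : j' * j' * (g' * (c₀ * star g')) = algebraMap k D b := by
      rw [e6, h6, h7, add_mul, mul_sub, mul_sub]
      have e8 : algebraMap k D v * s' * (algebraMap k D v * s') = algebraMap k D (a' * v ^ 2) := by
        rw [mul_assoc, ← mul_assoc s', ← Algebra.commutes v s', mul_assoc, h1, ← map_mul, ← map_mul]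
        congr 1
        ring
      have e9 : algebraMap k D u * (algebraMap k D v * s') =
          algebraMap k D v * s' * algebraMap k D u := Algebra.commutes _ _
      rw [e8, e9, map_sub, ← map_mul, pow_two u]
      abel
    obtain ⟨ξ, hξ⟩ : ∃ ξ, ξ = g * g' := ⟨_, rfl⟩
    have hξL : IL ι δ ξ := hξ ▸ hg'.il_mul h hφ
    have hξ' : g' * g = ξ := by rw [hξ, hg'.comm h hφ]
    have hξs : star ξ = star g * star g' := by rw [← hξ', star_mul]
    have hξj : star ξ = j₀ * ξ * j₀⁻¹ := by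
      rw [hξs, hgs, hgs', hξ]
      simp only [mul_assoc]
      rw [inv_mul_cancel_left₀ hj0]
    -- coordinates
    obtain ⟨p, r, hpr⟩ := hξL
    have c1 : ∀ p : F, j₀ * ι p = ι (σ p) * j₀ := by
      intro p
      obtain ⟨p₀, p₁, rfl⟩ := exists_coords hfr ha hT p
      rw [sigma_coords hσ]
      simp only [map_add, map_sub, map_mul, AlgHom.commutes, mul_add, sub_mul]
      rw [← Algebra.commutes p₀ j₀, ← mul_assoc, ← Algebra.commutes p₁ j₀, mul_assoc, hjT, mul_neg,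
        mul_assoc, sub_eq_add_neg]
    have e10 : ι p + δ * ι (-r) = ι (σ p) + δ * ι (σ r) := by
      rw [← h.star_form fr.sym, ← hpr, hξj, hpr, mul_inv_eq_iff_eq_mul₀ hj0, mul_add, add_mul, c1,
        ← mul_assoc, ← h.comm, mul_assoc, c1, mul_assoc]
    obtain ⟨e11, e12⟩ := IL.inj h fr.sym e10
    obtain ⟨p₀, p₁, hp⟩ := exists_coords hfr ha hT p
    obtain ⟨r₀, r₁, hr⟩ := exists_coords hfr ha hT r
    have hT0 : T ≠ 0 := by
      rintro rfl
      rw [zero_pow two_ne_zero] at hT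
      exact a.ne_zero ((map_eq_zero (algebraMap k F)).mp hT.symm)
    have e13 : algebraMap k F p₁ * T = 0 := by
      rw [hp, sigma_coords hσ] at e11
      have : (2 : F) * (algebraMap k F p₁ * T) = 0 := by linear_combination e11
      exact (mul_eq_zero.mp this).resolve_left two_ne_zero
    have e14 : algebraMap k F r₀ = 0 := by
      rw [hr, sigma_coords hσ] at e12
      have : (2 : F) * (algebraMap k F r₀) = 0 := by linear_combination -e12
      exact (mul_eq_zero.mp this).resolve_left two_ne_zero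
    rw [e13, add_zero] at hp
    rw [e14, zero_add] at hr
    have e15 : ξ * star ξ = algebraMap k D (p₀ ^ 2 - ((a * d : kˣ) : k) * r₁ ^ 2) := by
      rw [hpr, h.star_form fr.sym, h.mul_formF, show p * -r + r * p = 0 by ring, map_zero, mul_zero,
        add_zero, hp, hr, ← AlgHom.commutes ι]
      congr 1
      rw [Units.val_mul, map_sub, map_mul, map_mul, map_pow, map_pow, ← hT]
      ring
    have e16 : j' * j' * (g' * (c₀ * star g')) = (j₀ * j₀) * c₀ * (ξ * star ξ) := by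
      have hn : IL ι δ ((j₀ * j₀) * c₀) := hc₀.il_mul h hφ
      have f1 : star g * (j₀ * j₀) * ξ = ξ * (star g * (j₀ * j₀)) := by
        rw [eq_comm]
        refine IL.comm_phi h hφ ⟨p, r, hpr⟩ ?_
        obtain ⟨q₀, q₁, e, -⟩ := b1.mul h hφ hc₀
        exact ⟨q₀, q₁, e⟩
      have f2 : (j₀ * j₀) * c₀ * star g = star g * ((j₀ * j₀) * c₀) := by
        refine IL.comm_phi h hφ hn ?_
        obtain ⟨q₀, q₁, e, -⟩ := b1
        exact ⟨q₀, q₁, e⟩
      have f3 : (j₀ * j₀) * c₀ * ξ = ξ * ((j₀ * j₀) * c₀) := IL.comm h hn ⟨p, r, hpr⟩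
      calc j' * j' * (g' * (c₀ * star g')) = star g * (j₀ * j₀) * (g * g') * (c₀ * star g') := by
            rw [e3]; simp only [mul_assoc]
        _ = ξ * (star g * (j₀ * j₀)) * (c₀ * star g') := by rw [← hξ, f1]
        _ = ξ * (star g * ((j₀ * j₀) * c₀)) * star g' := by simp only [mul_assoc]
        _ = ξ * ((j₀ * j₀) * c₀ * star g) * star g' := by rw [f2]
        _ = ξ * ((j₀ * j₀) * c₀) * (star g * star g') := by simp only [mul_assoc]
        _ = (j₀ * j₀) * c₀ * (ξ * star ξ) := by rw [← f3, ← hξs, mul_assoc]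
    rw [e7, e15] at e16
    have hm0 : p₀ ^ 2 - ((a * d : kˣ) : k) * r₁ ^ 2 ≠ 0 := by
      intro h0
      rw [h0, map_zero, mul_zero, map_eq_zero] at e16
      exact b.ne_zero e16
    exact ⟨Units.mk0 _ hm0, ⟨p₀, r₁, rfl⟩, e16.symm⟩
  by_cases hγ : ∃ γ : kˣ, (j₀ * j₀) * c₀ = algebraMap k D γ
  · obtain ⟨γ, hγ⟩ := hγ
    refine ⟨γ, fun s' j' u v a' b h1 h2 h3 h4 h5 h6 h7 => ?_⟩
    obtain ⟨m, hm, hmb⟩ := key s' j' u v a' b h1 h2 h3 h4 h5 h6 h7
    rw [hγ, ← map_mul] at hmb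
    have e1 : γ * m = b := Units.ext ((algebraMap k D).injective hmb)
    rw [← e1, inv_mul_cancel_left]
    exact hm
  · refine ⟨1, fun s' j' u v a' b h1 h2 h3 h4 h5 h6 h7 => ?_⟩
    obtain ⟨m, hm, hmb⟩ := key s' j' u v a' b h1 h2 h3 h4 h5 h6 h7
    exfalso
    apply hγ
    refine ⟨b * m⁻¹, ?_⟩
    have e2 : algebraMap k D m ≠ 0 := (map_ne_zero _).mpr m.ne_zero
    apply mul_right_cancel₀ e2
    rw [hmb, ← map_mul, Units.val_mul, Units.inv_mul_cancel_right]

end Vale.Agent.P011.One
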