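import Vale.Agent.P011.One.Close

/-!
A subgroup of finite index of the norm-one group of a division algebra with involution contains
the elements of norm one of the quaternion subalgebras which are close to one at the places where
the quaternion algebra ramifies.
-/

open NumberField IsDedekindDomain Polynomial

set_option linter.unusedSectionVars false

namespace Vale.Agent.P011.One

open Vale.Agent.P011.Arith Vale.Agent.P011.Even Vale.Agent.P011.Two Vale.Agent.P011.MPQ

variable {k D : Type} [Field k] [NumberField k] [DivisionRing D] [StarRing D] [Algebra k D]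

/-- The property `HQ1` of subgroups of finite index. -/
theorem hq1_core (hM : MPQStatement) (G N : Subgroup Dˣ)
    (hG : ∀ (F : Type) [Field F] [NumberField F] [Algebra k F] (ι : F →ₐ[k] D) (α β : Fˣ) (i j : D)
      (p₀ p₁ p₂ p₃ : F) (u : D), QElt ι α β i j p₀ p₁ p₂ p₃ u → ∃ g ∈ G, (g : D) = u)
    (hN : ∀ v ∈ G, ∀ x ∈ N, v * x * v⁻¹ ∈ N) (hfin : N.relIndex G ≠ 0) (e : ℕ) (he : 0 < e)
    (hexp : ∀ x ∈ G, x ^ e ∈ N) : HQ1 k e {u : D | ∃ x ∈ N, (x : D) = u} := by
  intro F _ _ _ ι α β i j p₀ p₁ p₂ p₃ u hu hloc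
  have hA : Aniso α β := hu.fr.aniso
  obtain ⟨φ, hφ⟩ := exists_qhom hu.fr
  let Φ : SL1 α β →* Dˣ := (Units.map (φ : Qt α β →* D)).comp (SL1 α β).subtype
  have hΦv : ∀ x : SL1 α β, (Φ x : D) = φ ((x : (Qt α β)ˣ) : Qt α β) := fun x => rfl
  have hΦG : ∀ x, Φ x ∈ G := by
    intro x
    have hx : nrd ((x : (Qt α β)ˣ) : Qt α β) = 1 := x.2
    obtain ⟨g, hg, hgx⟩ := hG F ι α β i j _ _ _ _ _ ⟨hu.fr, hx, (hφ _)⟩
    rwa [show Φ x = g from Units.ext (by rw [hΦv, hgx])]
  set N' : Subgroup (SL1 α β) := N.comap Φ with hN'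
  have hnorm : N'.Normal := by
    refine ⟨fun x hx v => ?_⟩
    rw [hN', Subgroup.mem_comap, map_mul, map_mul, map_inv]
    exact hN _ (hΦG v) _ hx
  have hindex : N'.index ≠ 0 := by
    rw [hN', Subgroup.index_comap]
    intro h
    apply hfin
    apply Subgroup.relIndex_eq_zero_of_le_right _ h
    rintro _ ⟨x, rfl⟩
    exact hΦG x
  have hpow : ∀ x, x ^ e ∈ N' := by
    intro x
    rw [hN', Subgroup.mem_comap, map_pow]
    exact hexp _ (hΦG x)
  obtain ⟨q, hq⟩ : ∃ q : Qt α β, q = ⟨p₀, p₁, p₂, p₃⟩ := ⟨_, rfl⟩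
  have hq1 : nrd q = 1 := by rw [hq]; exact hu.nrm
  have hq2 : star q * q = 1 := by rw [star_mul_self_qt, hq1, map_one]
  have hq3 : q * star q = 1 := by
    have h1 : nrd (star q) = 1 := by
      rw [hq]
      have := hu.nrm
      simp only [nrd, QuaternionAlgebra.re_star, QuaternionAlgebra.imI_star,
        QuaternionAlgebra.imJ_star, QuaternionAlgebra.imK_star]
      linear_combination this
    have h2 := star_mul_self_qt (star q)
    rwa [star_star, h1, map_one] at h2
  let x₀ : (Qt α β)ˣ := ⟨q, star q, hq3, hq2⟩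
  let x₁ : SL1 α β := ⟨x₀, hq1⟩
  have hmem : x₁ ∈ N' := by
    refine hM F _ _ hA N' hnorm hindex e he hpow x₁ fun ω hω ε hε => ?_
    obtain ⟨h, hh⟩ := near_pow hA e he x₁ ω hω (by
      change ω.valuation F (2 - 2 * q.re) < _
      rw [hq]
      exact hloc ω hω) ε hε
    exact ⟨h ^ e, Subgroup.subset_closure ⟨h, rfl⟩, hh⟩
  refine ⟨Φ x₁, hmem, ?_⟩
  rw [hΦv, hu.eq]
  change φ q = _
  rw [hφ, hq]

end Vale.Agent.P011.One
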