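import Vale.Agent.P011.Two.NormNear

/-!
Elements of given norm close to the square root, with a sharp control.
-/

open NumberField IsDedekindDomain

namespace Vale.Agent.P011.One

open Vale.Agent.P011.Arith Vale.Agent.P011.Even Vale.Agent.P011.Two

section loc

variable {F : Type} [Field F] [CharZero F] (w : Valuation F Z0)

/-- The local estimate, sharp form. -/
theorem local_est2 {d c a₀ a₁ lam γ : F}
    (hlam : (w 2 ≤ w (1 + a₀) ∧ w (lam * a₁ * d) < 1 ∧ w (lam ^ 2 * d * a₀) < w 2 ∧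
        w (lam ^ 2 * d) < w 2) ∨
      (w (1 + a₀) < w 2 ∧ w a₁ < w lam ∧ 1 ≤ w (lam ^ 2 * d)))
    (hγ : w (γ - 1) < w 2) 
    (hΔ' : w ((c - γ ^ 2) * (1 - d * lam ^ 2)) < w 4)
    (M : F) (A : F) (hA : A = (γ + a₀) + 2 * lam * a₁ * d + lam ^ 2 * d * (a₀ - γ))
    (hM : M = 2 * γ * A + (c - γ ^ 2) * (1 - d * lam ^ 2)) :
    w ((c - γ ^ 2) * A / M) * w 2 = w (c - γ ^ 2) := by
  have h2le : w 2 ≤ 1 := val_two_le w
  have h20 : w (2 : F) ≠ 0 := val_two_ne w
  have h2pos : 0 < w (2 : F) := zero_lt_iff.mpr h20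
  have hγ1 : w γ = 1 := by
    have := w.map_one_add_of_lt (x := γ - 1) (lt_of_lt_of_le hγ h2le)
    rwa [add_sub_cancel] at this
  -- `A` is not small
  have hA2 : w 2 ≤ w A := by
    rcases hlam with ⟨h1, h2, h3, h4⟩ | ⟨h1, h2, h3⟩
    · have e1 : w (γ + a₀) = w (1 + a₀) := by
        have : γ + a₀ = (1 + a₀) + (γ - 1) := by ring
        rw [this]
        exact w.map_add_eq_of_lt_left (lt_of_lt_of_le hγ h1)
      have e2 : w (2 * lam * a₁ * d) < w 2 := by
        have : 2 * lam * a₁ * d = 2 * (lam * a₁ * d) := by ring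
        rw [this, map_mul]
        exact mul_lt_of_lt_one_right h2pos h2
      have e3 : w (lam ^ 2 * d * (a₀ - γ)) < w 2 := by
        rw [mul_sub]
        refine w.map_sub_lt h3 ?_
        rw [map_mul, hγ1, mul_one]
        exact h4
      have e4 : w (2 * lam * a₁ * d + lam ^ 2 * d * (a₀ - γ)) < w (γ + a₀) := by
        rw [e1]
        exact lt_of_lt_of_le (w.map_add_lt e2 e3) h1
      rw [hA, add_assoc, w.map_add_eq_of_lt_left e4, e1]
      exact h1
    · have e1 : w (γ + a₀) < w 2 := by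
        have : γ + a₀ = (1 + a₀) + (γ - 1) := by ring
        rw [this]
        exact w.map_add_lt h1 hγ
      have e2 : w (a₀ - γ) = w 2 := by
        have : a₀ - γ = -(2 * γ) + (γ + a₀) := by ring
        rw [this]
        have h2γ : w (-(2 * γ)) = w 2 := by rw [w.map_neg, map_mul, hγ1, mul_one]
        rw [w.map_add_eq_of_lt_left (by rw [h2γ]; exact e1), h2γ]
      have e3 : w (lam ^ 2 * d * (a₀ - γ)) = w (lam ^ 2 * d) * w 2 := by
        rw [map_mul, e2]
      have e4 : w 2 ≤ w (lam ^ 2 * d * (a₀ - γ)) := by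
        rw [e3]
        exact le_mul_of_one_le_left' h3
      have hlam0 : w lam ≠ 0 := by
        intro h0
        rw [map_mul, map_pow, h0] at h3
        simp at h3
      have hd0 : w d ≠ 0 := by
        intro h0
        rw [map_mul, h0, mul_zero] at h3
        simp at h3
      have e5 : w (2 * lam * a₁ * d) < w (lam ^ 2 * d * (a₀ - γ)) := by
        rw [e3, map_mul, map_mul, map_mul, map_mul, map_pow]
        have : w lam * w a₁ < w lam ^ 2 := by
          rw [sq]
          exact mul_lt_mul_of_pos_left h2 (zero_lt_iff.mpr hlam0)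
        calc w 2 * w lam * w a₁ * w d = (w lam * w a₁) * (w d * w 2) := by
              rw [mul_assoc (w 2), mul_comm (w 2), mul_assoc, mul_comm (w 2)]
          _ < w lam ^ 2 * (w d * w 2) :=
            mul_lt_mul_of_pos_right this (mul_pos (zero_lt_iff.mpr hd0) h2pos)
          _ = w lam ^ 2 * w d * w 2 := by rw [mul_assoc]
      have e6 : w (γ + a₀ + 2 * lam * a₁ * d) < w (lam ^ 2 * d * (a₀ - γ)) :=
        w.map_add_lt (lt_of_lt_of_le e1 e4) e5
      rw [hA, w.map_add_eq_of_lt_right e6]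
      exact e4
  -- `M`
  have hM1 : w M = w 2 * w A := by
    have e1 : w (2 * γ * A) = w 2 * w A := by rw [map_mul, map_mul, hγ1, mul_one]
    have e2 : w 4 ≤ w (2 * γ * A) := by
      rw [e1, val_four_eq, sq]
      exact mul_le_mul_right hA2 _
    rw [hM, w.map_add_eq_of_lt_left (lt_of_lt_of_le hΔ' e2), e1]
  have hA0 : w A ≠ 0 := fun h => by
    rw [h] at hA2
    exact h20 (le_zero_iff.mp hA2)
  have hM0 : M ≠ 0 := by
    rw [← Valuation.ne_zero_iff w, hM1]
    exact mul_ne_zero h20 hA0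
  rw [map_div₀, map_mul, hM1, mul_comm (w 2), ← div_div, mul_div_assoc (w (c - γ ^ 2)),
    div_self hA0, mul_one, div_mul_cancel₀ _ h20]

end loc

variable {F : Type} [Field F] [NumberField F]

/-- Elements of norm `c` which are close to the square root of `c` at finitely many places where
`c` is close to one, with a sharp control at the places of `T`. -/
theorem norm_near2 (d c : Fˣ) (hc : c ∈ NF d) (B T : Finset (HeightOneSpectrum (𝓞 F)))
    (hTB : T ⊆ B) (hTn : B.Nonempty) (e : ℕ) (he : 0 < e)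
    (hB : ∀ ω ∈ B, ω.valuation F (1 - c) < ω.valuation F (4 * (e : F) ^ 4)) (P : F → Prop)
    (hG : ∀ β : HeightOneSpectrum (𝓞 F) → Z0, (∀ ω, β ω ≠ 0) → ∃ g : F, P g ∧
      ∀ ω ∈ T, ω.valuation F (g - 1) < ω.valuation F 2 ∧ ω.valuation F (c - g ^ 2) < β ω)
    (τ' : HeightOneSpectrum (𝓞 F) → Z0) (hτ' : ∀ ω, τ' ω ≠ 0) :
    ∃ g p₀ p₁ : F, P g ∧ p₀ ^ 2 - d * p₁ ^ 2 = c ∧
      (∀ ω ∈ B, ω.valuation F (2 - 2 * p₀) < ω.valuation F (4 * (e : F) ^ 4)) ∧
      ∀ ω ∈ T, ω.valuation F (p₀ - g) < τ' ω ∧ ω.valuation F p₁ < τ' ω := by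
  classical
  obtain ⟨a₀, a₁, hca⟩ := hc
  obtain ⟨ω₀, hω₀⟩ := hTn
  set τ : F := 4 * (e : F) ^ 4 with hτ
  have hτle : ∀ ω : HeightOneSpectrum (𝓞 F), ω.valuation F τ ≤ ω.valuation F 4 := by
    intro ω
    rw [hτ, map_mul]
    refine mul_le_of_le_one_right' ?_
    have : ω.valuation F (e : F) ≤ 1 := by
      have := ω.valuation_le_one (K := F) (e : 𝓞 F)
      simpa using this
    rw [map_pow]
    exact pow_le_one' this 4
  -- choice of `lam`
  have hlamloc : ∀ ω : HeightOneSpectrum (𝓞 F), ∃ l : F, l ≠ 0 ∧ ∀ lam : F,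
      ω.valuation F lam = ω.valuation F l →
      (ω.valuation F 2 ≤ ω.valuation F (1 + a₀) ∧ ω.valuation F (lam * a₁ * d) < 1 ∧
        ω.valuation F (lam ^ 2 * d * a₀) < ω.valuation F 2 ∧
        ω.valuation F (lam ^ 2 * d) < ω.valuation F 2) ∨
      (ω.valuation F (1 + a₀) < ω.valuation F 2 ∧ ω.valuation F a₁ < ω.valuation F lam ∧
        1 ≤ ω.valuation F (lam ^ 2 * d)) := by
    intro ω
    set v := ω.valuation F with hv
    obtain ⟨π, hπ⟩ := ω.valuation_exists_uniformizer F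
    rw [← hv] at hπ
    have hπ1 : v π < 1 := by
      rw [hπ, ← WithZero.exp_zero, WithZero.exp_lt_exp]
      norm_num
    have hπ0 : π ≠ 0 := by
      rw [← Valuation.ne_zero_iff v, hπ]
      exact WithZero.exp_ne_zero
    have hpow : ∀ x : Z0, x ≠ 0 → ∃ n : ℕ, v π ^ n < x := by
      intro x hx
      obtain ⟨n, hn⟩ := exists_pow_lt₀ hπ1 (Units.mk0 x hx)
      exact ⟨n, hn⟩
    have hv2 : v (2 : F) ≠ 0 := val_two_ne v
    have hd0 : v (d : F) ≠ 0 := (Valuation.ne_zero_iff v).mpr d.ne_zero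
    by_cases h : v 2 ≤ v (1 + a₀)
    · -- small
      set m : Z0 := max 1 (max (v (a₁ * d)) (max (v (d * a₀)) (v d))) with hm
      have hm1 : 1 ≤ m := le_max_left _ _
      have hm2 : v (a₁ * d) ≤ m := (le_max_left _ _).trans (le_max_right _ _)
      have hm3 : v (d * a₀) ≤ m :=
        ((le_max_left _ _).trans (le_max_right _ _)).trans (le_max_right _ _)
      have hm4 : v d ≤ m :=
        ((le_max_right _ _).trans (le_max_right _ _)).trans (le_max_right _ _)
      have hm0 : 0 < m := lt_of_lt_of_le zero_lt_one hm1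
      obtain ⟨n, hn⟩ := hpow (v 2 / m) (div_ne_zero hv2 hm0.ne')
      refine ⟨π ^ n, pow_ne_zero n hπ0, fun lam hlam => Or.inl ⟨h, ?_⟩⟩
      rw [map_pow] at hlam
      rw [← hlam, lt_div_iff₀ hm0] at hn
      have hl1 : v lam ≤ 1 := by
        rw [hlam]
        exact pow_le_one' hπ1.le n
      have hsq : v lam ^ 2 ≤ v lam := by
        rw [sq]
        exact mul_le_of_le_one_left' hl1
      have h2le : v 2 ≤ 1 := val_two_le v
      refine ⟨?_, ?_, ?_⟩
      · rw [mul_assoc, map_mul]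
        exact lt_of_le_of_lt (mul_le_mul_right hm2 _) (lt_of_lt_of_le hn h2le)
      · rw [mul_assoc, map_mul, map_pow]
        exact lt_of_le_of_lt (mul_le_mul' hsq hm3) hn
      · rw [map_mul, map_pow]
        exact lt_of_le_of_lt (mul_le_mul' hsq hm4) hn
    · -- large
      set m : Z0 := max 1 (max (v a₁) (v d)⁻¹) with hm
      have hm1 : 1 ≤ m := le_max_left _ _
      have hm2 : v a₁ ≤ m := (le_max_left _ _).trans (le_max_right _ _)
      have hm3 : (v d)⁻¹ ≤ m := (le_max_right _ _).trans (le_max_right _ _)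
      have hm0 : 0 < m := lt_of_lt_of_le zero_lt_one hm1
      obtain ⟨n, hn⟩ := hpow m⁻¹ (inv_ne_zero hm0.ne')
      refine ⟨(π ^ n)⁻¹, inv_ne_zero (pow_ne_zero n hπ0), fun lam hlam =>
        Or.inr ⟨not_le.mp h, ?_⟩⟩
      rw [map_inv₀, map_pow] at hlam
      have hπn : 0 < v π ^ n := pow_pos (zero_lt_iff.mpr ((Valuation.ne_zero_iff v).mpr hπ0)) n
      have hml : m < v lam := by
        rw [hlam]
        exact (lt_inv_comm₀ hπn hm0).mp hn
      have hl1 : 1 ≤ v lam := hm1.trans hml.le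
      refine ⟨lt_of_le_of_lt hm2 hml, ?_⟩
      rw [map_mul, map_pow]
      have h1 : (v d)⁻¹ ≤ v lam ^ 2 := by
        refine (hm3.trans hml.le).trans ?_
        rw [sq]
        exact le_mul_of_one_le_left' hl1
      calc (1 : Z0) = (v d)⁻¹ * v d := (inv_mul_cancel₀ hd0).symm
        _ ≤ v lam ^ 2 * v d := mul_le_mul_left h1 _
  choose l hl0 hl using hlamloc
  obtain ⟨lam, hlam, -⟩ := approxVal B l (fun ω => ω.valuation F (l ω))
    (fun ω _ => (Valuation.ne_zero_iff _).mpr (hl0 ω)) (fun _ => 0) (ε := 1) one_pos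
  have hlamv : ∀ ω ∈ B, ω.valuation F lam = ω.valuation F (l ω) := by
    intro ω hω
    have h1 := hlam ω hω
    have : lam = l ω + (lam - l ω) := by ring
    rw [this]
    exact Valuation.map_add_eq_of_lt_left _ h1
  -- choice of `γ`
  set σ : HeightOneSpectrum (𝓞 F) → Z0 := fun ω =>
    min (τ' ω) (min 1 (τ' ω ^ 2 * ω.valuation F d)) with hσ
  have hσ0 : ∀ ω, 0 < σ ω := by
    intro ω
    have hd0 : ω.valuation F (d : F) ≠ 0 := (Valuation.ne_zero_iff _).mpr d.ne_zero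
    exact lt_min (zero_lt_iff.mpr (hτ' ω)) (lt_min one_pos
      (mul_pos (pow_pos (zero_lt_iff.mpr (hτ' ω)) 2) (zero_lt_iff.mpr hd0)))
  have hτ0 : ∀ ω : HeightOneSpectrum (𝓞 F), 0 < ω.valuation F τ := by
    intro ω
    rw [zero_lt_iff, Valuation.ne_zero_iff, hτ]
    exact mul_ne_zero (by norm_num) (pow_ne_zero 4 (by exact_mod_cast he.ne'))
  have h40 : ∀ ω : HeightOneSpectrum (𝓞 F), 0 < ω.valuation F (4 : F) := fun ω =>
    zero_lt_iff.mpr (val_four_ne _)
  have h20 : ∀ ω : HeightOneSpectrum (𝓞 F), 0 < ω.valuation F (2 : F) := fun ω =>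
    zero_lt_iff.mpr (val_two_ne _)
  have hm0 : ∀ ω : HeightOneSpectrum (𝓞 F), 0 < max 1 (ω.valuation F (1 - d * lam ^ 2)) := fun ω =>
    lt_of_lt_of_le zero_lt_one (le_max_left _ _)
  obtain ⟨gT, hPg, hgT⟩ := hG (fun ω => min (ω.valuation F τ)
    (min (ω.valuation F 4 / max 1 (ω.valuation F (1 - d * lam ^ 2))) (σ ω * ω.valuation F 2)))
    (fun ω => (lt_min (hτ0 ω) (lt_min (div_pos (h40 ω) (hm0 ω))
      (mul_pos (hσ0 ω) (h20 ω)))).ne')
  have hγloc : ∀ ω : HeightOneSpectrum (𝓞 F), ∃ g : F, ω ∈ B →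
      ω.valuation F (g - 1) < ω.valuation F 2 ∧ ω.valuation F (c - g ^ 2) < ω.valuation F τ ∧
        ω.valuation F ((c - g ^ 2) * (1 - d * lam ^ 2)) < ω.valuation F 4 ∧
        (ω ∈ T → g = gT ∧ ω.valuation F (c - g ^ 2) < σ ω * ω.valuation F 2) := by
    intro ω
    by_cases hω : ω ∈ B
    · set m : Z0 := max 1 (ω.valuation F (1 - d * lam ^ 2)) with hm
      have hm0 : 0 < m := lt_of_lt_of_le zero_lt_one (le_max_left _ _)
      by_cases hωT : ω ∈ T
      · obtain ⟨hg1, hg2⟩ := hgT ω hωT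
        rw [lt_min_iff, lt_min_iff] at hg2
        refine ⟨gT, fun _ => ⟨hg1, hg2.1, ?_, fun _ => ⟨rfl, hg2.2.2⟩⟩⟩
        rw [map_mul]
        calc _ ≤ ω.valuation F (c - gT ^ 2) * m := mul_le_mul_right (le_max_right _ _) _
          _ < ω.valuation F 4 := (lt_div_iff₀ hm0).mp hg2.2.1
      · obtain ⟨g, hg1, hg2⟩ := exists_sqrt (ω.valuation F) (c : F)
          (lt_of_lt_of_le (hB ω hω) (hτle ω)) (β := min (ω.valuation F τ) (ω.valuation F 4 / m))
          (lt_min (hτ0 ω) (div_pos (h40 ω) hm0)).ne'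
        rw [lt_min_iff] at hg2
        refine ⟨g, fun _ => ⟨hg1, hg2.1, ?_, fun h => absurd h hωT⟩⟩
        rw [map_mul]
        calc _ ≤ ω.valuation F (c - g ^ 2) * m := mul_le_mul_right (le_max_right _ _) _
          _ < ω.valuation F 4 := (lt_div_iff₀ hm0).mp hg2.2
    · exact ⟨0, fun h => absurd h hω⟩
  choose g hg using hγloc
  -- a common bound
  have hbd : ∀ ω : HeightOneSpectrum (𝓞 F), ∃ β : Z0, β ≠ 0 ∧ (ω ∈ B → ∀ γ : F,
      ω.valuation F (γ - g ω) < β →
      ω.valuation F (γ - 1) < ω.valuation F 2 ∧ ω.valuation F (c - γ ^ 2) < ω.valuation F τ ∧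
        ω.valuation F ((c - γ ^ 2) * (1 - d * lam ^ 2)) < ω.valuation F 4 ∧
        (ω ∈ T → ω.valuation F (γ - gT) < σ ω ∧
          ω.valuation F (c - γ ^ 2) < σ ω * ω.valuation F 2)) := by
    intro ω
    by_cases hω : ω ∈ B
    · obtain ⟨h1, h2, h3, h5⟩ := hg ω hω
      have hτ0 := hτ0 ω
      have h40 := h40 ω
      have h20 := h20 ω
      have hσ0 := hσ0 ω
      set v := ω.valuation F with hv
      set m : Z0 := max 1 (v (1 - d * lam ^ 2)) with hm
      have hm0 : 0 < m := lt_of_lt_of_le zero_lt_one (le_max_left _ _)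
      have h2le : v 2 ≤ 1 := val_two_le v
      refine ⟨min (v 2) (min (v τ) (min (v 4 / m) (σ ω * v 2))),
        (lt_min h20 (lt_min hτ0 (lt_min (div_pos h40 hm0) (mul_pos hσ0 h20)))).ne',
        fun _ γ hγ => ?_⟩
      rw [lt_min_iff, lt_min_iff, lt_min_iff] at hγ
      obtain ⟨k1, k2, k3, k4⟩ := hγ
      have hgle : v (g ω) ≤ 1 := by
        have : g ω = 1 + (g ω - 1) := by ring
        rw [this]
        exact v.map_add_le (by simp) (h1.le.trans h2le)
      have hγ1 : v (γ - 1) < v 2 := by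
        have : γ - 1 = (γ - g ω) + (g ω - 1) := by ring
        rw [this]
        exact v.map_add_lt k1 h1
      have hγle : v γ ≤ 1 := by
        have : γ = 1 + (γ - 1) := by ring
        rw [this]
        exact v.map_add_le (by simp) (hγ1.le.trans h2le)
      have hdiff : v (g ω ^ 2 - γ ^ 2) ≤ v (γ - g ω) := by
        have : g ω ^ 2 - γ ^ 2 = -((γ - g ω) * (g ω + γ)) := by ring
        rw [this, v.map_neg, map_mul]
        exact mul_le_of_le_one_right' (v.map_add_le hgle hγle)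
      have e : c - γ ^ 2 = (c - g ω ^ 2) + (g ω ^ 2 - γ ^ 2) := by ring
      refine ⟨hγ1, ?_, ?_, fun hT => ?_⟩
      · rw [e]
        exact v.map_add_lt h2 (lt_of_le_of_lt hdiff k2)
      · rw [e, add_mul]
        refine v.map_add_lt h3 ?_
        rw [map_mul]
        calc _ ≤ v (γ - g ω) * m := mul_le_mul' hdiff (le_max_right _ _)
          _ < v 4 := (lt_div_iff₀ hm0).mp k3
      · obtain ⟨h6, h7⟩ := h5 hT
        refine ⟨?_, ?_⟩
        · rw [← h6]
          exact lt_of_lt_of_le k4 (mul_le_of_le_one_right' h2le)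
        · rw [e]
          exact v.map_add_lt h7 (lt_of_le_of_lt hdiff k4)
    · exact ⟨1, one_ne_zero, fun h => absurd h hω⟩
  choose β hβ0 hβ using hbd
  obtain ⟨γ, hγ, -⟩ := approxVal B g β (fun ω _ => hβ0 ω) (fun _ => 0) (ε := 1) one_pos
  set A : F := (γ + a₀) + 2 * lam * a₁ * d + lam ^ 2 * d * (a₀ - γ) with hA
  set M : F := 2 * γ * A + (c - γ ^ 2) * (1 - d * lam ^ 2) with hM
  have key : ∀ ω ∈ B, M ≠ 0 ∧ ω.valuation F (2 - 2 * (γ + (c - γ ^ 2) * A / M)) <
      ω.valuation F τ ∧ ω.valuation F ((c - γ ^ 2) * A / M) * ω.valuation F 2 =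
        ω.valuation F (c - γ ^ 2) := by
    intro ω hω
    obtain ⟨h1, h2, h3, -⟩ := hβ ω hω γ (hγ ω hω)
    obtain ⟨q1, q2⟩ := local_est (ω.valuation F) (hτle ω) (hB ω hω) (hl ω lam (hlamv ω hω)) h1 h2
      h3 M A hA hM
    exact ⟨q1, q2, local_est2 (ω.valuation F) (hl ω lam (hlamv ω hω)) h1 h3 M A hA hM⟩
  have hM0 : M ≠ 0 := (key ω₀ hω₀).1
  set μ₀ : F := γ + a₀ + lam * d * a₁ with hμ₀
  set μ₁ : F := a₁ + lam * (a₀ - γ) with hμ₁
  have hnorm : (γ + (c - γ ^ 2) * A / M) ^ 2 - d * ((c - γ ^ 2) * (μ₁ + lam * μ₀) / M) ^ 2 =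
      c := by
    have e1 : M = μ₀ ^ 2 - d * μ₁ ^ 2 := by
      rw [hM, hA, hμ₀, hμ₁]
      rw [hca]
      ring
    have e2 : A = μ₀ + lam * d * μ₁ := by
      rw [hA, hμ₀, hμ₁]
      ring
    have e3 : (γ * M + (c - γ ^ 2) * A) ^ 2 - d * ((c - γ ^ 2) * (μ₁ + lam * μ₀)) ^ 2 =
        c * M ^ 2 := by
      rw [e1, e2, hμ₀, hμ₁, hca]
      ring
    have e4 : γ + (c - γ ^ 2) * A / M = (γ * M + (c - γ ^ 2) * A) / M := by
      field_simp
    rw [e4, div_pow, div_pow, mul_div_assoc', ← sub_div, e3]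
    field_simp
  refine ⟨gT, γ + (c - γ ^ 2) * A / M, (c - γ ^ 2) * (μ₁ + lam * μ₀) / M, hPg, hnorm,
    fun ω hω => (key ω hω).2.1, fun ω hω => ?_⟩
  have hωB := hTB hω
  obtain ⟨h1, -, -, h5⟩ := hβ ω hωB γ (hγ ω hωB)
  obtain ⟨h6, h7⟩ := h5 hω
  have h8 := (key ω hωB).2.2
  have hσ0 := hσ0 ω
  have h20 := h20 ω
  have hτ'0 := zero_lt_iff.mpr (hτ' ω)
  set v := ω.valuation F with hv
  set X : F := (c - γ ^ 2) * A / M with hX
  set Y : F := (c - γ ^ 2) * (μ₁ + lam * μ₀) / M with hY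
  have hXσ : v X < σ ω := by
    rw [← h8] at h7
    exact lt_of_mul_lt_mul_right' h7
  have hσ1 : σ ω ≤ τ' ω := min_le_left _ _
  have hσ2 : σ ω ≤ 1 := (min_le_right _ _).trans (min_le_left _ _)
  have hσ3 : σ ω ≤ τ' ω ^ 2 * v d := (min_le_right _ _).trans (min_le_right _ _)
  have hγle : v γ ≤ 1 := by
    have : γ = 1 + (γ - 1) := by ring
    rw [this]
    exact v.map_add_le (by simp) (h1.le.trans (val_two_le v))
  refine ⟨?_, ?_⟩
  · have e : γ + X - gT = (γ - gT) + X := by ring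
    rw [e]
    exact lt_of_lt_of_le (v.map_add_lt h6 hXσ) hσ1
  · have e : (d : F) * Y ^ 2 = X * (2 * γ + X) - (c - γ ^ 2) := by
      linear_combination -hnorm
    have h9 : v ((d : F) * Y ^ 2) < σ ω := by
      rw [e]
      refine v.map_sub_lt ?_ ?_
      · rw [map_mul]
        refine lt_of_le_of_lt (mul_le_of_le_one_right' ?_) hXσ
        refine v.map_add_le ?_ (hXσ.le.trans hσ2)
        rw [map_mul]
        exact mul_le_one' (val_two_le v) hγle
      · exact lt_of_lt_of_le h7 (mul_le_of_le_one_right' (val_two_le v))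
    have h10 := lt_of_lt_of_le h9 hσ3
    rw [map_mul, map_pow, mul_comm] at h10
    have h11 := lt_of_mul_lt_mul_right' h10
    by_contra hcon
    rw [not_lt] at hcon
    exact absurd h11 (not_lt.mpr (pow_le_pow_left₀ zero_le hcon 2))

end Vale.Agent.P011.One
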