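import Vale.Agent.P011.One.Near
import Vale.Agent.P011.One.NormNear2
import Vale.Agent.P011.One.HQ1

/-!
The closing step with a control of the conjugating element at finitely many finite places.
-/

open NumberField IsDedekindDomain Polynomial

set_option linter.unusedSectionVars false

namespace Vale.Agent.P011.One

open Vale.Agent.P011.Arith Vale.Agent.P011.Even Vale.Agent.P011.Two Vale.Agent.P011.MPQ

section arith

variable {k F : Type} [Field k] [NumberField k] [Field F] [NumberField F] [Algebra k F]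

/-- An element of the ground field which is small at given places above `v`. -/
theorem exists_small_elt (v : HeightOneSpectrum (𝓞 k)) (T : Finset (HeightOneSpectrum (𝓞 F)))
    (β : HeightOneSpectrum (𝓞 F) → Z0) (hβ : ∀ ω, β ω ≠ 0) :
    ∃ b : k, b ≠ 0 ∧ ∀ ω ∈ T, Ab ω v → ω.valuation F (algebraMap k F b) < β ω := by
  classical
  obtain ⟨π, hπ⟩ := exists_val_lt_one v
  have h1 : ∀ ω : HeightOneSpectrum (𝓞 F), ∃ n₀ : ℕ, ∀ n ≥ n₀, Ab ω v →
      ω.valuation F (algebraMap k F π) ^ n < β ω := by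
    intro ω
    by_cases hω : Ab ω v
    · have h2 : ω.valuation F (algebraMap k F (π : k)) < 1 := by
        obtain ⟨n, hn, h⟩ := val_above hω
        rw [h]
        exact pow_lt_one₀ zero_le hπ (by omega)
      obtain ⟨n₀, hn₀⟩ := exists_pow_lt₀ h2 (Units.mk0 _ (hβ ω))
      refine ⟨n₀, fun n hn _ => lt_of_le_of_lt ?_ hn₀⟩
      exact pow_le_pow_right_of_le_one' h2.le hn
    · exact ⟨0, fun _ _ h => absurd h hω⟩
  choose n₀ hn₀ using h1
  refine ⟨(π : k) ^ (T.sup n₀), pow_ne_zero _ π.ne_zero, fun ω hω hab => ?_⟩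
  rw [map_pow, map_pow]
  exact hn₀ ω _ (Finset.le_sup hω) hab

theorem below_unique {ω : HeightOneSpectrum (𝓞 F)} {v v' : HeightOneSpectrum (𝓞 k)}
    (h : Ab ω v) (h' : Ab ω v') : v = v' := by
  apply HeightOneSpectrum.ext
  rw [← h, ← h']

end arith

section main

variable {k K D : Type} [Field k] [NumberField k] [Field K] [StarRing K]
    [DivisionRing D] [StarRing D] [Algebra k K] [Algebra k D] [Algebra K D] [IsScalarTower k K D]
    {d : kˣ} {s : K} {M : ℕ}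

/-- The local constants. -/
theorem local_consts (B : Module.Basis (Fin M) k D) {a : kˣ} {e : ℕ} (he : 0 < e)
    (v : HeightOneSpectrum (𝓞 k)) (R : ℝ) {ε : ℝ} (hε : 0 < ε) :
    ∃ δ δ₁ δ₄ δ₆ : ℝ, 0 < δ ∧ 0 < δ₁ ∧ 0 < δ₄ ∧ 0 < δ₆ ∧
      (∀ z w : D, nm B (.inl v) (z - 1) < δ₁ → nm B (.inl v) (w - 1) < δ₁ →
        nm B (.inl v) (z * w - 1) < ε) ∧
      (∀ (F : Type) [Field F] [NumberField F] [Algebra k F] (j : F →ₐ[k] D)
        (w : HeightOneSpectrum (𝓞 F)), Ab w v → ∀ y : F, nm B (.inl v) (j y) < δ₆ →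
        w.valuation F y < w.valuation F (algebraMap k F 2)) ∧
      ∀ x y : D, x ∈ Xa D a → y ∈ Xa D a → nm B (.inl v) x ≤ R → nm B (.inl v) (x - y) < δ →
        nm B (.inl v) ((cc a x y)⁻¹ * (1 + (2 * a : k)⁻¹ • ((y - x) * x)) - 1) < δ₁ ∧
        (∀ m, nm B (.inl v) (gs k (cc a x y) m - 1) < min (δ₁ / 3) δ₆ ∧
          nm B (.inl v) (gs k (cc a x y) m ^ 2 - cc a x y) ≤ (1 / 2) ^ m * δ₄) ∧
        (∀ (F : Type) [Field F] [NumberField F] [Algebra k F] (j : F →ₐ[k] D)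
          (w : HeightOneSpectrum (𝓞 F)), Ab w v → ∀ c : F, j c = cc a x y →
          w.valuation F (1 - c) < w.valuation F (4 * (e : F) ^ 4)) := by
  obtain ⟨δ₁, hδ₁, H1⟩ := near_mul B (.inl v : Pl k) hε
  obtain ⟨δ₂, hδ₂, H2⟩ := near_mul B (.inl v : Pl k) hδ₁
  obtain ⟨δ₃, hδ₃, H3⟩ := near_inv B (.inl v : Pl k) hδ₂
  obtain ⟨δ₆, hδ₆, H6⟩ := val_of_small B v 2 two_ne_zero
  obtain ⟨δ₄, hδ₄, H4⟩ := gs_bound B (.inl v : Pl k) (ε := min (δ₁ / 3) δ₆)
    (lt_min (by positivity) hδ₆)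
  have he' : (e : k) ≠ 0 := Nat.cast_ne_zero.mpr he.ne'
  obtain ⟨δ₅, hδ₅, H5⟩ := val_of_small B v (4 * (e : k) ^ 4)
    (mul_ne_zero (by norm_num) (pow_ne_zero _ he'))
  obtain ⟨C, hC, hCm⟩ := nm_mul B (.inl v : Pl k)
  have h4 : (4 * a : k) ≠ 0 := mul_ne_zero (by norm_num) a.ne_zero
  have h2 : (2 * a : k) ≠ 0 := mul_ne_zero (by norm_num) a.ne_zero
  obtain ⟨A, hA⟩ : ∃ A : ℝ, A = plAbv (.inl v : Pl k) ((4 * a : k)⁻¹) := ⟨_, rfl⟩
  have hA0 : 0 < A := by rw [hA]; exact (plAbv _).pos (inv_ne_zero h4)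
  obtain ⟨A', hA'⟩ : ∃ A : ℝ, A = plAbv (.inl v : Pl k) ((2 * a : k)⁻¹) := ⟨_, rfl⟩
  have hA'0 : 0 < A' := by rw [hA']; exact (plAbv _).pos (inv_ne_zero h2)
  obtain ⟨m, hm, m3, m4, m5⟩ : ∃ m : ℝ, 0 < m ∧ m ≤ δ₃ ∧ m ≤ δ₄ ∧ m ≤ δ₅ :=
    ⟨min δ₃ (min δ₄ δ₅), by positivity, min_le_left _ _, (min_le_right _ _).trans (min_le_left _ _),
      (min_le_right _ _).trans (min_le_right _ _)⟩
  refine ⟨min 1 (min (m / (A * C + 1)) (δ₂ / (A' * C * (|R| + 1) + 1))), δ₁, δ₄, δ₆, by positivity,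
    hδ₁, hδ₄, hδ₆, H1, H6, fun x y hx hy hR hxy => ?_⟩
  obtain ⟨t, ht⟩ : ∃ t : ℝ, t = nm B (.inl v) (x - y) := ⟨_, rfl⟩
  have ht0 : 0 ≤ t := by rw [ht]; exact nm_nonneg B _ _
  rw [← ht, lt_min_iff, lt_min_iff, lt_div_iff₀ (by positivity), lt_div_iff₀ (by positivity)] at hxy
  obtain ⟨t1, t2, t3⟩ := hxy
  have hcc : nm B (.inl v) (cc a x y - 1) < m := by
    have e1 : cc a x y - 1 = -((4 * a : k)⁻¹ • ((x - y) * (x - y))) := by
      rw [← neg_sub, cc_add hx hy, Algebra.smul_def, Algebra.commutes]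
    rw [e1, nm_neg, nm_smul, ← hA]
    have h1 := hCm (x - y) (x - y)
    rw [← ht] at h1
    have h5 : A * nm B (.inl v) ((x - y) * (x - y)) ≤ A * (C * t * t) :=
      mul_le_mul_of_nonneg_left h1 hA0.le
    have h6 : A * (C * t * t) ≤ A * C * t := by
      have : 0 ≤ A * C * t := by positivity
      nlinarith
    nlinarith
  refine ⟨?_, ?_, ?_⟩
  · refine H2 _ _ (H3 _ (hcc.trans_le m3)) ?_
    rw [add_sub_cancel_left, nm_smul, ← hA']
    have h1 := hCm (y - x) x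
    rw [← nm_neg B _ (y - x), neg_sub, ← ht] at h1
    have hR' : nm B (.inl v) x ≤ |R| := hR.trans (le_abs_self R)
    have h5 : C * t * nm B (.inl v) x ≤ C * t * |R| := mul_le_mul_of_nonneg_left hR' (by positivity)
    have h6 : A' * nm B (.inl v) ((y - x) * x) ≤ A' * (C * t * |R|) :=
      mul_le_mul_of_nonneg_left (h1.trans h5) hA'0.le
    have h7 : 0 ≤ A' * C * t := by positivity
    nlinarith
  · exact H4 _ (hcc.trans_le m4)
  · intro F _ _ _ j w hw c hj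
    have h1 := H5 F j w hw (c - 1) (by
      rw [map_sub, map_one, hj]
      exact hcc.trans_le m5)
    rw [← Valuation.map_sub_swap] at h1
    rwa [map_mul, map_pow, map_natCast, map_ofNat] at h1

/-- **The closing step, with a control at finitely many places.** -/
theorem close_rel_near (hS : Setting k K D d s) (B : Module.Basis (Fin M) k D) {a : kˣ} {e : ℕ}
    (he : 0 < e) {N : Set D} (h1N : (1 : D) ∈ N) (hN : HQ1 k e N)
    (Tk : Finset (HeightOneSpectrum (𝓞 k))) (R : ℝ) {ε : ℝ} (hε : 0 < ε) :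
    ∃ δ : ℝ, 0 < δ ∧ ∀ x ∈ Xa D a, ∀ y ∈ Xa D a, Rel1 d e a x y →
      (∀ v ∈ Tk, nm B (.inl v) x ≤ R) → (∀ v ∈ Tk, nm B (.inl v) (x - y) < δ) →
      ∃ u ∈ N, u * x = y * u ∧ ∀ v ∈ Tk, nm B (.inl v) (u - 1) < ε := by
  classical
  rcases Tk.eq_empty_or_nonempty with rfl | ⟨v₀, hv₀⟩
  · refine ⟨1, one_pos, fun x hx y hy h _ _ => ?_⟩
    obtain ⟨u, hu, hux⟩ := close_rel hS he h1N hN hx hy h
    exact ⟨u, hu, hux, fun v hv => absurd hv (Finset.notMem_empty v)⟩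
  choose δ δ₁ δ₄ δ₆ hδ hδ₁ hδ₄ hδ₆ H1 H6 H using
    fun v : HeightOneSpectrum (𝓞 k) => local_consts B (a := a) he v R hε
  obtain ⟨δ₀, hδ₀, hle⟩ := exists_le_all Tk δ hδ
  refine ⟨δ₀, hδ₀, fun x hx y hy h hxR hxy => ?_⟩
  rcases h with rfl | ⟨F, _, _, _, ι, c', c₁, sym, cx, cy, hc, hc₁, hcN, hloc⟩
  · exact ⟨1, h1N, by rw [one_mul, mul_one], fun v _ => by rw [sub_self, nm_zero]; exact hε⟩
  have hH := fun v hv => H v x y hx hy (hxR v hv) ((hxy v hv).trans_le (hle v hv))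
  obtain ⟨T, hT⟩ := above_finset (F := F) Tk
  have hbl : ∀ ω : HeightOneSpectrum (𝓞 F), ∃ v : HeightOneSpectrum (𝓞 k), Ab ω v :=
    fun ω => Arith.exists_below ω
  choose bl hbl using hbl
  have hTb : ∀ ω ∈ T, bl ω ∈ Tk := by
    intro ω hω
    obtain ⟨v, hv, hab⟩ := (hT ω).mp hω
    rwa [below_unique (hbl ω) hab]
  have hTne : T.Nonempty := by
    obtain ⟨w, hw⟩ := Arith.exists_above (E := F) v₀
    exact ⟨w, (hT w).mpr ⟨v₀, hv₀, hw⟩⟩
  have hβ0 : (4 : F) * (inc k F (a * d) : F) * c' * c₁ ≠ 0 :=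
    mul_ne_zero (mul_ne_zero (mul_ne_zero (by norm_num) (Units.ne_zero _)) c'.ne_zero) c₁.ne_zero
  obtain ⟨β, hβ⟩ : ∃ β : Fˣ, (β : F) = 4 * (inc k F (a * d) : F) * c' * c₁ :=
    ⟨Units.mk0 _ hβ0, rfl⟩
  have hfin : {ω : HeightOneSpectrum (𝓞 F) |
      β ∉ NF (inc k F (a * d)) ⊔ LS (ω.valuation F)}.Finite := by
    have := bad_finite (inc k F (a * d)) β
    exact Set.Finite.preimage (Sum.inl_injective.injOn) this
  have hβ' : β * (-(c' * c₁)) ∈ NF (inc k F (a * d)) := by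
    refine ⟨0, 2 * (c' * c₁), ?_⟩
    rw [Units.val_mul, Units.val_neg, Units.val_mul, hβ]
    ring
  -- the norm constants
  choose C hC hCm using fun v : HeightOneSpectrum (𝓞 k) => nm_mul B (.inl v : Pl k)
  have hη : ∀ v : HeightOneSpectrum (𝓞 k), ∃ η : kˣ, ∀ f : F,
      (∀ ω : HeightOneSpectrum (𝓞 F), Ab ω v →
        ω.valuation F f < ω.valuation F (algebraMap k F η)) → nm B (.inl v) (ι f) <
          min (δ₁ v / 3) (δ₁ v / (3 * (C v * nm B (.inl v) (algebraMap K D s * x) + 1))) := by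
    intro v
    have h1 := hδ₁ v
    have h2 := hC v
    have h3 := nm_nonneg B (.inl v) (algebraMap K D s * x)
    exact small_of_val B ι v (by positivity)
  choose η hη using hη
  obtain ⟨g, P, Q, hPg, hPQ, hPB, hPT⟩ := norm_near2 (inc k F (a * d)) c' hcN
    (hfin.toFinset ∪ T) T Finset.subset_union_right (hTne.mono Finset.subset_union_right) e he (by
      intro ω hω
      rw [Finset.mem_union, Set.Finite.mem_toFinset] at hω
      rcases hω with hω | hω
      · rcases hloc ω with h | h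
        · exfalso
          apply hω
          have h2 : -(c' * c₁) ∈ NF (inc k F (a * d)) ⊔ LS (ω.valuation F) := by
            rw [← mul_neg]
            exact mul_mem (Subgroup.mem_sup_left hcN) h
          have h3 := mul_mem (Subgroup.mem_sup_left (T := LS (ω.valuation F)) hβ') (inv_mem h2)
          rwa [mul_inv_cancel_right] at h3
        · rwa [← hc₁]
      · exact (hH _ (hTb ω hω)).2.2 F ι ω (hbl ω) c' hc)
    (fun g => ∀ v ∈ Tk, nm B (.inl v) (ι g - 1) < min (δ₁ v / 3) (δ₆ v)) (by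
      intro β₀ hβ₀
      have hb : ∀ v : HeightOneSpectrum (𝓞 k), ∃ b : k, b ≠ 0 ∧ ∀ ω ∈ T, Ab ω v →
          ω.valuation F (algebraMap k F b) < β₀ ω := fun v => exists_small_elt v T β₀ hβ₀
      choose b hb0 hb using hb
      choose δ₇ hδ₇ H7 using fun v : HeightOneSpectrum (𝓞 k) => val_of_small B v (b v) (hb0 v)
      have hm : ∀ v : HeightOneSpectrum (𝓞 k), ∃ m : ℕ, (1 / 2 : ℝ) ^ m * δ₄ v < δ₇ v := by
        intro v
        obtain ⟨m, hm⟩ := exists_pow_lt_of_lt_one (div_pos (hδ₇ v) (hδ₄ v))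
          (show (1 / 2 : ℝ) < 1 by norm_num)
        exact ⟨m, by rwa [lt_div_iff₀ (hδ₄ v)] at hm⟩
      choose m hm using hm
      have hg : ι (gs k (c' : F) (Tk.sup m)) = gs k (cc a x y) (Tk.sup m) := by
        rw [gs_map, hc]
      refine ⟨gs k (c' : F) (Tk.sup m), fun v hv => ?_, fun ω hω => ⟨?_, ?_⟩⟩
      · rw [hg]
        exact ((hH v hv).2.1 _).1
      · have h1 := H6 _ F ι ω (hbl ω) (gs k (c' : F) (Tk.sup m) - 1) (by
          rw [map_sub, map_one, hg]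
          exact ((hH _ (hTb ω hω)).2.1 _).1.trans_le (min_le_right _ _))
        rwa [map_ofNat] at h1
      · have h2 : nm B (.inl (bl ω)) (ι (gs k (c' : F) (Tk.sup m) ^ 2 - c')) < δ₇ (bl ω) := by
          rw [map_sub, map_pow, hg, hc]
          refine (((hH _ (hTb ω hω)).2.1 _).2).trans_lt (lt_of_le_of_lt ?_ (hm (bl ω)))
          exact mul_le_mul_of_nonneg_right (pow_le_pow_of_le_one (by norm_num) (by norm_num)
            (Finset.le_sup (hTb ω hω))) (hδ₄ _).le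
        have h1 := H7 _ F ι ω (hbl ω) _ h2
        rw [Valuation.map_sub_swap]
        exact h1.trans (hb _ ω hω (hbl ω)))
    (fun ω => ω.valuation F (algebraMap k F (η (bl ω))))
    (fun ω => (Valuation.ne_zero_iff _).mpr ((_root_.map_ne_zero _).mpr (Units.ne_zero _)))
  obtain ⟨i, j, p₁, p₂, p₃, u, hu, hux, hform⟩ :=
    exists_qelt' hS hx hy ι sym cx cy c' c₁ hc hc₁ hPQ β hβ
  refine ⟨u, hN F ι _ _ _ _ _ _ _ _ _ hu fun ω hω => hPB ω (by
    rw [Finset.mem_union, Set.Finite.mem_toFinset]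
    exact Or.inl hω), hux, fun v hv => ?_⟩
  have hz : (cc a x y)⁻¹ * (1 + (2 * a : k)⁻¹ • ((y - x) * x)) =
      ι (1 / (2 * c' * algebraMap k F a)) * (ι (algebraMap k F a) + y * x) := by
    have h1 : (1 : F) / (2 * c' * algebraMap k F a) = (c' : F)⁻¹ * algebraMap k F (2 * a)⁻¹ := by
      rw [map_inv₀, map_mul, map_ofNat, one_div, ← mul_inv]
      congr 1
      ring
    rw [h1, map_mul, map_inv₀, hc, mul_assoc, AlgHom.commutes, AlgHom.commutes,
      ← Algebra.smul_def]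
    congr 1
    have h2 : (y - x) * x = y * x - algebraMap k D a := by rw [sub_mul, hx.2]
    have h3 : (1 : D) = (2 * a : k)⁻¹ • algebraMap k D (2 * a) := by
      rw [Algebra.smul_def, ← map_mul, inv_mul_cancel₀ (mul_ne_zero two_ne_zero a.ne_zero),
        map_one]
    nth_rewrite 1 [h3]
    have h4 : algebraMap k D (2 * a) + (y * x - algebraMap k D a) =
        algebraMap k D a + y * x := by
      rw [map_mul, map_ofNat, two_mul]
      abel
    rw [h2, ← smul_add, h4]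
  have hu2 : u = ((cc a x y)⁻¹ * (1 + (2 * a : k)⁻¹ • ((y - x) * x))) *
      (ι P + ι Q * (algebraMap K D s * x)) := by
    rw [hform, hz]
    exact (mul_assoc _ _ _).symm
  rw [hu2]
  refine H1 v _ _ (hH v hv).1 ?_
  have hsp : ∀ ω : HeightOneSpectrum (𝓞 F), Ab ω v → ω ∈ T ∧ bl ω = v := fun ω hω =>
    ⟨(hT ω).mpr ⟨v, hv, hω⟩, below_unique (hbl ω) hω⟩
  have b1 := hη v (P - g) fun ω hω => by
    obtain ⟨h1, h2⟩ := hsp ω hω
    have := (hPT ω h1).1
    rwa [h2] at this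
  have b2 := hη v Q fun ω hω => by
    obtain ⟨h1, h2⟩ := hsp ω hω
    have := (hPT ω h1).2
    rwa [h2] at this
  have b3 := (hPg v hv).trans_le (min_le_left _ _)
  obtain ⟨Z, hZ⟩ : ∃ Z : ℝ, Z = nm B (.inl v) (algebraMap K D s * x) := ⟨_, rfl⟩
  have hZ0 : 0 ≤ Z := hZ ▸ nm_nonneg B _ _
  rw [← hZ] at b2
  have b4 := hCm v (ι Q) (algebraMap K D s * x)
  rw [← hZ] at b4
  have hCv := hC v
  have hδv := hδ₁ v
  have b5 : C v * nm B (.inl v) (ι Q) * Z ≤ δ₁ v / 3 := by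
    have h1 := b2.trans_le (min_le_right _ _)
    rw [lt_div_iff₀ (by positivity)] at h1
    have h2 := nm_nonneg B (.inl v) (ι Q)
    nlinarith
  have e1 : ι P + ι Q * (algebraMap K D s * x) - 1 =
      (ι g - 1) + (ι (P - g) + ι Q * (algebraMap K D s * x)) := by
    rw [map_sub]
    abel
  rw [e1]
  have b6 := nm_add_le B (.inl v) (ι g - 1) (ι (P - g) + ι Q * (algebraMap K D s * x))
  have b7 := nm_add_le B (.inl v) (ι (P - g)) (ι Q * (algebraMap K D s * x))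
  have b8 := b1.trans_le (min_le_left _ _)
  linarith

end main

end Vale.Agent.P011.One
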