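import Vale.Agent.P011.One.Loc
import Vale.Agent.P011.One.NormNear2
import Vale.Agent.P011.Even.NormCont

/-!
The closing step with a control of the conjugating element.
-/

open NumberField IsDedekindDomain Polynomial

set_option linter.unusedSectionVars false

namespace Vale.Agent.P011.One

open Vale.Agent.P011.Arith Vale.Agent.P011.Even Vale.Agent.P011.Two Vale.Agent.P011.MPQ

section gs

/-- The approximate square roots. -/
noncomputable def gs (k : Type) [Field k] {A : Type} [Ring A] [Algebra k A] (z : A) : ℕ → A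
  | 0 => 1
  | m + 1 => gs k z m - (2 : k)⁻¹ • (gs k z m ^ 2 - z)

theorem gs_map {k A A' : Type} [Field k] [Ring A] [Algebra k A] [Ring A'] [Algebra k A']
    (f : A →ₐ[k] A') (z : A) (m : ℕ) : f (gs k z m) = gs k (f z) m := by
  induction m with
  | zero => exact map_one f
  | succ m ih => rw [gs, gs, map_sub, map_smul, map_sub, map_pow, ih]

theorem gs_comm {k A : Type} [Field k] [Ring A] [Algebra k A] (z : A) (m : ℕ) :
    gs k z m * z = z * gs k z m := by
  induction m with
  | zero => rw [gs, one_mul, mul_one]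
  | succ m ih =>
    rw [gs, sub_mul, mul_sub, ih, smul_mul_assoc, mul_smul_comm, sub_mul, mul_sub]
    congr 3
    rw [pow_two, mul_assoc, ih, ← mul_assoc, ih, mul_assoc]

variable {k D : Type} [Field k] [NumberField k] [DivisionRing D] [Algebra k D] {N : ℕ}
  (B : Module.Basis (Fin N) k D) (p : Pl k)

theorem gs_bound {ε : ℝ} (hε : 0 < ε) : ∃ δ : ℝ, 0 < δ ∧ ∀ z : D, nm B p (z - 1) < δ →
    ∀ m, nm B p (gs k z m - 1) < ε ∧ nm B p (gs k z m ^ 2 - z) ≤ (1 / 2) ^ m * δ := by
  obtain ⟨C, hC, hCm⟩ := nm_mul B p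
  obtain ⟨c, hc⟩ : ∃ c : ℝ, c = plAbv p ((2 : k)⁻¹) := ⟨_, rfl⟩
  have hc0 : 0 < c := by rw [hc]; exact (plAbv p).pos (inv_ne_zero two_ne_zero)
  obtain ⟨δ, hδ0, h1, h2, h3⟩ : ∃ δ : ℝ, 0 < δ ∧ 2 * c * δ < ε ∧ C * (2 * c * δ) ≤ 1 / 4 ∧
      C * c ^ 2 * δ ≤ 1 / 4 := by
    refine ⟨min (ε / (4 * c)) (min (1 / (8 * C * c)) (1 / (4 * C * c ^ 2))), by positivity,
      ?_, ?_, ?_⟩
    · have := min_le_left (ε / (4 * c)) (min (1 / (8 * C * c)) (1 / (4 * C * c ^ 2)))
      rw [le_div_iff₀ (by positivity)] at this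
      linarith
    · have := (min_le_right (ε / (4 * c)) (min (1 / (8 * C * c)) (1 / (4 * C * c ^ 2)))).trans
        (min_le_left _ _)
      rw [le_div_iff₀ (by positivity)] at this
      linarith
    · have := (min_le_right (ε / (4 * c)) (min (1 / (8 * C * c)) (1 / (4 * C * c ^ 2)))).trans
        (min_le_right _ _)
      rw [le_div_iff₀ (by positivity)] at this
      linarith
  refine ⟨δ, hδ0, fun z hz => ?_⟩
  have key : ∀ m, nm B p (gs k z m - 1) ≤ 2 * c * δ * (1 - (1 / 2) ^ m) ∧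
      nm B p (gs k z m ^ 2 - z) ≤ (1 / 2) ^ m * δ := by
    intro m
    induction m with
    | zero =>
      rw [gs, sub_self, nm_zero, pow_zero, sub_self, mul_zero, one_pow, one_mul, ← nm_neg, neg_sub]
      exact ⟨le_rfl, hz.le⟩
    | succ m ih =>
      obtain ⟨i1, i2⟩ := ih
      obtain ⟨t, ht⟩ : ∃ t : ℝ, t = (1 / 2) ^ m := ⟨_, rfl⟩
      have ht0 : 0 < t := by rw [ht]; positivity
      have ht1 : t ≤ 1 := by rw [ht]; exact pow_le_one₀ (by norm_num) (by norm_num)
      obtain ⟨g, hg⟩ : ∃ g, g = gs k z m := ⟨_, rfl⟩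
      obtain ⟨h, hh⟩ : ∃ h, h = g ^ 2 - z := ⟨_, rfl⟩
      have hgz : g * z = z * g := by rw [hg]; exact gs_comm z m
      have hgh : g * h = h * g := by
        rw [hh, mul_sub, sub_mul, hgz, ← pow_succ, ← pow_succ']
      have e1 : gs k z (m + 1) = g - (2 : k)⁻¹ • h := by rw [gs, hh, hg]
      have e2 : gs k z (m + 1) ^ 2 - z = -((g - 1) * h) + (2 : k)⁻¹ • (2 : k)⁻¹ • (h * h) := by
        have e3 : (2 : k)⁻¹ • (h * g) + (2 : k)⁻¹ • (h * g) = h * g := by
          rw [← add_smul, ← two_mul, mul_inv_cancel₀ two_ne_zero, one_smul]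
        have e4 : g * g = h + z := by rw [hh, pow_two, sub_add_cancel]
        have e5 : (g - (2 : k)⁻¹ • h) ^ 2 = g * g - ((2 : k)⁻¹ • (h * g) + (2 : k)⁻¹ • (h * g)) +
            (2 : k)⁻¹ • (2 : k)⁻¹ • (h * h) := by
          rw [pow_two, sub_mul, mul_sub, mul_sub, smul_mul_assoc, mul_smul_comm, smul_mul_assoc,
            mul_smul_comm, hgh]
          abel
        rw [e1, e5, e3, e4, sub_mul, one_mul, hgh]
        abel
      rw [← hg] at i1 i2
      rw [← hh] at i2
      rw [← ht] at i1 i2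
      have j1 := nm_nonneg B p (g - 1)
      have j2 := nm_nonneg B p h
      rw [pow_succ, ← ht]
      constructor
      · rw [e1]
        have e5 : g - (2 : k)⁻¹ • h - 1 = (g - 1) - (2 : k)⁻¹ • h := by abel
        rw [e5]
        refine (nm_sub_le B p _ _).trans ?_
        rw [nm_smul, ← hc]
        nlinarith
      · rw [e2]
        refine (nm_add_le B p _ _).trans ?_
        rw [nm_neg, nm_smul, nm_smul, ← hc]
        have k1 := hCm (g - 1) h
        have k2 := hCm h h
        have k3 : C * nm B p (g - 1) * nm B p h ≤ 1 / 4 * (t * δ) := by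
          have : C * nm B p (g - 1) ≤ 1 / 4 := by
            refine le_trans ?_ h2
            refine mul_le_mul_of_nonneg_left (i1.trans ?_) hC.le
            have : 0 < 2 * c * δ := by positivity
            nlinarith
          exact mul_le_mul this i2 j2 (by norm_num)
        have k4 : c * (c * (C * nm B p h * nm B p h)) ≤ 1 / 4 * (t * δ) := by
          have k5 : c * (c * (C * nm B p h * nm B p h)) = (C * c ^ 2 * nm B p h) * nm B p h := by
            ring
          rw [k5]
          have : C * c ^ 2 * nm B p h ≤ 1 / 4 := by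
            refine le_trans ?_ h3
            refine mul_le_mul_of_nonneg_left (i2.trans ?_) (by positivity)
            nlinarith
          exact mul_le_mul this i2 j2 (by norm_num)
        have k6 : c * (c * nm B p (h * h)) ≤ c * (c * (C * nm B p h * nm B p h)) := by
          gcongr
        linarith
  intro m
  obtain ⟨i1, i2⟩ := key m
  refine ⟨i1.trans_lt ?_, i2⟩
  have : 0 < ((1 : ℝ) / 2) ^ m := by positivity
  have h4 : 0 < 2 * c * δ := by positivity
  nlinarith

end gs


section small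

variable {k D : Type} [Field k] [NumberField k] [DivisionRing D] [Algebra k D] {N : ℕ}
  (B : Module.Basis (Fin N) k D) (p : Pl k)

theorem near_mul {ε : ℝ} (hε : 0 < ε) : ∃ δ : ℝ, 0 < δ ∧ ∀ z w : D, nm B p (z - 1) < δ →
    nm B p (w - 1) < δ → nm B p (z * w - 1) < ε := by
  obtain ⟨C, hC, hCm⟩ := nm_mul B p
  refine ⟨min 1 (ε / (C + 2)), lt_min one_pos (by positivity), fun z w hz hw => ?_⟩
  rw [lt_min_iff, lt_div_iff₀ (by positivity)] at hz hw
  have e : z * w - 1 = (z - 1) * (w - 1) + ((z - 1) + (w - 1)) := by noncomm_ring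
  rw [e]
  have h1 := hCm (z - 1) (w - 1)
  have h2 := nm_add_le B p ((z - 1) * (w - 1)) ((z - 1) + (w - 1))
  have h3 := nm_add_le B p (z - 1) (w - 1)
  have j1 := nm_nonneg B p (z - 1)
  have j2 := nm_nonneg B p (w - 1)
  have h4 : C * nm B p (z - 1) * nm B p (w - 1) ≤ C * nm B p (z - 1) := by
    have : 0 ≤ C * nm B p (z - 1) := by positivity
    nlinarith [hw.1]
  nlinarith [hz.2, hw.2]

theorem near_inv {ε : ℝ} (hε : 0 < ε) : ∃ δ : ℝ, 0 < δ ∧ ∀ z : D, nm B p (z - 1) < δ →
    nm B p (z⁻¹ - 1) < ε := by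
  have h1 : Tn B p (Filter.comap (fun z : D => nm B p (z - 1)) (nhds 0)) (fun z => z) 1 :=
    Filter.tendsto_comap
  have h2 := (h1.inv one_ne_zero).ev_lt hε
  rw [inv_one, Filter.eventually_comap, Metric.eventually_nhds_iff] at h2
  obtain ⟨δ, hδ, h⟩ := h2
  refine ⟨δ, hδ, fun z hz => h ?_ z rfl⟩
  rw [Real.dist_0_eq_abs, abs_of_nonneg (nm_nonneg B p _)]
  exact hz

/-- Elements of a fixed subfield which are small at the primes above `v` are small. -/
theorem small_of_val {F : Type} [Field F] [NumberField F] [Algebra k F] (j : F →ₐ[k] D)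
    (v : HeightOneSpectrum (𝓞 k)) {ε : ℝ} (hε : 0 < ε) : ∃ η : kˣ, ∀ f : F,
      (∀ ω : HeightOneSpectrum (𝓞 F), Ab ω v →
        ω.valuation F f < ω.valuation F (algebraMap k F η)) → nm B (.inl v) (j f) < ε := by
  let c := Module.finBasis k F
  obtain ⟨C, hC⟩ : ∃ C : ℝ, C = ∑ i, nm B (.inl v) (j (c i)) := ⟨_, rfl⟩
  have hC0 : 0 ≤ C := by rw [hC]; exact Finset.sum_nonneg fun i _ => nm_nonneg B _ _
  obtain ⟨γ, hγ0, hγ⟩ := exists_abv_lt (.inl v : Pl k) (ε := ε / (C + 1)) (by positivity)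
  obtain ⟨η, hη⟩ := coord_small (E := F) c v (Units.mk0 γ hγ0)
  refine ⟨η, fun f hf => ?_⟩
  have h1 := hη f hf
  have h2 : j f = ∑ i, c.repr f i • j (c i) := by
    conv_lhs => rw [← c.sum_repr f]
    rw [map_sum]
    exact Finset.sum_congr rfl fun i _ => map_smul _ _ _
  rw [h2]
  refine (nm_sum_le B _ _ _).trans_lt ?_
  have h3 : ∀ i ∈ (Finset.univ : Finset (Fin (Module.finrank k F))),
      nm B (.inl v) (c.repr f i • j (c i)) ≤ plAbv (.inl v : Pl k) γ * nm B (.inl v) (j (c i)) := by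
    intro i _
    rw [nm_smul]
    refine mul_le_mul_of_nonneg_right ?_ (nm_nonneg B _ _)
    exact ((plAbv_lt v _ _).mpr (h1 i)).le
  refine (Finset.sum_le_sum h3).trans_lt ?_
  rw [← Finset.mul_sum, ← hC]
  rw [lt_div_iff₀ (by positivity)] at hγ
  have h4 : 0 ≤ plAbv (.inl v : Pl k) γ := AbsoluteValue.nonneg _ _
  nlinarith

/-- Small elements have small values at the primes above `v`, uniformly in the subfield. -/
theorem val_of_small (v : HeightOneSpectrum (𝓞 k)) (b : k) (hb : b ≠ 0) :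
    ∃ δ : ℝ, 0 < δ ∧ ∀ (F : Type) [Field F] [NumberField F] [Algebra k F] (j : F →ₐ[k] D)
      (w : HeightOneSpectrum (𝓞 F)), Ab w v → ∀ y : F, nm B (.inl v) (j y) < δ →
        w.valuation F y < w.valuation F (algebraMap k F b) := by
  obtain ⟨δ, hδ0, hδ⟩ := exists_small B v b hb
  obtain ⟨a, ha⟩ := HeightOneSpectrum.valuation_surjective k v δ
  have ha0 : a ≠ 0 := by
    rintro rfl
    rw [map_zero] at ha
    exact hδ0 ha.symm
  refine ⟨plAbv (.inl v) a, (plAbv (.inl v)).pos ha0, fun F _ _ _ j w hw y hy => ?_⟩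
  refine hδ F j w hw _ fun i => ?_
  rw [← ha, ← plAbv_lt]
  exact nm_lt_coord B (.inl v) hy i

theorem exists_le_all {ι : Type} (S : Finset ι) (δ : ι → ℝ) (hδ : ∀ i, 0 < δ i) :
    ∃ δ₀ : ℝ, 0 < δ₀ ∧ ∀ i ∈ S, δ₀ ≤ δ i := by
  classical
  induction S using Finset.induction_on with
  | empty => exact ⟨1, one_pos, fun i hi => absurd hi (Finset.notMem_empty i)⟩
  | insert a S ha ih =>
    obtain ⟨δ₀, h0, h⟩ := ih
    refine ⟨min δ₀ (δ a), lt_min h0 (hδ a), fun i hi => ?_⟩
    rcases Finset.mem_insert.mp hi with rfl | hi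
    · exact min_le_right _ _
    · exact (min_le_left _ _).trans (h i hi)

theorem above_finset {F : Type} [Field F] [NumberField F] [Algebra k F]
    (S : Finset (HeightOneSpectrum (𝓞 k))) : ∃ T : Finset (HeightOneSpectrum (𝓞 F)),
      ∀ ω, ω ∈ T ↔ ∃ v ∈ S, Ab ω v := by
  classical
  have h : {ω : HeightOneSpectrum (𝓞 F) | ∃ v ∈ S, Ab ω v}.Finite := by
    have : {ω : HeightOneSpectrum (𝓞 F) | ∃ v ∈ S, Ab ω v} = ⋃ v ∈ S, {ω | Ab ω v} := by
      ext ω
      simp
    rw [this]
    exact Set.Finite.biUnion S.finite_toSet fun v _ => above_finite v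
  exact ⟨h.toFinset, fun ω => by rw [Set.Finite.mem_toFinset]; rfl⟩

end small

end Vale.Agent.P011.One
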