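import Vale.Agent.P011.MPQ.Defs
import Vale.Agent.P011.Arith.Quad
import Vale.Agent.P011.Arith.SUnit
import Vale.Agent.P011.Arith.Schilling

/-!
Elements of a quaternion algebra over a quadratic extension with prescribed divisor of the norm
of the reduced norm.
-/

open NumberField IsDedekindDomain

namespace Vale.Agent.P011.One

open Vale.Agent.P011.Arith Vale.Agent.P011.MPQ

section signs

variable {F : Type} [Field F] [NumberField F]

/-- An element with prescribed signs. -/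
theorem exists_sgn (A : Set (F →+* ℝ)) :
    ∃ c : Fˣ, ∀ φ : F →+* ℝ, (φ ∈ A → 0 < φ c) ∧ (φ ∉ A → φ c < 0) := by
  classical
  obtain ⟨f, hf⟩ := approx (F := F) (Set.range Sum.inr) (Set.finite_range _)
    (fun p => match p with | .inl _ => 1 | .inr φ => if φ ∈ A then 1 else -1) (fun _ => 1)
    (fun _ => one_pos)
  have h : ∀ φ : F →+* ℝ, |φ (f - if φ ∈ A then 1 else -1)| < 1 := fun φ => hf (.inr φ) ⟨φ, rfl⟩
  by_cases hf0 : f = 0
  · refine ⟨1, fun φ => ?_⟩
    exfalso
    have h1 := h φ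
    rw [hf0, zero_sub, map_neg, abs_neg] at h1
    split_ifs at h1 <;> simp at h1
  · refine ⟨Units.mk0 f hf0, fun φ => ⟨fun hA => ?_, fun hA => ?_⟩⟩
    · have h1 := h φ
      rw [if_pos hA, map_sub, map_one, abs_lt] at h1
      rw [Units.val_mk0]
      linarith
    · have h1 := h φ
      rw [if_neg hA, map_sub, map_neg, map_one, abs_lt] at h1
      rw [Units.val_mk0]
      linarith

end signs

section norm

variable {k F : Type} [Field k] [NumberField k] [Field F] [NumberField F] [Algebra k F]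

/-- The norm of a quadratic extension. -/
theorem norm_eq_mul (hfr : Module.finrank k F = 2) {a : k} (ha : ¬ IsSquare a) {θ : F}
    (hθ : θ ^ 2 = algebraMap k F a) {σ : F ≃ₐ[k] F} (hσ : σ θ = -θ) (x : F) :
    algebraMap k F (Algebra.norm k x) = x * σ x := by
  classical
  have hfd : FiniteDimensional k F := Module.finite_of_finrank_pos (by omega)
  have h0 : θ ≠ 0 := by
    rintro rfl
    rw [zero_pow two_ne_zero] at hθ
    exact ha ((map_eq_zero (algebraMap k F)).mp hθ.symm ▸ IsSquare.zero)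
  have hne : (1 : F ≃ₐ[k] F) ≠ σ := by
    intro h
    have h1 : θ = -θ := by rw [← hσ, ← h]; rfl
    exact h0 (self_eq_neg.mp h1)
  have hcard : Fintype.card (F ≃ₐ[k] F) = 2 := by
    refine le_antisymm (hfr ▸ AlgEquiv.card_le) ?_
    have h1 := Finset.card_le_univ ({1, σ} : Finset (F ≃ₐ[k] F))
    rwa [Finset.card_pair hne] at h1
  have hgal : IsGalois k F := IsGalois.of_card_aut_eq_finrank k F (by
    rw [Nat.card_eq_fintype_card, hcard, hfr])
  have huniv : (Finset.univ : Finset (F ≃ₐ[k] F)) = {1, σ} := by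
    refine (Finset.eq_univ_of_card _ ?_).symm
    rw [Finset.card_pair hne, hcard]
  rw [Algebra.norm_eq_prod_automorphisms, huniv, Finset.prod_pair hne]
  rfl

end norm

section theta

variable {k F : Type} [Field k] [NumberField k] [Field F] [NumberField F] [Algebra k F]

/-- Quaternions whose reduced norm has a norm with prescribed divisor. -/
theorem exists_theta (hfr : Module.finrank k F = 2) {a : kˣ} (ha : ¬ IsSquare (a : k)) {T : F}
    (hT : T ^ 2 = algebraMap k F a) (α β : Fˣ) :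
    ∃ S : Set (HeightOneSpectrum (𝓞 k)), S.Finite ∧
      ∀ V : Finset (HeightOneSpectrum (𝓞 k)), (∀ v ∈ V, v ∉ S) →
        (∀ v ∈ V, a ∈ LS (v.valuation k)) → ∃ (q : Qt α β) (θ : Fˣ), nrd q = θ ∧
          (∀ φ : F →+* ℝ, 0 < φ (θ : F)) ∧
          (∀ v ∈ V, v.valuation k (Algebra.norm k (θ : F)) = WithZero.exp (-1)) ∧
          ∀ v ∉ S, v ∉ V → v.valuation k (Algebra.norm k (θ : F)) = 1 := by
  classical
  obtain ⟨σ, hσ⟩ := exists_sigma hfr ha hT
  choose c hc using exists_sgn (F := F)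
  obtain ⟨SF, hSF0, hSFf, hPr⟩ := exists_Pr (⋃ A : Set (F →+* ℝ), {w | w.valuation F (c A : F) ≠ 1})
    (Set.finite_iUnion fun A => finite_valuation_ne_one _ (c A).ne_zero)
  choose b hb using exists_below (F := k) (E := F)
  have hb' : ∀ {w : HeightOneSpectrum (𝓞 F)} {v : HeightOneSpectrum (𝓞 k)},
      w.asIdeal.comap (algebraMap (𝓞 k) (𝓞 F)) = v.asIdeal → b w = v := fun {w v} h =>
    below_unique (hb w) h
  refine ⟨b '' SF ∪ {v | v.valuation k 2 ≠ 1} ∪ {v | v.valuation k (a : k) ≠ 1},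
    ((hSFf.image b).union (finite_valuation_ne_one 2 two_ne_zero)).union
      (finite_valuation_ne_one _ a.ne_zero), fun V hV hVa => ?_⟩
  choose w₁ hw₁ using exists_above (F := k) (E := F)
  have hnot : ∀ {w : HeightOneSpectrum (𝓞 F)} {v : HeightOneSpectrum (𝓞 k)},
      v ∉ b '' SF ∪ {v | v.valuation k 2 ≠ 1} ∪ {v | v.valuation k (a : k) ≠ 1} →
      w.asIdeal.comap (algebraMap (𝓞 k) (𝓞 F)) = v.asIdeal → w ∉ SF := by
    intro w v hv h hw
    exact hv (Or.inl (Or.inl ⟨w, hw, hb' h⟩))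
  have hπ : ∀ v : HeightOneSpectrum (𝓞 k), ∃ π : Fˣ, v ∈ V →
      (w₁ v).valuation F (π : F) = WithZero.exp (-1) ∧
        ∀ w ∉ SF, w ≠ w₁ v → w.valuation F (π : F) = 1 := by
    intro v
    by_cases hv : v ∈ V
    · obtain ⟨π, h1, h2⟩ := hPr.2 (w₁ v) (hnot (hV v hv) (hw₁ v))
      exact ⟨π, fun _ => ⟨h1, h2⟩⟩
    · exact ⟨1, fun h => absurd h hv⟩
  choose π hπ using hπ
  set Θ : Fˣ := ∏ v ∈ V, π v with hΘ
  set A : Set (F →+* ℝ) := {φ | 0 < φ (Θ : F)} with hA
  have hpos : ∀ φ : F →+* ℝ, 0 < φ ((Θ * c A : Fˣ) : F) := by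
    intro φ
    rw [Units.val_mul, map_mul]
    by_cases h : φ ∈ A
    · exact mul_pos h ((hc A φ).1 h)
    · refine mul_pos_of_neg_of_neg (lt_of_le_of_ne (not_lt.mp h) ?_) ((hc A φ).2 h)
      exact (map_ne_zero φ).mpr Θ.ne_zero
  obtain ⟨x, y, z, t, hq⟩ := Sch.quaternion_norm α β (Θ * c A) fun φ _ _ => hpos φ
  -- the valuation of `Θ * c A`
  have hval : ∀ w ∉ SF, w.valuation F ((Θ * c A : Fˣ) : F) =
      ∏ v ∈ V, w.valuation F (π v : F) := by
    intro w hw
    have h1 : w.valuation F (c A : F) = 1 := by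
      by_contra h
      exact hw (hSF0 (Set.mem_iUnion.mpr ⟨A, h⟩))
    rw [Units.val_mul, map_mul, h1, mul_one, hΘ, Units.coe_prod, map_prod]
  -- the valuation of the norm
  have hN : ∀ (v : HeightOneSpectrum (𝓞 k)),
      v ∉ b '' SF ∪ {v | v.valuation k 2 ≠ 1} ∪ {v | v.valuation k (a : k) ≠ 1} →
      ∀ w u : HeightOneSpectrum (𝓞 F), w.asIdeal.comap (algebraMap (𝓞 k) (𝓞 F)) = v.asIdeal →
      (∀ z, u.valuation F (σ z) = w.valuation F z) →
      v.valuation k (Algebra.norm k ((Θ * c A : Fˣ) : F)) =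
        w.valuation F ((Θ * c A : Fˣ) : F) * u.valuation F ((Θ * c A : Fˣ) : F) := by
    intro v hv w u hw hu
    have h2 : v.valuation k 2 = 1 := by
      by_contra h
      exact hv (Or.inl (Or.inr h))
    have h3 : v.valuation k (a : k) = 1 := by
      by_contra h
      exact hv (Or.inr h)
    rw [← val_unram hfr ha hT hw h2 h3, norm_eq_mul hfr ha hT hσ, map_mul, ← hu (σ _),
      sigma_sigma hfr ha hT hσ]
  refine ⟨⟨x, y, z, t⟩, Θ * c A, hq.symm, hpos, fun v hv => ?_, fun v hv hvV => ?_⟩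
  · obtain ⟨u, hu, hu2⟩ := exists_conj σ (w₁ v)
    have huv := (hu2 v).mp (hw₁ v)
    have hne : u ≠ w₁ v := (split_iff hfr ha hT hσ (hw₁ v) hu).mp (hVa v hv)
    rw [hN v (hV v hv) (w₁ v) u (hw₁ v) hu, hval _ (hnot (hV v hv) (hw₁ v)),
      hval _ (hnot (hV v hv) huv), Finset.prod_eq_single v, Finset.prod_eq_one, mul_one,
      (hπ v hv).1]
    · intro v' hv'
      refine (hπ v' hv').2 u (hnot (hV v hv) huv) ?_
      intro h
      by_cases hvv : v' = v
      · rw [hvv] at h
        exact hne h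
      · exact hvv (below_unique (hw₁ v') (h ▸ huv))
    · intro v' hv' hvv
      refine (hπ v' hv').2 _ (hnot (hV v hv) (hw₁ v)) ?_
      intro h
      exact hvv (below_unique (hw₁ v') (h ▸ hw₁ v))
    · exact fun h => absurd hv h
  · obtain ⟨u, hu, hu2⟩ := exists_conj σ (w₁ v)
    have huv := (hu2 v).mp (hw₁ v)
    rw [hN v hv (w₁ v) u (hw₁ v) hu, hval _ (hnot hv (hw₁ v)),
      hval _ (hnot hv huv), Finset.prod_eq_one, Finset.prod_eq_one, mul_one]
    · intro v' hv'
      refine (hπ v' hv').2 _ (hnot hv huv) ?_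
      intro h
      exact hvV (below_unique (hw₁ v') (h ▸ huv) ▸ hv')
    · intro v' hv'
      refine (hπ v' hv').2 _ (hnot hv (hw₁ v)) ?_
      intro h
      exact hvV (below_unique (hw₁ v') (h ▸ hw₁ v) ▸ hv')

end theta

end Vale.Agent.P011.One
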