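import Vale.Agent.P011.Even.Split
import Vale.Agent.P011.Even.Pattern
import Vale.Agent.P011.One.Theta

/-!
Norm classes in a quadratic extension at a prime of the base field.
-/

open NumberField IsDedekindDomain Module

set_option linter.unusedSectionVars false

namespace Vale.Agent.P011.One

open Vale.Agent.P011.Arith Vale.Agent.P011.Even

/-- An element of odd order is not a norm from an unramified extension. -/
theorem odd_notMem {k : Type} [Field k] [NumberField k] {v : HeightOneSpectrum (𝓞 k)}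
    (h2 : v.valuation k (2 : k) = 1) {c x : kˣ}
    (hc : v.valuation k (c : k) = 1) (hcn : c ∉ LS (v.valuation k)) {n : ℤ}
    (hx : v.valuation k (x : k) = WithZero.exp (2 * n + 1)) : x ∉ NF c ⊔ LS (v.valuation k) := by
  intro h
  refine NF_sup_ne_top c (.inl v) hcn ?_
  refine eq_top_of_units (v := v) (H := NF c ⊔ LSp (.inl v)) ((Sq_le_NF c).trans le_sup_left)
    (fun u hu => ?_) h hx
  exact unit_norm v h2 c u hc hu

variable {k F : Type} [Field k] [NumberField k] [Field F] [NumberField F] [Algebra k F]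

theorem above_card (hfr : finrank k F = 2) {a : kˣ} (ha : ¬ IsSquare (a : k))
    {θ : F} (hθ : θ ^ 2 = algebraMap k F a) {v : HeightOneSpectrum (𝓞 k)}
    (hv : a ∈ LS (v.valuation k)) : {w : HeightOneSpectrum (𝓞 F) | Ab w v}.ncard = 2 := by
  have h1 := card_above hfr ha hθ v
  have h2 : ({v' | v' = v ∧ a ∉ LS (v'.valuation k)} : Set (HeightOneSpectrum (𝓞 k))) = ∅ := by
    ext v'
    simp only [Set.mem_ofPred_eq, Set.mem_empty_iff_false, iff_false, not_and, not_not]
    rintro rfl
    exact hv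
  rw [h2, Set.ncard_empty, add_zero] at h1
  exact h1

theorem above_one (hfr : finrank k F = 2) {a : kˣ} (ha : ¬ IsSquare (a : k))
    {θ : F} (hθ : θ ^ 2 = algebraMap k F a) {v : HeightOneSpectrum (𝓞 k)}
    (hv : a ∉ LS (v.valuation k)) {w w' : HeightOneSpectrum (𝓞 F)} (hw : Ab w v) (hw' : Ab w' v) :
    w = w' := by
  have h1 := card_above hfr ha hθ v
  have h2 : ({v' | v' = v ∧ a ∉ LS (v'.valuation k)} : Set (HeightOneSpectrum (𝓞 k))) = {v} := by
    ext v'
    simp only [Set.mem_ofPred_eq, Set.mem_singleton_iff]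
    constructor
    · exact fun h => h.1
    · rintro rfl
      exact ⟨rfl, hv⟩
  rw [h2, Set.ncard_singleton] at h1
  have h3 : {w : HeightOneSpectrum (𝓞 F) |
      w.asIdeal.comap (algebraMap (𝓞 k) (𝓞 F)) = v.asIdeal}.ncard = 1 := by omega
  obtain ⟨z, hz⟩ := Set.ncard_eq_one.mp h3
  have e1 : w ∈ ({z} : Set (HeightOneSpectrum (𝓞 F))) := hz ▸ hw
  have e2 : w' ∈ ({z} : Set (HeightOneSpectrum (𝓞 F))) := hz ▸ hw'
  rw [Set.mem_singleton_iff] at e1 e2
  rw [e1, e2]

theorem totSplit_quad (hfr : finrank k F = 2) {a : kˣ} (ha : ¬ IsSquare (a : k))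
    {θ : F} (hθ : θ ^ 2 = algebraMap k F a) {v : HeightOneSpectrum (𝓞 k)}
    (hv : a ∈ LS (v.valuation k)) : TotSplit F v := by
  obtain ⟨x, y, hxy, hset⟩ := Set.ncard_eq_two.mp (above_card hfr ha hθ hv)
  have hx : Ab x v := by
    have : x ∈ {w : HeightOneSpectrum (𝓞 F) | Ab w v} := by rw [hset]; simp
    exact this
  have hy : Ab y v := by
    have : y ∈ {w : HeightOneSpectrum (𝓞 F) | Ab w v} := by rw [hset]; simp
    exact this
  unfold TotSplit
  rw [hfr]
  refine ⟨![x, y], ?_, ?_⟩
  · intro i j hij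
    fin_cases i <;> fin_cases j
    · rfl
    · exact absurd hij hxy
    · exact absurd hij.symm hxy
    · rfl
  · intro i
    fin_cases i
    · exact hx
    · exact hy

/-- No ramification above a prime at which `a` is a square. -/
theorem val_split (hfr : finrank k F = 2) {a : kˣ} (ha : ¬ IsSquare (a : k))
    {θ : F} (hθ : θ ^ 2 = algebraMap k F a) {v : HeightOneSpectrum (𝓞 k)}
    (h2 : v.valuation k (2 : k) = 1)
    (hv : a ∈ LS (v.valuation k)) {w : HeightOneSpectrum (𝓞 F)} (hw : Ab w v) (x : k) :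
    w.valuation F (algebraMap k F x) = v.valuation k x := by
  obtain ⟨y, hy⟩ := hv
  have hy0 : (y : k) ≠ 0 := y.ne_zero
  have hyF : algebraMap k F y ≠ 0 := (map_ne_zero _).mpr hy0
  have h1 : v.valuation k ((a : k) / y ^ 2) = 1 := by
    have := (v.valuation k).map_one_add_of_lt (x := (a : k) / y ^ 2 - 1)
      (lt_of_lt_of_le hy (val_four_le _))
    rwa [add_sub_cancel] at this
  refine val_unram hfr (a := (a : k) / y ^ 2) ?_ (θ := θ / algebraMap k F y) ?_ hw h2 h1 x
  · rintro ⟨r, hr⟩
    apply ha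
    refine ⟨r * y, ?_⟩
    rw [div_eq_iff (pow_ne_zero 2 hy0)] at hr
    rw [hr]
    ring
  · rw [div_pow, hθ, map_div₀, map_pow]

/-- Above an odd prime which is inert in `k(√c)` the classes of an element whose norm is a norm
are all trivial, or all nontrivial and then the prime splits. -/
theorem quad_par (hfr : finrank k F = 2) {a : kˣ} (ha : ¬ IsSquare (a : k))
    {θ : F} (hθ : θ ^ 2 = algebraMap k F a) {v : HeightOneSpectrum (𝓞 k)}
    (h2 : v.valuation k (2 : k) = 1) {c : kˣ} (hc : v.valuation k (c : k) = 1)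
    (hcn : c ∉ LS (v.valuation k)) (β : Fˣ) (hN : nrm k F β ∈ NF c ⊔ LS (v.valuation k)) :
    (∀ w : HeightOneSpectrum (𝓞 F), Ab w v → β ∈ NF (inc k F c) ⊔ LS (w.valuation F)) ∨
      (a ∈ LS (v.valuation k) ∧
        ∀ w : HeightOneSpectrum (𝓞 F), Ab w v → β ∉ NF (inc k F c) ⊔ LS (w.valuation F)) := by
  by_cases hv : a ∈ LS (v.valuation k)
  · have h1 := (parity_split (totSplit_quad hfr ha hθ hv) c β).mp hN
    have h3 := above_card hfr ha hθ hv
    have hfin : {w : HeightOneSpectrum (𝓞 F) | Ab w v}.Finite :=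
      Set.finite_of_ncard_ne_zero (by rw [h3]; exact two_ne_zero)
    have hsub : {w : HeightOneSpectrum (𝓞 F) | Ab w v ∧ β ∉ NF (inc k F c) ⊔ LS (w.valuation F)} ⊆
        {w | Ab w v} := fun w hw => hw.1
    have h4 := Set.ncard_le_ncard hsub hfin
    rw [h3] at h4
    obtain ⟨m, hm⟩ := h1
    rcases Nat.eq_zero_or_pos m with h5 | h5
    · left
      intro w hw
      by_contra h6
      have h7 := (Set.ncard_eq_zero (hfin.subset hsub)).mp (by rw [hm, h5])
      have h8 : w ∈ (∅ : Set (HeightOneSpectrum (𝓞 F))) := by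
        rw [← h7]
        exact ⟨hw, h6⟩
      exact h8
    · right
      refine ⟨hv, fun w hw => ?_⟩
      have h7 : {w : HeightOneSpectrum (𝓞 F) | Ab w v ∧
          β ∉ NF (inc k F c) ⊔ LS (w.valuation F)} = {w | Ab w v} :=
        Set.eq_of_subset_of_ncard_le hsub (by rw [h3]; omega) hfin
      have h8 : w ∈ {w : HeightOneSpectrum (𝓞 F) | Ab w v ∧
          β ∉ NF (inc k F c) ⊔ LS (w.valuation F)} := by
        rw [h7]
        exact hw
      exact h8.2
  · left
    intro w hw
    by_contra hβ
    have hone : ∀ w', Ab w' v → w' = w := fun w' hw' => above_one hfr ha hθ hv hw' hw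
    have hcw : inc k F c ∉ LS (w.valuation F) := by
      intro h
      apply hβ
      have : NF (inc k F c) ⊔ LS (w.valuation F) = ⊤ := sup_eq_top (p := Sum.inl w) h
      rw [this]
      exact Subgroup.mem_top _
    have hidx : (NF (inc k F c) ⊔ LS (w.valuation F)).index = 2 := index_two (p := Sum.inl w) hcw
    have hθ0 : θ ≠ 0 := by
      rintro rfl
      rw [zero_pow two_ne_zero] at hθ
      exact a.ne_zero ((map_eq_zero (algebraMap k F)).mp hθ.symm)
    have hav0 : v.valuation k (a : k) ≠ 0 := (Valuation.ne_zero_iff _).mpr a.ne_zero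
    obtain ⟨n, hn⟩ : ∃ n : ℤ, v.valuation k (a : k) = WithZero.exp n :=
      ⟨_, (WithZero.exp_log hav0).symm⟩
    rcases Int.even_or_odd' n with ⟨m, rfl | rfl⟩
    · -- even order: `c * a` is a local square up to a square
      obtain ⟨π, hπ⟩ := exists_exp v
      have hπ0 : π ≠ 0 := by
        rintro rfl
        rw [map_zero] at hπ
        exact WithZero.exp_ne_zero hπ.symm
      obtain ⟨y, hy⟩ : ∃ y : kˣ, y = Units.mk0 π hπ0 ^ m := ⟨_, rfl⟩
      have h3 : v.valuation k ((a * y ^ 2 : kˣ) : k) = 1 := by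
        rw [hy, Units.val_mul, map_mul, hn, Units.val_pow_eq_pow_val, Units.val_zpow_eq_zpow_val,
          Units.val_mk0, map_pow, map_zpow₀, hπ, ← WithZero.exp_zsmul, ← WithZero.exp_nsmul,
          ← WithZero.exp_add, ← WithZero.exp_zero]
        congr 1
        simp
      have h4 : a * y ^ 2 ∉ LS (v.valuation k) := by
        intro h
        exact hv ((Subgroup.mul_mem_cancel_right _ (sq_mem_LS y)).mp h)
      have h5 : a * y ^ 2 * c ∈ LS (v.valuation k) :=
        (mul_mem_LS_iff h2 h3 hc).mpr (iff_of_false h4 hcn)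
      apply hcw
      have h6 : inc k F (a * y ^ 2 * c) ∈ LS (w.valuation F) := LS_map hw h5
      have h7 : inc k F (a * y ^ 2) ∈ LS (w.valuation F) := by
        have : inc k F (a * y ^ 2) = (Units.mk0 θ hθ0 * inc k F y) ^ 2 := by
          ext
          rw [inc_val, Units.val_mul, map_mul, Units.val_pow_eq_pow_val, map_pow,
            Units.val_pow_eq_pow_val, Units.val_mul, Units.val_mk0, inc_val, mul_pow, hθ]
        rw [this]
        exact sq_mem_LS _
      rw [map_mul] at h6
      exact (Subgroup.mul_mem_cancel_left _ h7).mp h6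
    · -- odd order
      obtain ⟨σ, hσ⟩ := exists_sigma hfr ha hθ
      have hnθ : nrm k F (Units.mk0 θ hθ0) = -a := by
        ext
        rw [nrm_val, Units.val_mk0, Units.val_neg]
        have : (algebraMap k F) (Algebra.norm k θ) = algebraMap k F (-a) := by
          rw [norm_eq_mul hfr ha hθ hσ, hσ, mul_neg, ← pow_two, hθ, map_neg]
        exact (algebraMap k F).injective this
      have h3 : -a ∉ NF c ⊔ LS (v.valuation k) := by
        refine odd_notMem h2 hc hcn (n := m) ?_
        rw [Units.val_neg, Valuation.map_neg, hn]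
      have h4 : Units.mk0 θ hθ0 ∉ NF (inc k F c) ⊔ LS (w.valuation F) := by
        intro h
        apply h3
        rw [← hnθ]
        refine nrm_local v c _ fun w' hw' => ?_
        rw [hone w' hw']
        exact h
      have h5 : β * Units.mk0 θ hθ0 ∈ NF (inc k F c) ⊔ LS (w.valuation F) :=
        (Subgroup.mul_mem_iff_of_index_two hidx).mpr (iff_of_false hβ h4)
      have h6 : nrm k F (β * Units.mk0 θ hθ0) ∈ NF c ⊔ LS (v.valuation k) := by
        refine nrm_local v c _ fun w' hw' => ?_
        rw [hone w' hw']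
        exact h5
      rw [map_mul, hnθ] at h6
      exact h3 ((Subgroup.mul_mem_cancel_left _ hN).mp h6)

/-- Multiplication by an element of odd order changes the classes above a split prime. -/
theorem twist_par (hfr : finrank k F = 2) {a : kˣ} (ha : ¬ IsSquare (a : k))
    {θ : F} (hθ : θ ^ 2 = algebraMap k F a) {v : HeightOneSpectrum (𝓞 k)}
    (h2 : v.valuation k (2 : k) = 1) {c : kˣ} (hc : v.valuation k (c : k) = 1)
    (hv : a ∈ LS (v.valuation k)) {β : Fˣ} {w : HeightOneSpectrum (𝓞 F)} (hw : Ab w v)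
    (hβ : β ∉ NF (inc k F c) ⊔ LS (w.valuation F)) {m : kˣ}
    (hm : v.valuation k (m : k) = WithZero.exp (-1)) :
    inc k F m * β ∈ NF (inc k F c) ⊔ LS (w.valuation F) := by
  have hcw : inc k F c ∉ LS (w.valuation F) := by
    intro h
    apply hβ
    have : NF (inc k F c) ⊔ LS (w.valuation F) = ⊤ := sup_eq_top (p := Sum.inl w) h
    rw [this]
    exact Subgroup.mem_top _
  have hidx : (NF (inc k F c) ⊔ LS (w.valuation F)).index = 2 := index_two (p := Sum.inl w) hcw
  have h3 : inc k F m ∉ NF (inc k F c) ⊔ LS (w.valuation F) := by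
    refine odd_notMem (n := -1) ?_ ?_ hcw ?_
    · have := val_split hfr ha hθ h2 hv hw 2
      rwa [h2, map_ofNat] at this
    · rw [inc_val, val_split hfr ha hθ h2 hv hw, hc]
    · rw [inc_val, val_split hfr ha hθ h2 hv hw, hm]
      rfl
  exact (Subgroup.mul_mem_iff_of_index_two hidx).mpr (iff_of_false h3 hβ)

/-- Units of the base field are norms above odd primes. -/
theorem unit_par {v : HeightOneSpectrum (𝓞 k)} (h2 : v.valuation k (2 : k) = 1) {c : kˣ}
    (hc : v.valuation k (c : k) = 1) {w : HeightOneSpectrum (𝓞 F)} (hw : Ab w v) {m : kˣ}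
    (hm : v.valuation k (m : k) = 1) : inc k F m ∈ NF (inc k F c) ⊔ LS (w.valuation F) := by
  refine unit_norm w ?_ _ _ ?_ ?_
  · have := (val_eq_one_iff hw (2 : k)).mpr h2
    rwa [map_ofNat] at this
  · rw [inc_val, val_eq_one_iff hw]
    exact hc
  · rw [inc_val, val_eq_one_iff hw]
    exact hm

end Vale.Agent.P011.One
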