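import Vale.Agent.P011.MPQ.Defs
import Vale.Agent.P011.Even.GFinish

/-!
Quaternion algebras over symmetric subfields of a division algebra with involution.
-/

open NumberField IsDedekindDomain Polynomial

set_option linter.unusedSectionVars false

namespace Vale.Agent.P011.One

open Vale.Agent.P011.Arith Vale.Agent.P011.Even Vale.Agent.P011.MPQ

section cen

variable {k F D : Type} [Field k] [Field F] [DivisionRing D] [Algebra k F] [Algebra k D]

/-- The centralizer of a subfield. -/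
abbrev Cen (ι : F →ₐ[k] D) : Subalgebra k D := Subalgebra.centralizer k (Set.range ι)

theorem mem_cen {ι : F →ₐ[k] D} {x : D} : x ∈ Cen ι ↔ ∀ t, ι t * x = x * ι t := by
  constructor
  · intro h t
    exact Subalgebra.mem_centralizer_iff k |>.mp h _ ⟨t, rfl⟩
  · intro h
    refine Subalgebra.mem_centralizer_iff k |>.mpr ?_
    rintro _ ⟨t, rfl⟩
    exact h t

/-- The centralizer is an algebra over the subfield. -/
@[reducible]
def cenAlg (ι : F →ₐ[k] D) : Algebra F (Cen ι) :=
  RingHom.toAlgebra' (ι.toRingHom.codRestrict (Cen ι) fun t => mem_cen.mpr fun t' => by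
    change ι t' * ι t = ι t * ι t'
    rw [← map_mul, mul_comm, map_mul]) fun t x => Subtype.ext (mem_cen.mp x.2 t)

theorem cen_smul (ι : F →ₐ[k] D) (t : F) (x : Cen ι) :
    ((letI := cenAlg ι; t • x : Cen ι) : D) = ι t * x := rfl

end cen

variable {k D : Type} [Field k] [NumberField k] [DivisionRing D] [StarRing D] [Algebra k D]
    {F : Type} [Field F] [NumberField F] [Algebra k F]

/-- A quaternion algebra over the symmetric subfield `F`, with generators `i` and `j`
antisymmetric. -/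
structure QFr (ι : F →ₐ[k] D) (α β : Fˣ) (i j : D) : Prop where
  sym : ∀ x, star (ι x) = ι x
  si : star i = -i
  sj : star j = -j
  ii : i * i = ι α
  jj : j * j = ι β
  ij : i * j = -(j * i)
  ci : ∀ x, ι x * i = i * ι x
  cj : ∀ x, ι x * j = j * ι x

/-- The element `u = p₀ + p₁ i + p₂ j + p₃ i j` of norm one of a quaternion algebra over a
symmetric subfield. -/
structure QElt (ι : F →ₐ[k] D) (α β : Fˣ) (i j : D) (p₀ p₁ p₂ p₃ : F) (u : D) : Prop where
  fr : QFr ι α β i j
  nrm : p₀ ^ 2 - α * p₁ ^ 2 - β * p₂ ^ 2 + α * β * p₃ ^ 2 = 1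
  eq : u = ι p₀ + ι p₁ * i + ι p₂ * j + ι p₃ * (i * j)

/-- The embedding of the quaternion algebra. -/
theorem exists_qhom {ι : F →ₐ[k] D} {α β : Fˣ} {i j : D} (h : QFr ι α β i j) :
    ∃ φ : Qt α β →+* D, ∀ q, φ q = ι q.re + ι q.imI * i + ι q.imJ * j + ι q.imK * (i * j) := by
  let _ := cenAlg ι
  let i' : Cen ι := ⟨i, mem_cen.mpr h.ci⟩
  let j' : Cen ι := ⟨j, mem_cen.mpr h.cj⟩
  let q : QuaternionAlgebra.Basis (Cen ι) (α : F) 0 (β : F) :=
    { i := i'
      j := j'
      k := i' * j'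
      i_mul_i := by
        rw [zero_smul, add_zero]
        refine Subtype.ext ?_
        change i * i = ι α * 1
        rw [h.ii, mul_one]
      j_mul_j := by
        refine Subtype.ext ?_
        change j * j = ι β * 1
        rw [h.jj, mul_one]
      i_mul_j := rfl
      j_mul_i := by
        rw [zero_smul, zero_sub]
        refine Subtype.ext ?_
        change j * i = -(i * j)
        rw [h.ij, neg_neg] }
  exact ⟨(Cen ι).val.toRingHom.comp q.liftHom.toRingHom, fun x => rfl⟩

theorem nrd_mk {α β : Fˣ} (p₀ p₁ p₂ p₃ : F) :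
    nrd (⟨p₀, p₁, p₂, p₃⟩ : Qt α β) = p₀ ^ 2 - α * p₁ ^ 2 - β * p₂ ^ 2 + α * β * p₃ ^ 2 := rfl

theorem star_qhom {ι : F →ₐ[k] D} {α β : Fˣ} {i j : D} (h : QFr ι α β i j) {φ : Qt α β →+* D}
    (hφ : ∀ q, φ q = ι q.re + ι q.imI * i + ι q.imJ * j + ι q.imK * (i * j)) (q : Qt α β) :
    star (φ q) = φ (star q) := by
  rw [hφ, hφ]
  simp only [star_add, star_mul, h.sym, h.si, h.sj, QuaternionAlgebra.re_star,
    QuaternionAlgebra.imI_star, QuaternionAlgebra.imJ_star, QuaternionAlgebra.imK_star, zero_mul,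
    add_zero, map_neg, neg_mul, mul_neg, neg_neg]
  rw [h.ci, h.cj, h.ij, mul_neg, neg_neg, ← mul_assoc (ι q.imK), h.cj, mul_assoc, mul_assoc, h.ci]

theorem star_mul_self_qt {α β : Fˣ} (q : Qt α β) : star q * q = algebraMap F (Qt α β) (nrd q) := by
  ext
  · simp only [QuaternionAlgebra.re_mul, QuaternionAlgebra.re_star, QuaternionAlgebra.imI_star,
      QuaternionAlgebra.imJ_star, QuaternionAlgebra.imK_star, nrd,
      QuaternionAlgebra.algebraMap_eq]
    ring
  · simp only [QuaternionAlgebra.imI_mul, QuaternionAlgebra.re_star, QuaternionAlgebra.imI_star,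
      QuaternionAlgebra.imJ_star, QuaternionAlgebra.imK_star, nrd,
      QuaternionAlgebra.algebraMap_eq]
    ring
  · simp only [QuaternionAlgebra.imJ_mul, QuaternionAlgebra.re_star, QuaternionAlgebra.imI_star,
      QuaternionAlgebra.imJ_star, QuaternionAlgebra.imK_star, nrd,
      QuaternionAlgebra.algebraMap_eq]
    ring
  · simp only [QuaternionAlgebra.imK_mul, QuaternionAlgebra.re_star, QuaternionAlgebra.imI_star,
      QuaternionAlgebra.imJ_star, QuaternionAlgebra.imK_star, nrd,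
      QuaternionAlgebra.algebraMap_eq]
    ring

theorem QElt.star_mul_self {ι : F →ₐ[k] D} {α β : Fˣ} {i j : D} {p₀ p₁ p₂ p₃ : F} {u : D}
    (h : QElt ι α β i j p₀ p₁ p₂ p₃ u) : star u * u = 1 := by
  obtain ⟨φ, hφ⟩ := exists_qhom h.fr
  have h1 : u = φ ⟨p₀, p₁, p₂, p₃⟩ := by rw [hφ, h.eq]
  have h2 : nrd (⟨p₀, p₁, p₂, p₃⟩ : Qt α β) = 1 := h.nrm
  rw [h1, star_qhom h.fr hφ, ← map_mul, star_mul_self_qt, h2, map_one, map_one]

theorem QElt.mul_star_self {ι : F →ₐ[k] D} {α β : Fˣ} {i j : D} {p₀ p₁ p₂ p₃ : F} {u : D}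
    (h : QElt ι α β i j p₀ p₁ p₂ p₃ u) : u * star u = 1 := by
  have h1 := h.star_mul_self
  have h0 : u ≠ 0 := by
    rintro rfl
    rw [mul_zero] at h1
    exact zero_ne_one h1
  rw [eq_inv_of_mul_eq_one_left h1, mul_inv_cancel₀ h0]

/-- The embedding is injective. -/
theorem qhom_inj {ι : F →ₐ[k] D} {α β : Fˣ} {i j : D} (h : QFr ι α β i j) {φ : Qt α β →+* D}
    (hφ : ∀ q, φ q = ι q.re + ι q.imI * i + ι q.imJ * j + ι q.imK * (i * j)) {q : Qt α β}
    (hq : φ q = 0) : q = 0 := by
  have hι : ∀ t : F, ι t = 0 → t = 0 := fun t ht => (map_eq_zero ι).mp ht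
  have key : ∀ q : Qt α β, φ q = 0 → q.re = 0 := by
    intro q hq
    have h1 : φ (star q) = 0 := by rw [← star_qhom h hφ, hq, star_zero]
    have h2 : φ (q + star q) = ι (2 * q.re) := by
      rw [hφ]
      simp only [QuaternionAlgebra.re_add, QuaternionAlgebra.imI_add, QuaternionAlgebra.imJ_add,
        QuaternionAlgebra.imK_add, QuaternionAlgebra.re_star, QuaternionAlgebra.imI_star,
        QuaternionAlgebra.imJ_star, QuaternionAlgebra.imK_star, zero_mul, add_zero,
        add_neg_cancel, map_zero]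
      rw [two_mul]
    rw [map_add, hq, h1, add_zero] at h2
    exact (mul_eq_zero.mp (hι _ h2.symm)).resolve_left two_ne_zero
  have h0 := key q hq
  have h1 := key (q * ⟨0, 1, 0, 0⟩) (by rw [map_mul, hq, zero_mul])
  have h2 := key (q * ⟨0, 0, 1, 0⟩) (by rw [map_mul, hq, zero_mul])
  have h3 := key (q * ⟨0, 0, 0, 1⟩) (by rw [map_mul, hq, zero_mul])
  simp only [QuaternionAlgebra.re_mul, mul_zero, mul_one, add_zero, zero_add, sub_zero,
    zero_sub, neg_eq_zero, mul_eq_zero, Units.ne_zero, false_or, zero_mul] at h1 h2 h3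
  ext
  · exact h0
  · exact h1
  · exact h2
  · exact h3

theorem QFr.aniso {ι : F →ₐ[k] D} {α β : Fˣ} {i j : D} (h : QFr ι α β i j) : Aniso α β := by
  obtain ⟨φ, hφ⟩ := exists_qhom h
  intro q hq
  have h1 := congrArg φ (star_mul_self_qt q)
  rw [hq, map_zero, map_zero, map_mul, ← star_qhom h hφ, mul_eq_zero, star_eq_zero, or_self] at h1
  exact qhom_inj h hφ h1

/-- Elements of norm one of a quaternion algebra are products of commutators. -/
theorem QElt.map_eq_one {Ω : Type*} [Field Ω] (m : D →* Ω) {ι : F →ₐ[k] D} {α β : Fˣ} {i j : D}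
    {p₀ p₁ p₂ p₃ : F} {u : D} (h : QElt ι α β i j p₀ p₁ p₂ p₃ u) : m u = 1 := by
  have hm : ∀ x : D, x ≠ 0 → m x ≠ 0 := by
    intro x hx h1
    have h2 : m x * m x⁻¹ = 1 := by rw [← map_mul, mul_inv_cancel₀ hx, map_one]
    rw [h1, zero_mul] at h2
    exact zero_ne_one h2
  have hi0 : i ≠ 0 := by
    rintro rfl
    have := h.fr.ii
    rw [mul_zero, eq_comm, map_eq_zero] at this
    exact α.ne_zero this
  have hj0 : j ≠ 0 := by
    rintro rfl
    have := h.fr.jj
    rw [mul_zero, eq_comm, map_eq_zero] at this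
    exact β.ne_zero this
  by_cases hu : u = -1
  · have h1 : m i * m j = m u * (m j * m i) := by
      rw [← map_mul, ← map_mul, ← map_mul, hu, neg_one_mul, h.fr.ij]
    have h2 := mul_ne_zero (hm i hi0) (hm j hj0)
    rw [mul_comm (m j), eq_comm, mul_eq_right₀ h2] at h1
    exact h1
  · obtain ⟨φ, hφ⟩ := exists_qhom h.fr
    obtain ⟨q, hq⟩ : ∃ q : Qt α β, q = ⟨p₀, p₁, p₂, p₃⟩ := ⟨_, rfl⟩
    have hu' : u = φ q := by rw [hφ, h.eq, hq]
    obtain ⟨t, ht0, ht⟩ : ∃ t : Qt α β, t ≠ 0 ∧ t * q = star q * t := by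
      by_cases h12 : p₁ = 0 ∧ p₂ = 0
      · refine ⟨⟨0, 1, 0, 0⟩, fun h => ?_, ?_⟩
        · have := congrArg QuaternionAlgebra.imI h
          exact one_ne_zero this
        · rw [hq]
          obtain ⟨h1, h2⟩ := h12
          subst h1
          subst h2
          ext <;> simp
      · refine ⟨⟨0, β * p₂, -(α * p₁), 0⟩, fun h => h12 ?_, ?_⟩
        · have e1 := congrArg QuaternionAlgebra.imI h
          have e2 := congrArg QuaternionAlgebra.imJ h
          simp only [QuaternionAlgebra.imI_zero, QuaternionAlgebra.imJ_zero, neg_eq_zero,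
            mul_eq_zero, Units.ne_zero, false_or] at e1 e2
          exact ⟨e2, e1⟩
        · rw [hq]
          ext <;> simp <;> ring
    have ht' : φ t ≠ 0 := fun h1 => ht0 (qhom_inj h.fr hφ h1)
    have e0 : star u * u = 1 := h.star_mul_self
    have hy0 : 1 + u ≠ 0 := fun h1 => hu (eq_neg_of_add_eq_zero_right h1)
    have e1 : φ t * (1 + u) = (1 + star u) * φ t := by
      rw [mul_add, add_mul, hu', star_qhom h.fr hφ, ← map_mul, ← map_mul, ht, mul_one, one_mul]
    have e2 : u * (1 + star u) = 1 + u := by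
      rw [mul_add, h.mul_star_self, mul_one, add_comm]
    have e3 : m (1 + u) = m (1 + star u) := by
      have := congrArg m e1
      rw [map_mul, map_mul, mul_comm] at this
      exact mul_right_cancel₀ (hm _ ht') this
    have e4 := congrArg m e2
    rw [map_mul, ← e3, mul_eq_right₀ (hm _ hy0)] at e4
    exact e4

end Vale.Agent.P011.One
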