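import Vale.Agent.P011.Even.LocFin
import Vale.Agent.P011.One.Quat
import Vale.Agent.P011.W.RedC

/-!
At almost all places which split the centre, the symmetric quaternion subalgebras of a division
algebra of degree four with an involution of the second kind are split.
-/

open Module NumberField IsDedekindDomain

set_option linter.unusedSectionVars false

namespace Vale.Agent.P011.One

open Vale.Agent.P011.Arith Vale.Agent.P011.Even

section lin

/-- A quaternion algebra acting on an eigenspace of dimension at most two is split. -/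
theorem lin_core {R V : Type*} [Field R] [CharZero R] [AddCommGroup V] [Module R V]
    (h4 : finrank R V = 4) (G U I J : Module.End R V) {l al be : R} (hl : l ≠ 0) (hal : al ≠ 0)
    (hG : ∀ v, G (G v) = (l * l) • v) (hU : ∀ v, U v = 0 → v = 0)
    (hUG : ∀ v, U (G v) = -G (U v)) (hI : ∀ v, I (G v) = G (I v)) (hJ : ∀ v, J (G v) = G (J v))
    (hIJ : ∀ v, I (J v) = -J (I v)) (hII : ∀ v, G v = l • v → I (I v) = al • v)
    (hJJ : ∀ v, G v = l • v → J (J v) = be • v) : ∃ X Y : R, be = X ^ 2 - al * Y ^ 2 := by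
  have hfd : FiniteDimensional R V := Module.finite_of_finrank_pos (by omega)
  let P : Submodule R V := LinearMap.ker (G - l • (1 : Module.End R V))
  let M : Submodule R V := LinearMap.ker (G + l • (1 : Module.End R V))
  have hP : ∀ v, v ∈ P ↔ G v = l • v := fun v => by
    rw [LinearMap.mem_ker, LinearMap.sub_apply, LinearMap.smul_apply, Module.End.one_apply,
      sub_eq_zero]
  have hM : ∀ v, v ∈ M ↔ G v = -(l • v) := fun v => by
    rw [LinearMap.mem_ker, LinearMap.add_apply, LinearMap.smul_apply, Module.End.one_apply,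
      add_eq_zero_iff_eq_neg]
  have hUP : ∀ v ∈ P, U v ∈ M := fun v hv => by
    rw [hM, ← neg_eq_iff_eq_neg, ← hUG, (hP v).mp hv, map_smul]
  have hUM : ∀ v ∈ M, U v ∈ P := fun v hv => by
    rw [hP, ← neg_inj, ← hUG, (hM v).mp hv, map_neg, map_smul]
  have hUinj : Function.Injective U := by
    rw [← LinearMap.ker_eq_bot, LinearMap.ker_eq_bot']
    exact hU
  -- the eigenspace is not zero
  have hne : ∃ v ∈ P, v ≠ 0 := by
    by_contra hcon
    push Not at hcon
    have hM0 : ∀ v ∈ M, v = 0 := fun v hv => hU v (hcon _ (hUM v hv))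
    have hnt : Nontrivial V := Module.nontrivial_of_finrank_pos (R := R) (by omega)
    obtain ⟨v, hv⟩ := exists_ne (0 : V)
    have h1 : G v + l • v = 0 := hcon _ ((hP _).mpr (by
      rw [map_add, hG, map_smul, smul_add, ← smul_smul, add_comm]))
    exact hv (hM0 v ((hM v).mpr (eq_neg_of_add_eq_zero_left h1)))
  -- its dimension is at most two
  have hdim : finrank R P ≤ 2 := by
    have h1 : finrank R P ≤ finrank R M := by
      let f : P →ₗ[R] M := (U.domRestrict P).codRestrict M fun v => hUP v v.2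
      apply LinearMap.finrank_le_finrank_of_injective (f := f)
      intro v w hvw
      have h2 : U (v : V) = U (w : V) := congrArg Subtype.val hvw
      exact Subtype.ext (hUinj h2)
    have h2 : P ⊓ M = ⊥ := by
      rw [eq_bot_iff]
      rintro v ⟨h3, h4⟩
      have h5 : l • v = -(l • v) := ((hP v).mp h3).symm.trans ((hM v).mp h4)
      have h6 : (l + l) • v = 0 := by
        rw [add_smul]
        exact add_eq_zero_iff_eq_neg.mpr h5
      have h7 : l + l ≠ 0 := by
        rw [← two_mul]
        exact mul_ne_zero two_ne_zero hl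
      exact (smul_eq_zero.mp h6).resolve_left h7
    have h3 := Submodule.finrank_sup_add_finrank_inf_eq P M
    rw [h2, finrank_bot, add_zero] at h3
    have h4' := Submodule.finrank_le (P ⊔ M)
    omega
  by_cases hsq : IsSquare al
  · obtain ⟨r, hr⟩ := hsq
    have hr0 : r ≠ 0 := by
      rintro rfl
      exact hal (by rw [hr, mul_zero])
    refine ⟨(be + 1) / 2, (be - 1) / (2 * r), ?_⟩
    rw [hr]
    field_simp
    ring
  · obtain ⟨v, hv, hv0⟩ := hne
    have hGv := (hP v).mp hv
    have hIv : I v ∈ P := by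
      rw [hP, ← hI, hGv, map_smul]
    have hJv : J v ∈ P := by
      rw [hP, ← hJ, hGv, map_smul]
    have hli : LinearIndependent R ![(⟨v, hv⟩ : P), ⟨I v, hIv⟩] := by
      rw [LinearIndependent.pair_iff]
      intro a b hab
      have h1 : a • v + b • I v = 0 := congrArg Subtype.val hab
      have hb : b = 0 := by
        by_contra hb
        apply hsq
        refine ⟨-a / b, ?_⟩
        have h2 : I v = (-a / b) • v := by
          have h3 : b • I v = (-a) • v := by
            rw [neg_smul]
            exact eq_neg_of_add_eq_zero_right h1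
          rw [div_eq_inv_mul, ← smul_smul, ← h3, smul_smul, inv_mul_cancel₀ hb, one_smul]
        have h3 := hII v hGv
        rw [h2, map_smul, h2, smul_smul] at h3
        have h4 : ((-a / b) * (-a / b) - al) • v = 0 := by
          rw [sub_smul, h3, sub_self]
        exact (sub_eq_zero.mp ((smul_eq_zero.mp h4).resolve_right hv0)).symm
      subst hb
      rw [zero_smul, add_zero] at h1
      exact ⟨(smul_eq_zero.mp h1).resolve_right hv0, rfl⟩
    have hcard : finrank R P = 2 := by
      refine le_antisymm hdim ?_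
      have h1 := hli.fintype_card_le_finrank
      simpa using h1
    have hspan := hli.span_eq_top_of_card_eq_finrank (by rw [hcard]; rfl)
    have hz : (⟨J v, hJv⟩ : P) ∈
        Submodule.span R (Set.range ![(⟨v, hv⟩ : P), ⟨I v, hIv⟩]) := by
      rw [hspan]
      trivial
    rw [Matrix.range_cons, Matrix.range_cons, Matrix.range_empty, Set.union_empty,
      Set.singleton_union, Submodule.mem_span_pair] at hz
    obtain ⟨X, Y, hXY⟩ := hz
    have h1 : X • v + Y • I v = J v := congrArg Subtype.val hXY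
    refine ⟨X, Y, ?_⟩
    have h2 := hJJ v hGv
    rw [← h1, map_add, map_smul, map_smul, ← neg_neg (J (I v)), ← hIJ, ← h1, map_add, map_smul,
      map_smul, hII v hGv] at h2
    have h3 : (be - (X ^ 2 - al * Y ^ 2)) • v = 0 := by
      rw [sub_smul, ← h2]
      module
    exact sub_eq_zero.mp ((smul_eq_zero.mp h3).resolve_right hv0)

end lin

section val

variable {F E : Type} [Field F] [NumberField F] [Field E] [NumberField E] [Algebra F E]

theorem mem_sup_iff (w : Valuation F Z0) (a b : Fˣ) :
    b ∈ NF a ⊔ LS w ↔ ∃ X Y : F, w ((b : F) - (X ^ 2 - a * Y ^ 2)) < w 4 * w b := by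
  have h4 : w 4 ≤ 1 := val_four_le w
  constructor
  · intro h
    obtain ⟨n, ⟨X, Y, hn⟩, c, ⟨y, hy⟩, hnc⟩ := Subgroup.mem_sup.mp h
    have hy0 : (y : F) ≠ 0 := y.ne_zero
    have hn0 : (n : F) ≠ 0 := n.ne_zero
    have h1 : w ((c : F) / (y : F) ^ 2) = 1 := by
      have h2 := w.map_one_add_of_lt (x := (c : F) / (y : F) ^ 2 - 1) (lt_of_lt_of_le hy h4)
      rwa [add_sub_cancel] at h2
    have hb : (b : F) = n * c := by rw [← hnc, Units.val_mul]
    have e1 : (b : F) = (n : F) * (y : F) ^ 2 * ((c : F) / (y : F) ^ 2) := by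
      rw [hb]
      field_simp
    have hwb : w b = w ((n : F) * (y : F) ^ 2) := by rw [e1, map_mul, h1, mul_one]
    refine ⟨X * y, Y * y, ?_⟩
    have e2 : (b : F) - ((X * y) ^ 2 - a * (Y * y) ^ 2) =
        ((c : F) / (y : F) ^ 2 - 1) * ((n : F) * (y : F) ^ 2) := by
      have e3 : ((X * y) ^ 2 - a * (Y * y) ^ 2) = (n : F) * (y : F) ^ 2 := by
        rw [hn]
        ring
      rw [e3, e1]
      ring
    rw [e2, map_mul, hwb]
    exact mul_lt_mul_of_pos_right hy (zero_lt_iff.mpr ((Valuation.ne_zero_iff _).mpr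
      (mul_ne_zero hn0 (pow_ne_zero 2 hy0))))
  · rintro ⟨X, Y, h⟩
    have hlt : w ((b : F) - (X ^ 2 - a * Y ^ 2)) < w b :=
      lt_of_lt_of_le h (mul_le_of_le_one_left' h4)
    have hwn : w (X ^ 2 - a * Y ^ 2) = w b := by
      have e1 : X ^ 2 - a * Y ^ 2 = b - (b - (X ^ 2 - a * Y ^ 2)) := by ring
      rw [e1]
      rw [Valuation.map_sub_swap]
      exact w.map_sub_eq_of_lt_right hlt
    have hwb0 : w (b : F) ≠ 0 := (Valuation.ne_zero_iff _).mpr b.ne_zero
    have hn0 : X ^ 2 - a * Y ^ 2 ≠ 0 := by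
      intro h0
      rw [h0, map_zero] at hwn
      exact hwb0 hwn.symm
    have h1 : b / Units.mk0 _ hn0 ∈ LS w := by
      apply LS_of_close
      rw [Units.val_div_eq_div_val, Units.val_mk0]
      have e1 : (b : F) / (X ^ 2 - a * Y ^ 2) - 1 =
          (b - (X ^ 2 - a * Y ^ 2)) / (X ^ 2 - a * Y ^ 2) := by
        rw [sub_div, div_self hn0]
      rw [e1, map_div₀, hwn, div_lt_iff₀ (zero_lt_iff.mpr hwb0)]
      exact h
    have h2 : Units.mk0 _ hn0 ∈ NF a := ⟨X, Y, rfl⟩
    have h3 : b = Units.mk0 _ hn0 * (b / Units.mk0 _ hn0) := by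
      rw [mul_div_cancel]
    rw [h3]
    exact Subgroup.mul_mem_sup h2 h1

/-- A quadratic extension which splits at a place does not change the completion. -/
theorem dense_of_split {w : HeightOneSpectrum (𝓞 F)} {w' : HeightOneSpectrum (𝓞 E)}
    (hw : Ab w' w) {d : Fˣ} {θ : E} (hθ : θ ^ 2 = algebraMap F E d)
    (hgen : ∀ z : E, ∃ p q : F, z = algebraMap F E p + algebraMap F E q * θ)
    (hd : d ∈ LS (w.valuation F)) (z : E) {γ : Z0} (hγ : γ ≠ 0) :
    ∃ y : F, w'.valuation E (z - algebraMap F E y) < γ := by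
  obtain ⟨p, q, rfl⟩ := hgen z
  by_cases hq : q = 0
  · refine ⟨p, ?_⟩
    rw [hq, map_zero, zero_mul, add_zero, sub_self, map_zero]
    exact zero_lt_iff.mpr hγ
  have hθ0 : θ ≠ 0 := by
    rintro rfl
    rw [zero_pow two_ne_zero] at hθ
    exact d.ne_zero ((map_eq_zero _).mp hθ.symm)
  set W := w'.valuation E with hW
  have hWθ : W θ ≠ 0 := (Valuation.ne_zero_iff _).mpr hθ0
  have hWq : W (algebraMap F E q) ≠ 0 :=
    (Valuation.ne_zero_iff _).mpr ((map_ne_zero _).mpr hq)
  set δ : Z0 := γ / (W (algebraMap F E q) * W θ) with hδ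
  have hδ0 : δ ≠ 0 := div_ne_zero hγ (mul_ne_zero hWq hWθ)
  have hγ1 : min (δ * δ) 1 ≠ 0 := by
    rcases min_choice (δ * δ) 1 with h | h
    · rw [h]
      exact mul_ne_zero hδ0 hδ0
    · rw [h]
      exact one_ne_zero
  obtain ⟨y, hy⟩ := LS_newton' hd hγ1
  have hy0 : (y : F) ≠ 0 := y.ne_zero
  have hyE : algebraMap F E (y : F) ≠ 0 := (map_ne_zero _).mpr hy0
  obtain ⟨e, he, hv⟩ := val_above hw
  have h1 : W (algebraMap F E ((d : F) / (y : F) ^ 2 - 1)) < min (δ * δ) 1 := by
    rw [hW, hv]
    refine lt_of_le_of_lt ?_ hy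
    exact pow_le_of_le_one zero_le (hy.le.trans (min_le_right _ _)) he
  have h2 : W (algebraMap F E ((d : F) / (y : F) ^ 2)) = 1 := by
    have h3 := W.map_one_add_of_lt (x := algebraMap F E ((d : F) / (y : F) ^ 2 - 1))
      (h1.trans_le (min_le_right _ _))
    rwa [map_sub, map_one, add_sub_cancel] at h3
  have h3 : W (algebraMap F E y) * W (algebraMap F E y) = W θ * W θ := by
    rw [map_div₀, map_pow, ← hθ, map_div₀, map_pow, map_pow, div_eq_one_iff_eq
      (pow_ne_zero 2 ((Valuation.ne_zero_iff _).mpr hyE))] at h2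
    rw [← pow_two, ← pow_two, h2]
  have h4 : W (algebraMap F E y) = W θ := by
    have h5 : W (algebraMap F E y) ^ 2 = W θ ^ 2 := by rw [pow_two, pow_two, h3]
    exact (pow_left_inj₀ zero_le zero_le two_ne_zero).mp h5
  have h5 : W (θ - algebraMap F E y) * W (θ + algebraMap F E y) < (W θ * δ) * (W θ * δ) := by
    have e1 : (θ - algebraMap F E y) * (θ + algebraMap F E y) =
        algebraMap F E y * algebraMap F E y * algebraMap F E ((d : F) / (y : F) ^ 2 - 1) := by
      rw [map_sub, map_div₀, map_pow, ← hθ, map_one]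
      field_simp
      ring
    rw [← map_mul, e1, map_mul, map_mul, h4, mul_mul_mul_comm]
    exact mul_lt_mul_of_pos_left (h1.trans_le (min_le_left _ _))
      (zero_lt_iff.mpr (mul_ne_zero hWθ hWθ))
  have h6 : ∃ ε : F, W (θ - algebraMap F E ε) < W θ * δ := by
    by_cases h7 : W (θ - algebraMap F E y) < W θ * δ
    · exact ⟨y, h7⟩
    · refine ⟨-y, ?_⟩
      rw [map_neg, sub_neg_eq_add]
      by_contra h8
      push Not at h7 h8
      exact absurd h5 (not_lt.mpr (mul_le_mul' h7 h8))
  obtain ⟨ε, hε⟩ := h6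
  refine ⟨p + q * ε, ?_⟩
  have e1 : algebraMap F E p + algebraMap F E q * θ - algebraMap F E (p + q * ε) =
      algebraMap F E q * (θ - algebraMap F E ε) := by
    rw [map_add, map_mul]
    ring
  rw [e1, map_mul]
  calc _ < W (algebraMap F E q) * (W θ * δ) :=
        mul_lt_mul_of_pos_left hε (zero_lt_iff.mpr hWq)
    _ = γ := by
        rw [hδ, ← mul_assoc, mul_div_cancel₀ _ (mul_ne_zero hWq hWθ)]

theorem sq_near {W : Valuation E Z0} (a X : E) {γ : Z0} (hγ : γ ≠ 0) :
    ∃ δ : Z0, δ ≠ 0 ∧ ∀ X' : E, W (X - X') < δ → W (a * (X ^ 2 - X' ^ 2)) < γ := by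
  set A := max (W a) 1 with hA
  set B := max (W (2 * X)) 1 with hB
  have hA1 : 1 ≤ A := le_max_right _ _
  have hB1 : 1 ≤ B := le_max_right _ _
  have hA0 : A ≠ 0 := (zero_lt_one.trans_le hA1).ne'
  have hB0 : B ≠ 0 := (zero_lt_one.trans_le hB1).ne'
  have hAB : A * B ≠ 0 := mul_ne_zero hA0 hB0
  refine ⟨min (γ / (A * B)) 1, ?_, fun X' hX' => ?_⟩
  · rcases min_choice (γ / (A * B)) 1 with h | h
    · rw [h]
      exact div_ne_zero hγ hAB
    · rw [h]
      exact one_ne_zero
  · have h1 : W (X + X') ≤ B := by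
      have e1 : X + X' = 2 * X - (X - X') := by ring
      rw [e1]
      refine (W.map_sub _ _).trans (max_le (le_max_left _ _) ?_)
      exact (hX'.le.trans (min_le_right _ _)).trans hB1
    have e1 : a * (X ^ 2 - X' ^ 2) = a * (X + X') * (X - X') := by ring
    rw [e1, map_mul, map_mul]
    calc W a * W (X + X') * W (X - X') ≤ A * B * W (X - X') :=
          mul_le_mul_left (mul_le_mul' (le_max_left _ _) h1) _
      _ < A * B * (γ / (A * B)) :=
          mul_lt_mul_of_pos_left (hX'.trans_le (min_le_left _ _)) (zero_lt_iff.mpr hAB)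
      _ = γ := mul_div_cancel₀ _ hAB

/-- Descent of norms through a quadratic extension which splits at the place. -/
theorem descend_split {w : HeightOneSpectrum (𝓞 F)} {w' : HeightOneSpectrum (𝓞 E)}
    (hw : Ab w' w) {d : Fˣ} {θ : E} (hθ : θ ^ 2 = algebraMap F E d)
    (hgen : ∀ z : E, ∃ p q : F, z = algebraMap F E p + algebraMap F E q * θ)
    (hd : d ∈ LS (w.valuation F)) {a b : Fˣ}
    (h : inc F E b ∈ NF (inc F E a) ⊔ LS (w'.valuation E)) : b ∈ NF a ⊔ LS (w.valuation F) := by
  rw [mem_sup_iff] at h ⊢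
  obtain ⟨X, Y, hXY⟩ := h
  have hγ0 : w'.valuation E 4 * w'.valuation E (inc F E b : Eˣ) ≠ 0 :=
    mul_ne_zero ((Valuation.ne_zero_iff _).mpr (by norm_num))
      ((Valuation.ne_zero_iff _).mpr (Units.ne_zero _))
  obtain ⟨δ, hδ, hX⟩ := sq_near (W := w'.valuation E) 1 X hγ0
  obtain ⟨δ', hδ', hY⟩ := sq_near (W := w'.valuation E) ((inc F E a : Eˣ) : E) Y hγ0
  obtain ⟨x, hx⟩ := dense_of_split hw hθ hgen hd X hδ
  obtain ⟨y, hy⟩ := dense_of_split hw hθ hgen hd Y hδ'
  refine ⟨x, y, ?_⟩
  have e4 : (4 : E) = algebraMap F E 4 := (map_ofNat _ 4).symm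
  have e1 : algebraMap F E ((b : F) - (x ^ 2 - a * y ^ 2)) =
      ((inc F E b : Eˣ) - (X ^ 2 - (inc F E a : Eˣ) * Y ^ 2)) +
        1 * (X ^ 2 - algebraMap F E x ^ 2) -
        ((inc F E a : Eˣ) : E) * (Y ^ 2 - algebraMap F E y ^ 2) := by
    change _ = (algebraMap F E b - (X ^ 2 - algebraMap F E a * Y ^ 2)) +
        1 * (X ^ 2 - algebraMap F E x ^ 2) -
        algebraMap F E a * (Y ^ 2 - algebraMap F E y ^ 2)
    simp only [map_sub, map_pow, map_mul]
    ring
  have h1 : w'.valuation E (algebraMap F E ((b : F) - (x ^ 2 - a * y ^ 2))) <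
      w'.valuation E (algebraMap F E (4 * b)) := by
    have e2 : w'.valuation E (algebraMap F E (4 * b)) =
        w'.valuation E 4 * w'.valuation E (inc F E b : Eˣ) := by
      rw [map_mul, ← e4, map_mul]
      rfl
    rw [e1, e2]
    exact (w'.valuation E).map_sub_lt ((w'.valuation E).map_add_lt hXY (hX _ hx)) (hY _ hy)
  rw [val_lt_val_iff hw, map_mul] at h1
  exact h1

end val

section gen

/-- A quadratic extension is generated by a square root. -/
theorem exists_sqgen {k F : Type*} [Field k] [CharZero k] [Field F] [Algebra k F]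
    (h2 : finrank k F = 2) :
    ∃ (g : F) (c : k), g * g = algebraMap k F c ∧ ∀ x : k, algebraMap k F x ≠ g := by
  have hfd : FiniteDimensional k F := Module.finite_of_finrank_pos (by omega)
  have h1 : ∃ x : F, ∀ y : k, algebraMap k F y ≠ x := by
    by_contra hcon
    push Not at hcon
    have h3 : finrank k F = 1 := by
      rw [finrank_eq_one_iff']
      refine ⟨1, one_ne_zero, fun w => ?_⟩
      obtain ⟨c, rfl⟩ := hcon w
      exact ⟨c, by rw [Algebra.smul_def, mul_one]⟩
    omega
  obtain ⟨x, hx⟩ := h1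
  have hli : LinearIndependent k ![(1 : F), x] := by
    rw [LinearIndependent.pair_iff]
    intro a b hab
    rw [Algebra.smul_def, Algebra.smul_def, mul_one] at hab
    have hb : b = 0 := by
      by_contra hb
      apply hx (-a / b)
      rw [map_div₀, map_neg, div_eq_iff ((map_ne_zero _).mpr hb)]
      linear_combination -hab
    subst hb
    rw [map_zero, zero_mul, add_zero] at hab
    exact ⟨(map_eq_zero _).mp hab, rfl⟩
  have hspan := hli.span_eq_top_of_card_eq_finrank (by rw [h2]; rfl)
  have hz : x * x ∈ Submodule.span k (Set.range ![(1 : F), x]) := by rw [hspan]; trivial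
  rw [Matrix.range_cons, Matrix.range_cons, Matrix.range_empty, Set.union_empty,
    Set.singleton_union, Submodule.mem_span_pair] at hz
  obtain ⟨p, q, h⟩ := hz
  rw [Algebra.smul_def, Algebra.smul_def, mul_one] at h
  have h20 : (2 : F) ≠ 0 := by
    rw [← map_ofNat (algebraMap k F) 2, Ne, map_eq_zero]
    exact two_ne_zero
  refine ⟨x - algebraMap k F (q / 2), p + q ^ 2 / 4, ?_, fun y hy => ?_⟩
  · have h3 : (x - algebraMap k F (q / 2)) * (x - algebraMap k F (q / 2)) =
        x * x - algebraMap k F q * x + (algebraMap k F (q / 2)) ^ 2 := by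
      have h4 : algebraMap k F q = 2 * algebraMap k F (q / 2) := by
        rw [← map_ofNat (algebraMap k F) 2, ← map_mul]
        congr 1
        field_simp
      rw [h4]
      ring
    rw [h3, ← h, map_add, ← map_pow]
    have h5 : (q / 2) ^ 2 = q ^ 2 / 4 := by ring
    rw [h5]
    ring
  · apply hx (y + q / 2)
    rw [map_add, hy]
    ring

end gen

section main

variable {k K D : Type} [Field k] [NumberField k] [Field K] [StarRing K]
    [DivisionRing D] [StarRing D] [Algebra k K] [Algebra k D] [Algebra K D] [IsScalarTower k K D]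
    {d : kˣ} {s : K}

theorem not_isSquare_inc (hS : Setting k K D d s) {F : Type} [Field F] [NumberField F]
    [Algebra k F] (ι : F →ₐ[k] D) (hsym : ∀ x, star (ι x) = ι x) :
    ¬ IsSquare ((inc k F d : Fˣ) : F) := by
  rintro ⟨y, hy⟩
  set S : D := algebraMap K D s with hSd
  have hSc : ∀ z : D, S * z = z * S := fun z => Algebra.commutes s z
  have hSS : S * S = algebraMap k D d := by
    rw [hSd, ← map_mul, ← sq, hS.sq, ← IsScalarTower.algebraMap_apply]
  have hSst : star S = -S := star_S hS
  have hS0 : S ≠ 0 := by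
    intro h0
    rw [h0, mul_zero, eq_comm, map_eq_zero] at hSS
    exact d.ne_zero hSS
  have h1 : ι y * ι y = S * S := by
    rw [← map_mul, ← hy, hSS]
    exact ι.commutes (d : k)
  have h2 : (ι y - S) * (ι y + S) = 0 := by
    rw [sub_mul, mul_add, mul_add, h1, hSc (ι y)]
    abel
  have h3 : star S = S := by
    rcases mul_eq_zero.mp h2 with h | h
    · rw [← sub_eq_zero.mp h, hsym]
    · rw [eq_neg_of_add_eq_zero_right h, star_neg, hsym]
  rw [hSst] at h3
  have hch : CharZero D := charZero_of_injective_algebraMap (algebraMap k D).injective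
  have h4 : (2 : D) * S = 0 := by
    rw [two_mul]
    nth_rewrite 1 [← h3]
    exact neg_add_cancel S
  exact hS0 ((mul_eq_zero.mp h4).resolve_left two_ne_zero)

theorem typeTwo (hS : Setting k K D d s) (h16 : finrank K D = 16) :
    ∃ S : Set (HeightOneSpectrum (𝓞 k)), S.Finite ∧ ∀ v ∉ S, d ∈ LS (v.valuation k) →
      ∀ (F : Type) [Field F] [NumberField F] [Algebra k F] (ι : F →ₐ[k] D) (α β : Fˣ) (i j : D),
        QFr ι α β i j → finrank k F = 2 → ∀ w : HeightOneSpectrum (𝓞 F), Ab w v →
          β ∈ NF α ⊔ LS (w.valuation F) := by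
  have hfin := hS.fin
  have hcen := hS.cen
  have hKf : FiniteDimensional k K := Module.finite_of_finrank_pos (by rw [hS.rank]; norm_num)
  have hNK : NumberField K := numberField_fin (k := k)
  obtain ⟨S', hS', hspl⟩ := W.spl_almost (F := K) (D := D) (q := 4) (by norm_num)
    (by rw [h16]; norm_num)
  choose be hbe using fun W : HeightOneSpectrum (𝓞 K) => exists_below (F := k) W
  refine ⟨be '' S', hS'.image be, ?_⟩
  intro v hv hd F _ _ _ ι α β i j hQ h2 w hw
  have hch : CharZero D := charZero_of_injective_algebraMap (algebraMap k D).injective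
  obtain ⟨g, c, hgc, hg⟩ := exists_sqgen (k := k) (F := F) h2
  have hns := not_isSquare_inc hS ι hQ.sym
  obtain ⟨E, _, _, _, hE2, θ, hθ⟩ := exists_quad (F := F) (inc k F d) hns
  let _ : Algebra k E := ((algebraMap F E).comp (algebraMap k F)).toAlgebra
  have _ : IsScalarTower k F E := IsScalarTower.of_algebraMap_eq fun x => rfl
  have hθ' : θ ^ 2 = algebraMap k E d := hθ
  obtain ⟨φ, hφ⟩ := exists_hom (k := k) (K := K) (L := E) hS.ns hS.sq
    (fun x => coords hS.rank hS.sq hS.ns x) hθ'
  let _ : Algebra K E := φ.toRingHom.toAlgebra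
  have _ : IsScalarTower k K E := IsScalarTower.of_algebraMap_eq fun x => (φ.commutes x).symm
  have htow : ∀ x : k, algebraMap K E (algebraMap k K x) = algebraMap F E (algebraMap k F x) :=
    fun x => φ.commutes x
  obtain ⟨w', hw'⟩ := exists_above (E := E) w
  obtain ⟨W, hW⟩ := exists_below (F := K) w'
  have hWv : Ab W v := by
    change W.asIdeal.comap (algebraMap (𝓞 k) (𝓞 K)) = v.asIdeal
    rw [← hW, ← hw, ← hw', Ideal.comap_comap, Ideal.comap_comap]
    congr 1
    refine RingHom.ext fun x => RingOfIntegers.ext ?_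
    exact htow (x : k)
  have hWS : W ∉ S' := by
    intro h
    apply hv
    refine ⟨W, h, ?_⟩
    exact below_unique (hbe W) hWv
  obtain ⟨f, hf⟩ := hspl W hWS E w' hW
  set R := w'.adicCompletion E with hR
  have hfk : ∀ x : k, f (algebraMap k D x) =
      Matrix.scalar (Fin 4) (algebraMap E R (algebraMap F E (algebraMap k F x))) := by
    intro x
    rw [IsScalarTower.algebraMap_apply k K D, hf]
    change Matrix.scalar (Fin 4) (algebraMap E R (algebraMap K E (algebraMap k K x))) = _
    rw [htow]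
  let T : D →+* Module.End R (Fin 4 → R) := (Matrix.toLinAlgEquiv' (R := R) (n := Fin 4) :
    Matrix (Fin 4) (Fin 4) R →+* Module.End R (Fin 4 → R)).comp f
  have hTk : ∀ (x : k) (u : Fin 4 → R), T (algebraMap k D x) u =
      (algebraMap E R (algebraMap F E (algebraMap k F x))) • u := by
    intro x u
    change Matrix.toLinAlgEquiv' (f (algebraMap k D x)) u = _
    rw [hfk, Matrix.toLinAlgEquiv'_apply, Matrix.scalar_apply, Matrix.diagonal_const_mulVec]
  have hT0 : ∀ x : D, x ≠ 0 → ∀ u, T x u = 0 → u = 0 := by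
    intro x hx u hu
    have h1 : T (x⁻¹ * x) u = 0 := by rw [map_mul, Module.End.mul_apply, hu, map_zero]
    rwa [inv_mul_cancel₀ hx, map_one, Module.End.one_apply] at h1
  -- an element anticommuting with the generator
  obtain ⟨z, hz⟩ : ∃ z : D, ι g * z ≠ z * ι g := by
    by_contra hcon
    push Not at hcon
    have h1 : ι g ∈ Subalgebra.center K D := Subalgebra.mem_center_iff.mpr fun b => (hcon b).symm
    rw [Algebra.IsCentral.center_eq_bot, Algebra.mem_bot] at h1
    obtain ⟨x, hx⟩ := h1
    have h3 : star x = x := by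
      apply (algebraMap K D).injective
      have h4 := hS.star_smul x (1 : D)
      rw [star_one, Algebra.smul_def, Algebra.smul_def, mul_one, mul_one] at h4
      rw [← h4, hx, hQ.sym]
    obtain ⟨y, rfl⟩ := (hS.fix x).mp h3
    apply hg y
    apply ι.toRingHom.injective
    change ι (algebraMap k F y) = ι g
    rw [← hx, ι.commutes, ← IsScalarTower.algebraMap_apply]
  have hgg : ι g * ι g = algebraMap k D c := by rw [← map_mul, hgc, ι.commutes]
  have hu0 : ι g * z - z * ι g ≠ 0 := sub_ne_zero.mpr hz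
  have hug : (ι g * z - z * ι g) * ι g = -(ι g * (ι g * z - z * ι g)) := by
    have h1 : (ι g * z - z * ι g) * ι g + ι g * (ι g * z - z * ι g) =
        (ι g * ι g) * z - z * (ι g * ι g) := by noncomm_ring
    rw [hgg, Algebra.commutes, sub_self] at h1
    exact eq_neg_of_add_eq_zero_left h1
  have hcns : ¬ IsSquare c := by
    rintro ⟨r, hr⟩
    have h1 : (g - algebraMap k F r) * (g + algebraMap k F r) = 0 := by
      have h3 : (g - algebraMap k F r) * (g + algebraMap k F r) =
          g * g - algebraMap k F r * algebraMap k F r := by ring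
      rw [h3, hgc, hr, map_mul, sub_self]
    rcases mul_eq_zero.mp h1 with h | h
    · exact hg r (sub_eq_zero.mp h).symm
    · exact hg (-r) (by rw [map_neg]; exact (eq_neg_of_add_eq_zero_left h).symm)
  have hg0 : g ≠ 0 := fun h => hg 0 (by rw [h, map_zero])
  let e : F →+* R := (algebraMap E R).comp (algebraMap F E)
  have hTF : ∀ (x : F) (v : Fin 4 → R), T (ι g) v = e g • v → T (ι x) v = e x • v := by
    intro x v hv1
    obtain ⟨p, q, rfl⟩ := Arith.exists_coords h2 hcns (by rw [pow_two, hgc]) x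
    rw [map_add, map_mul, ι.commutes, ι.commutes, map_add, map_mul, LinearMap.add_apply,
      Module.End.mul_apply, hv1, map_smul, hTk, hTk, map_add, map_mul, add_smul, mul_smul,
      smul_comm (e g)]
    rfl
  obtain ⟨X, Y, hXY⟩ := lin_core (R := R) (V := Fin 4 → R) (by simp) (T (ι g))
    (T (ι g * z - z * ι g)) (T i) (T j) (l := e g) (al := e α) (be := e β)
    ((map_ne_zero e).mpr hg0) ((map_ne_zero e).mpr α.ne_zero)
    (fun v => by
      rw [← Module.End.mul_apply, ← map_mul, hgg, hTk, ← hgc, map_mul, map_mul]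
      rfl)
    (hT0 _ hu0)
    (fun v => by rw [← Module.End.mul_apply, ← map_mul, hug, map_neg, map_mul]; rfl)
    (fun v => by rw [← Module.End.mul_apply, ← map_mul, ← hQ.ci, map_mul]; rfl)
    (fun v => by rw [← Module.End.mul_apply, ← map_mul, ← hQ.cj, map_mul]; rfl)
    (fun v => by rw [← Module.End.mul_apply, ← map_mul, hQ.ij, map_neg, map_mul]; rfl)
    (fun v hv1 => by rw [← Module.End.mul_apply, ← map_mul, hQ.ii, hTF _ _ hv1])
    (fun v hv1 => by rw [← Module.End.mul_apply, ← map_mul, hQ.jj, hTF _ _ hv1])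
  refine descend_split hw' hθ (Arith.exists_coords hE2 hns hθ) ?_
    ((Even.mem_LN_iff w' _ _).mp ⟨X, Y, hXY⟩)
  exact LS_map hw hd

end main

end Vale.Agent.P011.One
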