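import Vale.Agent.P011.One.AFrame
import Vale.Agent.P011.One.ClassN
import Vale.Agent.P011.One.QuadPar
import Vale.Agent.P011.One.TypeTwo

/-!
Symmetric square roots commuting with a given one, with a quaternion algebra in the centralizer
which is unramified outside a fixed finite set.
-/

open NumberField IsDedekindDomain Module Polynomial

set_option linter.unusedSectionVars false

namespace Vale.Agent.P011.One

open Vale.Agent.P011.Arith Vale.Agent.P011.Even Vale.Agent.P011.Two Vale.Agent.P011.MPQ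

variable {k K D : Type} [Field k] [NumberField k] [Field K] [StarRing K]
    [DivisionRing D] [StarRing D] [Algebra k K] [Algebra k D] [Algebra K D] [IsScalarTower k K D]
    {d : kˣ} {s : K}

theorem crt (hS : Setting k K D d s) : CRt (algebraMap K D s) d := by
  refine ⟨fun x => Algebra.commutes _ _, star_S hS, ?_⟩
  rw [← map_mul, ← pow_two, hS.sq, ← IsScalarTower.algebraMap_apply]

theorem coordK (hS : Setting k K D d s) (c : K) :
    ∃ x y : k, c = algebraMap k K x + algebraMap k K y * s := by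
  have : CharZero K := charZero_of_injective_algebraMap (algebraMap k K).injective
  have hs0 : s ≠ 0 := by
    intro h
    apply (crt hS).ne_zero
    rw [h, map_zero]
  obtain ⟨x, hx⟩ := (hS.fix ((c + star c) / 2)).mp (by
    rw [star_div₀, star_add, star_star, star_ofNat, add_comm])
  obtain ⟨y, hy⟩ := (hS.fix ((c - star c) / (2 * s))).mp (by
    rw [star_div₀, star_sub, star_star, star_mul, star_ofNat, hS.star_s, mul_comm, mul_neg,
      div_neg, ← neg_div, neg_sub])
  refine ⟨x, y, ?_⟩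
  rw [hx, hy]
  field_simp
  ring

/-- Antisymmetric elements commuting with `s'` and anticommuting with `t`. -/
theorem exists_skew (hS : Setting k K D d s) (hdeg : finrank K D = 16) {t s' : D}
    (hts : star t = t) {a' : kˣ} (hs : star s' = s')
    (hss : s' * s' = algebraMap k D a') (hst : s' * t = t * s')
    (hnt : ∀ c : K, algebraMap K D c ≠ s') (htt : ∃ a : k, t * t = algebraMap k D a)
    (htL : ∀ u v : K, t ≠ algebraMap K D u + algebraMap K D v * s') :
    ∃ (j' : D) (u v : k), j' ≠ 0 ∧ star j' = -j' ∧ j' * s' = s' * j' ∧ j' * t = -(t * j') ∧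
      j' * j' = algebraMap k D u + algebraMap k D v * s' := by
  have := hS.fin
  have := hS.cen
  have hc := crt hS
  have hss' : s' * s' = algebraMap K D (algebraMap k K a') := by
    rw [hss, ← IsScalarTower.algebraMap_apply]
  obtain ⟨h1, z, hz1, hz2⟩ := cent_two hdeg hss' hnt hst.symm (fun ⟨u, v, h⟩ => htL u v h)
  obtain ⟨a, ha⟩ := htt
  -- the element anticommuting with `t`
  have hW : ∃ y : D, y ≠ 0 ∧ y * s' = s' * y ∧ y * t = -(t * y) := by
    refine ⟨t * z - z * t, fun h => hz2 (sub_eq_zero.mp h).symm, ?_, ?_⟩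
    · rw [sub_mul, mul_sub]
      congr 1
      · rw [mul_assoc, hz1, ← mul_assoc, ← hst, mul_assoc]
      · rw [mul_assoc, ← hst, ← mul_assoc, hz1, mul_assoc]
    · rw [sub_mul, mul_sub, mul_assoc z, ha, ← Algebra.commutes a z, ← ha, neg_sub, mul_assoc,
        mul_assoc]
  obtain ⟨y, hy0, hys, hyt⟩ := hW
  have hyss : star y * s' = s' * star y := by
    have := congrArg star hys
    rw [star_mul, star_mul, hs] at this
    exact this.symm
  have hyst : star y * t = -(t * star y) := by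
    have := congrArg star hyt
    rw [star_mul, star_neg, star_mul, hts] at this
    rw [this, neg_neg]
  obtain ⟨j', hj0, hjs, hjs', hjt⟩ : ∃ j' : D, j' ≠ 0 ∧ star j' = -j' ∧ j' * s' = s' * j' ∧
      j' * t = -(t * j') := by
    by_cases h : y - star y = 0
    · have h2 : star y = y := (sub_eq_zero.mp h).symm
      refine ⟨algebraMap K D s * y, mul_ne_zero hc.ne_zero hy0, ?_, ?_, ?_⟩
      · rw [star_mul, hc.st, h2, mul_neg, hc.comm]
      · rw [mul_assoc, hys, ← mul_assoc, hc.comm s', mul_assoc]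
      · rw [mul_assoc, hyt, mul_neg, ← mul_assoc, hc.comm t, mul_assoc]
    · refine ⟨y - star y, h, ?_, ?_, ?_⟩
      · rw [star_sub, star_star, neg_sub]
      · rw [sub_mul, mul_sub, hys, hyss]
      · rw [sub_mul, mul_sub, hyt, hyst]
        abel
  have h2t : (j' * j') * t = t * (j' * j') := by
    rw [mul_assoc, hjt, mul_neg, ← mul_assoc, hjt, neg_mul, neg_neg, mul_assoc]
  have h2s : (j' * j') * s' = s' * (j' * j') := by
    rw [mul_assoc, hjs', ← mul_assoc, hjs', mul_assoc]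
  obtain ⟨l, hl, l', hl', hll⟩ := h1 _ h2s h2t
  have hjl : ∀ l ∈ Lt2 K hss', j' * l = l * j' := by
    rintro _ ⟨u, v, rfl⟩
    rw [mul_add, add_mul, ← Algebra.commutes u j', ← mul_assoc, ← Algebra.commutes v j', mul_assoc,
      hjs', mul_assoc]
  have hl0 : l' = 0 := by
    by_contra hne
    have e1 : j' * (j' * j') = (j' * j') * j' := (mul_assoc _ _ _).symm
    rw [hll, mul_add, add_mul, hjl l hl, ← mul_assoc, hjl l' hl', mul_assoc, hjt, mul_neg,
      ← mul_assoc] at e1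
    have e2 := add_left_cancel e1
    have e3 : (2 : D) * (l' * t * j') = 0 := by
      rw [two_mul]
      nth_rewrite 1 [← e2]
      rw [neg_add_cancel]
    have : CharZero D := charZero_of_injective_algebraMap (algebraMap k D).injective
    have ht0 : t ≠ 0 := by
      rintro rfl
      exact htL 0 0 (by rw [map_zero, zero_mul, add_zero])
    exact (mul_ne_zero two_ne_zero (mul_ne_zero (mul_ne_zero hne ht0) hj0)) e3
  rw [hl0, zero_mul, add_zero] at hll
  obtain ⟨u, v, huv⟩ := sym_Lt2 hS hs hss' hnt hl (by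
    rw [← hll, star_mul, hjs, neg_mul_neg])
  exact ⟨j', u, v, hj0, hjs, hjs', hjt, hll.trans huv⟩

/-- The field generated by a square root. -/
theorem exists_field (hS : Setting k K D d s) {a' : kˣ} (ha' : ¬ IsSquare (a' : k)) {s' : D}
    (hss : s' * s' = algebraMap k D a') :
    ∃ (F : Type) (_ : Field F) (_ : NumberField F) (_ : Algebra k F) (ι : F →ₐ[k] D) (T : F),
      T ^ 2 = algebraMap k F a' ∧ ι T = s' ∧ finrank k F = 2 ∧
      ∀ x : F, ∃ u v : k, x = algebraMap k F u + algebraMap k F v * T := by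
  have := hS.fin
  have : FiniteDimensional k K := Module.finite_of_finrank_pos (by rw [hS.rank]; norm_num)
  have : FiniteDimensional k D := Module.Finite.trans K D
  obtain ⟨F, _, _, _, ι, T, hT, hgen⟩ := Even.exists_gen (Module.finBasis k D) s'
  have hTT : T ^ 2 = algebraMap k F a' := by
    apply ι.toRingHom.injective
    change ι (T ^ 2) = ι (algebraMap k F a')
    rw [map_pow, hT, pow_two, hss, AlgHom.commutes]
  have hTk : ∀ c : k, algebraMap k F c ≠ T := by
    intro c hc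
    apply ha'
    refine ⟨c, (algebraMap k F).injective ?_⟩
    rw [← hTT, ← hc, pow_two, map_mul]
  have hT' : T * T = algebraMap k F a' := by rw [← pow_two, hTT]
  have hcoord : ∀ x : F, ∃ u v : k, x = algebraMap k F u + algebraMap k F v * T := by
    intro x
    obtain ⟨p, rfl⟩ := hgen x
    have h1 : aeval T p ∈ Lt2 k hT' :=
      Algebra.adjoin_le (S := Lt2 k hT') (by
        rintro _ rfl
        exact ⟨0, 1, by rw [map_zero, map_one, one_mul, zero_add]⟩)
        (aeval_mem_adjoin_singleton k T)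
    exact h1
  have hrank : finrank k F = 2 := by
    have h1 : Lt2 k hT' = ⊤ := by
      rw [eq_top_iff]
      rintro x -
      exact hcoord x
    rw [← finrank_Lt2 hT' hTk, h1]
    exact (Subalgebra.topEquiv (R := k) (A := F)).toLinearEquiv.finrank_eq.symm
  exact ⟨F, inferInstance, inferInstance, inferInstance, ι, T, hTT, hT, hrank, hcoord⟩

/-- Conjugation of an embedding. -/
noncomputable def conjHom {F : Type} [Field F] [Algebra k F] (ι : F →ₐ[k] D) {g : D}
    (hg : g ≠ 0) : F →ₐ[k] D where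
  toFun x := g * ι x * g⁻¹
  map_one' := by rw [map_one, mul_one, mul_inv_cancel₀ hg]
  map_mul' x y := by
    rw [map_mul, mul_assoc (g * ι x), ← mul_assoc g⁻¹, ← mul_assoc g⁻¹, inv_mul_cancel₀ hg, one_mul]
    simp only [mul_assoc]
  map_zero' := by rw [map_zero, mul_zero, zero_mul]
  map_add' x y := by rw [map_add, mul_add, add_mul]
  commutes' r := by
    rw [AlgHom.commutes, ← Algebra.commutes r g, mul_assoc, mul_inv_cancel₀ hg, mul_one]

/-- The twist of the quaternion algebra. -/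
theorem twist_frame {F F' : Type} [Field F] [NumberField F] [Algebra k F] [Field F']
    [NumberField F'] [Algebra k F'] {δ t : D} (hc : CRt δ d) (hts : star t = t)
    {ι : F →ₐ[k] D} {T : F} {a : kˣ} (hfr : finrank k F = 2) (ha : ¬ IsSquare (a : k))
    (hT : T ^ 2 = algebraMap k F a) (hιT : ι T = t) {σ : F ≃ₐ[k] F} (hσ : σ T = -T)
    (hsym : ∀ x, star (ι x) = ι x) {c : kˣ} {β : F'ˣ} {j' : D}
    {ι' : F' →ₐ[k] D} (fr' : QFr ι' (inc k F' c) β (δ * t) j')
    (hcom : ∀ x, ι' x * t = t * ι' x)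
    {g : D} {θ : Fˣ} (hg0 : g ≠ 0) (hgt : g * t = t * g) (hgg : star g * g = ι θ)
    {m : kˣ} (hm : (m : k) = Algebra.norm k (θ : F)) :
    QFr (conjHom ι' hg0) (inc k F' c) (inc k F' m * β) (δ * t)
      (ι (σ θ) * (g * j' * g⁻¹)) := by
  have hjt : j' * t = -(t * j') := by
    have h1 := fr'.ij
    rw [← mul_assoc, ← hc.comm, mul_assoc, mul_assoc, ← mul_neg] at h1
    rw [mul_left_cancel₀ hc.ne_zero h1, neg_neg]
  have htι : ∀ x : F, ι x * t = t * ι x := fun x => by rw [← hιT, ← map_mul, mul_comm, map_mul]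
  -- elements commuting with `t` commute with the elements of `F`
  have hF : ∀ z : D, z * t = t * z → ∀ x : F, ι x * z = z * ι x := by
    intro z hz x
    obtain ⟨u, v, rfl⟩ := exists_coords hfr ha hT x
    rw [map_add, map_mul, AlgHom.commutes, AlgHom.commutes, hιT, add_mul, mul_add,
      Algebra.commutes, mul_assoc, ← hz, ← mul_assoc, ← mul_assoc, Algebra.commutes v]
  have hgi : g⁻¹ * t = t * g⁻¹ := by
    rw [inv_mul_eq_iff_eq_mul₀ hg0, ← mul_assoc, hgt, mul_assoc, mul_inv_cancel₀ hg0, mul_one]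
  have hj : ∀ x : F, j' * ι x = ι (σ x) * j' := by
    intro p
    obtain ⟨p₀, p₁, rfl⟩ := exists_coords hfr ha hT p
    rw [sigma_coords hσ]
    simp only [map_add, map_sub, map_mul, AlgHom.commutes, mul_add, sub_mul]
    rw [← Algebra.commutes p₀ j', ← mul_assoc, ← Algebra.commutes p₁ j', mul_assoc, hιT, hjt,
      mul_neg, mul_assoc, sub_eq_add_neg]
  have hσσ : ∀ x, σ (σ x) = x := sigma_sigma hfr ha hT hσ
  have hθ0 : (θ : F) ≠ 0 := θ.ne_zero
  have hιθ : ι θ ≠ 0 := (map_ne_zero ι).mpr hθ0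
  have hgF := hF g hgt
  have hgiF := hF g⁻¹ hgi
  have hgs : star g = ι θ * g⁻¹ := by rw [eq_mul_inv_iff_mul_eq₀ hg0, hgg]
  have hgsi : star g⁻¹ = g * ι (θ : F)⁻¹ := by
    rw [star_inv₀, hgs, mul_inv_rev, inv_inv, map_inv₀]
  have hι'F : ∀ x y, ι x * ι' y = ι' y * ι x := fun x y => hF _ (hcom y) x
  have hnm : ι (σ θ) * ι θ = algebraMap k D m := by
    rw [← map_mul, mul_comm, ← norm_eq_mul hfr ha hT hσ, AlgHom.commutes, hm]
  obtain ⟨J, hJ⟩ : ∃ J, J = g * j' * g⁻¹ := ⟨_, rfl⟩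
  have hJF : ∀ x : F, J * ι x = ι (σ x) * J := by
    intro x
    rw [hJ, mul_assoc, ← hgiF, ← mul_assoc, mul_assoc g j', hj, ← mul_assoc g, ← hgF]
    simp only [mul_assoc]
  have hJt : J * t = -(t * J) := by
    rw [hJ, mul_assoc, hgi, ← mul_assoc, mul_assoc g, hjt, mul_neg, neg_mul, ← mul_assoc g, hgt]
    simp only [mul_assoc]
  have hJJ : J * J = g * ι' β * g⁻¹ := by
    rw [hJ, mul_assoc (g * j'), ← mul_assoc g⁻¹, ← mul_assoc g⁻¹, inv_mul_cancel₀ hg0, one_mul,
      ← fr'.jj]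
    simp only [mul_assoc]
  rw [← hJ]
  refine ⟨?_, ?_, ?_, ?_, ?_, ?_, ?_, ?_⟩
  · intro x
    change star (g * ι' x * g⁻¹) = g * ι' x * g⁻¹
    rw [star_mul, star_mul, fr'.sym, hgs, hgsi]
    have e1 : g * ι (θ : F)⁻¹ * (ι' x * (ι θ * g⁻¹)) = g * (ι (θ : F)⁻¹ * ι' x) * (ι θ * g⁻¹) := by
      simp only [mul_assoc]
    have e2 : g * (ι' x * ι (θ : F)⁻¹) * (ι θ * g⁻¹) =
        g * ι' x * (ι (θ : F)⁻¹ * ι θ) * g⁻¹ := by
      simp only [mul_assoc]
    rw [e1, hι'F, e2, ← map_mul, inv_mul_cancel₀ hθ0, map_one, mul_one]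
  · rw [star_mul, hts, hc.st, mul_neg, hc.comm]
  · rw [star_mul, hsym]
    have e1 : star J = -(ι ((θ : F)⁻¹ * σ θ) * J) := by
      rw [hJ, star_mul, star_mul, fr'.sj, hgs, hgsi, neg_mul, mul_neg, neg_inj]
      calc g * ι (θ : F)⁻¹ * (j' * (ι θ * g⁻¹))
          = g * (ι (θ : F)⁻¹ * (j' * ι θ)) * g⁻¹ := by simp only [mul_assoc]
        _ = g * ι ((θ : F)⁻¹ * σ θ) * j' * g⁻¹ := by rw [hj, map_mul]; simp only [mul_assoc]
        _ = ι ((θ : F)⁻¹ * σ θ) * (g * j' * g⁻¹) := by rw [← hgF]; simp only [mul_assoc]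
    rw [e1, neg_mul, mul_assoc, hJF, ← mul_assoc, ← map_mul, hσσ, mul_right_comm,
      inv_mul_cancel₀ hθ0, one_mul]
  · have : (δ * t) * (δ * t) = ι' (inc k F' c) := fr'.ii
    rw [this]
    change _ = g * ι' (inc k F' c) * g⁻¹
    rw [inc_val, AlgHom.commutes, ← Algebra.commutes, mul_assoc, mul_inv_cancel₀ hg0, mul_one]
  · change _ = g * ι' ((inc k F' m * β : F'ˣ) : F') * g⁻¹
    rw [mul_assoc, ← mul_assoc J, hJF, hσσ, mul_assoc (ι θ), ← mul_assoc, hnm, hJJ, Units.val_mul,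
      map_mul, inc_val, AlgHom.commutes, ← mul_assoc g, ← Algebra.commutes (m : k) g]
    simp only [mul_assoc]
  · have e1 : ι (σ θ) * J * t = -(t * (ι (σ θ) * J)) := by
      rw [mul_assoc, hJt, mul_neg, ← mul_assoc, htι, mul_assoc]
    rw [← mul_assoc _ δ t, ← hc.comm, mul_assoc δ _ t, e1, mul_neg, neg_neg, mul_assoc]
  · intro x
    change g * ι' x * g⁻¹ * (δ * t) = (δ * t) * (g * ι' x * g⁻¹)
    have e1 : g * ι' x * g⁻¹ * t = t * (g * ι' x * g⁻¹) := by
      rw [mul_assoc, hgi, ← mul_assoc, mul_assoc g, hcom, ← mul_assoc g, hgt]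
      simp only [mul_assoc]
    rw [← mul_assoc, ← hc.comm, mul_assoc δ, e1]
    simp only [mul_assoc]
  · intro x
    change g * ι' x * g⁻¹ * (ι (σ θ) * J) = ι (σ θ) * J * (g * ι' x * g⁻¹)
    have e1 : g * ι' x * g⁻¹ * ι (σ θ) = ι (σ θ) * (g * ι' x * g⁻¹) := by
      rw [mul_assoc, ← hgiF, ← mul_assoc, mul_assoc g, ← hι'F, ← mul_assoc g, ← hgF]
      simp only [mul_assoc]
    have e2 : g * ι' x * g⁻¹ * J = J * (g * ι' x * g⁻¹) := by
      rw [hJ]
      calc g * ι' x * g⁻¹ * (g * j' * g⁻¹) = g * ι' x * (g⁻¹ * g) * j' * g⁻¹ := by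
            simp only [mul_assoc]
        _ = g * (ι' x * j') * g⁻¹ := by rw [inv_mul_cancel₀ hg0, mul_one]; simp only [mul_assoc]
        _ = g * (j' * ι' x) * g⁻¹ := by rw [fr'.cj]
        _ = g * j' * (g⁻¹ * g) * ι' x * g⁻¹ := by
            rw [inv_mul_cancel₀ hg0, mul_one]; simp only [mul_assoc]
        _ = _ := by simp only [mul_assoc]
    rw [← mul_assoc, e1, mul_assoc, e2]
    simp only [mul_assoc]

/-- (5) of the abelian part: after a twist, the quaternion algebra in the centralizer of the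
square root is unramified outside a fixed finite set. -/
theorem twist_s {F : Type} [Field F] [NumberField F] [Algebra k F] (hS : Setting k K D d s)
    (hdeg : finrank K D = 16) {a : kˣ} (ha : ¬ IsSquare (a : k)) {t : D} (ht : t ∈ Xa D a)
    {ι : F →ₐ[k] D} {T : F} (hT : T ^ 2 = algebraMap k F a) (hιT : ι T = t)
    (hfr : finrank k F = 2) {α β : Fˣ} {i j : D} (fr : QFr ι α β i j)
    (hall : ∀ x, x * t = t * x → ∃ q₀ q₁ : Qt α β,
      x = qv ι i j q₀ + algebraMap K D s * qv ι i j q₁) :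
    ∃ S : Set (HeightOneSpectrum (𝓞 k)), S.Finite ∧ ∀ (s' : D) (a' : kˣ), star s' = s' →
      s' * s' = algebraMap k D a' → s' * t = t * s' → ¬ IL ι (algebraMap K D s) s' →
      ∃ q : Qt α β, q ≠ 0 ∧ ∃ (F' : Type) (_ : Field F') (_ : NumberField F') (_ : Algebra k F')
        (ι' : F' →ₐ[k] D) (S' : F') (β' : F'ˣ) (j' : D), finrank k F' = 2 ∧
        S' ^ 2 = algebraMap k F' a' ∧ ι' S' = qv ι i j q * s' * (qv ι i j q)⁻¹ ∧
        QFr ι' (inc k F' (a * d)) β' (algebraMap K D s * t) j' ∧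
        ∀ v ∉ S, ∀ w : HeightOneSpectrum (𝓞 F'), Ab w v →
          β' ∈ NF (inc k F' (a * d)) ⊔ LS (w.valuation F') := by
  classical
  have hc := crt hS
  obtain ⟨δ, hδ⟩ : ∃ δ : D, δ = algebraMap K D s := ⟨_, rfl⟩
  rw [← hδ] at hc hall ⊢
  obtain ⟨φ, hφ⟩ := exists_qhom fr
  have hqv : ∀ q : Qt α β, qv ι i j q = φ q := fun q => (hφ q).symm
  obtain ⟨σ, hσ⟩ := exists_sigma hfr ha hT
  obtain ⟨γ₀, hγ₀⟩ := classN hc hfr ha hT fr (by rw [hιT]; exact hall)
  obtain ⟨S₁, hS₁, hθ⟩ := exists_theta hfr ha hT α β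
  obtain ⟨S₂, hS₂, hV4⟩ := typeTwo hS hdeg
  refine ⟨S₁ ∪ S₂ ∪ {v | v.valuation k 2 ≠ 1} ∪ {v | v.valuation k (a : k) ≠ 1} ∪
    {v | v.valuation k (d : k) ≠ 1} ∪ {v | v.valuation k (γ₀ : k) ≠ 1},
    ((((hS₁.union hS₂).union (finite_valuation_ne_one 2 two_ne_zero)).union
      (finite_valuation_ne_one _ a.ne_zero)).union (finite_valuation_ne_one _ d.ne_zero)).union
      (finite_valuation_ne_one _ γ₀.ne_zero), ?_⟩
  obtain ⟨SS, hSS⟩ : ∃ SS, SS = S₁ ∪ S₂ ∪ {v | v.valuation k 2 ≠ 1} ∪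
    {v | v.valuation k (a : k) ≠ 1} ∪ {v | v.valuation k (d : k) ≠ 1} ∪
    {v | v.valuation k (γ₀ : k) ≠ 1} := ⟨_, rfl⟩
  rw [← hSS]
  have hout : ∀ v ∉ SS, v ∉ S₁ ∧ v ∉ S₂ ∧ v.valuation k 2 = 1 ∧ v.valuation k (a : k) = 1 ∧
      v.valuation k (d : k) = 1 ∧ v.valuation k (γ₀ : k) = 1 := by
    intro v hv
    rw [hSS] at hv
    simp only [Set.mem_union, Set.mem_ofPred_eq, not_or, not_not] at hv
    tauto
  intro s' a' hs hss hst hsL
  -- elements of `k(t, δ)`
  have hILk : ∀ c : K, IL ι δ (algebraMap K D c) := by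
    intro c
    obtain ⟨x, y, rfl⟩ := coordK hS c
    refine ⟨algebraMap k F x, algebraMap k F y, ?_⟩
    rw [AlgHom.commutes, AlgHom.commutes, map_add, map_mul, ← hδ,
      ← IsScalarTower.algebraMap_apply, ← IsScalarTower.algebraMap_apply, hc.comm]
  have hILt : IL ι δ t := hιT ▸ IL.of T
  have hnt : ∀ c : K, algebraMap K D c ≠ s' := fun c h => hsL (h ▸ hILk c)
  have ha' : ¬ IsSquare (a' : k) := by
    rintro ⟨r, hr⟩
    have e1 : (s' - algebraMap k D r) * (s' + algebraMap k D r) = 0 := by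
      rw [sub_mul, mul_add, mul_add, hss, hr, map_mul, Algebra.commutes r s']
      abel
    have e2 : ∀ r : k, s' = algebraMap k D r → False := fun r h => by
      refine hnt (algebraMap k K r) ?_
      rw [h, ← IsScalarTower.algebraMap_apply]
    rcases mul_eq_zero.mp e1 with h | h
    · exact e2 r (sub_eq_zero.mp h)
    · exact e2 (-r) (by rw [map_neg]; exact eq_neg_of_add_eq_zero_left h)
  have htL : ∀ u v : K, t ≠ algebraMap K D u + algebraMap K D v * s' := by
    intro u v h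
    by_cases hv : v = 0
    · rw [hv, map_zero, zero_mul, add_zero] at h
      exact Xa_ne hS ha ht u h.symm
    · apply hsL
      have hv' : algebraMap K D v ≠ 0 := (_root_.map_ne_zero _).mpr hv
      have e1 : s' = (algebraMap K D v)⁻¹ * (t - algebraMap K D u) := by
        rw [h, add_sub_cancel_left, inv_mul_cancel_left₀ hv']
      rw [e1]
      exact ((hILk v).inv hc fr.sym).mul hc (hILt.sub (hILk u))
  obtain ⟨j', u, v', hj0, hjs, hjs', hjt, hjj⟩ :=
    exists_skew hS hdeg ht.1 hs hss hst hnt ⟨a, ht.2⟩ htL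
  obtain ⟨F', _, _, _, ι', T', hT', hιT', hfr', hco⟩ := exists_field hS ha' hss
  have hβx : ι' (algebraMap k F' u + algebraMap k F' v' * T') = j' * j' := by
    rw [hjj, map_add, map_mul, AlgHom.commutes, AlgHom.commutes, hιT']
  have hβ0 : algebraMap k F' u + algebraMap k F' v' * T' ≠ 0 := by
    intro h0
    rw [h0, map_zero, eq_comm] at hβx
    exact mul_ne_zero hj0 hj0 hβx
  obtain ⟨β', hβ'⟩ : ∃ β', β' = Units.mk0 _ hβ0 := ⟨_, rfl⟩
  have hβv : (β' : F') = algebraMap k F' u + algebraMap k F' v' * T' := by rw [hβ']; rfl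
  have hcomz : ∀ z : D, z * s' = s' * z → ∀ x : F', ι' x * z = z * ι' x := by
    intro z hz x
    obtain ⟨u, v, rfl⟩ := hco x
    rw [map_add, map_mul, AlgHom.commutes, AlgHom.commutes, hιT', add_mul, mul_add,
      Algebra.commutes, mul_assoc, ← hz, ← mul_assoc, ← mul_assoc, Algebra.commutes v]
  have htt : t * t = algebraMap k D a := ht.2
  have fr' : QFr ι' (inc k F' (a * d)) β' (δ * t) j' := by
    refine ⟨?_, ?_, hjs, ?_, ?_, ?_, hcomz _ ?_, hcomz _ hjs'⟩
    · intro x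
      obtain ⟨u, v, rfl⟩ := hco x
      rw [map_add, map_mul, AlgHom.commutes, AlgHom.commutes, hιT', star_add, star_mul, hs,
        star_alg hS, star_alg hS, Algebra.commutes]
    · rw [star_mul, ht.1, hc.st, mul_neg, hc.comm]
    · rw [inc_val, AlgHom.commutes, ← mul_assoc, mul_assoc δ t δ, ← hc.comm t, ← mul_assoc δ δ,
        mul_assoc, hc.sq, htt, ← map_mul, Units.val_mul, mul_comm]
    · rw [hβv, hβx]
    · rw [mul_assoc, ← mul_assoc j', ← hc.comm j', mul_assoc, hjt]
      simp only [mul_neg, neg_neg]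
    · rw [mul_assoc, ← hst, ← mul_assoc, hc.comm s', mul_assoc]
  -- the norm of `β'`
  obtain ⟨σ', hσ'⟩ := exists_sigma hfr' ha' hT'
  have hNβ : ((nrm k F' β' : kˣ) : k) = u ^ 2 - a' * v' ^ 2 := by
    rw [nrm_val]
    apply (algebraMap k F').injective
    rw [norm_eq_mul hfr' ha' hT' hσ', hβv, sigma_coords hσ', map_sub, map_mul, map_pow, map_pow,
      ← hT']
    ring
  have hγ : γ₀⁻¹ * nrm k F' β' ∈ NF (a * d) :=
    hγ₀ s' j' u v' a' _ hss (by rw [hιT]; exact hst) hsL hjs (by rw [hιT]; exact hjt) hjj hNβ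
  have hN : ∀ v ∉ SS, nrm k F' β' ∈ NF (a * d) ⊔ LS (v.valuation k) := by
    intro v hv
    obtain ⟨-, -, h2, h3, h4, h5⟩ := hout v hv
    have h6 : γ₀ ∈ NF (a * d) ⊔ LS (v.valuation k) :=
      unit_norm v h2 _ _ (by rw [Units.val_mul, map_mul, h3, h4, one_mul]) h5
    have h7 := Subgroup.mul_mem _ h6 (Subgroup.mem_sup_left (T := LS (v.valuation k)) hγ)
    rwa [mul_inv_cancel_left] at h7
  -- the bad places
  obtain ⟨bad', hbad'⟩ : ∃ bad' : Set (HeightOneSpectrum (𝓞 k)), bad' = {v | v ∉ SS ∧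
      d ∉ LS (v.valuation k) ∧ a * d ∉ LS (v.valuation k) ∧
      ∃ w : HeightOneSpectrum (𝓞 F'), Ab w v ∧
        β' ∉ NF (inc k F' (a * d)) ⊔ LS (w.valuation F')} := ⟨_, rfl⟩
  have hfin : bad'.Finite := by
    choose b hb using Arith.exists_below (F := k) (E := F')
    have h1 : {w : HeightOneSpectrum (𝓞 F') |
        β' ∉ NF (inc k F' (a * d)) ⊔ LS (w.valuation F')}.Finite :=
      (bad_finite (inc k F' (a * d)) β').preimage (Sum.inl_injective.injOn)
    refine (h1.image b).subset ?_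
    rw [hbad']
    rintro v ⟨-, -, -, w, hw, hwb⟩
    exact ⟨w, hwb, below_unique (hb w) hw⟩
  obtain ⟨q, θ, hqθ, -, hθV, hθn⟩ := hθ hfin.toFinset
    (fun v hv => by
      rw [Set.Finite.mem_toFinset, hbad'] at hv
      exact (hout v hv.1).1)
    (fun v hv => by
      rw [Set.Finite.mem_toFinset, hbad'] at hv
      obtain ⟨-, -, h2, h3, h4, -⟩ := hout v hv.1
      by_contra h5
      have h6 := (mul_mem_LS_iff h2 h3 h4).mpr (iff_of_false h5 hv.2.1)
      exact hv.2.2.1 h6)
  have hq0 : q ≠ 0 := by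
    rintro rfl
    apply θ.ne_zero
    rw [← hqθ]
    simp [nrd]
  obtain ⟨g, hg⟩ : ∃ g, g = φ q := ⟨_, rfl⟩
  have hg0 : g ≠ 0 := by
    rw [hg]
    exact fun h => hq0 (qhom_inj fr hφ h)
  have hgt : g * t = t * g := by
    rw [hg, ← hιT, ← phi_alg hφ, ← map_mul, ← map_mul, Algebra.commutes]
  have hgg : star g * g = ι θ := by
    rw [hg, star_qhom fr hφ, ← map_mul, star_mul_self_qt, phi_alg hφ, hqθ]
  have hm0 : Algebra.norm k (θ : F) ≠ 0 := (nrm k F θ).ne_zero
  obtain ⟨m, hm⟩ : ∃ m : kˣ, (m : k) = Algebra.norm k (θ : F) := ⟨Units.mk0 _ hm0, rfl⟩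
  have hcom' : ∀ x, ι' x * t = t * ι' x := hcomz t hst.symm
  have fr'' := twist_frame hc ht.1 hfr ha hT hιT hσ fr.sym fr' hcom' hg0 hgt hgg hm
  refine ⟨q, hq0, F', inferInstance, inferInstance, inferInstance, conjHom ι' hg0, T',
    inc k F' m * β', _, hfr', hT', ?_, fr'', ?_⟩
  · rw [hqv, ← hg, ← hιT']
    rfl
  · intro v hv w hw
    obtain ⟨-, hvS₂, h2, h3, h4, -⟩ := hout v hv
    by_cases hd : d ∈ LS (v.valuation k)
    · exact hV4 v hvS₂ hd F' _ _ _ _ _ fr'' hfr' w hw
    by_cases hcv : a * d ∈ LS (v.valuation k)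
    · have h5 : NF (inc k F' (a * d)) ⊔ LS (w.valuation F') = ⊤ :=
        sup_eq_top (p := Sum.inl w) (LS_map hw hcv)
      rw [h5]
      exact Subgroup.mem_top _
    have hc1 : v.valuation k ((a * d : kˣ) : k) = 1 := by
      rw [Units.val_mul, map_mul, h3, h4, one_mul]
    rcases quad_par hfr' ha' hT' h2 hc1 hcv β' (hN v hv) with h5 | ⟨h5, h6⟩
    · have h7 : v ∉ hfin.toFinset := by
        rw [Set.Finite.mem_toFinset, hbad']
        rintro ⟨-, -, -, w', hw', hwb⟩
        exact hwb (h5 w' hw')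
      have h8 : v.valuation k (m : k) = 1 := by
        rw [hm]
        exact hθn v (hout v hv).1 h7
      exact Subgroup.mul_mem _ (unit_par h2 hc1 hw h8) (h5 w hw)
    · have h7 : v ∈ hfin.toFinset := by
        rw [Set.Finite.mem_toFinset, hbad']
        exact ⟨hv, hd, hcv, w, hw, h6 w hw⟩
      have h8 : v.valuation k (m : k) = WithZero.exp (-1) := by
        rw [hm]
        exact hθV v h7
      exact twist_par hfr' ha' hT' h2 hc1 h5 hw (h6 w hw) h8

end Vale.Agent.P011.One
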