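import Vale.Agent.P011.One.UnitForm
import Vale.Agent.P011.One.ClassN
import Vale.Agent.P011.One.TwistS
import Vale.Agent.P011.One.AbCore
import Vale.Agent.P011.One.Near
import Vale.Agent.P011.One.HQ1
import Vale.Agent.P011.One.CloseNear

/-!
The elements of the centralizer of a symmetric square root which are close to one.
-/

open Module NumberField IsDedekindDomain

set_option linter.unusedSectionVars false

namespace Vale.Agent.P011.One

open Vale.Agent.P011.Arith Vale.Agent.P011.Even Vale.Agent.P011.Two Vale.Agent.P011.MPQ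

variable {k K D : Type} [Field k] [NumberField k] [Field K] [StarRing K]
    [DivisionRing D] [StarRing D] [Algebra k K] [Algebra k D] [Algebra K D] [IsScalarTower k K D]
    {d : kˣ} {s : K} {M : ℕ}

theorem exists_le_z0 {ι : Type} (S : Finset ι) (δ : ι → Z0) (hδ : ∀ i, δ i ≠ 0) :
    ∃ δ₀ : Z0, δ₀ ≠ 0 ∧ ∀ i ∈ S, δ₀ ≤ δ i := by
  classical
  induction S using Finset.induction_on with
  | empty => exact ⟨1, one_ne_zero, fun i hi => absurd hi (Finset.notMem_empty i)⟩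
  | insert a S ha ih =>
    obtain ⟨δ₀, h0, h⟩ := ih
    refine ⟨min δ₀ (δ a), ?_, fun i hi => ?_⟩
    · rcases min_choice δ₀ (δ a) with h1 | h1 <;> rw [h1]
      · exact h0
      · exact hδ a
    · rcases Finset.mem_insert.mp hi with rfl | hi
      · exact min_le_right _ _
      · exact (min_le_left _ _).trans (h i hi)

/-- **The centralizer of a symmetric square root.** -/
theorem ab_end (hS : Setting k K D d s) (hdeg : finrank K D = 16) {a : kˣ}
    (ha : ¬ IsSquare (a : k)) {t : D} (ht : t ∈ Xa D a) {n : ℕ} (hn : n = 4) {Ω : Type}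
    [Field Ω] [Algebra K Ω] (f : D →ₐ[K] Matrix (Fin n) (Fin n) Ω)
    (B : Module.Basis (Fin M) k D) {e₀ : ℕ} (he₀ : 0 < e₀) {N : Set D}
    (hmul : ∀ x ∈ N, ∀ y ∈ N, x * y ∈ N) (hN : HQ1 k e₀ N) :
    ∃ S : Set (HeightOneSpectrum (𝓞 k)), S.Finite ∧ ∃ η : HeightOneSpectrum (𝓞 k) → ℝ,
      (∀ v, 0 < η v) ∧ ∀ e : D, e * t = t * e → star e * e = 1 → (f e).det = 1 →
        (∀ v ∈ S, nm B (.inl v) (e - 1) < η v) → e ∈ N := by
  classical
  obtain ⟨F, _, _, _, ι, T, α, β, i, j, hT, hιT, hfr, hcoord, fr, hspan⟩ :=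
    exists_frame hS hdeg ha ht
  obtain ⟨S₁, hS₁, htw⟩ := twist_s hS hdeg ha ht hT hιT hfr fr hspan
  have cr : CRt (algebraMap K D s) d := by
    refine ⟨fun x => Algebra.commutes _ _, star_sD hS, ?_⟩
    rw [← map_mul, ← pow_two, hS.sq, ← IsScalarTower.algebraMap_apply]
  have hbl : ∀ ω : HeightOneSpectrum (𝓞 F), ∃ v : HeightOneSpectrum (𝓞 k), Ab ω v :=
    fun ω => Arith.exists_below ω
  choose bl hbl using hbl
  have hfin : {ω : HeightOneSpectrum (𝓞 F) | β ∉ NF α ⊔ LS (ω.valuation F)}.Finite :=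
    Set.Finite.preimage (Sum.inl_injective.injOn) (bad_finite α β)
  obtain ⟨v₀⟩ : Nonempty (HeightOneSpectrum (𝓞 k)) := nonempty_prime
  obtain ⟨S, hSd⟩ : ∃ S : Set (HeightOneSpectrum (𝓞 k)), S = S₁ ∪
    bl '' {ω : HeightOneSpectrum (𝓞 F) | β ∉ NF α ⊔ LS (ω.valuation F)} ∪ {v₀} := ⟨_, rfl⟩
  have hSf : S.Finite := hSd ▸ (hS₁.union (hfin.image _)).union (Set.finite_singleton _)
  have hv₀ : v₀ ∈ S := hSd ▸ Or.inr rfl
  have hram : ∀ w : HeightOneSpectrum (𝓞 F), β ∉ NF α ⊔ LS (w.valuation F) →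
      ∀ v : HeightOneSpectrum (𝓞 k), Ab w v → v ∈ S := by
    intro w hw v hv
    rw [hSd]
    exact Or.inl (Or.inr ⟨w, hw, below_unique (hbl w) hv⟩)
  obtain ⟨l, h, hcore⟩ := ab_core cr hfr ha hT fr he₀ hN hmul hSf ⟨v₀, hv₀⟩ hram
  -- the closeness
  have hε : ∀ v : HeightOneSpectrum (𝓞 k), ∃ ε : Z0, ε ≠ 0 ∧ ε ≤ v.valuation k (l v : k) ∧
      ∀ w : HeightOneSpectrum (𝓞 F), Ab w v → ε ≤ w.valuation F (inc k F (h v) : Fˣ) := by
    intro v
    obtain ⟨Tv, hTv⟩ := above_finset (F := F) {v}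
    obtain ⟨ε, hε0, hε⟩ := exists_le_z0 Tv
      (fun w : HeightOneSpectrum (𝓞 F) => w.valuation F (inc k F (h v) : Fˣ))
      fun w => (Valuation.ne_zero_iff _).mpr (Units.ne_zero _)
    refine ⟨min ε (v.valuation k (l v : k)), ?_, min_le_right _ _, fun w hw => ?_⟩
    · rcases min_choice ε (v.valuation k (l v : k)) with h1 | h1 <;> rw [h1]
      · exact hε0
      · exact (Valuation.ne_zero_iff _).mpr (Units.ne_zero _)
    · exact (min_le_left _ _).trans (hε w ((hTv w).mpr ⟨v, Finset.mem_singleton_self v, hw⟩))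
  choose ε hε0 hε1 hε2 using hε
  obtain ⟨η₀, hη₀, hform⟩ := unit_form hS ha ht hιT hcoord fr hspan hn f B v₀
  choose η hη hnear using fun v : HeightOneSpectrum (𝓞 k) =>
    unit_near hS ht hιT fr B v (hε0 v)
  refine ⟨S, hSf, fun v => min η₀ (η v), fun v => lt_min hη₀ (hη v), fun e het hee hdet hn => ?_⟩
  obtain ⟨κ, q, hq0, heq, hnrd⟩ := hform e het hee hdet ((hn v₀ hv₀).trans_le (min_le_left _ _))
  have hnv := fun v hv => hnear v e κ q heq ((hn v hv).trans_le (min_le_right _ _))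
  obtain ⟨s', a', hs1, hs2, hs3, hs4, hfinal⟩ := hcore κ q hnrd
    (fun v hv => (hnv v hv).1.trans_le (hε1 v))
    (fun v hv w hw => ((hnv v hv).2 w hw).2.2.2.2.trans_le (hε2 v w hw))
  rw [hιT] at hs3
  obtain ⟨r, hr, F', _, _, _, ι', S', β', j', -, hS', hιS', fr', hloc⟩ := htw s' a' hs1 hs2 hs3 hs4
  rw [heq, ← hιT]
  refine hfinal r hr F' ι' S' β' j' hS' hιS' (by rw [hιT]; exact fr') fun v hv => hloc v fun h => ?_
  exact hv (by rw [hSd]; exact Or.inl (Or.inl h))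

end Vale.Agent.P011.One
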