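import Vale.Agent.P011.One.AbY
import Vale.Agent.P011.One.AFrame
import Vale.Agent.P011.One.ClassN

/-!
The unitary elements of norm one commuting with a symmetric square root, in degree four: the
identities and the local estimates.
-/

open NumberField IsDedekindDomain

set_option linter.unusedSectionVars false

namespace Vale.Agent.P011.One

open Vale.Agent.P011.Arith Vale.Agent.P011.Even Vale.Agent.P011.MPQ

section ultra

variable {F : Type} [Field F] [NumberField F]

theorem two_term (w : Valuation F Z0) {A B : F}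
    (h : A ≠ 0 → B ≠ 0 → ¬ w (B / A - 1) < w 4) :
    w 4 * w A ≤ w (A - B) ∧ w 4 * w B ≤ w (A - B) := by
  have h4 := val_four_le w
  by_cases hA : A = 0
  · subst hA
    rw [map_zero, mul_zero, zero_sub, Valuation.map_neg]
    exact ⟨zero_le, (mul_le_mul' h4 le_rfl).trans (one_mul _).le⟩
  by_cases hB : B = 0
  · subst hB
    rw [map_zero, mul_zero, sub_zero]
    exact ⟨(mul_le_mul' h4 le_rfl).trans (one_mul _).le, zero_le⟩
  have h1 := not_lt.mp (h hA hB)
  have hwA : 0 < w A := zero_lt_iff.mpr ((Valuation.ne_zero_iff _).mpr hA)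
  have h2 : w 4 * w A ≤ w (A - B) := by
    have h3 : w (B / A - 1) = w (A - B) / w A := by
      rw [← map_div₀, ← Valuation.map_neg]
      congr 1
      field_simp
      ring
    rw [h3, le_div_iff₀ hwA] at h1
    exact h1
  refine ⟨h2, ?_⟩
  rcases le_or_gt (w B) (w A) with h3 | h3
  · exact (mul_le_mul' le_rfl h3).trans h2
  · rw [Valuation.map_sub_swap, Valuation.map_sub_eq_of_lt_left w h3]
    exact (mul_le_mul' h4 le_rfl).trans (one_mul _).le

theorem ram_coord {w : Valuation F Z0} {α β : Fˣ} (h : β ∉ NF α ⊔ LS w) (x : Qt α β) :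
    w 16 * w (x.re ^ 2) ≤ w (nrd x) ∧ w 16 * w (α * x.imI ^ 2) ≤ w (nrd x) ∧
    w 16 * w (β * x.imJ ^ 2) ≤ w (nrd x) ∧ w 16 * w (α * β * x.imK ^ 2) ≤ w (nrd x) := by
  have hα : α ∉ LS w := fun hα => h (mem_symm _ _ (Subgroup.mem_sup_right hα))
  have hA : ∀ p q : F, w 4 * w (p ^ 2) ≤ w (p ^ 2 - α * q ^ 2) ∧
      w 4 * w (α * q ^ 2) ≤ w (p ^ 2 - α * q ^ 2) := by
    intro p q
    refine two_term w fun hp hq hlt => hα ⟨Units.mk0 (p / q) ?_, ?_⟩
    · exact div_ne_zero (fun h0 => hp (by rw [h0]; ring)) (fun h0 => hq (by rw [h0]; ring))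
    · rw [Units.val_mk0, div_pow, div_div_eq_mul_div]
      exact hlt
  have hB : w 4 * w (x.re ^ 2 - α * x.imI ^ 2) ≤ w (nrd x) ∧
      w 4 * w (β * (x.imJ ^ 2 - α * x.imK ^ 2)) ≤ w (nrd x) := by
    have e : nrd x = (x.re ^ 2 - α * x.imI ^ 2) - β * (x.imJ ^ 2 - α * x.imK ^ 2) := by
      rw [nrd]
      ring
    rw [e]
    refine two_term w fun h1 h2 hlt => h ?_
    have h3 : x.imJ ^ 2 - α * x.imK ^ 2 ≠ 0 := fun h0 => h2 (by rw [h0, mul_zero])
    obtain ⟨n₁, hn₁⟩ : ∃ n₁ : Fˣ, (n₁ : F) = x.re ^ 2 - α * x.imI ^ 2 := ⟨Units.mk0 _ h1, rfl⟩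
    obtain ⟨n₂, hn₂⟩ : ∃ n₂ : Fˣ, (n₂ : F) = x.imJ ^ 2 - α * x.imK ^ 2 := ⟨Units.mk0 _ h3, rfl⟩
    have h4 : β * n₂ / n₁ ∈ LS w := by
      apply LS_of_close
      rw [Units.val_div_eq_div_val, Units.val_mul, hn₁, hn₂]
      exact hlt
    have h5 : β = n₁ / n₂ * (β * n₂ / n₁) := by
      rw [div_mul_div_comm, mul_comm n₁, mul_assoc, mul_comm n₂ n₁, mul_div_cancel_right]
    rw [h5]
    exact mul_mem (Subgroup.mem_sup_left (div_mem ⟨_, _, hn₁⟩ ⟨_, _, hn₂⟩))
      (Subgroup.mem_sup_right h4)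
  have e16 : w 16 = w 4 * w 4 := by
    rw [← map_mul]
    norm_num
  obtain ⟨a1, a2⟩ := hA x.re x.imI
  obtain ⟨a3, a4⟩ := hA x.imJ x.imK
  have key : ∀ {A B : Z0}, w 4 * A ≤ B → w 4 * B ≤ w (nrd x) → w 16 * A ≤ w (nrd x) := by
    intro A B h1 h2
    rw [e16, mul_assoc]
    exact (mul_le_mul' le_rfl h1).trans h2
  refine ⟨key a1 hB.1, key a2 hB.1, key (B := w (β * (x.imJ ^ 2 - α * x.imK ^ 2))) ?_ hB.2,
    key (B := w (β * (x.imJ ^ 2 - α * x.imK ^ 2))) ?_ hB.2⟩
  · rw [map_mul, map_mul, mul_left_comm]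
    exact mul_le_mul' le_rfl a3
  · rw [mul_comm (α : F) β, mul_assoc, map_mul w (β : F), map_mul w (β : F), mul_left_comm]
    exact mul_le_mul' le_rfl a4

/-- The ultrametric inequality for the reduced norm at a ramified place. -/
theorem ram_add {w : Valuation F Z0} {α β : Fˣ} (h : β ∉ NF α ⊔ LS w) (x y : Qt α β) :
    w 16 * w (nrd (x + y)) ≤ max (w (nrd x)) (w (nrd y)) := by
  have key : ∀ c p q : F, w 16 * w (c * p ^ 2) ≤ w (nrd x) → w 16 * w (c * q ^ 2) ≤ w (nrd y) →
      w 16 * w (c * (p + q) ^ 2) ≤ max (w (nrd x)) (w (nrd y)) := by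
    intro c p q h1 h2
    rcases le_total (w p) (w q) with h3 | h3
    · refine le_trans ?_ (h2.trans (le_max_right _ _))
      rw [map_mul, map_mul, map_pow, map_pow]
      refine mul_le_mul' le_rfl (mul_le_mul' le_rfl (pow_le_pow_left' ?_ 2))
      exact (w.map_add _ _).trans (max_le h3 le_rfl)
    · refine le_trans ?_ (h1.trans (le_max_left _ _))
      rw [map_mul, map_mul, map_pow, map_pow]
      refine mul_le_mul' le_rfl (mul_le_mul' le_rfl (pow_le_pow_left' ?_ 2))
      exact (w.map_add _ _).trans (max_le le_rfl h3)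
  obtain ⟨x0, x1, x2, x3⟩ := ram_coord h x
  obtain ⟨y0, y1, y2, y3⟩ := ram_coord h y
  have k0 := key 1 x.re y.re (by rwa [one_mul]) (by rwa [one_mul])
  have k1 := key _ _ _ x1 y1
  have k2 := key _ _ _ x2 y2
  have k3 := key _ _ _ x3 y3
  rw [one_mul] at k0
  have e : nrd (x + y) = (((x.re + y.re) ^ 2 - α * (x.imI + y.imI) ^ 2) -
      β * (x.imJ + y.imJ) ^ 2) + α * β * (x.imK + y.imK) ^ 2 := by
    simp only [nrd, QuaternionAlgebra.re_add, QuaternionAlgebra.imI_add,
      QuaternionAlgebra.imJ_add, QuaternionAlgebra.imK_add]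
  rw [e]
  have hm : ∀ A B : F, w 16 * w A ≤ max (w (nrd x)) (w (nrd y)) →
      w 16 * w B ≤ max (w (nrd x)) (w (nrd y)) →
      w 16 * w (A + B) ≤ max (w (nrd x)) (w (nrd y)) ∧
      w 16 * w (A - B) ≤ max (w (nrd x)) (w (nrd y)) := by
    intro A B hA hB
    rw [← map_mul] at hA hB
    rw [← map_mul, ← map_mul, mul_add, mul_sub]
    exact ⟨(w.map_add _ _).trans (max_le hA hB), (w.map_sub _ _).trans (max_le hA hB)⟩
  exact (hm _ _ (hm _ _ (hm _ _ k0 k1).2 k2).2 k3).1

end ultra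

section alg

/-- A commutative model of three commuting elements. -/
theorem comm_model {k D : Type} [Field k] [Ring D] [Algebra k D] (x y z : D)
    (hxy : x * y = y * x) (hxz : x * z = z * x) (hyz : y * z = z * y) :
    ∃ (C : Type) (_ : CommRing C) (_ : Algebra k C) (f : C →ₐ[k] D) (X Y Z : C),
      Function.Injective f ∧ f X = x ∧ f Y = y ∧ f Z = z := by
  have hc : ∀ a ∈ ({x, y, z} : Set D), ∀ b ∈ ({x, y, z} : Set D), a * b = b * a := by
    rintro a (rfl | rfl | rfl) b (rfl | rfl | rfl) <;>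
      first | rfl | assumption | exact hxy.symm | exact hxz.symm | exact hyz.symm
  refine ⟨Algebra.adjoin k ({x, y, z} : Set D), Algebra.adjoinCommRingOfComm k hc,
    inferInstance, (Algebra.adjoin k ({x, y, z} : Set D)).val,
    ⟨x, Algebra.subset_adjoin (by simp)⟩, ⟨y, Algebra.subset_adjoin (by simp)⟩,
    ⟨z, Algebra.subset_adjoin (by simp)⟩, Subtype.val_injective, rfl, rfl, rfl⟩

/-- The fundamental identity. -/
theorem core_id {k D : Type} [Field k] [Ring D] [Algebra k D] {δ τ E : D} {a d a' : k}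
    {κ y : k} (h1 : δ * τ = τ * δ) (h2 : δ * E = E * δ) (h3 : τ * E = E * τ)
    (hδ : δ * δ = algebraMap k D d) (hτ : τ * τ = algebraMap k D a) (hd : d ≠ 0)
    (hE : E * E = algebraMap k D (a' / d)) (ha' : a' = 1 - 2 * y + a * d * y ^ 2 * κ ^ 2) :
    (1 + algebraMap k D κ * (δ * τ)) *
        (1 - algebraMap k D (y * κ) * (δ * τ) + δ * E) =
      (algebraMap k D (1 - a * d * κ ^ 2 * y) + algebraMap k D (κ * d) * τ * E) *
        (1 + algebraMap k D (y * κ) * (δ * τ) + δ * E) := by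
  obtain ⟨C, _, _, f, X, Y, Z, hf, rfl, rfl, rfl⟩ := comm_model (k := k) δ τ E h1 h2 h3
  have e1 : X * X = algebraMap k C d := hf (by rw [map_mul, hδ, AlgHom.commutes])
  have e2 : Y * Y = algebraMap k C a := hf (by rw [map_mul, hτ, AlgHom.commutes])
  have e3 : algebraMap k C d * (Z * Z) = algebraMap k C a' := by
    have h4 : Z * Z = algebraMap k C (a' / d) := hf (by rw [map_mul, hE, AlgHom.commutes])
    rw [h4, ← map_mul, mul_div_cancel₀ _ hd]
  have e4 : algebraMap k C a' = 1 - 2 * algebraMap k C y +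
      algebraMap k C a * algebraMap k C d * algebraMap k C y ^ 2 * algebraMap k C κ ^ 2 := by
    rw [ha']
    simp only [map_add, map_sub, map_mul, map_pow, map_one, map_ofNat]
  have key : (1 + algebraMap k C κ * (X * Y)) *
        (1 - algebraMap k C (y * κ) * (X * Y) + X * Z) =
      (algebraMap k C (1 - a * d * κ ^ 2 * y) + algebraMap k C (κ * d) * Y * Z) *
        (1 + algebraMap k C (y * κ) * (X * Y) + X * Z) := by
    simp only [map_sub, map_mul, map_pow, map_one]
    rw [e4] at e3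
    linear_combination (algebraMap k C κ * Y * Z -
      algebraMap k C y * algebraMap k C κ ^ 2 * Y * Y) * e1 +
      (-(algebraMap k C y * algebraMap k C κ ^ 2 * algebraMap k C d) -
        algebraMap k C y * algebraMap k C κ ^ 2 * algebraMap k C d * X * Z) * e2 -
      algebraMap k C κ * X * Y * e3
  have h5 := congrArg f key
  simp only [map_add, map_sub, map_mul, map_one, AlgHom.commutes] at h5 ⊢
  exact h5

end alg

section pair

variable {k D : Type} [Field k] [NumberField k] [DivisionRing D] [StarRing D] [Algebra k D]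
    {F : Type} [Field F] [NumberField F] [Algebra k F]

theorem pair_mul {ι : F →ₐ[k] D} {ω : D} {c : F} (h : ∀ x, ι x * ω = ω * ι x)
    (hω : ω * ω = ι c) (A B A' B' : F) :
    (ι A + ι B * ω) * (ι A' + ι B' * ω) = ι (A * A' + c * (B * B')) + ι (A * B' + B * A') * ω := by
  have e : ι B * ω * (ι B' * ω) = ι c * (ι B * ι B') := by
    calc ι B * ω * (ι B' * ω) = ι B * (ω * ι B') * ω := by simp only [mul_assoc]
      _ = ι B * ι B' * (ω * ω) := by rw [← h]; simp only [mul_assoc]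
      _ = _ := by rw [hω, ← map_mul, ← map_mul, ← map_mul, mul_comm]
  have e' : ι B * ω * ι A' = ι (B * A') * ω := by
    rw [mul_assoc, ← h, ← mul_assoc, map_mul]
  rw [add_mul, mul_add, mul_add, e, e', ← map_mul, ← mul_assoc, ← map_mul, ← map_mul, ← map_mul]
  simp only [map_add, add_mul]
  abel

variable {α β : Fˣ} {ι : F →ₐ[k] D} {i j : D} {φ : Qt α β →+* D}

theorem nrd_star_qt (q : Qt α β) : nrd (star q) = nrd q := by
  simp only [nrd, QuaternionAlgebra.re_star, QuaternionAlgebra.imI_star,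
    QuaternionAlgebra.imJ_star, QuaternionAlgebra.imK_star]
  ring

theorem nrd_alg_qt (x : F) : nrd (algebraMap F (Qt α β) x) = x ^ 2 := by
  simp [nrd, QuaternionAlgebra.algebraMap_eq]

/-- The conjugate of a pure quaternion. -/
theorem pure_conj (fr : QFr ι α β i j)
    (hφ : ∀ q, φ q = ι q.re + ι q.imI * i + ι q.imJ * j + ι q.imK * (i * j))
    {η r : Qt α β} (hη : η.re = 0) (hr : r ≠ 0) : ∃ η' : Qt α β, η'.re = 0 ∧ nrd η' = nrd η ∧
      φ η' = φ r * φ η * (φ r)⁻¹ := by
  have hr0 : nrd r ≠ 0 := fun h => hr (fr.aniso r h)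
  have hφr : φ r ≠ 0 := fun h => hr (qhom_inj fr hφ h)
  have hstar : star η = -η := by
    have h1 := add_star_self_qt η
    rw [hη, mul_zero, map_zero] at h1
    exact eq_neg_of_add_eq_zero_right h1
  refine ⟨algebraMap F (Qt α β) (nrd r)⁻¹ * (r * η * star r), ?_, ?_, ?_⟩
  · have h1 : star (algebraMap F (Qt α β) (nrd r)⁻¹ * (r * η * star r)) =
        -(algebraMap F (Qt α β) (nrd r)⁻¹ * (r * η * star r)) := by
      rw [star_mul, star_alg_qt, star_mul, star_mul, star_star, hstar, ← Algebra.commutes]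
      simp only [mul_neg, neg_mul, mul_assoc]
    have h2 := add_star_self_qt (algebraMap F (Qt α β) (nrd r)⁻¹ * (r * η * star r))
    rw [h1, add_neg_cancel] at h2
    have h3 := congrArg QuaternionAlgebra.re h2
    simp only [QuaternionAlgebra.algebraMap_eq, QuaternionAlgebra.re_zero] at h3
    exact (mul_eq_zero.mp h3.symm).resolve_left two_ne_zero
  · rw [nrd_mul, nrd_mul, nrd_mul, nrd_star_qt, nrd_alg_qt]
    field_simp
  · have h1 : φ (star r) = ι (nrd r) * (φ r)⁻¹ := by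
      rw [eq_mul_inv_iff_mul_eq₀ hφr, ← map_mul, star_mul_self_qt, phi_alg hφ]
    have h2 : φ r * φ η * ι (nrd r) = ι (nrd r) * (φ r * φ η) := by
      rw [← phi_alg hφ, ← map_mul, ← map_mul, ← map_mul, Algebra.commutes]
    rw [map_mul, map_mul, map_mul, phi_alg hφ, h1, ← mul_assoc (φ r * φ η), h2, ← mul_assoc,
      ← mul_assoc, ← map_mul, inv_mul_cancel₀ hr0, map_one, one_mul]

theorem pure_sq {η : Qt α β} (hη : η.re = 0) :
    η * η = algebraMap F (Qt α β) (-nrd η) := by
  have hstar : star η = -η := by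
    have h1 := add_star_self_qt η
    rw [hη, mul_zero, map_zero] at h1
    exact eq_neg_of_add_eq_zero_right h1
  have h1 := mul_star_self_qt η
  rw [hstar, mul_neg] at h1
  rw [map_neg, ← h1, neg_neg]

theorem nrd_lin {η : Qt α β} (hη : η.re = 0) (r c : F) :
    nrd (algebraMap F (Qt α β) r - algebraMap F (Qt α β) c * η) = r ^ 2 + c ^ 2 * nrd η := by
  rw [← Algebra.smul_def]
  simp only [nrd, QuaternionAlgebra.re_sub, QuaternionAlgebra.imI_sub,
    QuaternionAlgebra.imJ_sub, QuaternionAlgebra.imK_sub, QuaternionAlgebra.algebraMap_eq,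
    QuaternionAlgebra.re_smul, QuaternionAlgebra.imI_smul, QuaternionAlgebra.imJ_smul,
    QuaternionAlgebra.imK_smul, smul_eq_mul, hη]
  ring

theorem re_of_nrd_one {u : Qt α β} (hu : nrd u = 1) : 2 - 2 * u.re = nrd (u - 1) := by
  have e : nrd (u - 1) = nrd u - 2 * u.re + 1 := by
    simp only [nrd, QuaternionAlgebra.re_sub, QuaternionAlgebra.imI_sub,
      QuaternionAlgebra.imJ_sub, QuaternionAlgebra.imK_sub, QuaternionAlgebra.re_one,
      QuaternionAlgebra.imI_one, QuaternionAlgebra.imJ_one, QuaternionAlgebra.imK_one]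
    ring
  rw [e, hu]
  ring

end pair

section est

/-- The estimate for the element of the quadratic field. -/
theorem near_p {F : Type} [Field F] (w : Valuation F Z0) {S a c g y C E : F}
    (hS : S ^ 2 = a) (ha : a = 1 - 2 * y + c) (hy : w y = w g) (h1 : w c < w (2 * g))
    (h2 : w C ≤ w (2 * g) ^ 2) (h3 : w C ≤ w (2 * g)) (h4 : w c < w (C * E)) (hE : w E ≤ 1)
    (h40 : w 4 ≠ 0) : (1 + S) ^ 2 - c ≠ 0 ∧
      w (2 - 2 * (((1 + S) ^ 2 + c) / ((1 + S) ^ 2 - c))) < w (4 * E) := by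
  have h5 : w (2 * y - c) = w (2 * g) := by
    have h6 : w (2 * y) = w (2 * g) := by rw [map_mul, hy, ← map_mul]
    rw [← h6] at h1 ⊢
    exact Valuation.map_sub_eq_of_lt_left w h1
  have hg0 : w (2 * g) ≠ 0 := fun h => by
    rw [h] at h1
    exact not_lt_zero h1
  have hPQ : w ((1 + S) ^ 2) * w ((1 - S) ^ 2) = w (2 * g) ^ 2 := by
    rw [← map_mul, ← h5, ← map_pow]
    congr 1
    have : 2 * y - c = 1 - S ^ 2 := by rw [hS, ha]; ring
    rw [this]
    ring
  have hQ0 : w ((1 - S) ^ 2) ≠ 0 := fun h => by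
    rw [h, mul_zero] at hPQ
    exact hg0 (pow_eq_zero_iff two_ne_zero |>.mp hPQ.symm)
  have hQ : w ((1 - S) ^ 2) ≤ max 1 (w (2 * g)) := by
    have h6 : w S ^ 2 ≤ max 1 (w (2 * g)) := by
      rw [← map_pow, hS, ha]
      have : 1 - 2 * y + c = 1 - (2 * y - c) := by ring
      rw [this, ← h5]
      exact (w.map_sub _ _).trans (max_le (by rw [map_one]; exact le_max_left _ _)
        (le_max_right _ _))
    rw [map_pow]
    have h7 : w (1 - S) ≤ max 1 (w S) := by
      have := w.map_sub 1 S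
      rwa [map_one] at this
    rcases le_total (w S) 1 with h8 | h8
    · rw [max_eq_left h8] at h7
      exact (pow_le_one' h7 2).trans (le_max_left _ _)
    · rw [max_eq_right h8] at h7
      exact (pow_le_pow_left' h7 2).trans h6
  have hCP : w C ≤ w ((1 + S) ^ 2) := by
    by_contra hcon
    rw [not_le] at hcon
    have h6 : w (2 * g) ^ 2 < w C * w ((1 - S) ^ 2) := by
      rw [← hPQ]
      exact (mul_lt_mul_iff_left₀ (zero_lt_iff.mpr hQ0)).mpr hcon
    have h7 : w C * w ((1 - S) ^ 2) ≤ w (2 * g) ^ 2 := by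
      rcases le_total (w (2 * g)) 1 with h8 | h8
      · rw [max_eq_left h8] at hQ
        exact ((mul_le_mul' le_rfl hQ).trans (mul_one _).le).trans h2
      · rw [max_eq_right h8] at hQ
        refine (mul_le_mul' h3 hQ).trans ?_
        rw [sq]
    exact absurd h6 (not_lt.mpr h7)
  have hcP : w c < w ((1 + S) ^ 2) := by
    refine (h4.trans_le ?_).trans_le hCP
    rw [map_mul]
    exact (mul_le_mul' le_rfl hE).trans (mul_one _).le
  have hval : w ((1 + S) ^ 2 - c) = w ((1 + S) ^ 2) := Valuation.map_sub_eq_of_lt_left w hcP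
  have hP0 : 0 < w ((1 + S) ^ 2) := lt_of_le_of_lt zero_le hcP
  have hne : (1 + S) ^ 2 - c ≠ 0 := by
    intro h0
    rw [h0, map_zero] at hval
    exact hP0.ne hval
  refine ⟨hne, ?_⟩
  have e : 2 - 2 * (((1 + S) ^ 2 + c) / ((1 + S) ^ 2 - c)) = -(4 * c / ((1 + S) ^ 2 - c)) := by
    field_simp
    ring
  rw [e, Valuation.map_neg, map_div₀, hval, div_lt_iff₀ hP0, map_mul, map_mul, mul_assoc]
  refine (mul_lt_mul_iff_right₀ (zero_lt_iff.mpr h40)).mpr (h4.trans_le ?_)
  rw [map_mul, mul_comm]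
  exact mul_le_mul' le_rfl hCP

theorem exists_min_unit {k : Type} [Field k] (w : Valuation k Z0) (x y : kˣ) :
    ∃ z : kˣ, w (z : k) ≤ w (x : k) ∧ w (z : k) ≤ w (y : k) := by
  rcases le_total (w (x : k)) (w (y : k)) with h | h
  · exact ⟨x, le_rfl, h⟩
  · exact ⟨y, h, le_rfl⟩

end est

end Vale.Agent.P011.One
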