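import Vale.Agent.P011.Two2.Tern
import Vale.Agent.P011.One.Theta
import Vale.Agent.P011.One.Quat

/-!
The choice of the field `k(√a')` in the description of the unitary elements commuting with a
symmetric square root.
-/

open NumberField IsDedekindDomain

set_option linter.unusedSectionVars false

namespace Vale.Agent.P011.One

open Vale.Agent.P011.Arith Vale.Agent.P011.Even Vale.Agent.P011.MPQ

variable {k F : Type} [Field k] [NumberField k] [Field F] [NumberField F] [Algebra k F]

/-- An element which becomes a local square in `k(√a)` is a local square up to `a`. -/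
theorem ls_desc (hfr : Module.finrank k F = 2) {a : kˣ} (ha : ¬ IsSquare (a : k)) {T : F}
    (hT : T ^ 2 = algebraMap k F a) {w : HeightOneSpectrum (𝓞 F)} {v : HeightOneSpectrum (𝓞 k)}
    (hw : Ab w v) {u : kˣ} (hu : u ∉ LS (v.valuation k)) (hau : a * u ∉ LS (v.valuation k)) :
    inc k F u ∉ LS (w.valuation F) := by
  obtain ⟨σ, hσ⟩ := exists_sigma hfr ha hT
  by_cases hav : a ∈ LS (v.valuation k)
  · obtain ⟨w', hw', hab⟩ := exists_conj σ w
    have hne : w' ≠ w := (split_iff hfr ha hT hσ hw hw').mp hav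
    refine notMem_LS_above (v := v) ?_ hu hw
    refine ⟨fun i => if (i : ℕ) = 0 then w else w', ?_, ?_⟩
    · intro i j hij
      have hi := lt_of_lt_of_eq i.2 hfr
      have hj := lt_of_lt_of_eq j.2 hfr
      apply Fin.ext
      by_cases h1 : (i : ℕ) = 0
      · by_cases h2 : (j : ℕ) = 0
        · omega
        · simp only [h1, h2, if_true, if_false] at hij
          exact absurd hij.symm hne
      · by_cases h2 : (j : ℕ) = 0
        · simp only [h1, h2, if_true, if_false] at hij
          exact absurd hij hne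
        · omega
    · intro i
      by_cases h1 : (i : ℕ) = 0
      · simp only [h1, if_true]
        exact hw
      · simp only [h1, if_false]
        exact (hab v).mp hw
  · intro hcon
    have huniq : ∀ w' : HeightOneSpectrum (𝓞 F), Ab w' v → w' = w := by
      intro w' hw'
      rcases conj_transitive hfr ha hT hσ hw hw' with h | h
      · exact h
      · by_contra hne
        exact hav ((split_iff hfr ha hT hσ hw h).mpr hne)
    have key : NF a ⊔ LS (v.valuation k) ≤ NF u ⊔ LS (v.valuation k) := by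
      intro m hm
      obtain ⟨n, ⟨x, y, hn⟩, l, hl, rfl⟩ := Subgroup.mem_sup.mp hm
      refine mul_mem ?_ (Subgroup.mem_sup_right hl)
      have hz : algebraMap k F (n : k) = (algebraMap k F x + algebraMap k F y * T) *
          σ (algebraMap k F x + algebraMap k F y * T) := by
        rw [sigma_coords hσ, hn, map_sub, map_mul, map_pow, map_pow, ← hT]
        ring
      have hz0 : algebraMap k F x + algebraMap k F y * T ≠ 0 := by
        intro h0
        rw [h0, zero_mul, map_eq_zero] at hz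
        exact n.ne_zero hz
      have hc : nrm k F (Units.mk0 _ hz0) = n := by
        refine Units.ext ((algebraMap k F).injective ?_)
        rw [nrm_val, norm_eq_mul hfr ha hT hσ, hz, Units.val_mk0]
      rw [← hc]
      refine nrm_local v u _ fun w' hw' => ?_
      have ht : NF (inc k F u) ⊔ LS (w.valuation F) = ⊤ := sup_eq_top (p := .inl w) hcon
      rw [huniq w' hw', ht]
      exact Subgroup.mem_top _
    have h1 : (NF a ⊔ LS (v.valuation k)).index = 2 := local_index_two v a hav
    have h2 : (NF u ⊔ LS (v.valuation k)).index = 2 := local_index_two v u hu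
    have heq : NF a ⊔ LS (v.valuation k) = NF u ⊔ LS (v.valuation k) := by
      refine le_antisymm key ?_
      have h3 := Subgroup.relIndex_mul_index key
      rw [h1, h2] at h3
      have h4 : (NF a ⊔ LS (v.valuation k)).relIndex (NF u ⊔ LS (v.valuation k)) = 1 := by
        omega
      exact Subgroup.relIndex_eq_one.mp h4
    refine absurd (local_index_two v (a * u) hau) ?_
    have htop : NF (a * u) ⊔ LS (v.valuation k) = ⊤ := by
      rw [eq_top_iff]
      intro b _
      by_cases hb : b ∈ NF a ⊔ LS (v.valuation k)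
      · have hb' : b ∈ NF u ⊔ LS (v.valuation k) := by rw [← heq]; exact hb
        exact mem_symm _ _ (mul_mem (mem_symm _ _ hb) (mem_symm _ _ hb'))
      · have hb' : b ∉ NF u ⊔ LS (v.valuation k) := by rw [← heq]; exact hb
        have hbL : b ∉ LS (v.valuation k) := fun h => hb (Subgroup.mem_sup_right h)
        have h5 := local_index_two v b hbL
        refine mem_symm _ _ ((Subgroup.mul_mem_iff_of_index_two h5).mpr
          (iff_of_false (fun h => hb (mem_symm _ _ h)) (fun h => hb' (mem_symm _ _ h))))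
    rw [htop, Subgroup.index_top]
    norm_num

/-- There is a class of elements avoiding two classes modulo local squares. -/
theorem exists_class (v : HeightOneSpectrum (𝓞 k)) (a : kˣ) :
    ∃ u : kˣ, u ∉ LS (v.valuation k) ∧ a * u ∉ LS (v.valuation k) := by
  obtain ⟨π, hπ⟩ := v.valuation_exists_uniformizer k
  have hπ0 : π ≠ 0 := by
    rintro rfl
    rw [map_zero] at hπ
    exact WithZero.exp_ne_zero hπ.symm
  have hodd : ∀ (x : kˣ) (m : ℤ), v.valuation k (x : k) = WithZero.exp (2 * m + 1) →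
      x ∉ LS (v.valuation k) := by
    intro x m hx h
    obtain ⟨y, hy⟩ := LS_even h
    rw [hx] at hy
    have h' := congrArg WithZero.log hy
    rw [WithZero.log_pow, WithZero.log_exp, nsmul_eq_mul] at h'
    push_cast at h'
    omega
  have ha0 : v.valuation k (a : k) ≠ 0 := (Valuation.ne_zero_iff _).mpr a.ne_zero
  obtain ⟨m, hm⟩ : ∃ m : ℤ, v.valuation k (a : k) = WithZero.exp m :=
    ⟨WithZero.log (v.valuation k (a : k)), (WithZero.exp_log ha0).symm⟩
  rcases Int.even_or_odd' m with ⟨r, hr | hr⟩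
  · refine ⟨Units.mk0 π hπ0, hodd _ (-1) ?_, hodd _ (r - 1) ?_⟩
    · rw [Units.val_mk0, hπ]
      norm_num
    · rw [Units.val_mul, map_mul, Units.val_mk0, hπ, hm, ← WithZero.exp_add]
      congr 1
      omega
  · obtain ⟨c, hc⟩ := exists_admC v
    have h1 : v.valuation k (1 + 4 * c) = 1 := by
      have := AdmC.norm_eq hc two_ne_zero 0 1
      rw [zero_pow two_ne_zero, zero_sub, one_pow, mul_one, Valuation.map_neg, zero_sub,
        Valuation.map_neg, map_one, mul_one, max_eq_left (val_two_le _), one_pow] at this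
      exact this
    have h10 : 1 + 4 * c ≠ 0 := by
      intro h0
      rw [h0, map_zero] at h1
      exact zero_ne_one h1
    refine ⟨Units.mk0 _ h10, ?_, hodd _ r ?_⟩
    · rintro ⟨y, hy⟩
      rw [Units.val_mk0] at hy
      have hy0 : (y : k) ≠ 0 := y.ne_zero
      have h2 : v.valuation k ((1 + 4 * c) / (y : k) ^ 2) = 1 := by
        have := Valuation.map_one_add_of_lt (v.valuation k) (x := (1 + 4 * c) / (y : k) ^ 2 - 1)
          (lt_of_lt_of_le hy (val_four_le _))
        rwa [add_sub_cancel] at this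
      have h3 : v.valuation k ((y : k) ^ 2) = 1 := by
        rw [map_div₀, h1, one_div] at h2
        rw [← inv_inv (v.valuation k ((y : k) ^ 2)), h2, inv_one]
      have h4 := AdmC.norm_eq hc two_ne_zero (y : k) 1
      have h5 : v.valuation k ((y : k) ^ 2 - (1 + 4 * c)) < v.valuation k 4 := by
        have h6 : (y : k) ^ 2 - (1 + 4 * c) = -(((1 + 4 * c) / (y : k) ^ 2 - 1) * (y : k) ^ 2) := by
          field_simp
          ring
        rw [h6, Valuation.map_neg, map_mul, h3, mul_one]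
        exact hy
      rw [one_pow, mul_one, mul_one] at h4
      rw [h4, val_four_eq] at h5
      exact absurd h5 (not_lt.mpr (pow_le_pow_left' (le_max_right _ _) 2))
    · rw [Units.val_mul, map_mul, Units.val_mk0, h1, mul_one, hm, hr]

/-- Weak approximation at the primes in `S` and the real places. -/
theorem exists_app {S : Set (HeightOneSpectrum (𝓞 k))} (hS : S.Finite)
    (x : HeightOneSpectrum (𝓞 k) → k) (g : HeightOneSpectrum (𝓞 k) → Z0)
    (hg : ∀ v ∈ S, g v ≠ 0) (t : (k →+* ℝ) → k) {ε : ℝ} (hε : 0 < ε) :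
    ∃ f : k, (∀ v ∈ S, v.valuation k (f - x v) < g v) ∧ ∀ φ : k →+* ℝ, |φ f - φ (t φ)| < ε := by
  classical
  obtain ⟨f, h1, h2⟩ := approxVal hS.toFinset x g (fun v hv => hg v (hS.mem_toFinset.mp hv))
    (fun W => if h : ∃ φ : k →+* ℝ, InfinitePlace.mk (Complex.ofRealHom.comp φ) = W
      then t h.choose else 0) hε
  refine ⟨f, fun v hv => h1 v (hS.mem_toFinset.mpr hv), fun φ => ?_⟩
  have h3 := h2 (InfinitePlace.mk (Complex.ofRealHom.comp φ))
  have h4 : ∃ φ' : k →+* ℝ, InfinitePlace.mk (Complex.ofRealHom.comp φ') =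
      InfinitePlace.mk (Complex.ofRealHom.comp φ) := ⟨φ, rfl⟩
  have h5 : h4.choose = φ := real_place_injective h4.choose_spec
  rw [dif_pos h4, h5, InfinitePlace.apply] at h3
  have h6 : (Complex.ofRealHom.comp φ) (f - t φ) = ((φ f - φ (t φ) : ℝ) : ℂ) := by
    rw [← map_sub]
    rfl
  rwa [h6, Complex.norm_real, Real.norm_eq_abs] at h3

theorem real_near_zero {c : ℝ} : ∃ ε : ℝ, 0 < ε ∧ ∀ y : ℝ, |y| < ε → 0 < 1 - 2 * y + c * y ^ 2 := by
  have hc : 0 < 1 + |c| := by positivity
  refine ⟨1 / (4 * (1 + |c|)), by positivity, fun y hy => ?_⟩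
  have h1 : |y| * (4 * (1 + |c|)) < 1 := (lt_div_iff₀ (by positivity)).mp hy
  have h2 := neg_abs_le c
  have h3 := abs_nonneg c
  have h4 := le_abs_self y
  have h5 := abs_nonneg y
  have h6 : y ^ 2 = |y| ^ 2 := (sq_abs y).symm
  have h7 : |y| < 1 := by nlinarith
  have h8 : -(|c| * |y|) ≤ c * y ^ 2 := by
    rw [h6]
    have h9 : |c| * |y| ^ 2 ≤ |c| * |y| := by
      have : |y| ^ 2 ≤ |y| := by nlinarith
      exact mul_le_mul_of_nonneg_left this h3
    have h10 : -|c| * |y| ^ 2 ≤ c * |y| ^ 2 :=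
      mul_le_mul_of_nonneg_right h2 (sq_nonneg _)
    linarith
  nlinarith

theorem real_near_one {c : ℝ} (hc1 : c < 1) :
    ∃ ε : ℝ, 0 < ε ∧ ∀ y : ℝ, |y - 1| < ε → 1 - 2 * y + c * y ^ 2 < 0 := by
  have hc : 0 < 1 + |c| := by positivity
  have hc2 : 0 < 1 - c := by linarith
  refine ⟨min (1 / 4) ((1 - c) / (4 * (1 + |c|))), by positivity, fun y hy => ?_⟩
  obtain ⟨x, hx⟩ : ∃ x, x = y - 1 := ⟨_, rfl⟩
  rw [← hx, lt_min_iff] at hy
  obtain ⟨hy1, hy2⟩ := hy
  rw [lt_div_iff₀ (by positivity)] at hy1 hy2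
  have hyx : y = 1 + x := by rw [hx]; ring
  have h2 := le_abs_self c
  have h3 := abs_nonneg c
  have h4 := le_abs_self x
  have h4' := neg_abs_le x
  have h5 := abs_nonneg x
  have h6 : x ^ 2 = |x| ^ 2 := (sq_abs x).symm
  have h8 : c * x ^ 2 ≤ |c| * |x| := by
    rw [h6]
    have h9 : |c| * |x| ^ 2 ≤ |c| * |x| := by
      have : |x| ^ 2 ≤ |x| := by nlinarith
      exact mul_le_mul_of_nonneg_left this h3
    have h10 : c * |x| ^ 2 ≤ |c| * |x| ^ 2 :=
      mul_le_mul_of_nonneg_right h2 (sq_nonneg _)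
    linarith
  have h11 : |c| * |x| ≤ (1 - c) / 4 := by nlinarith
  have h12 : -(2 * (1 - c) * x) ≤ (1 - c) / 2 := by nlinarith
  rw [hyx]
  nlinarith

theorem exists_small_ab (v : HeightOneSpectrum (𝓞 k)) (c g : kˣ) : ∃ l : kˣ,
    ∀ κ : k, v.valuation k κ < v.valuation k (l : k) →
      v.valuation k ((c : k) * κ ^ 2) < v.valuation k (g : k) := by
  have hc0 : v.valuation k (c : k) ≠ 0 := (Valuation.ne_zero_iff _).mpr c.ne_zero
  obtain ⟨l, hl1, hl2⟩ : ∃ l : kˣ, v.valuation k (l : k) ≤ 1 ∧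
      v.valuation k (l : k) ≤ v.valuation k ((g / c : kˣ) : k) := by
    rcases le_total (v.valuation k ((g / c : kˣ) : k)) 1 with h | h
    · exact ⟨g / c, h, le_rfl⟩
    · exact ⟨1, by rw [Units.val_one, map_one], by rw [Units.val_one, map_one]; exact h⟩
  refine ⟨l, fun κ hκ => ?_⟩
  have h1 : v.valuation k κ ≤ 1 := hκ.le.trans hl1
  have h2 : v.valuation k (κ ^ 2) ≤ v.valuation k κ := by
    rw [map_pow, sq]
    exact (mul_le_mul' le_rfl h1).trans (mul_one _).le
  calc v.valuation k ((c : k) * κ ^ 2) = v.valuation k (c : k) * v.valuation k (κ ^ 2) :=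
        map_mul _ _ _
    _ < v.valuation k (c : k) * v.valuation k ((g / c : kˣ) : k) :=
        (mul_lt_mul_iff_right₀ (zero_lt_iff.mpr hc0)).mpr ((h2.trans_lt hκ).trans_le hl2)
    _ = v.valuation k (g : k) := by
        rw [← map_mul, ← Units.val_mul, mul_div_cancel]

/-- **The choice of `y` and `a'`.** -/
theorem exists_y (hfr : Module.finrank k F = 2) {a : kˣ} (ha : ¬ IsSquare (a : k)) {T : F}
    (hT : T ^ 2 = algebraMap k F a) (d : kˣ) (α β : Fˣ)
    {S : Set (HeightOneSpectrum (𝓞 k))} (hS : S.Finite) (hne : S.Nonempty)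
    (hram : ∀ w : HeightOneSpectrum (𝓞 F), β ∉ NF α ⊔ LS (w.valuation F) →
      ∀ v : HeightOneSpectrum (𝓞 k), Ab w v → v ∈ S) :
    ∃ g l : HeightOneSpectrum (𝓞 k) → kˣ, ∀ κ : k,
      (∀ v ∈ S, v.valuation k κ < v.valuation k (l v : k)) →
      (∀ ψ : F →+* ℝ, ψ α < 0 → ψ β < 0 → 0 < 1 - ψ (algebraMap k F (a * d * κ ^ 2))) →
      ∃ (y : k) (a' : kˣ), (a' : k) = 1 - 2 * y + a * d * y ^ 2 * κ ^ 2 ∧
        (∀ v ∈ S, v.valuation k y = v.valuation k (g v : k)) ∧
        (∀ w : HeightOneSpectrum (𝓞 F), β ∉ NF α ⊔ LS (w.valuation F) →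
          inc k F (a' / d) ∉ LS (w.valuation F)) ∧
        ∀ ψ : F →+* ℝ, ψ α < 0 → ψ β < 0 → ψ (inc k F (a' / d) : Fˣ) < 0 := by
  classical
  have h2 : (2 : k) ≠ 0 := two_ne_zero
  -- the residues
  have hu : ∀ v : HeightOneSpectrum (𝓞 k), ∃ u : kˣ, u / d ∉ LS (v.valuation k) ∧
      a * (u / d) ∉ LS (v.valuation k) ∧ (u : k) ≠ 1 := by
    intro v
    obtain ⟨u, h3, h4⟩ := exists_class v a
    by_cases h5 : ((u * d : kˣ) : k) = 1
    · have h8 : u * d * (Units.mk0 2 h2) ^ 2 / d / (Units.mk0 2 h2) ^ 2 = u := by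
        rw [mul_right_comm u d, mul_div_cancel_right, mul_div_cancel_right]
      refine ⟨u * d * (Units.mk0 2 h2) ^ 2, ?_, ?_, ?_⟩
      · intro h6
        apply h3
        have h7 := (LS (v.valuation k)).div_mem h6 (sq_mem_LS (Units.mk0 (2 : k) h2))
        rwa [h8] at h7
      · intro h6
        apply h4
        have h7 := (LS (v.valuation k)).div_mem h6 (sq_mem_LS (Units.mk0 (2 : k) h2))
        rwa [mul_div_assoc, h8] at h7
      · rw [Units.val_mul, h5, one_mul, Units.val_pow_eq_pow_val, Units.val_mk0]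
        norm_num
    · exact ⟨u * d, by rwa [mul_div_cancel_right], by rwa [mul_div_cancel_right], h5⟩
  choose u hu1 hu2 hu3 using hu
  have hg0 : ∀ v, (1 - (u v : k)) / 2 ≠ 0 := fun v =>
    div_ne_zero (sub_ne_zero.mpr (hu3 v).symm) h2
  choose l hl using fun v => exists_small_ab v (a * d * (Units.mk0 _ (hg0 v)) ^ 2)
    (Units.mk0 2 h2 ^ 2 * u v)
  refine ⟨fun v => Units.mk0 _ (hg0 v), l, fun κ hκ hψ => ?_⟩
  -- the real places
  have hreal : ∀ φ : k →+* ℝ, ∃ ε : ℝ, 0 < ε ∧ ∀ y : ℝ, |y - if φ d < 0 then 0 else 1| < ε →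
      (φ d < 0 → 0 < 1 - 2 * y + φ (a * d * κ ^ 2) * y ^ 2) ∧
      (¬ φ d < 0 → φ (a * d * κ ^ 2) < 1 → 1 - 2 * y + φ (a * d * κ ^ 2) * y ^ 2 < 0) := by
    intro φ
    by_cases hd : φ d < 0
    · obtain ⟨ε, hε, h3⟩ := real_near_zero (c := φ (a * d * κ ^ 2))
      refine ⟨ε, hε, fun y hy => ⟨fun _ => h3 y ?_, fun h => absurd hd h⟩⟩
      rwa [if_pos hd, sub_zero] at hy
    · by_cases hc : φ (a * d * κ ^ 2) < 1
      · obtain ⟨ε, hε, h3⟩ := real_near_one hc
        refine ⟨ε, hε, fun y hy => ⟨fun h => absurd h hd, fun _ _ => h3 y ?_⟩⟩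
        rwa [if_neg hd] at hy
      · exact ⟨1, one_pos, fun y _ => ⟨fun h => absurd h hd, fun _ h => absurd h hc⟩⟩
  choose ε hε hy using hreal
  obtain ⟨ε₀, hε₀, hmin⟩ : ∃ ε₀ : ℝ, 0 < ε₀ ∧ ∀ φ, ε₀ ≤ ε φ := by
    rcases isEmpty_or_nonempty (k →+* ℝ) with h | h
    · exact ⟨1, one_pos, fun φ => (h.false φ).elim⟩
    · obtain ⟨φ₀, h⟩ := Finite.exists_min ε
      exact ⟨ε φ₀, hε φ₀, h⟩
  obtain ⟨y, hy1, hy2⟩ := exists_app hS (fun v => (1 - (u v : k)) / 2)
    (fun v => min (v.valuation k ((1 - (u v : k)) / 2)) (v.valuation k (2 * (u v : k))))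
    (fun v _ => by
      rcases min_choice (v.valuation k ((1 - (u v : k)) / 2)) (v.valuation k (2 * (u v : k)))
        with h | h <;> rw [h]
      · exact (Valuation.ne_zero_iff _).mpr (hg0 v)
      · exact (Valuation.ne_zero_iff _).mpr (mul_ne_zero h2 (u v).ne_zero))
    (fun φ => if φ d < 0 then 0 else 1) hε₀
  -- valuations
  have hyv : ∀ v ∈ S, v.valuation k y = v.valuation k ((1 - (u v : k)) / 2) := by
    intro v hv
    have h3 := (hy1 v hv).trans_le (min_le_left _ _)
    have h4 := Valuation.map_add_eq_of_lt_left (v.valuation k) h3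
    rwa [add_sub_cancel] at h4
  have hclose : ∀ v ∈ S, v.valuation k (1 - 2 * y + a * d * y ^ 2 * κ ^ 2 - u v) <
      v.valuation k 4 * v.valuation k (u v : k) := by
    intro v hv
    have e : 1 - 2 * y + a * d * y ^ 2 * κ ^ 2 - u v =
        -(2 * (y - (1 - (u v : k)) / 2)) + a * d * y ^ 2 * κ ^ 2 := by
      field_simp
      ring
    rw [e]
    refine Valuation.map_add_lt _ ?_ ?_
    · have h3 := (hy1 v hv).trans_le (min_le_right _ _)
      have h20 : (0 : Z0) < v.valuation k 2 := zero_lt_iff.mpr ((Valuation.ne_zero_iff _).mpr h2)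
      have h4 := (mul_lt_mul_iff_right₀ h20).mpr h3
      rw [map_mul (v.valuation k) 2 (u v : k)] at h4
      rw [Valuation.map_neg, map_mul, val_four_eq, sq, mul_assoc]
      exact h4
    · have h3 := hl v κ (hκ v hv)
      have h4 : v.valuation k ((a : k) * d * y ^ 2 * κ ^ 2) =
          v.valuation k (((a * d * (Units.mk0 _ (hg0 v)) ^ 2 : kˣ) : k) * κ ^ 2) := by
        rw [Units.val_mul, Units.val_mul, Units.val_pow_eq_pow_val, Units.val_mk0]
        simp only [map_mul, map_pow, hyv v hv]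
      rw [h4]
      refine h3.trans_le (le_of_eq ?_)
      rw [Units.val_mul, Units.val_pow_eq_pow_val, Units.val_mk0, map_mul, map_pow, val_four_eq]
  have hval : ∀ v ∈ S, v.valuation k (1 - 2 * y + a * d * y ^ 2 * κ ^ 2) =
      v.valuation k (u v : k) := by
    intro v hv
    have h3 : v.valuation k (1 - 2 * y + a * d * y ^ 2 * κ ^ 2 - u v) <
        v.valuation k (u v : k) :=
      (hclose v hv).trans_le ((mul_le_mul' (val_four_le _) le_rfl).trans (one_mul _).le)
    have h4 := Valuation.map_add_eq_of_lt_left (v.valuation k) h3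
    rwa [add_sub_cancel] at h4
  have ha0 : 1 - 2 * y + a * d * y ^ 2 * κ ^ 2 ≠ 0 := by
    obtain ⟨v, hv⟩ := hne
    intro h0
    have h3 := hval v hv
    rw [h0, map_zero] at h3
    exact (Valuation.ne_zero_iff _).mpr (u v).ne_zero h3.symm
  obtain ⟨a', ha'⟩ : ∃ a' : kˣ, (a' : k) = 1 - 2 * y + a * d * y ^ 2 * κ ^ 2 :=
    ⟨Units.mk0 _ ha0, rfl⟩
  have hLS : ∀ v ∈ S, a' / u v ∈ LS (v.valuation k) := by
    intro v hv
    apply LS_of_close
    have hu0 : (u v : k) ≠ 0 := (u v).ne_zero
    rw [Units.val_div_eq_div_val, ha', div_sub_one hu0, map_div₀,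
      div_lt_iff₀ (zero_lt_iff.mpr ((Valuation.ne_zero_iff _).mpr hu0))]
    exact hclose v hv
  refine ⟨y, a', ha', hyv, fun w hw => ?_, fun ψ hα hβ => ?_⟩
  · obtain ⟨v, hv⟩ := Sch.exists_below (F := k) w
    have hvS := hram w hw v hv
    refine ls_desc hfr ha hT hv (fun h => hu1 v ?_) (fun h => hu2 v ?_)
    · have h3 := (LS (v.valuation k)).div_mem h (hLS v hvS)
      have h4 : a' / d / (a' / u v) = u v / d := by
        rw [div_div_div_eq, mul_comm a' (u v), mul_comm d a', ← div_div,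
          mul_div_cancel_right]
      rwa [h4] at h3
    · have h3 := (LS (v.valuation k)).div_mem h (hLS v hvS)
      have h4 : a * (a' / d) / (a' / u v) = a * (u v / d) := by
        rw [mul_div_assoc]
        congr 1
        rw [div_div_div_eq, mul_comm a' (u v), mul_comm d a', ← div_div,
          mul_div_cancel_right]
      rwa [h4] at h3
  · obtain ⟨φ, hφ⟩ : ∃ φ : k →+* ℝ, φ = ψ.comp (algebraMap k F) := ⟨_, rfl⟩
    have e1 : ψ (inc k F (a' / d) : Fˣ) = φ a' / φ d := by
      rw [inc_val, Units.val_div_eq_div_val, ← map_div₀ φ, hφ]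
      rfl
    have e2 : ψ (algebraMap k F (a * d * κ ^ 2)) = φ (a * d * κ ^ 2) := by rw [hφ]; rfl
    have e3 : φ a' = 1 - 2 * φ y + φ (a * d * κ ^ 2) * φ y ^ 2 := by
      rw [ha']
      simp only [map_add, map_sub, map_mul, map_pow, map_one, map_ofNat]
      ring
    have h3 := hψ ψ hα hβ
    rw [e2] at h3
    have h4 := hy φ (φ y) (by
      have h5 := (hy2 φ).trans_le (hmin φ)
      have h6 : φ (if φ d < 0 then 0 else 1) = if φ d < 0 then 0 else 1 := by
        split_ifs
        · exact map_zero φ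
        · exact map_one φ
      rwa [h6] at h5)
    rw [e1]
    by_cases hd : φ d < 0
    · exact div_neg_of_pos_of_neg (by rw [e3]; exact h4.1 hd) hd
    · have hd' : 0 < φ d := lt_of_le_of_ne (not_lt.mp hd)
        ((_root_.map_ne_zero φ).mpr d.ne_zero).symm
      exact div_neg_of_neg_of_pos (by rw [e3]; exact h4.2 hd (by linarith)) hd'

end Vale.Agent.P011.One
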