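import Mathlib.LinearAlgebra.Matrix.Determinant.Basic
import Mathlib.NumberTheory.NumberField.Completion.FinitePlace
import Mathlib.RingTheory.DedekindDomain.AdicValuation
import Mathlib.Topology.Algebra.Module.ModuleTopology

/-!
The special unitary group of rank one over a division algebra with involution, the set of the
places at which it is anisotropic, and the topology induced by the completions at these places.
-/

open Module NumberField IsDedekindDomain TensorProduct Topology

namespace Vale.Agent.P011.One

section group

variable {K D Ω : Type} [Field K] [DivisionRing D] [StarRing D] [Algebra K D] [Field Ω]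
    [Algebra K Ω] {n : ℕ}

/-- The group of the unitary elements of reduced norm one of the division algebra `D` with the
involution `star`; the reduced norm is computed with the splitting `f` of `D`. -/
def SUD (f : D →ₐ[K] Matrix (Fin n) (Fin n) Ω) : Subgroup Dˣ where
  carrier := {g | (g : D) * star (g : D) = 1 ∧ (f (g : D)).det = 1}
  mul_mem' := by
    rintro a b ⟨h1, h2⟩ ⟨h3, h4⟩
    refine ⟨?_, ?_⟩
    · rw [Units.val_mul, star_mul, mul_assoc, ← mul_assoc (b : D), h3, one_mul, h1]
    · rw [Units.val_mul, map_mul, Matrix.det_mul, h2, h4, one_mul]
  one_mem' := ⟨by rw [Units.val_one, star_one, one_mul],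
    by rw [Units.val_one, map_one, Matrix.det_one]⟩
  inv_mem' := by
    rintro a ⟨h1, h2⟩
    have h3 : star (a : D) = ((a⁻¹ : Dˣ) : D) := by
      rw [← Units.mul_right_inj a, h1, Units.mul_inv]
    have h4 : (f ((a⁻¹ : Dˣ) : D)).det = 1 := by
      have h5 : (f (a : D)).det * (f ((a⁻¹ : Dˣ) : D)).det = 1 := by
        rw [← Matrix.det_mul, ← map_mul, Units.mul_inv, map_one, Matrix.det_one]
      rwa [h2, one_mul] at h5
    refine ⟨?_, h4⟩
    rw [← h3, star_star, h3, Units.inv_mul]

end group

/-- The finite places `v` of `k` such that `K` embeds in the completion of `k` at `v` and `D`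
remains a division algebra over this completion. -/
def Adiv (k K D : Type) [Field k] [NumberField k] [Field K] [DivisionRing D] [Algebra k K]
    [Algebra K D] : Set (HeightOneSpectrum (𝓞 k)) :=
  {v | ∃ φ : K →ₐ[k] v.adicCompletion k,
    letI := (φ : K →+* v.adicCompletion k).toAlgebra
    ∀ x : v.adicCompletion k ⊗[K] D, x ≠ 0 → IsUnit x}

variable {k D : Type} [Field k] [NumberField k] [DivisionRing D] [Algebra k D]

/-- The diagonal map to the product of the completions of `D` at the places in `A`. -/
noncomputable def delta (A : Set (HeightOneSpectrum (𝓞 k))) (x : D) (v : A) :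
    (v : HeightOneSpectrum (𝓞 k)).adicCompletion k ⊗[k] D :=
  (1 : (v : HeightOneSpectrum (𝓞 k)).adicCompletion k) ⊗ₜ[k] x

/-- The product topology on the product of the completions of `D` at the places in `A`; the
completion at `v` has the natural topology of a finite-dimensional vector space over the completion
of `k` at `v`. -/
noncomputable abbrev prodTop (A : Set (HeightOneSpectrum (𝓞 k))) (D : Type) [DivisionRing D]
    [Algebra k D] : TopologicalSpace
      (∀ v : A, (v : HeightOneSpectrum (𝓞 k)).adicCompletion k ⊗[k] D) :=
  @Pi.topologicalSpace _ _ fun v : A =>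
    moduleTopology ((v : HeightOneSpectrum (𝓞 k)).adicCompletion k) _

/-- The topology of a group of units of `D` induced by the diagonal map. -/
noncomputable abbrev adicTop (A : Set (HeightOneSpectrum (𝓞 k))) (G : Subgroup Dˣ) :
    TopologicalSpace G :=
  TopologicalSpace.induced (fun g : G => delta A ((g : Dˣ) : D)) (prodTop A D)

end Vale.Agent.P011.One
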