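import Vale.Agent.P011.Even.Beta
import Vale.Agent.P011.Even.GNorm
import Vale.Agent.P011.One.AdicDefs

/-!
The topology of a group of units of a division algebra induced by finitely many completions.
-/

open Module NumberField IsDedekindDomain TensorProduct Topology

namespace Vale.Agent.P011.One

open Vale.Agent.P011.Arith Vale.Agent.P011.Even

variable {k D : Type} [Field k] [NumberField k] [DivisionRing D] [Algebra k D]

variable {M : ℕ} (B : Basis (Fin M) k D)

theorem nm_inl (v : HeightOneSpectrum (𝓞 k)) (x : D) :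
    Even.nm B (.inl v) x = ∑ i, ‖(Algebra.TensorProduct.basis (v.adicCompletion k) B).repr
      ((1 : v.adicCompletion k) ⊗ₜ[k] x) i‖ := by
  rw [Even.nm]
  refine Finset.sum_congr rfl fun i _ => ?_
  rw [Algebra.TensorProduct.basis_repr_tmul, one_smul, Finsupp.mapRange_apply,
    norm_algebraMap_eq]

theorem cont_nm (v : HeightOneSpectrum (𝓞 k)) (c : D) :
    @Continuous (v.adicCompletion k ⊗[k] D) ℝ
      (moduleTopology (v.adicCompletion k) (v.adicCompletion k ⊗[k] D)) _
      (fun x => ∑ i, ‖(Algebra.TensorProduct.basis (v.adicCompletion k) B).repr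
        (x * ((1 : v.adicCompletion k) ⊗ₜ[k] c) - 1) i‖) := by
  let _ : TopologicalSpace (v.adicCompletion k ⊗[k] D) :=
    moduleTopology (v.adicCompletion k) (v.adicCompletion k ⊗[k] D)
  have _ : IsModuleTopology (v.adicCompletion k) (v.adicCompletion k ⊗[k] D) := ⟨rfl⟩
  refine continuous_finsetSum _ fun i _ => Continuous.norm ?_
  let ℓ : v.adicCompletion k ⊗[k] D →ₗ[v.adicCompletion k] v.adicCompletion k :=
    (Algebra.TensorProduct.basis (v.adicCompletion k) B).coord i ∘ₗ
      LinearMap.mulRight (v.adicCompletion k) ((1 : v.adicCompletion k) ⊗ₜ[k] c)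
  have h1 : (fun x : v.adicCompletion k ⊗[k] D =>
      (Algebra.TensorProduct.basis (v.adicCompletion k) B).repr
        (x * ((1 : v.adicCompletion k) ⊗ₜ[k] c) - 1) i) = fun x =>
      ℓ x - (Algebra.TensorProduct.basis (v.adicCompletion k) B).repr 1 i := by
    funext x
    rw [map_sub, Finsupp.sub_apply]
    rfl
  rw [h1]
  exact (IsModuleTopology.continuous_of_linearMap ℓ).sub continuous_const

/-- A subgroup containing the elements close to one at finitely many places of `A` is open. -/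
theorem isOpen_of_near {A A' : Set (HeightOneSpectrum (𝓞 k))} (hA : A'.Finite) (hAA : A' ⊆ A)
    {G : Subgroup Dˣ} (N : Subgroup G) {η : HeightOneSpectrum (𝓞 k) → ℝ} (hη : ∀ v, 0 < η v)
    (h : ∀ g : G, (∀ v ∈ A', Even.nm B (.inl v) (((g : Dˣ) : D) - 1) < η v) → g ∈ N) :
    IsOpen[adicTop A G] (N : Set G) := by
  let _ : ∀ v : A, TopologicalSpace ((v : HeightOneSpectrum (𝓞 k)).adicCompletion k ⊗[k] D) :=
    fun v => moduleTopology ((v : HeightOneSpectrum (𝓞 k)).adicCompletion k) _
  have _ : Finite A' := hA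
  have key : ∀ n : G, ∃ U : Set (∀ v : A, (v : HeightOneSpectrum (𝓞 k)).adicCompletion k ⊗[k] D),
      IsOpen U ∧ delta A ((n : Dˣ) : D) ∈ U ∧
      ∀ g : G, delta A ((g : Dˣ) : D) ∈ U → g * n⁻¹ ∈ N := by
    intro n
    refine ⟨⋂ v : A', (fun x : ∀ v : A, (v : HeightOneSpectrum (𝓞 k)).adicCompletion k ⊗[k] D =>
      ∑ i, ‖(Algebra.TensorProduct.basis ((v : HeightOneSpectrum (𝓞 k)).adicCompletion k) B).repr
        (x ⟨v, hAA v.2⟩ * ((1 : (v : HeightOneSpectrum (𝓞 k)).adicCompletion k) ⊗ₜ[k]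
          (((n⁻¹ : G) : Dˣ) : D)) - 1) i‖) ⁻¹' Set.Iio (η v), ?_, ?_, fun g hg => ?_⟩
    · refine isOpen_iInter_of_finite fun v => ?_
      let v' : A := ⟨v, hAA v.2⟩
      exact ((cont_nm B (v' : HeightOneSpectrum (𝓞 k)) (((n⁻¹ : G) : Dˣ) : D)).comp
        (continuous_apply v')).isOpen_preimage _ isOpen_Iio
    · rw [Set.mem_iInter]
      intro v
      rw [Set.mem_preimage, Set.mem_Iio]
      have h1 : delta A ((n : Dˣ) : D) ⟨v, hAA v.2⟩ *
          ((1 : (v : HeightOneSpectrum (𝓞 k)).adicCompletion k) ⊗ₜ[k] (((n⁻¹ : G) : Dˣ) : D)) -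
          1 = 0 := by
        rw [delta, Algebra.TensorProduct.tmul_mul_tmul, one_mul, ← Units.val_mul,
          ← Subgroup.coe_mul, mul_inv_cancel, Subgroup.coe_one, Units.val_one,
          ← Algebra.TensorProduct.one_def, sub_self]
      simp only [h1, map_zero, Finsupp.zero_apply, norm_zero, Finset.sum_const_zero]
      exact hη v
    · apply h
      intro v hv
      rw [Set.mem_iInter] at hg
      have h1 := hg ⟨v, hv⟩
      rw [Set.mem_preimage, Set.mem_Iio] at h1
      rw [nm_inl]
      refine lt_of_eq_of_lt ?_ h1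
      refine Finset.sum_congr rfl fun i _ => ?_
      congr 2
      change _ = (Algebra.TensorProduct.basis (v.adicCompletion k) B).repr
        (((1 : v.adicCompletion k) ⊗ₜ[k] ((g : Dˣ) : D)) *
          ((1 : v.adicCompletion k) ⊗ₜ[k] (((n⁻¹ : G) : Dˣ) : D)) - 1)
      rw [Algebra.TensorProduct.tmul_mul_tmul, one_mul, ← Units.val_mul, ← Subgroup.coe_mul,
        TensorProduct.tmul_sub, Algebra.TensorProduct.one_def]
  choose U hU hnU hUN using key
  refine ⟨⋃ n : N, U n, isOpen_iUnion fun n => hU n, ?_⟩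
  ext g
  rw [Set.mem_preimage, Set.mem_iUnion]
  constructor
  · rintro ⟨n, hn⟩
    have h1 := N.mul_mem (hUN n g hn) n.2
    rwa [inv_mul_cancel_right] at h1
  · intro hg
    exact ⟨⟨g, hg⟩, hnU g⟩

end Vale.Agent.P011.One
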