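import Vale.Agent.P011.One.Close
import Vale.Agent.P011.Two.OneStep

/-!
Local conditions for the conjugacy of two symmetric square roots.
-/

open NumberField IsDedekindDomain Polynomial

set_option linter.unusedSectionVars false

namespace Vale.Agent.P011.One

open Vale.Agent.P011.Arith Vale.Agent.P011.Even Vale.Agent.P011.Two Vale.Agent.P011.MPQ

variable {k D : Type} [Field k] [NumberField k] [DivisionRing D] [StarRing D] [Algebra k D]
    {N : ℕ} (B : Module.Basis (Fin N) k D)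

/-- The local condition at the places where everything is integral. -/
theorem lrel_unit {d : kˣ} {a : kˣ} {e : ℕ} {v : HeightOneSpectrum (𝓞 k)} (h2 : v.valuation k 2 = 1)
    (ha : v.valuation k (a : k) = 1) (hd : v.valuation k (d : k) = 1)
    (he : v.valuation k (e : k) = 1) (hm : MulC B v) {x y : D} (hxy : x + y ≠ 0)
    (hx : Ing B v x) (hy : Ing B v y) (hi : Ing B v (x + y)⁻¹) :
    LRel (a * d) e (.inl v) (cc a x y) := by
  have h4 : v.valuation k (4 * a : k) = 1 := by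
    have e4 : (4 : k) = 2 * 2 := by norm_num
    rw [map_mul, ha, mul_one, e4, map_mul, h2, mul_one]
  have hcc : Ing B v (cc a x y) := by
    rw [cc, ← Algebra.commutes, ← Algebra.smul_def]
    refine Ing.smul (by rw [map_inv₀, h4, inv_one]) ?_
    exact Ing.mul hm (hx.add hy) (hx.add hy)
  have hcc' : Ing B v (cc a x y)⁻¹ := by
    have e1 : (cc a x y)⁻¹ = (4 * a : k) • ((x + y)⁻¹ * (x + y)⁻¹) := by
      rw [cc, mul_inv_rev ((x + y) * (x + y)), map_inv₀, inv_inv, mul_inv_rev, Algebra.smul_def]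
    rw [e1]
    exact Ing.smul h4.le (Ing.mul hm hi hi)
  intro E _ _ _ j c' hj
  refine ⟨fun v' hv' w hw => ?_, fun φ hφ => absurd hφ Sum.inl_ne_inr⟩
  obtain rfl : v = v' := Sum.inl_injective hv'
  have hc0 : cc a x y ≠ 0 := cc_ne_zero hxy
  have had : v.valuation k ((a * d : kˣ) : k) = 1 := by
    rw [Units.val_mul, map_mul, ha, hd, mul_one]
  have hle : ∀ z : E, Ing B v (j z) → w.valuation E z ≤ 1 := fun z hz =>
    val_le_one_of_stable B j hw z fun i => Ing.mul hm hz (Ing.basis i)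
  have h1 : w.valuation E (c' : E) ≤ 1 := hle _ (by rw [hj]; exact hcc)
  refine ⟨mem_of_unit j hw h2 had hm one_ne_zero hcc hcc' c' (by
    rw [map_one, one_pow, mul_one, hj]) (mul_inv_cancel₀ hc0), fun c₁ hc₁ => ?_⟩
  have h2' : w.valuation E (c₁ : E) ≤ 1 := by
    rw [hc₁]
    exact (Valuation.map_sub _ _ _).trans (max_le (by rw [map_one]) h1)
  have hw2 : w.valuation E 2 = 1 := by
    have := (val_eq_one_iff hw (2 : k)).mpr h2
    rwa [map_ofNat] at this
  have hwd : w.valuation E ((inc k E (a * d) : Eˣ) : E) = 1 := (val_eq_one_iff hw _).mpr had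
  rcases h2'.lt_or_eq with h3 | h3
  · right
    have hwe : w.valuation E (e : E) = 1 := by
      have := (val_eq_one_iff hw (e : k)).mpr he
      rwa [map_natCast] at this
    have e4 : (4 : E) = 2 * 2 := by norm_num
    rw [map_mul, map_pow, hwe, e4, map_mul, hw2, one_pow, mul_one, mul_one]
    exact h3
  · left
    refine unit_norm w hw2 (inc k E (a * d)) (-c₁) hwd ?_
    rw [Units.val_neg, Valuation.map_neg]
    exact h3

/-- The local condition for elements close to each other. -/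
theorem lrel_near (d a : kˣ) {e : ℕ} (he : 0 < e) (p : Pl k)
    (hp : ∀ φ, p = .inr φ → φ ((a * d : kˣ) : k) < 0) : ∃ η : ℝ, 0 < η ∧ ∀ x y : D, x ∈ Xa D a →
      y ∈ Xa D a → nm B p (x - y) < η → LRel (a * d) e p (cc a x y) := by
  obtain ⟨η, hη, h⟩ := lrel_of_near (d := a * d) B e he p hp (μ := 1) one_pos
  obtain ⟨C, hC, hCm⟩ := nm_mul B p
  obtain ⟨A, hA⟩ : ∃ A : ℝ, A = plAbv p ((4 * a : k)⁻¹) := ⟨_, rfl⟩
  have h4 : (4 * a : k) ≠ 0 := mul_ne_zero (by norm_num) a.ne_zero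
  have hA0 : 0 < A := by rw [hA]; exact (plAbv p).pos (inv_ne_zero h4)
  have hM : 0 < C ^ 3 * A ^ 2 := by positivity
  refine ⟨min 1 (η / (C ^ 3 * A ^ 2)), lt_min one_pos (div_pos hη hM), fun x y hx hy hxy => ?_⟩
  refine h (cc a x y) 1 (Or.inl rfl) ?_
  obtain ⟨t, ht⟩ : ∃ t : ℝ, t = nm B p (x - y) := ⟨_, rfl⟩
  have ht0 : 0 ≤ t := by rw [ht]; exact nm_nonneg B p _
  rw [← ht, lt_min_iff, lt_div_iff₀ hM] at hxy
  have e1 : cc a x y - 1 = -((4 * a : k)⁻¹ • ((x - y) * (x - y))) := by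
    rw [← neg_sub, cc_add hx hy, Algebra.smul_def, Algebra.commutes]
  have e2 : nm B p (cc a x y - 1) ≤ A * (C * t * t) := by
    rw [e1, nm_neg, nm_smul, ← hA]
    have := hCm (x - y) (x - y)
    rw [← ht] at this
    exact mul_le_mul_of_nonneg_left this hA0.le
  have e0 : 0 ≤ nm B p (cc a x y - 1) := nm_nonneg B p _
  rw [Units.val_one, map_one]
  calc nm B p ((cc a x y - 1) * (cc a x y - 1)) ≤ C * nm B p (cc a x y - 1) *
        nm B p (cc a x y - 1) := hCm _ _
    _ ≤ C * (A * (C * t * t)) * (A * (C * t * t)) := by gcongr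
    _ = t ^ 3 * (t * (C ^ 3 * A ^ 2)) := by ring
    _ ≤ 1 * (t * (C ^ 3 * A ^ 2)) := by
        gcongr
        exact pow_le_one₀ ht0 hxy.1.le
    _ < η := by rw [one_mul]; exact hxy.2

section pair

variable {k K D : Type} [Field k] [NumberField k] [Field K] [StarRing K]
    [DivisionRing D] [StarRing D] [Algebra k K] [Algebra k D] [Algebra K D] [IsScalarTower k K D]
    {d : kˣ} {s : K} {M : ℕ}

/-- The closing step: two symmetric square roots of `a` which are integral with integral inverse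
of the sum outside `S` and close to each other in `S` are conjugate by an element of `N`. -/
theorem close_pair (hS : Setting k K D d s) (B : Module.Basis (Fin M) k D) (a : kˣ) {e : ℕ}
    (he : 0 < e) {N : Set D} (h1N : (1 : D) ∈ N) (hN : HQ1 k e N) :
    ∃ η : Pl k → ℝ, (∀ p, 0 < η p) ∧ ∀ S : Set (HeightOneSpectrum (𝓞 k)),
      (∀ v ∉ S, v.valuation k 2 = 1 ∧ v.valuation k (a : k) = 1 ∧ v.valuation k (d : k) = 1 ∧
        v.valuation k (e : k) = 1 ∧ MulC B v) →
      ∀ x y : D, x ∈ Xa D a → y ∈ Xa D a → x + y ≠ 0 →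
      (∀ v ∉ S, a * d ∉ LS (v.valuation k) → Ing B v x ∧ Ing B v y ∧ Ing B v (x + y)⁻¹) →
      (∀ p ∈ Pn (a * d) S, nm B p (x - y) < η p) → ∃ u ∈ N, u * x = y * u := by
  have key : ∀ p : Pl k, ∃ η : ℝ, 0 < η ∧ ((∀ φ, p = .inr φ → φ ((a * d : kˣ) : k) < 0) →
      ∀ x y : D, x ∈ Xa D a → y ∈ Xa D a → nm B p (x - y) < η →
        LRel (a * d) e p (cc a x y)) := by
    intro p
    by_cases hp : ∀ φ, p = .inr φ → φ ((a * d : kˣ) : k) < 0
    · obtain ⟨η, hη, h⟩ := lrel_near B d a he p hp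
      exact ⟨η, hη, fun _ => h⟩
    · exact ⟨1, one_pos, fun h => absurd h hp⟩
  choose η hη hηr using key
  refine ⟨η, hη, fun S hSg x y hx hy hxy hI hclose => ?_⟩
  refine close_rel hS he h1N hN hx hy (rel1_of_loc hS B hx hy hxy (fun v hv => ?_) fun φ hφ => ?_)
  · by_cases hvS : v ∈ S
    · refine hηr (.inl v) (fun φ h => absurd h Sum.inl_ne_inr) x y hx hy (hclose _ ?_)
      exact Or.inl ⟨v, hvS, hv, rfl⟩
    · obtain ⟨h2, ha, hd, he', hm⟩ := hSg v hvS
      obtain ⟨i1, i2, i3⟩ := hI v hvS hv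
      exact lrel_unit B h2 ha hd he' hm hxy i1 i2 i3
  · refine hηr (.inr φ) (fun φ' h => ?_) x y hx hy (hclose _ ?_)
    · obtain rfl : φ = φ' := Sum.inr_injective h
      exact hφ
    · exact Or.inr ⟨φ, hφ, rfl⟩

end pair

end Vale.Agent.P011.One
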