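import Vale.Agent.P011.One.BaseOne
import Vale.Agent.P011.One.Loc
import Vale.Agent.P011.Two.Assembly

/-!
Conjugacy of two symmetric square roots of `a` by an element of `N`, from local paths.
-/

open NumberField IsDedekindDomain Filter Topology

set_option linter.unusedSectionVars false

namespace Vale.Agent.P011.One

open Vale.Agent.P011.Arith Vale.Agent.P011.Even Vale.Agent.P011.Two

variable {k K D : Type} [Field k] [NumberField k] [Field K] [StarRing K]
    [DivisionRing D] [StarRing D] [Algebra k K] [Algebra k D] [Algebra K D] [IsScalarTower k K D]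
    {d : kˣ} {s : K} {M : ℕ}

theorem conj_mem {a : kˣ} {p h : D} (hp : p ∈ Xa D a) (h1 : h * star h = 1) (h2 : star h * h = 1) :
    h * p * star h ∈ Xa D a := by
  refine ⟨?_, ?_⟩
  · rw [star_mul, star_mul, star_star, hp.1, mul_assoc]
  · calc h * p * star h * (h * p * star h) = h * p * (star h * h) * p * star h := by
          simp only [mul_assoc]
      _ = h * (p * p) * star h := by rw [h2, mul_one]; simp only [mul_assoc]
      _ = _ := by rw [hp.2, ← Algebra.commutes, mul_assoc, h1, mul_one]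

theorem hel_unit (hS : Setting k K D d s) {x y : D} (hx : star x = -x) (hy : star y = y) :
    hel s x y * star (hel s x y) = 1 ∧ star (hel s x y) * hel s x y = 1 := by
  have _ : CharZero D := charZero_of_injective_algebraMap (algebraMap k D).injective
  have h1 := dlt_skew hS hy
  have e1 := cay_mul_star hx
  have e2 := cay_star_mul hx
  have e3 := cay_mul_star h1
  have e4 := cay_star_mul h1
  have e5 : star (hel s x y) = cay x * star (cay (algebraMap K D s * y)) * star (cay x) := by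
    rw [hel, cay_inv hx, star_mul, star_mul, star_star, mul_assoc]
  rw [e5, hel, cay_inv hx]
  refine ⟨?_, ?_⟩
  · calc _ = cay x * cay (algebraMap K D s * y) * (star (cay x) * cay x) *
          star (cay (algebraMap K D s * y)) * star (cay x) := by simp only [mul_assoc]
      _ = cay x * (cay (algebraMap K D s * y) * star (cay (algebraMap K D s * y))) *
          star (cay x) := by rw [e2, mul_one]; simp only [mul_assoc]
      _ = 1 := by rw [e3, mul_one, e1]
  · calc _ = cay x * star (cay (algebraMap K D s * y)) * (star (cay x) * cay x) *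
          cay (algebraMap K D s * y) * star (cay x) := by simp only [mul_assoc]
      _ = cay x * (star (cay (algebraMap K D s * y)) * cay (algebraMap K D s * y)) *
          star (cay x) := by rw [e2, mul_one]; simp only [mul_assoc]
      _ = 1 := by rw [e4, mul_one, e1]

theorem hel_zero (s : K) : hel s (0 : D) 0 = 1 := by
  rw [hel, mul_zero]
  have h : cay (0 : D) = 1 := by rw [cay, sub_zero, add_zero, inv_one, mul_one]
  rw [h, inv_one, mul_one, mul_one]

/-- Local paths from `w` to `σ'` at the place `q`, with respect to the relation `R`. -/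
def LPath (B : Module.Basis (Fin M) k D) (a : kˣ) (s : K) (q : Pl k) (R : D → D → Prop) (σ' : D) :
    ℕ → D → Prop
  | 0, w => ∃ ε : ℝ, 0 < ε ∧ ∀ y ∈ Xa D a, nm B q (y - w) < ε → R y σ'
  | n + 1, w => ∃ X Y : D, star X = -X ∧ star Y = Y ∧ Y * w = w * Y ∧
      (∃ ε : ℝ, 0 < ε ∧ ∀ y ∈ Xa D a, ∀ z ∈ Xa D a, nm B q (y - w) < ε →
        nm B q (z - hel s X Y * w * star (hel s X Y)) < ε → R y z) ∧
      LPath B a s q R σ' n (hel s X Y * w * star (hel s X Y))

/-- Local paths starting exactly at `y`, stable under perturbation of the steps. -/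
def OPath (B : Module.Basis (Fin M) k D) (s : K) (q : Pl k) (R : D → D → Prop) (σ' : D) :
    ℕ → D → Prop
  | 0, y => R y σ'
  | n + 1, y => ∃ X Y : D, star X = -X ∧ star Y = Y ∧ Y * y = y * Y ∧ ∃ ε : ℝ, 0 < ε ∧
      ∀ h : D, h * star h = 1 → star h * h = 1 → nm B q (h - hel s X Y) < ε →
        R y (h * y * star h) ∧ OPath B s q R σ' n (h * y * star h)

/-- The relation holds for close elements. -/
def CloseR (B : Module.Basis (Fin M) k D) (a : kˣ) (q : Pl k) (R : D → D → Prop) : Prop :=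
  ∃ η : ℝ, 0 < η ∧ ∀ y ∈ Xa D a, ∀ z ∈ Xa D a, nm B q (y - z) < η → R y z

/-- The relation holds for elements close to `w`. -/
def CloseAt (B : Module.Basis (Fin M) k D) (a : kˣ) (q : Pl k) (R : D → D → Prop) (w : D) : Prop :=
  ∃ η : ℝ, 0 < η ∧ ∀ y ∈ Xa D a, ∀ z ∈ Xa D a, nm B q (y - w) < η → nm B q (z - w) < η → R y z

theorem CloseR.closeAt {B : Module.Basis (Fin M) k D} {a : kˣ} {q : Pl k} {R : D → D → Prop}
    (h : CloseR B a q R) (w : D) : CloseAt B a q R w := by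
  obtain ⟨η, hη, h1⟩ := h
  refine ⟨η / 2, half_pos hη, fun y hy z hz e2 e3 => h1 y hy z hz ?_⟩
  have h2 := nm_add_le B q (y - w) (-(z - w))
  rw [nm_neg] at h2
  have h3 : y - w + -(z - w) = y - z := by abel
  rw [h3] at h2
  linarith

section cont

variable {B : Module.Basis (Fin M) k D} {q : Pl k} {R : D → D → Prop}

/-- The conjugate depends continuously on both elements. -/
theorem conj_cont (hS : Setting k K D d s) (B : Module.Basis (Fin M) k D) (q : Pl k) (H w : D)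
    {η : ℝ} (hη : 0 < η) : ∃ ε : ℝ, 0 < ε ∧ ∀ h y : D, nm B q (h - H) < ε → nm B q (y - w) < ε →
      nm B q (h * y * star h - H * w * star H) < η := by
  have h1 := nb_fst B q (H, w)
  have h2 := nb_snd B q (H, w)
  have h3 := (h1.mul h2).mul (tn_star hS h1)
  obtain ⟨θ, hθ, hθ'⟩ := ev_nb B q (h3.ev_lt hη)
  refine ⟨θ / 2, half_pos hθ, fun h y e1 e2 => hθ' (h, y) ?_⟩
  change nm B q (h - H) + nm B q (y - w) < θ
  linarith

theorem opath_of_lpath (hS : Setting k K D d s) {a : kˣ} {σ' : D} :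
    ∀ (n : ℕ) (w : D), w ∈ Xa D a → LPath B a s q R σ' n w →
      ∃ ε : ℝ, 0 < ε ∧ ∀ y ∈ Xa D a, nm B q (y - w) < ε → OPath B s q R σ' n y := by
  intro n
  induction n with
  | zero => exact fun w _ h => h
  | succ n ih =>
    rintro w hw ⟨X, Y, hX, hY, hYw, ⟨ε₁, hε₁, h1⟩, h2⟩
    obtain ⟨hu1, hu2⟩ := hel_unit hS hX hY
    obtain ⟨ε₂, hε₂, h3⟩ := ih _ (conj_mem hw hu1 hu2) h2
    obtain ⟨ε₃, hε₃, h4⟩ := conj_cont hS B q (hel s X Y) w (lt_min hε₁ hε₂)
    obtain ⟨ε₄, hε₄, h5⟩ := adapt hS B q hw hX hY hYw (half_pos hε₃)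
    refine ⟨min ε₁ (min ε₃ ε₄), lt_min hε₁ (lt_min hε₃ hε₄), fun y hy hyw => ?_⟩
    rw [lt_min_iff, lt_min_iff] at hyw
    obtain ⟨Y', hY', hYy, hn⟩ := h5 y hy hyw.2.2
    refine ⟨X, Y', hX, hY', hYy, ε₃ / 2, half_pos hε₃, fun h hh1 hh2 hh3 => ?_⟩
    have h6 : nm B q (h - hel s X Y) < ε₃ := by
      have := nm_add_le B q (h - hel s X Y') (hel s X Y' - hel s X Y)
      rw [sub_add_sub_cancel] at this
      linarith
    have h7 := h4 h y h6 hyw.2.1
    rw [lt_min_iff] at h7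
    have h8 := conj_mem hy hh1 hh2
    exact ⟨h1 y hy _ h8 hyw.1 h7.1, h3 _ h8 h7.2⟩

/-- Paths can be prolonged at the beginning. -/
theorem LPath.succ {a : kˣ} {σ' w : D} (hR : CloseAt B a q R w) {n : ℕ}
    (h : LPath B a s q R σ' n w) : LPath B a s q R σ' (n + 1) w := by
  obtain ⟨η, hη, h1⟩ := hR
  have e1 : hel s (0 : D) 0 * w * star (hel s (0 : D) 0) = w := by
    rw [hel_zero, star_one, one_mul, mul_one]
  refine ⟨0, 0, by rw [star_zero, neg_zero], star_zero D, by rw [zero_mul, mul_zero], ⟨η,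
    hη, fun y hy z hz e2 e3 => h1 y hy z hz e2 ?_⟩, ?_⟩
  · rwa [e1] at e3
  · rw [e1]
    exact h

theorem LPath.mono {a : kˣ} {σ' w : D} (hR : CloseAt B a q R w) {m n : ℕ} (hmn : m ≤ n)
    (h : LPath B a s q R σ' m w) : LPath B a s q R σ' n w := by
  induction n, hmn using Nat.le_induction with
  | base => exact h
  | succ n _ ih => exact ih.succ hR

/-- The path of length zero to a close element. -/
theorem exists_close {a : kˣ} {σ : D} (hR : CloseAt B a q R σ) : ∃ η : ℝ, 0 < η ∧ ∀ σ' : D,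
      σ' ∈ Xa D a → nm B q (σ' - σ) < η → LPath B a s q R σ' 0 σ := by
  obtain ⟨η, hη, h⟩ := hR
  exact ⟨η, hη, fun σ' hσ' hn => ⟨η, hη, fun y hy hyσ => h y hy σ' hσ' hyσ hn⟩⟩

end cont

/-- The pairs which are conjugate by an element of `N`: the relation `R q` at the places `q` of `P`
and integrality at the other places. -/
def Pair (B : Module.Basis (Fin M) k D) (d a : kˣ) (S : Set (HeightOneSpectrum (𝓞 k)))
    (P : Set (Pl k)) (R : Pl k → D → D → Prop) (N : Set D) : Prop :=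
  ∀ x ∈ Xa D a, ∀ y ∈ Xa D a, x + y ≠ 0 →
    (∀ v ∉ S, a * d ∉ LS (v.valuation k) → Ing B v x ∧ Ing B v y ∧ Ing B v (x + y)⁻¹) →
    (∀ q ∈ P, R q x y) → ∃ ν ∈ N, ν * x = y * ν

/-- The induction over the length of the local paths. -/
theorem conj_of_opath (hS : Setting k K D d s) (B : Module.Basis (Fin M) k D) {a : kˣ}
    {N : Set D} (hmul : ∀ x ∈ N, ∀ y ∈ N, x * y ∈ N)
    {S : Set (HeightOneSpectrum (𝓞 k))} (hSf : S.Finite)
    (hgood : ∀ v ∉ S, GoodAt B d s v ∧ v.valuation k (a : k) = 1) {P : Set (Pl k)}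
    (hPS : P ⊆ SP S) {R : Pl k → D → D → Prop} (hrel : Pair B d a S P R N)
    {σ' : D} (hσ' : σ' ∈ Xa D a) (hσ'I : ∀ v ∉ S, Ing B v σ') :
    ∀ (n : ℕ) (p : D), p ∈ Xa D a → p + σ' ≠ 0 →
      (∀ v ∉ S, a * d ∉ LS (v.valuation k) → Ing B v p ∧ Ing B v (p + σ')⁻¹) →
      (∀ q ∈ P, OPath B s q (R q) σ' n p) → ∃ ν ∈ N, ν * p = σ' * ν := by
  intro n
  induction n with
  | zero =>
    intro p hp hps hI hO
    exact hrel p hp σ' hσ' hps (fun v hv hns => ⟨(hI v hv hns).1, hσ'I v hv, (hI v hv hns).2⟩) hO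
  | succ n ih =>
    intro p hp hps hI hO
    have hO' : ∀ q : Pl k, ∃ (X Y : D) (ε : ℝ), star X = -X ∧ star Y = Y ∧ Y * p = p * Y ∧ 0 < ε ∧
        (q ∈ P → ∀ h : D, h * star h = 1 → star h * h = 1 →
          nm B q (h - hel s X Y) < ε → R q p (h * p * star h) ∧
          OPath B s q (R q) σ' n (h * p * star h)) := by
      intro q
      by_cases hq : q ∈ P
      · obtain ⟨X, Y, hX, hY, hYp, ε, hε, h⟩ := hO q hq
        exact ⟨X, Y, ε, hX, hY, hYp, hε, fun _ => h⟩
      · exact ⟨0, 0, 1, by rw [star_zero, neg_zero], star_zero D, by rw [zero_mul, mul_zero],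
          one_pos, fun h => absurd h hq⟩
    choose X Y ε hX hY hYp hε hXY using hO'
    obtain ⟨h, hh1, hh2, hnear, hn1, hn2, hst⟩ := base_one hS B hSf hgood hp hσ' hps
      (fun v hv hns => ⟨(hI v hv hns).1, hσ'I v hv, (hI v hv hns).2⟩) X Y (fun q _ => hX q)
      (fun q _ => ⟨hY q, hYp q⟩) ε hε
    have hstep : ∀ q ∈ P, R q p (h * p * star h) ∧
        OPath B s q (R q) σ' n (h * p * star h) := fun q hq =>
      hXY q hq h hh1 hh2 (hnear q (hPS hq))
    have hIp : ∀ v ∉ S, a * d ∉ LS (v.valuation k) → Ing B v (h * p * star h) := by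
      intro v hv hns
      have hG := (hgood v hv).1
      exact Ing.mul hG.mul (Ing.mul hG.mul (hst v hv hns).ih (hI v hv hns).1) (hst v hv hns).ih'
    have hp' := conj_mem hp hh1 hh2
    obtain ⟨ν₁, hν₁, e1⟩ := hrel p hp _ hp' hn1 (fun v hv hns => ⟨(hI v hv hns).1, hIp v hv hns,
      (hst v hv hns).i1⟩) fun q hq => (hstep q hq).1
    obtain ⟨ν₂, hν₂, e2⟩ := ih (h * p * star h) hp' hn2 (fun v hv hns => ⟨hIp v hv hns,
      (hst v hv hns).i2⟩) fun q hq => (hstep q hq).2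
    refine ⟨ν₂ * ν₁, hmul _ hν₂ _ hν₁, ?_⟩
    rw [mul_assoc, e1, ← mul_assoc, e2, mul_assoc]

/-- **Conjugacy from local paths.** The finite set `S` contains the bad places of `σ` and `σ'`. -/
theorem conj_of_lpath (hS : Setting k K D d s) (B : Module.Basis (Fin M) k D) {a : kˣ}
    {N : Set D} (hmul : ∀ x ∈ N, ∀ y ∈ N, x * y ∈ N)
    {S : Set (HeightOneSpectrum (𝓞 k))} (hSf : S.Finite)
    (hgood : ∀ v ∉ S, GoodAt B d s v ∧ v.valuation k (a : k) = 1) {P : Set (Pl k)}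
    (hPS : P ⊆ SP S) {R : Pl k → D → D → Prop} (hrel : Pair B d a S P R N)
    {σ σ' : D} (hR : ∀ q ∈ P, CloseAt B a q (R q) σ) (hσ : σ ∈ Xa D a) (hσ' : σ' ∈ Xa D a) (hne : σ + σ' ≠ 0)
    (hI : ∀ v ∉ S, Ing B v σ ∧ Ing B v σ' ∧ Ing B v (σ + σ')⁻¹)
    (hP : ∀ q ∈ P, ∃ n, LPath B a s q (R q) σ' n σ) : ∃ ν ∈ N, ν * σ = σ' * ν := by
  classical
  have hfin : P.Finite := (SP_finite hSf).subset hPS
  have hP' : ∀ q : Pl k, ∃ n, q ∈ P → LPath B a s q (R q) σ' n σ := by
    intro q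
    by_cases hq : q ∈ P
    · obtain ⟨n, h⟩ := hP q hq
      exact ⟨n, fun _ => h⟩
    · exact ⟨0, fun h => absurd h hq⟩
  choose m hm using hP'
  obtain ⟨n, hn⟩ : ∃ n : ℕ, ∀ q ∈ P, m q ≤ n := by
    obtain ⟨n, h⟩ := (hfin.image m).bddAbove
    exact ⟨n, fun q hq => h ⟨q, hq, rfl⟩⟩
  refine conj_of_opath hS B hmul hSf hgood hPS hrel hσ' (fun v hv => (hI v hv).2.1) n σ hσ hne
    (fun v hv _ => ⟨(hI v hv).1, (hI v hv).2.2⟩) fun q hq => ?_
  obtain ⟨ε, hε, h⟩ := opath_of_lpath hS n σ hσ ((hm q hq).mono (hR q hq) (hn q hq))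
  exact h σ hσ (by rw [sub_self, nm_zero]; exact hε)

section chain

variable {B : Module.Basis (Fin M) k D} {q : Pl k}

/-- The local condition for the conjugacy of two elements. -/
def LR (d a : kˣ) (e : ℕ) (q : Pl k) (x y : D) : Prop := LRel (a * d) e q (cc a x y)

theorem closeR_lr (B : Module.Basis (Fin M) k D) (d a : kˣ) {e : ℕ} (he : 0 < e) (q : Pl k)
    (hq : ∀ φ, q = .inr φ → φ ((a * d : kˣ) : k) < 0) : CloseR B a q (LR d a e q) := by
  obtain ⟨η, hη, h⟩ := lrel_near B d a he q hq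
  exact ⟨η, hη, fun y hy z hz => h y z hy hz⟩

/-- The relation at the places: the local condition for the conjugacy, and closeness to `σ` at the
places in `S₀`. -/
def RS (B : Module.Basis (Fin M) k D) (d a : kˣ) (e : ℕ) (S₀ : Set (HeightOneSpectrum (𝓞 k)))
    (σ : D) (κ : Pl k → ℝ) (q : Pl k) (x y : D) : Prop :=
  LR d a e q x y ∧ ∀ v ∈ S₀, q = .inl v → nm B q (x - σ) < κ q ∧ nm B q (y - σ) < κ q

/-- The places of the conditions. -/
def PS (c : kˣ) (S₀ S : Set (HeightOneSpectrum (𝓞 k))) : Set (Pl k) := Pn c S ∪ Sum.inl '' S₀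

/-- The pairs satisfying the local conditions. -/
theorem pair_lr (hS : Setting k K D d s) (B : Module.Basis (Fin M) k D) {a : kˣ} {e : ℕ}
    (he : 0 < e) {N : Set D} (h1N : (1 : D) ∈ N) (hN : HQ1 k e N)
    {S : Set (HeightOneSpectrum (𝓞 k))}
    (hgood : ∀ v ∉ S, GoodAt B d s v ∧ v.valuation k (a : k) = 1 ∧ v.valuation k (e : k) = 1) :
    Pair B d a S (Pn (a * d) S) (fun q => LR d a e q) N := by
  intro x hx y hy hxy hI hL
  refine close_rel hS he h1N hN hx hy (rel1_of_loc hS B hx hy hxy (fun v hv => ?_) fun φ hφ =>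
    hL _ (Or.inr ⟨φ, hφ, rfl⟩))
  by_cases hvS : v ∈ S
  · exact hL _ (Or.inl ⟨v, hvS, hv, rfl⟩)
  · obtain ⟨hG, ha, he'⟩ := hgood v hvS
    obtain ⟨i1, i2, i3⟩ := hI v hvS hv
    exact lrel_unit B hG.two ha hG.dd he' hG.mul hxy i1 i2 i3

theorem Pn_subset {c : kˣ} {S : Set (HeightOneSpectrum (𝓞 k))} : Pn c S ⊆ SP S := by
  rintro q (⟨v, hv, -, rfl⟩ | ⟨φ, -, rfl⟩)
  · rw [inl_mem_SP]
    exact hv
  · exact inr_mem_SP

theorem tn_cc {X : Type} {l : Filter X} (a : kˣ) {f g : X → D} {x y : D} (hf : Tn B q l f x)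
    (hg : Tn B q l g y) : Tn B q l (fun u => cc a (f u) (g u)) (cc a x y) :=
  (((hf.add hg).mul (hf.add hg)).mul (Tn.const _))

/-- A local path from a chain. -/
theorem lpath_of_chain {a : kˣ} {e : ℕ} (he : 0 < e) {σ σ' : D}
    (hσ' : σ' ∈ Xa D a) (hq : ∀ φ, q = .inr φ → φ ((a * d : kˣ) : k) < 0)
    (h : ∃ μ : ℝ, 0 < μ ∧ ∀ η : ℝ, 0 < η → ∃ (m : ℕ) (α : ℕ → kˣ) (W X Y : ℕ → D),
      (∀ i < m, α i = 1 ∨ (μ ≤ plAbv q (α i : k) ∧ α i ∈ NF (a * d) ⊔ LSp q ∧
        ∀ v, q = .inl v → ∃ a₁ : kˣ, (a₁ : k) = 1 - α i ∧ μ ≤ plAbv q (a₁ : k) ∧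
          -a₁ ∈ NF (a * d) ⊔ LSp q)) ∧
      W 0 = σ ∧ nm B q (W m - σ') < η ∧
      ∀ i < m, star (X i) = -X i ∧ star (Y i) = Y i ∧ Y i * W i = W i * Y i ∧
        W (i + 1) = hel s (X i) (Y i) * W i * star (hel s (X i) (Y i)) ∧
        nm B q ((cc a (W i) (W (i + 1)) - 1) *
          (cc a (W i) (W (i + 1)) - algebraMap k D (α i))) < η) :
    ∃ n, LPath B a s q (LR d a e q) σ' n σ := by
  obtain ⟨μ, hμ, h⟩ := h
  obtain ⟨η₁, hη₁, hL⟩ := lrel_of_near (d := a * d) B e he q hq hμ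
  obtain ⟨η₂, hη₂, hN⟩ := lrel_near B d a he q hq
  obtain ⟨m, α, W, X, Y, hα, hW0, hWm, hstep⟩ := h (min η₁ (η₂ / 2)) (lt_min hη₁ (half_pos hη₂))
  have key : ∀ j ≤ m, LPath B a s q (LR d a e q) σ' j (W (m - j)) := by
    intro j
    induction j with
    | zero =>
      intro _
      refine ⟨η₂ / 2, half_pos hη₂, fun y hy hyW => hN y σ' hy hσ' ?_⟩
      rw [Nat.sub_zero] at hyW
      have h1 := nm_add_le B q (y - W m) (W m - σ')
      rw [sub_add_sub_cancel] at h1
      have h2 := hWm.trans_le (min_le_right _ _)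
      linarith
    | succ j ih =>
      intro hj
      obtain ⟨i, hi⟩ : ∃ i, i = m - (j + 1) := ⟨_, rfl⟩
      have him : i < m := by omega
      have hi1 : m - j = i + 1 := by omega
      rw [← hi]
      obtain ⟨h1, h2, h3, h4, h5⟩ := hstep i him
      refine ⟨X i, Y i, h1, h2, h3, ?_, ?_⟩
      · rw [← h4]
        have c1 : Tn B q (nb B q (W i, W (i + 1))) (fun u : D × D => cc a u.1 u.2)
            (cc a (W i) (W (i + 1))) := tn_cc a (nb_fst B q _) (nb_snd B q _)
        obtain ⟨θ, hθ, hθ'⟩ := ev_nb B q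
          (((c1.sub (Tn.const 1)).mul (c1.sub (Tn.const (algebraMap k D (α i : k))))).ev_small
            (h5.trans_le (min_le_left _ _)))
        refine ⟨θ / 2, half_pos hθ, fun y hy z hz e1 e2 => ?_⟩
        refine hL _ (α i) (hα i him) (hθ' (y, z) ?_)
        change nm B q (y - W i) + nm B q (z - W (i + 1)) < θ
        linarith
      · rw [← h4, ← hi1]
        exact ih (by omega)
  refine ⟨m, ?_⟩
  have := key m le_rfl
  rwa [Nat.sub_self, hW0] at this

end chain

end Vale.Agent.P011.One
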