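import Vale.Agent.P011.One.Generic

/-!
The choice of a generic element commuting with a generic square root.
-/

open NumberField IsDedekindDomain Polynomial

set_option linter.unusedSectionVars false

namespace Vale.Agent.P011.One

open Vale.Agent.P011.Arith Vale.Agent.P011.Even Vale.Agent.P011.Two

section alg

variable {D : Type} [DivisionRing D]

/-- Identities for two square roots of the same central element. -/
theorem sum_mul_left {p p' a : D} (hp : p * p = a) (hp' : p' * p' = a) :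
    (p + p') * p = p' * (p + p') ∧ (p + p') * p' = p * (p + p') := by
  refine ⟨?_, ?_⟩
  · rw [add_mul, mul_add, hp, hp', add_comm]
  · rw [add_mul, mul_add, hp, hp', add_comm]

theorem inv_sum_mul {p p' a : D} (hp : p * p = a) (hp' : p' * p' = a) (h : p + p' ≠ 0) :
    (p + p')⁻¹ * p' = p * (p + p')⁻¹ ∧ (p + p')⁻¹ * p = p' * (p + p')⁻¹ := by
  obtain ⟨h1, h2⟩ := sum_mul_left hp hp'
  refine ⟨?_, ?_⟩
  · apply mul_left_cancel₀ h
    rw [← mul_assoc, mul_inv_cancel₀ h, one_mul, ← mul_assoc, h1, mul_assoc, mul_inv_cancel₀ h,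
      mul_one]
  · apply mul_left_cancel₀ h
    rw [← mul_assoc, mul_inv_cancel₀ h, one_mul, ← mul_assoc, h2, mul_assoc, mul_inv_cancel₀ h,
      mul_one]

theorem diff_anti {p p' a : D} (hp : p * p = a) (hp' : p' * p' = a) (h : p + p' ≠ 0) :
    (p + p') * (p' - p) = -((p' - p) * (p + p')) ∧
      (p' - p) * (p + p')⁻¹ = -((p + p')⁻¹ * (p' - p)) ∧
      (p' - p) * p = -(p' * (p' - p)) := by
  have h1 : (p + p') * (p' - p) = -((p' - p) * (p + p')) := by
    have e : (p + p') * (p' - p) + (p' - p) * (p + p') = 0 := by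
      calc (p + p') * (p' - p) + (p' - p) * (p + p') = 2 * (p' * p') - 2 * (p * p) := by
            noncomm_ring
        _ = 0 := by rw [hp, hp', sub_self]
    exact eq_neg_of_add_eq_zero_left e
  refine ⟨h1, ?_, ?_⟩
  · apply mul_left_cancel₀ h
    apply mul_right_cancel₀ h
    calc (p + p') * ((p' - p) * (p + p')⁻¹) * (p + p')
        = (p + p') * (p' - p) * ((p + p')⁻¹ * (p + p')) := by simp only [mul_assoc]
      _ = -((p' - p) * (p + p')) := by rw [inv_mul_cancel₀ h, mul_one, h1]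
      _ = (p + p') * -((p + p')⁻¹ * (p' - p)) * (p + p') := by
          rw [mul_neg, neg_mul, ← mul_assoc, mul_inv_cancel₀ h, one_mul]
  · calc (p' - p) * p = p' * p - p * p := by rw [sub_mul]
      _ = -(p' * (p' - p)) := by rw [hp, mul_sub, hp', neg_sub]

end alg

variable {k K D : Type} [Field k] [NumberField k] [Field K] [StarRing K]
    [DivisionRing D] [StarRing D] [Algebra k K] [Algebra k D] [Algebra K D] [IsScalarTower k K D]
    {d : kˣ} {s : K} {N : ℕ}

/-- The element `Q`. -/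
noncomputable def QQ (s : K) (p p' : D) : D := algebraMap K D s⁻¹ * ((p + p')⁻¹ * (p' - p))

theorem s_ne_zero (hS : Setting k K D d s) : s ≠ 0 := by
  intro h
  have := hS.sq
  rw [h, zero_pow two_ne_zero] at this
  exact d.ne_zero ((map_eq_zero _).mp this.symm)

theorem algMap_sinv_sq (hS : Setting k K D d s) :
    algebraMap K D s⁻¹ * algebraMap K D s⁻¹ = algebraMap k D (d : k)⁻¹ := by
  rw [← map_mul, ← mul_inv, ← sq, hS.sq, ← map_inv₀, ← IsScalarTower.algebraMap_apply]

/-- `a d` is not a square when there is a symmetric square root of `a`. -/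
theorem not_sq (hS : Setting k K D d s) {a : kˣ} {p : D} (hps : star p = p)
    (hp : p * p = algebraMap k D a) : ¬ IsSquare ((a * d : kˣ) : k) := by
  rintro ⟨y, hy⟩
  have _ : CharZero D := charZero_of_injective_algebraMap (algebraMap k D).injective
  have hc : ∀ x : D, algebraMap K D s * x = x * algebraMap K D s := fun x => Algebra.commutes _ x
  have h1 : (algebraMap K D s * p - algebraMap k D y) * (algebraMap K D s * p + algebraMap k D y) =
      0 := by
    have e1 : (algebraMap K D s * p) * (algebraMap K D s * p) = algebraMap k D (y * y) := by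
      calc (algebraMap K D s * p) * (algebraMap K D s * p)
          = (algebraMap K D s * algebraMap K D s) * (p * p) := by
            rw [mul_assoc, ← mul_assoc p, ← hc p]
            simp only [mul_assoc]
        _ = _ := by
            rw [← map_mul, ← sq, hS.sq, ← IsScalarTower.algebraMap_apply, hp, ← map_mul, ← hy,
              Units.val_mul, mul_comm]
    have e2 : algebraMap k D y * (algebraMap K D s * p) = (algebraMap K D s * p) * algebraMap k D y :=
      Algebra.commutes _ _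
    calc _ = (algebraMap K D s * p) * (algebraMap K D s * p) +
          ((algebraMap K D s * p) * algebraMap k D y - algebraMap k D y * (algebraMap K D s * p)) -
          algebraMap k D y * algebraMap k D y := by noncomm_ring
      _ = 0 := by rw [e1, e2, map_mul]; abel
  have hst : star (algebraMap K D s * p) = -(algebraMap K D s * p) := by
    rw [star_mul, star_S hS, hps, mul_neg, hc]
  have hsty : star (algebraMap k D y) = algebraMap k D y := by
    rw [Algebra.algebraMap_eq_smul_one]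
    have := (sig hS).map_smul y (1 : D)
    rw [sig_apply, sig_apply, star_one] at this
    exact this
  have h2 : ∀ z : D, star z = -z → star z = z → z = 0 := by
    intro z h3 h4
    rw [h4] at h3
    have h5 : z + z = 0 := by nth_rewrite 1 [h3]; rw [neg_add_cancel]
    rw [← two_mul] at h5
    exact (mul_eq_zero.mp h5).resolve_left two_ne_zero
  have h3 : algebraMap K D s * p = 0 := by
    rcases mul_eq_zero.mp h1 with h | h
    · refine h2 _ hst ?_
      rw [sub_eq_zero.mp h, hsty]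
    · refine h2 _ hst ?_
      rw [eq_neg_of_add_eq_zero_left h, star_neg, hsty]
  have h4 : algebraMap K D s ≠ 0 := (_root_.map_ne_zero _).mpr (s_ne_zero hS)
  have h5 := (mul_eq_zero.mp h3).resolve_left h4
  rw [h5, mul_zero] at hp
  exact a.ne_zero ((map_eq_zero _).mp hp.symm)

theorem skew_ne (_hS : Setting k K D d s) {x : D} (hx : star x = -x) :
    1 - x ≠ 0 ∧ 1 + x ≠ 0 := by
  have _ : CharZero D := charZero_of_injective_algebraMap (algebraMap k D).injective
  have h2 : (1 : D) + 1 ≠ 0 := by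
    rw [one_add_one_eq_two]
    exact two_ne_zero
  refine ⟨fun h => h2 ?_, fun h => h2 ?_⟩
  · have h1 := sub_eq_zero.mp h
    rw [← h1, star_one] at hx
    nth_rewrite 1 [hx]
    rw [neg_add_cancel]
  · have h1 : x = -1 := eq_neg_of_add_eq_zero_right h
    rw [h1, star_neg, star_one, neg_neg] at hx
    nth_rewrite 2 [← hx]
    rw [add_neg_cancel]

/-- The properties of `Q`. -/
theorem QQ_props (hS : Setting k K D d s) {a : kˣ} {p p' : D} (hp : p * p = algebraMap k D a)
    (hp' : p' * p' = algebraMap k D a) (hpp : p + p' ≠ 0) :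
    p * QQ s p p' + QQ s p p' * p = 0 ∧
    QQ s p p' * (p + p')⁻¹ + (p + p')⁻¹ * QQ s p p' = 0 ∧
    QQ s p p' * QQ s p p' = algebraMap k D (d : k)⁻¹ -
      (4 * (a : k) * (d : k)⁻¹) • ((p + p')⁻¹ * (p + p')⁻¹) ∧
    p * (p + p')⁻¹ + (p + p')⁻¹ * p = 1 := by
  obtain ⟨σ, hσ⟩ : ∃ σ, σ = algebraMap K D s⁻¹ := ⟨_, rfl⟩
  have hσc : ∀ x : D, σ * x = x * σ := fun x => by rw [hσ]; exact Algebra.commutes _ x
  obtain ⟨i1, i2⟩ := inv_sum_mul hp hp' hpp
  obtain ⟨j1, j2, j3⟩ := diff_anti hp hp' hpp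
  obtain ⟨T, hT⟩ : ∃ T, T = (p + p')⁻¹ := ⟨_, rfl⟩
  obtain ⟨Δ, hΔ⟩ : ∃ Δ, Δ = p' - p := ⟨_, rfl⟩
  have hQ : QQ s p p' = σ * (T * Δ) := by rw [QQ, hσ, hT, hΔ]
  rw [hQ, ← hT]
  rw [← hT] at i1 i2 j2
  rw [← hΔ] at j1 j2 j3
  have hσT : ∀ x y : D, x * (σ * y) = σ * (x * y) := by
    intro x y
    rw [← mul_assoc, ← hσc, mul_assoc]
  refine ⟨?_, ?_, ?_, ?_⟩
  · calc p * (σ * (T * Δ)) + σ * (T * Δ) * p = σ * ((p * T) * Δ + T * (Δ * p)) := by
          rw [hσT]
          simp only [mul_assoc, mul_add]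
      _ = σ * ((T * p') * Δ - (T * p') * Δ) := by
          rw [← i1, j3]
          noncomm_ring
      _ = 0 := by rw [sub_self, mul_zero]
  · calc σ * (T * Δ) * T + T * (σ * (T * Δ)) = σ * (T * (Δ * T) + T * (T * Δ)) := by
          rw [hσT]
          simp only [mul_assoc, mul_add]
      _ = 0 := by rw [j2, mul_neg, neg_add_cancel, mul_zero]
  · have hΔ2 : Δ * Δ = (4 * (a : k)) • (1 : D) - (p + p') * (p + p') := by
      have e : Δ * Δ + (p + p') * (p + p') = 2 * (p * p) + 2 * (p' * p') := by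
        rw [hΔ]
        noncomm_ring
      rw [eq_sub_iff_add_eq, e, hp, hp', ← two_mul, ← mul_assoc, Algebra.smul_def, mul_one, map_mul,
        map_ofNat]
      norm_num
    have hTS : T * (p + p') = 1 := by rw [hT]; exact inv_mul_cancel₀ hpp
    have e1 : (T * Δ) * (T * Δ) = -(T * T * (Δ * Δ)) := by
      calc (T * Δ) * (T * Δ) = T * (Δ * T) * Δ := by simp only [mul_assoc]
        _ = _ := by
            rw [j2]
            noncomm_ring
    have e2 : T * T * ((p + p') * (p + p')) = 1 := by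
      calc T * T * ((p + p') * (p + p')) = T * (T * (p + p')) * (p + p') := by
            simp only [mul_assoc]
        _ = 1 := by rw [hTS, mul_one, hTS]
    calc σ * (T * Δ) * (σ * (T * Δ)) = (σ * σ) * ((T * Δ) * (T * Δ)) := by
          rw [mul_assoc, hσT (T * Δ), ← mul_assoc]
      _ = algebraMap k D (d : k)⁻¹ * (1 - (4 * (a : k)) • (T * T)) := by
          rw [hσ, algMap_sinv_sq hS, e1, hΔ2, mul_sub, e2, mul_smul_comm, mul_one]
          congr 1
          abel
      _ = _ := by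
          rw [mul_sub, mul_one, mul_smul_comm, ← Algebra.smul_def, smul_smul]
  · rw [i2, ← add_mul, hT, mul_inv_cancel₀ hpp]

/-- Coprimality for all but finitely many parameters. -/
theorem exists_generic (hS : Setting k K D d s) (B : Module.Basis (Fin N) k D) {a : kˣ}
    {p p' : D} (hps : star p = p) (hp : p * p = algebraMap k D a)
    (hp' : p' * p' = algebraMap k D a) (hpp : p + p' ≠ 0) {x₁ : D} (hx : star x₁ = -x₁) (y₁ : D) :
    ∃ L : Set k, L.Finite ∧ ∀ l ∉ L, ∀ x y g : D, x = l • x₁ → y = l • y₁ + (1 - l) • p →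
      g = (1 - x) * (1 + x)⁻¹ →
      Cop ((a * d : kˣ) : k) (lm B (g * y * g⁻¹))
        (lm B (((a * d : kˣ) : k)⁻¹ • (g * p * g⁻¹))) ∧
      Cop ((a * d : kˣ) : k) (lm B (g * y * g⁻¹)) (lm B (((a * d : kˣ) : k)⁻¹ • p)) ∧
      Cop ((a * d : kˣ) : k) (lm B (g * y * g⁻¹ - QQ s p p'))
        (lm B ((2 * (d : k)⁻¹) • (p + p')⁻¹)) := by
  have _ : CharZero D := charZero_of_injective_algebraMap (algebraMap k D).injective
  have hns := not_sq hS hps hp
  obtain ⟨c, hc⟩ : ∃ c : k, c = ((a * d : kˣ) : k) := ⟨_, rfl⟩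
  have hcad : c = a * d := by rw [hc, Units.val_mul]
  have hc0 : c ≠ 0 := by rw [hc]; exact (a * d).ne_zero
  rw [← hc] at hns ⊢
  -- the base points
  have b1 : Cop c (lm B p) (lm B (c⁻¹ • p)) := by
    refine cop_baseD hns (κ₀ := a + c⁻¹ * a) (κ₁ := 2 * (c⁻¹ * a)) ?_ ?_ ?_
    · rw [smul_mul_smul_comm, smul_smul, hp, map_add, ← mul_assoc, mul_inv_cancel₀ hc0, one_mul,
        Algebra.smul_def, ← map_mul]
    · rw [mul_smul_comm, smul_mul_assoc, hp, ← two_mul, Algebra.smul_def, map_mul, map_mul,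
        map_ofNat]
    · exact mul_ne_zero two_ne_zero (mul_ne_zero (inv_ne_zero hc0) a.ne_zero)
  have b2 : Cop c (lm B (p - QQ s p p')) (lm B ((2 * (d : k)⁻¹) • (p + p')⁻¹)) := by
    obtain ⟨q1, q2, q3, q4⟩ := QQ_props hS hp hp' hpp
    obtain ⟨T, hT⟩ : ∃ T, T = (p + p')⁻¹ := ⟨_, rfl⟩
    obtain ⟨Q, hQ⟩ : ∃ Q, Q = QQ s p p' := ⟨_, rfl⟩
    rw [← hT, ← hQ] at q2 q3
    rw [← hQ] at q1
    rw [← hT] at q4
    rw [← hT, ← hQ]
    refine cop_baseD hns (κ₀ := a + (d : k)⁻¹) (κ₁ := 2 * (d : k)⁻¹) ?_ ?_ ?_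
    · have e : (p - Q) * (p - Q) = p * p - (p * Q + Q * p) + Q * Q := by noncomm_ring
      rw [e, q1, q3, hp, smul_mul_smul_comm, smul_smul, sub_zero, map_add]
      have e2 : c * (2 * (d : k)⁻¹ * (2 * (d : k)⁻¹)) = 4 * (a : k) * (d : k)⁻¹ := by
        have hd := d.ne_zero
        rw [hcad]
        field_simp
        ring
      rw [e2]
      abel
    · have e : (p - Q) * ((2 * (d : k)⁻¹) • T) + ((2 * (d : k)⁻¹) • T) * (p - Q) =
          (2 * (d : k)⁻¹) • ((p * T + T * p) - (Q * T + T * Q)) := by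
        rw [mul_smul_comm, smul_mul_assoc, ← smul_add]
        congr 1
        noncomm_ring
      rw [e, q2, q4, sub_zero, Algebra.algebraMap_eq_smul_one]
    · exact mul_ne_zero two_ne_zero (inv_ne_zero d.ne_zero)
  obtain ⟨L0, hL0, h0⟩ := line_D (B := B) (c := c) hns (0 : D) (y₀ := p) y₁ (U := 0)
    (V := c⁻¹ • p) (by rw [add_zero]; exact b1)
  obtain ⟨L1, hL1, h1⟩ := line_D (B := B) (c := c) hns x₁ (y₀ := p) y₁ (U := 0)
    (V := c⁻¹ • p) (by rw [add_zero]; exact b1)
  obtain ⟨L2, hL2, h2⟩ := line_D (B := B) (c := c) hns x₁ (y₀ := p) y₁ (U := -QQ s p p')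
    (V := (2 * (d : k)⁻¹) • (p + p')⁻¹) (by rw [← sub_eq_add_neg]; exact b2)
  refine ⟨L0 ∪ L1 ∪ L2, (hL0.union hL1).union hL2, fun l hl x y g hxl hyl hgl => ?_⟩
  rw [Set.mem_union, Set.mem_union, not_or, not_or] at hl
  obtain ⟨⟨hl0, hl1⟩, hl2⟩ := hl
  have hxs : star x = -x := by
    have := (sig hS).map_smul l x₁
    rw [sig_apply, sig_apply, hx, smul_neg] at this
    rw [hxl]
    exact this
  obtain ⟨n1, n2⟩ := skew_ne hS hxs
  have hg0 : g ≠ 0 := by rw [hgl]; exact mul_ne_zero n1 (inv_ne_zero n2)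
  refine ⟨?_, ?_, ?_⟩
  · have e := h0 l hl0 (by rw [smul_zero, sub_zero]; exact one_ne_zero)
      (by rw [smul_zero, add_zero]; exact one_ne_zero) 1 (by simp)
    rw [one_mul, inv_one, mul_one, add_zero, ← hyl] at e
    have e2 := Cop.conjD hg0 e
    rwa [mul_smul_comm, smul_mul_assoc] at e2
  · have e := h1 l hl1 (hxl ▸ n1) (hxl ▸ n2) g (by rw [hgl, hxl])
    rwa [add_zero, ← hyl] at e
  · have e := h2 l hl2 (hxl ▸ n1) (hxl ▸ n2) g (by rw [hgl, hxl])
    rwa [← hyl, ← sub_eq_add_neg] at e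

end Vale.Agent.P011.One
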