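import Vale.Agent.P011.One.StepOne
import Vale.Agent.P011.One.GenX

/-!
One step in the space of the symmetric elements of square `a`: the genericity.
-/

open NumberField IsDedekindDomain Filter Topology

set_option linter.unusedSectionVars false

namespace Vale.Agent.P011.One

open Vale.Agent.P011.Arith Vale.Agent.P011.Even Vale.Agent.P011.Two

variable {k K D : Type} [Field k] [NumberField k] [Field K] [StarRing K]
    [DivisionRing D] [StarRing D] [Algebra k K] [Algebra k D] [Algebra K D] [IsScalarTower k K D]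
    {d : kˣ} {s : K} {N : ℕ} {B : Module.Basis (Fin N) k D}

section ident

theorem dlt_mul_dlt (hS : Setting k K D d s) (u w : D) :
    (algebraMap K D s * u) * (algebraMap K D s * w) = (d : k) • (u * w) := by
  have h : ∀ x : D, algebraMap K D s * x = x * algebraMap K D s := Algebra.commutes s
  calc (algebraMap K D s * u) * (algebraMap K D s * w)
      = algebraMap K D s * (u * algebraMap K D s) * w := by simp only [mul_assoc]
    _ = (algebraMap K D s * algebraMap K D s) * (u * w) := by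
        rw [← h u]
        simp only [mul_assoc]
    _ = _ := by rw [dlt_sq hS, Algebra.smul_def]

theorem c_val (a : kˣ) : ((a * d : kˣ) : k) = a * d := Units.val_mul a d

/-- The first expression. -/
theorem ee_zero (hS : Setting k K D d s) {a : kˣ} {t X : D} (ht : t * t = algebraMap k D a)
    (z : k) {x : D} (hx : x = algebraMap K D s * (X + algebraMap k D z)) :
    1 - x * x = -((d : k) • EE ((a * d : kˣ) : k) X ((((a * d : kˣ) : k)⁻¹) • t) 1 z) := by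
  have hd := d.ne_zero
  have ha := a.ne_zero
  have e2 : ((a * d : kˣ) : k) • (((((a * d : kˣ) : k)⁻¹) • t) * ((((a * d : kˣ) : k)⁻¹) • t)) =
      ((d : k)⁻¹) • (1 : D) := by
    rw [smul_mul_smul_comm, ht, Algebra.algebraMap_eq_smul_one (a : k), smul_smul, smul_smul, c_val]
    congr 1
    field_simp
  rw [hx, dlt_mul_dlt hS, EE, mul_one, mul_one, e2, add_comm (algebraMap k D z) X, smul_sub,
    smul_smul, mul_inv_cancel₀ hd, one_smul, neg_sub]

/-- The second expression. -/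
theorem ee_one (hS : Setting k K D d s) {a : kˣ} {p X : D} (hp : p * p = algebraMap k D a)
    (z : k) {x : D} (hx : x = algebraMap K D s * (X + algebraMap k D z)) :
    p - x * p * x = -((d : k) • EE ((a * d : kˣ) : k) X ((((a * d : kˣ) : k)⁻¹) • p) p z) := by
  have hd := d.ne_zero
  have ha := a.ne_zero
  obtain ⟨W, hW⟩ : ∃ W, W = X + algebraMap k D z := ⟨_, rfl⟩
  have e1 : x * p * x = (d : k) • (W * p * W) := by
    rw [hx, ← hW, mul_assoc (algebraMap K D s) W p, dlt_mul_dlt hS]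
  have e2 : (((a * d : kˣ) : k)⁻¹ • p) * p * (((a * d : kˣ) : k)⁻¹ • p) =
      (((a : k) * d)⁻¹ * ((a : k) * d)⁻¹ * a) • p := by
    rw [smul_mul_assoc, smul_mul_smul_comm, hp, ← Algebra.smul_def, smul_smul, c_val]
  have e3 : (d : k) • (((a * d : kˣ) : k) • ((((a : k) * d)⁻¹ * ((a : k) * d)⁻¹ * a) • p)) = p := by
    rw [smul_smul, smul_smul, c_val]
    nth_rewrite 2 [← one_smul k p]
    congr 1
    field_simp
  rw [e1, EE, e2, add_comm (algebraMap k D z) X, ← hW, smul_sub, neg_sub, e3]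

/-- The third expression. -/
theorem ee_two (hS : Setting k K D d s) {a : kˣ} {p p' X : D} (hp : p * p = algebraMap k D a)
    (hp' : p' * p' = algebraMap k D a) (hpp : p + p' ≠ 0) (z : k) {x : D}
    (hx : x = algebraMap K D s * (X + algebraMap k D z)) :
    p + p' + x * (p' - p) - (p' - p) * x - x * (p + p') * x =
      -((d : k) • EE ((a * d : kˣ) : k) (X - QQ s p p') ((2 * (d : k)⁻¹) • (p + p')⁻¹)
        (p + p') z) := by
  have hd := d.ne_zero
  have ha := a.ne_zero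
  obtain ⟨W, hW⟩ : ∃ W, W = X + algebraMap k D z := ⟨_, rfl⟩
  obtain ⟨S, hSd⟩ : ∃ S, S = p + p' := ⟨_, rfl⟩
  obtain ⟨Δ, hΔ⟩ : ∃ Δ, Δ = p' - p := ⟨_, rfl⟩
  obtain ⟨σ, hσ⟩ : ∃ σ, σ = algebraMap K D s := ⟨_, rfl⟩
  obtain ⟨τ, hτ⟩ : ∃ τ, τ = algebraMap K D s⁻¹ := ⟨_, rfl⟩
  have hσc : ∀ u : D, σ * u = u * σ := fun u => by rw [hσ]; exact Algebra.commutes s u
  have hτc : ∀ u : D, τ * u = u * τ := fun u => by rw [hτ]; exact Algebra.commutes s⁻¹ u
  have hdτ : (d : k) • τ = σ := by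
    have h1 : τ = σ⁻¹ := by rw [hτ, hσ, map_inv₀]
    rw [h1, hσ, dlt_inv hS, smul_smul, mul_inv_cancel₀ hd, one_smul]
  have hττ : τ * τ = algebraMap k D (d : k)⁻¹ := by rw [hτ]; exact algMap_sinv_sq hS
  obtain ⟨-, -, -⟩ := diff_anti hp hp' hpp
  have hSΔ : S * Δ = -(Δ * S) := by
    rw [hSd, hΔ]
    exact (diff_anti hp hp' hpp).1
  have hS0 : S ≠ 0 := hSd ▸ hpp
  have hSS : Δ * Δ = (4 * (a : k)) • (1 : D) - S * S := by
    rw [eq_sub_iff_add_eq, hΔ, hSd]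
    calc (p' - p) * (p' - p) + (p + p') * (p + p') = 2 * (p * p) + 2 * (p' * p') := by
          noncomm_ring
      _ = (4 * (a : k)) • (1 : D) := by
          rw [hp, hp', ← two_mul, ← mul_assoc, Algebra.smul_def, mul_one, map_mul, map_ofNat]
          norm_num
  obtain ⟨Q, hQ⟩ : ∃ Q, Q = QQ s p p' := ⟨_, rfl⟩
  have hQe : Q = τ * (S⁻¹ * Δ) := by rw [hQ, QQ, hτ, hSd, hΔ]
  have hSQ : S * Q = τ * Δ := by
    rw [hQe, ← mul_assoc, ← hτc S, mul_assoc, mul_inv_cancel_left₀ hS0]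
  have hQS : Q * S = -(τ * Δ) := by
    have e : Δ * S = -(S * Δ) := by rw [hSΔ, neg_neg]
    rw [hQe, mul_assoc, mul_assoc S⁻¹, e, mul_neg, inv_mul_cancel_left₀ hS0, mul_neg]
  have hQSQ : Q * S * Q = (4 * (a : k) * (d : k)⁻¹) • S⁻¹ - (d : k)⁻¹ • S := by
    rw [mul_assoc, hSQ, hQe]
    calc τ * (S⁻¹ * Δ) * (τ * Δ) = (τ * τ) * (S⁻¹ * (Δ * Δ)) := by
          rw [mul_assoc τ, ← mul_assoc (S⁻¹ * Δ) τ, ← hτc (S⁻¹ * Δ)]
          simp only [mul_assoc]
      _ = (d : k)⁻¹ • ((4 * (a : k)) • S⁻¹ - S) := by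
          rw [hττ, hSS, ← Algebra.smul_def, mul_sub, mul_smul_comm, mul_one,
            inv_mul_cancel_left₀ hS0]
      _ = _ := by rw [smul_sub, smul_smul]; congr 2; ring
  have hV : (2 * (d : k)⁻¹) • S⁻¹ * S * ((2 * (d : k)⁻¹) • S⁻¹) =
      (4 * ((d : k)⁻¹ * (d : k)⁻¹)) • S⁻¹ := by
    rw [smul_mul_assoc, inv_mul_cancel₀ hS0, smul_mul_smul_comm, one_mul]
    congr 1
    ring
  have hxW : x = σ * W := by rw [hx, hσ, hW]
  have e1 : x * S * x = (d : k) • (W * S * W) := by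
    rw [hxW, mul_assoc σ W S, hσ, dlt_mul_dlt hS]
  have e2 : x * Δ = (d : k) • (W * (τ * Δ)) := by
    rw [hxW, ← mul_smul_comm, ← smul_mul_assoc, hdτ, ← mul_assoc, ← hσc]
  have e3 : Δ * x = (d : k) • ((τ * Δ) * W) := by
    rw [hxW, ← smul_mul_assoc, ← smul_mul_assoc, hdτ, ← mul_assoc, ← hσc]
  have hE : EE ((a * d : kˣ) : k) (X - Q) ((2 * (d : k)⁻¹) • S⁻¹) S z =
      W * S * W - W * (τ * Δ) + (τ * Δ) * W - (d : k)⁻¹ • S := by
    have h1 : algebraMap k D z + (X - Q) = W - Q := by rw [hW]; abel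
    have h2 : (W - Q) * S * (W - Q) = W * S * W - W * (S * Q) - (Q * S) * W + Q * S * Q := by
      noncomm_ring
    rw [EE, h1, h2, hSQ, hQSQ, hQS, hV, smul_smul, c_val]
    have h3 : (a : k) * d * (4 * ((d : k)⁻¹ * (d : k)⁻¹)) = 4 * (a : k) * (d : k)⁻¹ := by
      field_simp
    rw [h3]
    noncomm_ring
  rw [← hSd, ← hΔ, ← hQ, hE, e1, e2, e3, smul_sub, smul_add, smul_sub, smul_smul,
    mul_inv_cancel₀ hd, one_smul]
  abel

end ident

theorem ing_neg_smul {v : HeightOneSpectrum (𝓞 k)} (hG : GoodAt B d s v) {E F : D}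
    (h : E = -((d : k) • F)) (hF : Ing B v F⁻¹) : Ing B v E⁻¹ := by
  have e : E⁻¹ = -((d : k)⁻¹ • F⁻¹) := by
    rw [h, inv_neg, Algebra.smul_def, mul_inv_rev, ← map_inv₀ (algebraMap k D), Algebra.smul_def,
      Algebra.commutes]
  rw [e]
  refine (hF.smul ?_).neg
  rw [map_inv₀, hG.dd, inv_one]

/-- The three expressions for a generic element. -/
theorem inv3_of (hS : Setting k K D d s) {a : kˣ} {p p' : D} (hp : p ∈ Xa D a) (hp' : p' ∈ Xa D a)
    (hpp : p + p' ≠ 0) {g y : D} (hg : g ≠ 0) (hy : y * p = p * y)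
    (h0 : Cop ((a * d : kˣ) : k) (lm B (g * y * g⁻¹))
      (lm B (((a * d : kˣ) : k)⁻¹ • (g * p * g⁻¹))))
    (h1 : Cop ((a * d : kˣ) : k) (lm B (g * y * g⁻¹)) (lm B (((a * d : kˣ) : k)⁻¹ • p)))
    (h2 : Cop ((a * d : kˣ) : k) (lm B (g * y * g⁻¹ - QQ s p p'))
      (lm B ((2 * (d : k)⁻¹) • (p + p')⁻¹))) :
    Inv3 B d s a p p' (g * y * g⁻¹) := by
  have hd := d.ne_zero
  have hp0 : p ≠ 0 := (isX_of_mem hp).ne_zero
  obtain ⟨X, hX⟩ : ∃ X, X = g * y * g⁻¹ := ⟨_, rfl⟩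
  obtain ⟨t, ht⟩ : ∃ t, t = g * p * g⁻¹ := ⟨_, rfl⟩
  have hcc : ∀ u w : D, (g * u * g⁻¹) * (g * w * g⁻¹) = g * (u * w) * g⁻¹ := by
    intro u w
    calc (g * u * g⁻¹) * (g * w * g⁻¹) = g * u * (g⁻¹ * g) * w * g⁻¹ := by simp only [mul_assoc]
      _ = _ := by rw [inv_mul_cancel₀ hg, mul_one]; simp only [mul_assoc]
  have htt : t * t = algebraMap k D a := by
    rw [ht, hcc, hp.2, ← Algebra.commutes, mul_assoc, mul_inv_cancel₀ hg, mul_one]
  have hXt : X * t = t * X := by rw [hX, ht, hcc, hcc, hy]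
  rw [← hX] at h0 h1 h2 ⊢
  rw [← ht] at h0
  have hns := not_sq hS hp.1 hp.2
  obtain ⟨c, hc⟩ : ∃ c : kˣ, c = a * d := ⟨_, rfl⟩
  rw [← hc] at h0 h1 h2 hns
  -- commutations
  have a0 : (1 : D) * ((c : k)⁻¹ • t) = ((c : k)⁻¹ • t) * 1 := by rw [one_mul, mul_one]
  have b0 : X * 1 * ((c : k)⁻¹ • t) = ((c : k)⁻¹ • t) * 1 * X := by
    rw [mul_one, mul_one, mul_smul_comm, smul_mul_assoc, hXt]
  have a1 : p * ((c : k)⁻¹ • p) = ((c : k)⁻¹ • p) * p := by
    rw [mul_smul_comm, smul_mul_assoc]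
  have b1 : X * p * ((c : k)⁻¹ • p) = ((c : k)⁻¹ • p) * p * X := by
    rw [mul_smul_comm, smul_mul_assoc, smul_mul_assoc, mul_assoc, hp.2, Algebra.commutes]
  have a2 : (p + p') * ((2 * (d : k)⁻¹) • (p + p')⁻¹) = ((2 * (d : k)⁻¹) • (p + p')⁻¹) * (p + p') := by
    rw [mul_smul_comm, smul_mul_assoc, mul_inv_cancel₀ hpp, inv_mul_cancel₀ hpp]
  have b2 : (X - QQ s p p') * (p + p') * ((2 * (d : k)⁻¹) • (p + p')⁻¹) =
      ((2 * (d : k)⁻¹) • (p + p')⁻¹) * (p + p') * (X - QQ s p p') := by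
    rw [mul_smul_comm, mul_assoc, mul_inv_cancel₀ hpp, mul_one, smul_mul_assoc, smul_mul_assoc,
      inv_mul_cancel₀ hpp, one_mul]
  refine ⟨fun z x hx => ⟨?_, ?_⟩, ?_⟩
  · rw [ee_one hS hp.2 z hx, ← hc]
    exact neg_ne_zero.mpr (smul_ne_zero hd (EE_ne_zero hns hp0 a1 b1 h1 z))
  · rw [ee_two hS hp.2 hp'.2 hpp z hx, ← hc]
    exact neg_ne_zero.mpr (smul_ne_zero hd (EE_ne_zero hns hpp a2 b2 h2 z))
  · obtain ⟨T0, hT0, f0⟩ := cop_ing (B := B) one_ne_zero a0 b0 h0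
    obtain ⟨T1, hT1, f1⟩ := cop_ing (B := B) hp0 a1 b1 h1
    obtain ⟨T2, hT2, f2⟩ := cop_ing (B := B) hpp a2 b2 h2
    refine ⟨T0 ∪ T1 ∪ T2, (hT0.union hT1).union hT2, fun v hv hG hcv z hz x hx => ?_⟩
    rw [Set.mem_union, Set.mem_union, not_or, not_or] at hv
    rw [← hc] at hcv
    refine ⟨ing_neg_smul hG (ee_zero hS htt z hx) ?_, ing_neg_smul hG (ee_one hS hp.2 z hx) ?_,
      ing_neg_smul hG (ee_two hS hp.2 hp'.2 hpp z hx) ?_⟩
    · rw [← hc]
      exact (f0 v hv.1.1 hG.mul hG.one hG.two hcv).2 z hz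
    · rw [← hc]
      exact (f1 v hv.1.2 hG.mul hG.one hG.two hcv).2 z hz
    · rw [← hc]
      exact (f2 v hv.2 hG.mul hG.one hG.two hcv).2 z hz

/-- **One step.** Local steps at finitely many places are approximated by a global step `h`; the
pairs `p`, `h * p * star h` and `h * p * star h`, `p'` are good at the other places that do not
split in `k(√(a * d))`. -/
theorem base_one (hS : Setting k K D d s) (B : Module.Basis (Fin N) k D) {a : kˣ}
    {S : Set (HeightOneSpectrum (𝓞 k))} (hSf : S.Finite)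
    (hgood : ∀ v ∉ S, GoodAt B d s v ∧ v.valuation k (a : k) = 1) {p p' : D} (hp : p ∈ Xa D a)
    (hp' : p' ∈ Xa D a) (hpp : p + p' ≠ 0)
    (hI : ∀ v ∉ S, a * d ∉ LS (v.valuation k) → Ing B v p ∧ Ing B v p' ∧ Ing B v (p + p')⁻¹)
    (X Y : Pl k → D) (hX : ∀ q ∈ SP S, star (X q) = -X q)
    (hY : ∀ q ∈ SP S, star (Y q) = Y q ∧ Y q * p = p * Y q) (η : Pl k → ℝ) (hη : ∀ q, 0 < η q) :
    ∃ h : D, h * star h = 1 ∧ star h * h = 1 ∧
      (∀ q ∈ SP S, nm B q (h - hel s (X q) (Y q)) < η q) ∧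
      p + h * p * star h ≠ 0 ∧ h * p * star h + p' ≠ 0 ∧
      ∀ v ∉ S, a * d ∉ LS (v.valuation k) → Stp B v p p' h := by
  refine base_one_of hS B hSf hgood hp hpp hI (fun x₁ y₁ hx hy hyp => ?_) X Y hX hY η hη
  have hD : CharZero D := charZero_of_injective_algebraMap (algebraMap k D).injective
  obtain ⟨L, hL, h⟩ := exists_generic hS B hp.1 hp.2 hp'.2 hpp hx y₁
  refine ⟨L, hL, fun lam hlam => ?_⟩
  obtain ⟨c0, c1, c2⟩ := h lam hlam (lam • x₁) (lam • y₁ + (1 - lam) • p) (cay (lam • x₁)) rfl rfl rfl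
  have hxs : star (lam • x₁) = -(lam • x₁) := by rw [star_ksmul hS, hx, smul_neg]
  refine inv3_of hS hp hp' hpp (cay_ne hxs) ?_ c0 c1 c2
  rw [add_mul, mul_add, smul_mul_assoc, mul_smul_comm, hyp, smul_mul_assoc, mul_smul_comm]

end Vale.Agent.P011.One
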