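import Vale.Agent.P011.Two.Defs

/-!
The Cayley transform and the unitary element of a step.
-/

set_option linter.unusedSectionVars false

namespace Vale.Agent.P011.One

/-- The Cayley transform. -/
noncomputable def cay {D : Type} [DivisionRing D] (x : D) : D := (1 - x) * (1 + x)⁻¹

/-- The unitary element of a step: the Cayley transform of `s * y`, conjugated by the Cayley
transform of `x`. -/
noncomputable def hel {K D : Type} [Field K] [DivisionRing D] [Algebra K D] (s : K) (x y : D) : D :=
  cay x * cay (algebraMap K D s * y) * (cay x)⁻¹

end Vale.Agent.P011.One
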