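import Vale.Agent.P011.Two.BaseStep
import Vale.Agent.P011.One.HelDefs

/-!
One step in the space of the symmetric elements of square `a`: the Cayley transform of a skew
element, the exact identities and the integrality.
-/

open NumberField IsDedekindDomain

set_option linter.unusedSectionVars false

namespace Vale.Agent.P011.One

open Vale.Agent.P011.Arith Vale.Agent.P011.Even Vale.Agent.P011.Two

section alg

variable {D : Type} [DivisionRing D]

theorem cay_comm (x : D) : (1 - x) * (1 + x)⁻¹ = (1 + x)⁻¹ * (1 - x) := by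
  have h : Commute (1 - x) (1 + x) := by
    change (1 - x) * (1 + x) = (1 + x) * (1 - x)
    noncomm_ring
  exact h.inv_right₀.eq

theorem cay_comm' (x : D) : (1 + x) * (1 - x)⁻¹ = (1 - x)⁻¹ * (1 + x) := by
  have h : Commute (1 + x) (1 - x) := by
    change (1 + x) * (1 - x) = (1 - x) * (1 + x)
    noncomm_ring
  exact h.inv_right₀.eq

theorem cay_conj {g : D} (hg : g ≠ 0) (w : D) : cay (g * w * g⁻¹) = g * cay w * g⁻¹ := by
  have h1 : 1 - g * w * g⁻¹ = g * (1 - w) * g⁻¹ := by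
    rw [mul_sub, sub_mul, mul_one, mul_inv_cancel₀ hg]
  have h2 : 1 + g * w * g⁻¹ = g * (1 + w) * g⁻¹ := by
    rw [mul_add, add_mul, mul_one, mul_inv_cancel₀ hg]
  rw [cay, cay, h1, h2, mul_inv_rev, mul_inv_rev, inv_inv]
  calc g * (1 - w) * g⁻¹ * (g * ((1 + w)⁻¹ * g⁻¹))
      = g * (1 - w) * (g⁻¹ * g) * (1 + w)⁻¹ * g⁻¹ := by simp only [mul_assoc]
    _ = g * ((1 - w) * (1 + w)⁻¹) * g⁻¹ := by
        rw [inv_mul_cancel₀ hg, mul_one]
        simp only [mul_assoc]

/-- The inverse of an element known up to factors. -/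
theorem inv_of_mul {A u C m : D} (hA : A ≠ 0) (hC : C ≠ 0) (h : A * u * C = m) :
    u⁻¹ = C * m⁻¹ * A := by
  have h1 : u = A⁻¹ * m * C⁻¹ := by
    rw [← h]
    calc u = (A⁻¹ * A) * u * (C * C⁻¹) := by
          rw [inv_mul_cancel₀ hA, mul_inv_cancel₀ hC, one_mul, mul_one]
      _ = _ := by simp only [mul_assoc]
  rw [h1, mul_inv_rev, mul_inv_rev, inv_inv, inv_inv, mul_assoc]

variable [StarRing D] [CharZero D]

theorem skew_add_ne {x : D} (hx : star x = -x) : 1 + x ≠ 0 := by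
  intro h
  have h1 : x = -1 := by rw [eq_neg_iff_add_eq_zero, add_comm]; exact h
  rw [h1, star_neg, star_one, neg_neg] at hx
  have h2 : (2 : D) = 0 := by
    have h3 : (1 : D) + 1 = 0 := by
      nth_rewrite 1 [← hx]
      rw [neg_add_cancel]
    rw [← h3]; norm_num
  exact two_ne_zero h2

theorem skew_sub_ne {x : D} (hx : star x = -x) : 1 - x ≠ 0 := by
  have h := skew_add_ne (x := -x) (by rw [star_neg, hx])
  rwa [← sub_eq_add_neg] at h

theorem cay_star {x : D} (hx : star x = -x) : star (cay x) = (1 + x) * (1 - x)⁻¹ := by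
  rw [cay, star_mul, star_inv₀, star_add, star_sub, star_one, hx, ← sub_eq_add_neg,
    sub_neg_eq_add, ← cay_comm']

theorem cay_mul_star {x : D} (hx : star x = -x) : cay x * star (cay x) = 1 := by
  rw [cay_star hx, cay]
  calc (1 - x) * (1 + x)⁻¹ * ((1 + x) * (1 - x)⁻¹)
      = (1 - x) * ((1 + x)⁻¹ * (1 + x)) * (1 - x)⁻¹ := by simp only [mul_assoc]
    _ = 1 := by rw [inv_mul_cancel₀ (skew_add_ne hx), mul_one, mul_inv_cancel₀ (skew_sub_ne hx)]

theorem cay_ne {x : D} (hx : star x = -x) : cay x ≠ 0 :=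
  mul_ne_zero (skew_sub_ne hx) (inv_ne_zero (skew_add_ne hx))

theorem cay_inv {x : D} (hx : star x = -x) : (cay x)⁻¹ = star (cay x) :=
  inv_eq_of_mul_eq_one_right (cay_mul_star hx)

theorem cay_star_mul {x : D} (hx : star x = -x) : star (cay x) * cay x = 1 := by
  rw [← cay_inv hx, inv_mul_cancel₀ (cay_ne hx)]

theorem conj_mul {x : D} (hx : star x = -x) (p : D) :
    (1 + x) * (cay x * p * star (cay x)) * (1 - x) = (1 - x) * p * (1 + x) := by
  rw [cay_star hx, cay, cay_comm x]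
  calc (1 + x) * ((1 + x)⁻¹ * (1 - x) * p * ((1 + x) * (1 - x)⁻¹)) * (1 - x)
      = ((1 + x) * (1 + x)⁻¹) * (1 - x) * p * (1 + x) * ((1 - x)⁻¹ * (1 - x)) := by
        simp only [mul_assoc]
    _ = _ := by
        rw [mul_inv_cancel₀ (skew_add_ne hx), inv_mul_cancel₀ (skew_sub_ne hx), one_mul, mul_one]

/-- The first identity. -/
theorem id_one {x : D} (hx : star x = -x) (p : D) :
    (1 + x) * (p + cay x * p * star (cay x)) * (1 - x) = 2 * (p - x * p * x) := by
  rw [mul_add, add_mul, conj_mul hx]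
  noncomm_ring

/-- The second identity. -/
theorem id_two {x : D} (hx : star x = -x) (p p' : D) :
    (1 + x) * (cay x * p * star (cay x) + p') * (1 - x) =
      (p + p') + x * (p' - p) - (p' - p) * x - x * (p + p') * x := by
  rw [mul_add, add_mul, conj_mul hx]
  noncomm_ring

/-- The first identity at infinity. -/
theorem id_one' {x : D} (hx : star x = -x) (hx0 : x ≠ 0) (p : D) :
    (x⁻¹ + 1) * (p + cay x * p * star (cay x)) * (x⁻¹ - 1) = 2 * (x⁻¹ * p * x⁻¹ - p) := by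
  have h1 : x⁻¹ + 1 = x⁻¹ * (1 + x) := by rw [mul_add, mul_one, inv_mul_cancel₀ hx0]
  have h2 : x⁻¹ - 1 = (1 - x) * x⁻¹ := by rw [sub_mul, one_mul, mul_inv_cancel₀ hx0]
  rw [h1, h2]
  calc x⁻¹ * (1 + x) * (p + cay x * p * star (cay x)) * ((1 - x) * x⁻¹)
      = x⁻¹ * ((1 + x) * (p + cay x * p * star (cay x)) * (1 - x)) * x⁻¹ := by
        simp only [mul_assoc]
    _ = x⁻¹ * (2 * (p - x * p * x)) * x⁻¹ := by rw [id_one hx]
    _ = 2 * (x⁻¹ * p * x⁻¹ - (x⁻¹ * x) * p * (x * x⁻¹)) := by noncomm_ring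
    _ = _ := by rw [inv_mul_cancel₀ hx0, mul_inv_cancel₀ hx0, one_mul, mul_one]

/-- The second identity at infinity. -/
theorem id_two' {x : D} (hx : star x = -x) (hx0 : x ≠ 0) (p p' : D) :
    (x⁻¹ + 1) * (cay x * p * star (cay x) + p') * (x⁻¹ - 1) =
      x⁻¹ * (p + p') * x⁻¹ + (p' - p) * x⁻¹ - x⁻¹ * (p' - p) - (p + p') := by
  have h1 : x⁻¹ + 1 = x⁻¹ * (1 + x) := by rw [mul_add, mul_one, inv_mul_cancel₀ hx0]
  have h2 : x⁻¹ - 1 = (1 - x) * x⁻¹ := by rw [sub_mul, one_mul, mul_inv_cancel₀ hx0]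
  rw [h1, h2]
  calc x⁻¹ * (1 + x) * (cay x * p * star (cay x) + p') * ((1 - x) * x⁻¹)
      = x⁻¹ * ((1 + x) * (cay x * p * star (cay x) + p') * (1 - x)) * x⁻¹ := by
        simp only [mul_assoc]
    _ = x⁻¹ * ((p + p') + x * (p' - p) - (p' - p) * x - x * (p + p') * x) * x⁻¹ := by
        rw [id_two hx]
    _ = x⁻¹ * (p + p') * x⁻¹ + (x⁻¹ * x) * (p' - p) * x⁻¹ - x⁻¹ * (p' - p) * (x * x⁻¹) -
        (x⁻¹ * x) * (p + p') * (x * x⁻¹) := by noncomm_ring
    _ = _ := by rw [inv_mul_cancel₀ hx0, mul_inv_cancel₀ hx0, one_mul, one_mul, mul_one, mul_one]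

end alg

section small

variable {k D : Type} [Field k] [NumberField k] [DivisionRing D] [Algebra k D] {N : ℕ}
  {B : Module.Basis (Fin N) k D} {v : HeightOneSpectrum (𝓞 k)}

/-- All coordinates are small. -/
def Sm (B : Module.Basis (Fin N) k D) (v : HeightOneSpectrum (𝓞 k)) (x : D) : Prop :=
  ∀ l, v.valuation k (B.repr x l) < 1

theorem Sm.ing {x : D} (h : Sm B v x) : Ing B v x := fun l => (h l).le

theorem Sm.add {x y : D} (hx : Sm B v x) (hy : Sm B v y) : Sm B v (x + y) := fun l => by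
  rw [map_add, Finsupp.add_apply]
  exact (Valuation.map_add _ _ _).trans_lt (max_lt (hx l) (hy l))

theorem Sm.neg {x : D} (hx : Sm B v x) : Sm B v (-x) := fun l => by
  rw [map_neg, Finsupp.neg_apply, Valuation.map_neg]
  exact hx l

theorem Sm.sub {x y : D} (hx : Sm B v x) (hy : Sm B v y) : Sm B v (x - y) := by
  rw [sub_eq_add_neg]
  exact hx.add hy.neg

theorem Ing.sub {x y : D} (hx : Ing B v x) (hy : Ing B v y) : Ing B v (x - y) := by
  rw [sub_eq_add_neg]
  exact hx.add hy.neg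

theorem Sm.mul (h : MulC B v) {x y : D} (hx : Sm B v x) (hy : Ing B v y) : Sm B v (x * y) :=
  fun l => small_mul h hx hy l

theorem Sm.mul' (h : MulC B v) {x y : D} (hx : Ing B v x) (hy : Sm B v y) : Sm B v (x * y) := by
  have h1 : ∀ i, Ing B v (x * B i) := fun i => Ing.mul h hx (Ing.basis i)
  have h2 : x * y = ∑ i, B.repr y i • (x * B i) := by
    conv_lhs => rw [← B.sum_repr y]
    rw [Finset.mul_sum]
    exact Finset.sum_congr rfl fun i _ => mul_smul_comm _ _ _
  intro l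
  rw [h2, map_sum, Finsupp.coe_finsetSum, Finset.sum_apply]
  refine val_sum_lt v _ _ one_ne_zero fun i _ => ?_
  rw [map_smul, Finsupp.smul_apply, smul_eq_mul, map_mul]
  exact mul_lt_one_of_lt_of_le (hy i) (h1 i l)

theorem Sm.smul {c : k} (hc : v.valuation k c < 1) {x : D} (hx : Ing B v x) :
    Sm B v (c • x) := fun l => by
  rw [map_smul, Finsupp.smul_apply, smul_eq_mul, map_mul]
  exact mul_lt_one_of_lt_of_le hc (hx l)

theorem Sm.inv_one_add (h : MulC B v) (h1 : Ing B v (1 : D)) {y : D} (hy : Sm B v y) :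
    Ing B v (1 + y)⁻¹ := Ing.inv_one_add h h1 hy

theorem Sm.inv_one_sub (h : MulC B v) (h1 : Ing B v (1 : D)) {y : D} (hy : Sm B v y) :
    Ing B v (1 - y)⁻¹ := by
  rw [sub_eq_add_neg]
  exact Ing.inv_one_add h h1 hy.neg

/-- The inverse of a small perturbation. -/
theorem inv_sub_small (h : MulC B v) (h1 : Ing B v (1 : D)) {S y : D} (hS : S ≠ 0)
    (hSi : Ing B v S⁻¹) (hy : Sm B v y) : Ing B v (y - S)⁻¹ := by
  have e : y - S = -(S * (1 - S⁻¹ * y)) := by
    rw [mul_sub, mul_one, mul_inv_cancel_left₀ hS]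
    abel
  rw [e, inv_neg, mul_inv_rev]
  exact (Ing.mul h (Sm.inv_one_sub h h1 (Sm.mul' h hSi hy)) hSi).neg

end small

end Vale.Agent.P011.One
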