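import Vale.Agent.P011.One.LocDefs

/-!
Local chains of symmetric square roots of `a`: from chains over the completed algebra to chains in
the algebra.
-/

open NumberField IsDedekindDomain TensorProduct Filter Topology

set_option linter.unusedSectionVars false

namespace Vale.Agent.P011.One.Lc

open Vale.Agent.P011.Arith Vale.Agent.P011.Even Vale.Agent.P011.Two

section cayley

variable {D : Type} [DivisionRing D] [StarRing D] [CharZero D]

theorem one_add_skew {x : D} (hx : star x = -x) : 1 + x ≠ 0 := by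
  intro h
  have h1 : x = -1 := by rw [eq_neg_iff_add_eq_zero, add_comm]; exact h
  rw [h1, star_neg, star_one, neg_neg] at hx
  have h2 : (2 : D) = 0 := by
    have : (1 : D) + 1 = 0 := by nth_rewrite 2 [← hx]; rw [add_neg_cancel]
    rw [← this]; norm_num
  exact two_ne_zero h2

theorem one_sub_skew {x : D} (hx : star x = -x) : 1 - x ≠ 0 := by
  rw [sub_eq_add_neg]
  exact one_add_skew (by rw [star_neg, hx])

theorem star_cay {x : D} (hx : star x = -x) : star (cay x) = (cay x)⁻¹ := by
  rw [cay, star_mul, star_inv₀, star_sub, star_add, star_one, hx, sub_neg_eq_add, mul_inv_rev,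
    inv_inv, ← sub_eq_add_neg]
  have h : (1 + x) * (1 - x) = (1 - x) * (1 + x) := by noncomm_ring
  have h1 := one_sub_skew hx
  calc (1 - x)⁻¹ * (1 + x) = (1 - x)⁻¹ * ((1 + x) * (1 - x)) * (1 - x)⁻¹ := by
        rw [mul_assoc, mul_assoc, mul_inv_cancel₀ h1, mul_one]
    _ = (1 + x) * (1 - x)⁻¹ := by rw [h, ← mul_assoc, inv_mul_cancel₀ h1, one_mul]

theorem cay_ne_zero {x : D} (hx : star x = -x) : cay x ≠ 0 :=
  mul_ne_zero (one_sub_skew hx) (inv_ne_zero (one_add_skew hx))

theorem cay_mul_star {x : D} (hx : star x = -x) : cay x * star (cay x) = 1 := by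
  rw [star_cay hx, mul_inv_cancel₀ (cay_ne_zero hx)]

theorem star_mul_cay {x : D} (hx : star x = -x) : star (cay x) * cay x = 1 := by
  rw [star_cay hx, inv_mul_cancel₀ (cay_ne_zero hx)]

end cayley

section

variable {k K D : Type} [Field k] [NumberField k] [Field K] [StarRing K]
  [DivisionRing D] [StarRing D] [Algebra k K] [Algebra k D] [Algebra K D] [IsScalarTower k K D]
  {d : kˣ} {s : K}

theorem skew_s (hS : Setting k K D d s) {y : D} (hy : star y = y) :
    star (algebraMap K D s * y) = -(algebraMap K D s * y) := by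
  rw [star_mul, star_sD hS, hy, mul_neg, Algebra.commutes]

theorem charZeroD (k : Type) {D : Type} [Field k] [NumberField k] [DivisionRing D] [Algebra k D] :
    CharZero D := charZero_of_injective_algebraMap (algebraMap k D).injective

theorem hel_mul_star (hS : Setting k K D d s) {x y : D} (hx : star x = -x) (hy : star y = y) :
    hel s x y * star (hel s x y) = 1 := by
  have := charZeroD k (D := D)
  have hy' := skew_s hS hy
  rw [hel, star_mul, star_mul, ← star_cay hx, star_star]
  calc cay x * cay (algebraMap K D s * y) * star (cay x) *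
        (cay x * (star (cay (algebraMap K D s * y)) * star (cay x)))
      = cay x * cay (algebraMap K D s * y) * (star (cay x) * cay x) *
        star (cay (algebraMap K D s * y)) * star (cay x) := by simp only [mul_assoc]
    _ = cay x * (cay (algebraMap K D s * y) * star (cay (algebraMap K D s * y))) *
        star (cay x) := by rw [star_mul_cay hx, mul_one]; simp only [mul_assoc]
    _ = 1 := by rw [cay_mul_star hy', mul_one, cay_mul_star hx]

theorem star_mul_hel (hS : Setting k K D d s) {x y : D} (hx : star x = -x) (hy : star y = y) :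
    star (hel s x y) * hel s x y = 1 := by
  have h := hel_mul_star hS hx hy
  have h0 : hel s x y ≠ 0 := by
    intro h1
    rw [h1, zero_mul] at h
    exact zero_ne_one h
  have h1 : star (hel s x y) = (hel s x y)⁻¹ := eq_inv_of_mul_eq_one_right h
  rw [h1, inv_mul_cancel₀ h0]

/-- Conjugation by a unitary element. -/
theorem Xa.conj {a : kˣ} {w h : D} (hw : w ∈ Xa D a) (h1 : star h * h = 1)
    (h2 : h * star h = 1) : h * w * star h ∈ Xa D a := by
  refine ⟨by rw [star_mul, star_mul, star_star, hw.1, mul_assoc], ?_⟩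
  calc h * w * star h * (h * w * star h) = h * w * (star h * h) * w * star h := by
        simp only [mul_assoc]
    _ = h * (w * w) * star h := by rw [h1, mul_one]; simp only [mul_assoc]
    _ = _ := by
      rw [hw.2, ← Algebra.commutes, mul_assoc, h2, mul_one]

end

section

variable {k K D : Type} [Field k] [NumberField k] [Field K] [StarRing K]
  [DivisionRing D] [StarRing D] [Algebra k K] [Algebra k D] [Algebra K D] [IsScalarTower k K D]
  {d : kˣ} {s : K} {hS : Setting k K D d s} {v : HeightOneSpectrum (𝓞 k)} {N : ℕ}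
  {B : Module.Basis (Fin N) k D}

theorem Cv.smulA {x : ℕ → D} {X : v.adicCompletion k ⊗[k] D} (hx : Cv B v x X) (c : k) :
    Cv B v (fun j => c • x j) ((1 ⊗ₜ algebraMap k D c) * X) :=
  ((Cv.const B v (algebraMap k D c)).mul hx).congr fun j => (Algebra.smul_def _ _).symm

theorem tmul_half : (1 : v.adicCompletion k) ⊗ₜ[k] algebraMap k D (2 : k)⁻¹ *
    ((1 : v.adicCompletion k) ⊗ₜ[k] (2 : D)) = 1 := by
  rw [Algebra.TensorProduct.tmul_mul_tmul, one_mul]
  have : algebraMap k D (2 : k)⁻¹ * (2 : D) = 1 := by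
    have h2 : (2 : D) = algebraMap k D 2 := (map_ofNat _ _).symm
    rw [h2, ← map_mul, inv_mul_cancel₀ two_ne_zero, map_one]
  rw [this]
  rfl

theorem tmul_two (X : v.adicCompletion k ⊗[k] D) :
    ((1 : v.adicCompletion k) ⊗ₜ[k] (2 : D)) * X = X + X := by
  have : (1 : v.adicCompletion k) ⊗ₜ[k] (2 : D) = 1 + 1 := by
    have h : (2 : D) = 1 + 1 := by norm_num
    rw [h, TensorProduct.tmul_add]
    rfl
  rw [this, add_mul, one_mul]

theorem half_add (X : v.adicCompletion k ⊗[k] D) :
    ((1 : v.adicCompletion k) ⊗ₜ[k] algebraMap k D (2 : k)⁻¹) * (X + X) = X := by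
  rw [← tmul_two, ← mul_assoc, tmul_half, one_mul]

theorem star_smul_k (hS : Setting k K D d s) (c : k) (x : D) : star (c • x) = c • star x := by
  rw [Algebra.smul_def, star_mul, star_alg hS, ← Algebra.commutes, ← Algebra.smul_def]

/-- Approximation of skew elements. -/
theorem exists_skew {X : v.adicCompletion k ⊗[k] D} (hX : sg hS v X = -X) :
    ∃ x : ℕ → D, (∀ j, star (x j) = -x j) ∧ Cv B v x X := by
  obtain ⟨y, hy⟩ := exists_Cv B v X
  refine ⟨fun j => (2 : k)⁻¹ • (y j - star (y j)), fun j => ?_, ?_⟩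
  · rw [star_smul_k hS, star_sub, star_star, ← smul_neg, neg_sub]
  · have h := Cv.smulA (hy.sub (hy.star (hS := hS))) (2 : k)⁻¹
    rwa [hX, sub_neg_eq_add, half_add] at h

theorem inv_a {a : kˣ} {w : D} (hw : w ∈ Xa D a) : algebraMap k D (a : k)⁻¹ * (w * w) = 1 := by
  rw [hw.2, ← map_mul, inv_mul_cancel₀ a.ne_zero, map_one]

theorem tmul_comm (X : v.adicCompletion k ⊗[k] D) (c : k) :
    (1 : v.adicCompletion k) ⊗ₜ[k] algebraMap k D c * X = X * (1 ⊗ₜ algebraMap k D c) := by
  induction X using TensorProduct.induction_on with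
  | zero => rw [mul_zero, zero_mul]
  | add X Y h h' => rw [mul_add, h, h', add_mul]
  | tmul b x =>
    rw [Algebra.TensorProduct.tmul_mul_tmul, Algebra.TensorProduct.tmul_mul_tmul, one_mul, mul_one,
      Algebra.commutes]

/-- The projection to the centralizer. -/
noncomputable def cproj (a : kˣ) (w t : D) : D :=
  (2 : k)⁻¹ • (t + algebraMap k D (a : k)⁻¹ * (w * t * w))

theorem star_cproj (hS : Setting k K D d s) {a : kˣ} {w t : D} (hw : w ∈ Xa D a)
    (ht : star t = t) : star (cproj a w t) = cproj a w t := by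
  rw [cproj, star_smul_k hS, star_add, ht, star_mul, star_alg hS, star_mul, star_mul, ht, hw.1,
    ← Algebra.commutes, mul_assoc w]

theorem cproj_comm {a : kˣ} {w t : D} (hw : w ∈ Xa D a) :
    cproj a w t * w = w * cproj a w t := by
  obtain ⟨c, hc⟩ : ∃ c : D, c = algebraMap k D (a : k)⁻¹ := ⟨_, rfl⟩
  have hcw : ∀ x : D, x * c = c * x := fun x => by rw [hc]; exact (Algebra.commutes _ _).symm
  have hcc : c * (w * w) = 1 := by rw [hc]; exact inv_a hw
  have hww : ∀ x : D, w * w * x = x * (w * w) := fun x => by rw [hw.2]; exact Algebra.commutes _ _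
  rw [cproj, ← hc, smul_mul_assoc, mul_smul_comm]
  congr 1
  have e1 : (t + c * (w * t * w)) * w = t * w + w * t := by
    calc (t + c * (w * t * w)) * w = t * w + c * (w * t * (w * w)) := by
          rw [add_mul]; simp only [mul_assoc]
      _ = t * w + c * (w * w) * (w * t) := by rw [← hww]; simp only [mul_assoc]
      _ = _ := by rw [hcc, one_mul]
  have e2 : w * (t + c * (w * t * w)) = w * t + t * w := by
    calc w * (t + c * (w * t * w)) = w * t + (w * c) * (w * t * w) := by
          rw [mul_add]; simp only [mul_assoc]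
      _ = w * t + c * (w * w) * (t * w) := by rw [hcw]; simp only [mul_assoc]
      _ = _ := by rw [hcc, one_mul]
  rw [e1, e2, add_comm]

/-- Approximation of symmetric elements commuting with an element. -/
theorem exists_sym {a : kˣ} {Y W : v.adicCompletion k ⊗[k] D} (hY : sg hS v Y = Y)
    {w : ℕ → D} (hw : ∀ j, w j ∈ Xa D a) (hW : Cv B v w W) (hYW : Y * W = W * Y) :
    ∃ y : ℕ → D, (∀ j, star (y j) = y j ∧ y j * w j = w j * y j) ∧ Cv B v y Y := by
  obtain ⟨z, hz⟩ := exists_Cv B v Y
  obtain ⟨t, ht⟩ : ∃ t : ℕ → D, ∀ j, t j = (2 : k)⁻¹ • (z j + star (z j)) := ⟨_, fun _ => rfl⟩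
  have ht1 : ∀ j, star (t j) = t j := fun j => by
    rw [ht, star_smul_k hS, star_add, star_star, add_comm]
  have ht2 : Cv B v t Y := by
    have h := Cv.smulA (hz.add (hz.star (hS := hS))) (2 : k)⁻¹
    rw [hY, half_add] at h
    exact h.congr fun j => (ht j).symm
  have hinvW : (1 ⊗ₜ algebraMap k D (a : k)⁻¹) * (W * W) = 1 := by
    have h := ((Cv.const B v (algebraMap k D (a : k)⁻¹)).mul (hW.mul hW)).congr
      fun j => inv_a (hw j)
    exact Cv.unique B v h (Cv.const B v 1)
  refine ⟨fun j => cproj a (w j) (t j), fun j => ⟨star_cproj hS (hw j) (ht1 j),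
    cproj_comm (hw j)⟩, ?_⟩
  have h := Cv.smulA (ht2.add ((Cv.const B v (algebraMap k D (a : k)⁻¹)).mul
    ((hW.mul ht2).mul hW))) (2 : k)⁻¹
  have h1 : (1 ⊗ₜ algebraMap k D (a : k)⁻¹) * (W * Y * W) = Y := by
    rw [← hYW, mul_assoc Y, ← mul_assoc, tmul_comm, mul_assoc, hinvW, mul_one]
  rw [h1, half_add] at h
  exact h

/-- The Cayley parameter of a unitary element of the completed algebra. -/
theorem exists_cayT {G : v.adicCompletion k ⊗[k] D} (h1 : G * sg hS v G = 1)
    (h2 : sg hS v G * G = 1) (hu : IsUnit (1 + G)) :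
    ∃ X Λ : v.adicCompletion k ⊗[k] D, sg hS v X = -X ∧ (1 + X) * Λ = 1 ∧ (1 - X) * Λ = G ∧
      ∀ W, G * W = W * G → X * W = W * X := by
  obtain ⟨U, hU⟩ := hu
  obtain ⟨P, hP⟩ : ∃ P : v.adicCompletion k ⊗[k] D, P = ↑U⁻¹ := ⟨_, rfl⟩
  have e1 : (1 + G) * P = 1 := by rw [← hU, hP]; exact U.mul_inv
  have e2 : P * (1 + G) = 1 := by rw [← hU, hP]; exact U.inv_mul
  have e3 : P * G = G * P := by
    have h3 : P * G = 1 - P := by
      rw [mul_add, mul_one] at e2
      rw [← e2]; abel
    have h4 : G * P = 1 - P := by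
      rw [add_mul, one_mul] at e1
      rw [← e1]; abel
    rw [h3, h4]
  obtain ⟨c, hc⟩ : ∃ c : v.adicCompletion k ⊗[k] D, c = 1 ⊗ₜ algebraMap k D (2 : k)⁻¹ := ⟨_, rfl⟩
  have hcc : ∀ X, c * (X + X) = X := fun X => by rw [hc]; exact half_add X
  have hcX : ∀ X, c * X = X * c := fun X => by rw [hc]; exact tmul_comm X _
  have e5 : sg hS v P = G * P := by
    have h3 : sg hS v P * (1 + sg hS v G) = 1 := by
      rw [← sg_one (hS := hS) (v := v), ← map_add, ← sg_mul, e1]
    have h4 : sg hS v P * (1 + G) = G := by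
      calc sg hS v P * (1 + G) = sg hS v P * (1 + sg hS v G) * G := by
            rw [mul_assoc, add_mul, one_mul, h2, add_comm]
        _ = G := by rw [h3, one_mul]
    calc sg hS v P = sg hS v P * ((1 + G) * P) := by rw [e1, mul_one]
      _ = _ := by rw [← mul_assoc, h4]
  refine ⟨(1 - G) * P, c * (1 + G), ?_, ?_, ?_, ?_⟩
  · rw [sg_mul, e5, map_sub, sg_one, mul_sub, mul_one, ← e3, mul_assoc, h1, mul_one, sub_mul,
      one_mul, e3]
    abel
  · have h3 : 1 + (1 - G) * P = P + P := by
      nth_rewrite 1 [← e1]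
      rw [← add_mul]
      have : 1 + G + (1 - G) = 1 + 1 := by abel
      rw [this, add_mul, one_mul]
    rw [h3, ← mul_assoc, ← hcX, hcc, e2]
  · have h3 : 1 - (1 - G) * P = G * P + G * P := by
      nth_rewrite 1 [← e1]
      rw [← sub_mul]
      have : 1 + G - (1 - G) = G + G := by abel
      rw [this, add_mul]
    rw [h3, ← mul_assoc, ← hcX, hcc, mul_assoc, e2, mul_one]
  · intro W hW
    have h3 : P * W = W * P := by
      calc P * W = P * (W * (1 + G)) * P := by rw [mul_assoc, mul_assoc W, e1, mul_one]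
        _ = P * (1 + G) * W * P := by
          have : W * (1 + G) = (1 + G) * W := by rw [mul_add, add_mul, hW, mul_one, one_mul]
          rw [this]; simp only [mul_assoc]
        _ = W * P := by rw [e2, one_mul]
    rw [mul_assoc, h3, ← mul_assoc, sub_mul, one_mul, hW, ← mul_assoc]
    rw [mul_sub, mul_one]

theorem Cv.cay {x : ℕ → D} (hx : ∀ j, star (x j) = -x j) {X Λ G : v.adicCompletion k ⊗[k] D}
    (hX : Cv B v x X) (h1 : (1 + X) * Λ = 1) (h2 : (1 - X) * Λ = G) :
    Cv B v (fun j => cay (x j)) G := by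
  have := charZeroD k (D := D)
  have e1 := ((Cv.const B v 1).add hX).inv h1 (Eventually.of_forall fun j => one_add_skew (hx j))
  have e2 := ((Cv.const B v 1).sub hX).mul e1
  have e3 : (1 ⊗ₜ[k] (1 : D) - X) * Λ = G := h2
  rwa [e3] at e2

/-- Approximation of a unitary element by Cayley transforms. -/
theorem exists_cay {G : v.adicCompletion k ⊗[k] D} (h1 : G * sg hS v G = 1)
    (h2 : sg hS v G * G = 1) (hu : IsUnit (1 + G)) :
    ∃ x : ℕ → D, (∀ j, star (x j) = -x j) ∧ Cv B v (fun j => cay (x j)) G := by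
  obtain ⟨X, Λ, e1, e2, e3, -⟩ := exists_cayT h1 h2 hu
  obtain ⟨x, hx, hxX⟩ := exists_skew (B := B) e1
  exact ⟨x, hx, Cv.cay hx hxX e2 e3⟩

/-- Approximation of a unitary element commuting with `W` by Cayley transforms. -/
theorem exists_cay_sym {a : kˣ} {C W : v.adicCompletion k ⊗[k] D} (h1 : C * sg hS v C = 1)
    (h2 : sg hS v C * C = 1) (hu : IsUnit (1 + C)) (hCW : C * W = W * C) {w : ℕ → D}
    (hw : ∀ j, w j ∈ Xa D a) (hW : Cv B v w W) :
    ∃ y : ℕ → D, (∀ j, star (y j) = y j ∧ y j * w j = w j * y j) ∧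
      Cv B v (fun j => cay (algebraMap K D s * y j)) C := by
  obtain ⟨X, Λ, e1, e2, e3, e4⟩ := exists_cayT h1 h2 hu
  have hs0 : algebraMap K D s ≠ 0 := (_root_.map_ne_zero _).mpr hS.s_ne
  have hcomm : ∀ (c : K) (X : v.adicCompletion k ⊗[k] D),
      (1 : v.adicCompletion k) ⊗ₜ[k] algebraMap K D c * X = X * (1 ⊗ₜ algebraMap K D c) := by
    intro c X
    induction X using TensorProduct.induction_on with
    | zero => rw [mul_zero, zero_mul]
    | add X Y h h' => rw [mul_add, h, h', add_mul]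
    | tmul b x =>
      rw [Algebra.TensorProduct.tmul_mul_tmul, Algebra.TensorProduct.tmul_mul_tmul, one_mul,
        mul_one, Algebra.commutes]
  have hss : (1 : v.adicCompletion k) ⊗ₜ[k] algebraMap K D s *
      ((1 : v.adicCompletion k) ⊗ₜ[k] algebraMap K D s⁻¹) = 1 := by
    rw [Algebra.TensorProduct.tmul_mul_tmul, one_mul, ← map_mul, mul_inv_cancel₀ hS.s_ne, map_one]
    rfl
  have hsinv : star (algebraMap K D s⁻¹) = -algebraMap K D s⁻¹ := by
    rw [map_inv₀, star_inv₀, star_sD hS, inv_neg]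
  obtain ⟨y, hy, hyY⟩ := exists_sym (B := B) (hS := hS) (a := a) (W := W)
    (Y := (1 ⊗ₜ algebraMap K D s⁻¹) * X) (by
      rw [sg_mul, e1, sg_tmul, hsinv, TensorProduct.tmul_neg, neg_mul_neg, hcomm]) hw hW (by
      rw [mul_assoc, e4 W hCW, ← mul_assoc, hcomm, mul_assoc])
  refine ⟨y, hy, ?_⟩
  have e5 := (Cv.const B v (algebraMap K D s)).mul hyY
  rw [← mul_assoc, hss, one_mul] at e5
  exact Cv.cay (fun j => skew_s hS (hy j).1) e5 e2 e3

/-- The step. -/
theorem exists_step {a : kˣ} {W W' : v.adicCompletion k ⊗[k] D} (h : LStep1 hS a v W W')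
    {w : ℕ → D} (hw : ∀ j, w j ∈ Xa D a) (hW : Cv B v w W) :
    ∃ x y : ℕ → D, (∀ j, star (x j) = -x j ∧ star (y j) = y j ∧ y j * w j = w j * y j) ∧
      Cv B v (fun j => hel s (x j) (y j) * w j * star (hel s (x j) (y j))) W' := by
  have := charZeroD k (D := D)
  obtain ⟨G, C, hG1, hG2, hC1, hC2, hGu, hCu, hCW, hW'⟩ := h.conj
  obtain ⟨x, hx, hxG⟩ := exists_cay (B := B) hG1 hG2 hGu
  obtain ⟨y, hy, hyC⟩ := exists_cay_sym (B := B) hC1 hC2 hCu hCW hw hW
  refine ⟨x, y, fun j => ⟨hx j, (hy j).1, (hy j).2⟩, ?_⟩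
  have e1 : Cv B v (fun j => hel s (x j) (y j)) (G * C * sg hS v G) :=
    ((hxG.mul hyC).mul (hxG.star (hS := hS))).congr fun j => by
      rw [hel, star_cay (hx j)]
  have e2 : sg hS v (G * C * sg hS v G) = G * sg hS v C * sg hS v G := by
    rw [sg_mul, sg_mul, sg_sg, mul_assoc]
  have e3 := (e1.mul hW).mul (e1.star (hS := hS))
  rwa [e2, ← hW'] at e3

end

end Vale.Agent.P011.One.Lc
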