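import Vale.Agent.P011.One.ChainLoc
import Vale.Agent.P011.Two.ChainFin

/-!
Local chains of symmetric square roots of `a`: from chains over the completed algebra to chains in
the algebra.
-/

open NumberField IsDedekindDomain TensorProduct Filter Topology

set_option linter.unusedSectionVars false

namespace Vale.Agent.P011.One.Lc

open Vale.Agent.P011.Arith Vale.Agent.P011.Even Vale.Agent.P011.Two

variable {k K D : Type} [Field k] [NumberField k] [Field K] [StarRing K]
  [DivisionRing D] [StarRing D] [Algebra k K] [Algebra k D] [Algebra K D] [IsScalarTower k K D]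
  {d : kˣ} {s : K} {hS : Setting k K D d s} {v : HeightOneSpectrum (𝓞 k)} {N : ℕ}

/-- Approximation of a chain. -/
theorem exists_seqs (B : Module.Basis (Fin N) k D) {a : kˣ} {σ : D} (hσ : σ ∈ Xa D a)
    (m : ℕ) (Ws : ℕ → v.adicCompletion k ⊗[k] D) (h0 : Ws 0 = 1 ⊗ₜ σ)
    (h : ∀ i < m, LStep1 hS a v (Ws i) (Ws (i + 1))) :
    ∃ W X Y : ℕ → ℕ → D, (∀ j, W 0 j = σ) ∧
      (∀ i < m, ∀ j, star (X i j) = -X i j ∧ star (Y i j) = Y i j ∧
        Y i j * W i j = W i j * Y i j ∧
        W (i + 1) j = hel s (X i j) (Y i j) * W i j * star (hel s (X i j) (Y i j))) ∧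
      ∀ i ≤ m, (∀ j, W i j ∈ Xa D a) ∧ Cv B v (W i) (Ws i) := by
  induction m with
  | zero =>
    refine ⟨fun _ _ => σ, fun _ _ => 0, fun _ _ => 0, fun _ => rfl,
      fun i hi => absurd hi (Nat.not_lt_zero i), fun i hi => ?_⟩
    rw [Nat.le_zero.mp hi, h0]
    exact ⟨fun _ => hσ, Cv.const B v σ⟩
  | succ m ih =>
    obtain ⟨W, X, Y, h1, h2, h3⟩ := ih fun i hi => h i (Nat.lt_succ_of_lt hi)
    obtain ⟨h4, h5⟩ := h3 m le_rfl
    obtain ⟨x, y, h6, h7⟩ := exists_step (B := B) (h m (Nat.lt_succ_self m)) h4 h5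
    refine ⟨fun i => if i ≤ m then W i else fun j => hel s (x j) (y j) * W m j *
      star (hel s (x j) (y j)), fun i => if i < m then X i else x,
      fun i => if i < m then Y i else y, fun j => ?_, fun i hi j => ?_, fun i hi => ?_⟩
    · dsimp only
      rw [if_pos (Nat.zero_le m), h1]
    · dsimp only
      rcases Nat.lt_succ_iff_lt_or_eq.mp hi with h8 | h8
      · rw [if_pos h8, if_pos h8, if_pos h8.le, if_pos (show i + 1 ≤ m from h8)]
        exact h2 i h8 j
      · subst h8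
        rw [if_neg (lt_irrefl i), if_neg (lt_irrefl i), if_pos le_rfl, if_neg (by omega)]
        exact ⟨(h6 j).1, (h6 j).2.1, (h6 j).2.2, rfl⟩
    · dsimp only
      rcases Nat.lt_or_ge m i with h8 | h8
      · have : i = m + 1 := le_antisymm hi h8
        subst this
        rw [if_neg (by omega)]
        exact ⟨fun j => Xa.conj (h4 j) (star_mul_hel hS (h6 j).1 (h6 j).2.1)
          (hel_mul_star hS (h6 j).1 (h6 j).2.1), h7⟩
      · rw [if_pos h8]
        exact h3 i h8

theorem cc_Cv {B : Module.Basis (Fin N) k D} {a : kˣ} {w w' : ℕ → D}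
    {W W' : v.adicCompletion k ⊗[k] D} (h : Cv B v w W) (h' : Cv B v w' W') :
    Cv B v (fun j => cc a (w j) (w' j)) (ccT v a W W') :=
  ((h.add h').mul (h.add h')).mul (Cv.const B v _)

/-- A chain over the completed algebra gives a chain in the algebra. -/
theorem _root_.Vale.Agent.P011.One.chain1_of_local (hS : Setting k K D d s) (B : Module.Basis (Fin N) k D) {a : kˣ} {σ σ' : D}
    (hσ : σ ∈ Xa D a)
    (h : Relation.ReflTransGen (LStep1 hS a v) ((1 : v.adicCompletion k) ⊗ₜ[k] σ)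
      ((1 : v.adicCompletion k) ⊗ₜ[k] σ')) : Chain1 B d a s (.inl v) σ σ' := by
  classical
  obtain ⟨m, Ws, hW0, hWm, hWs⟩ := exists_seq_rtg h
  obtain ⟨W, X, Y, h1, h2, h3⟩ := exists_seqs B hσ m Ws hW0 hWs
  -- the local numbers
  have hA : ∀ i, ∃ b b₁ : (v.adicCompletion k)ˣ, i < m → b ∈ LN (iu v (a * d)) ∧
      (b₁ : v.adicCompletion k) = 1 - b ∧ -b₁ ∈ LN (iu v (a * d)) ∧
      (ccT v a (Ws i) (Ws (i + 1)) - 1) * (ccT v a (Ws i) (Ws (i + 1)) -
          algebraMap (v.adicCompletion k) _ (b : v.adicCompletion k)) = 0 := by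
    intro i
    by_cases hi : i < m
    · obtain ⟨b, b₁, h⟩ := (hWs i hi).rel
      exact ⟨b, b₁, fun _ => h⟩
    · exact ⟨1, 1, fun h => absurd h hi⟩
  choose b b₁ hb using hA
  choose β hβ using fun i => exists_seq v ((b i : (v.adicCompletion k)ˣ) : v.adicCompletion k)
  obtain ⟨μ, hμ, hμa⟩ := exists_lower m
    (fun i => min ‖(b i : v.adicCompletion k)‖ ‖(b₁ i : v.adicCompletion k)‖)
    (fun i _ => lt_min (norm_pos_iff.mpr (b i).ne_zero) (norm_pos_iff.mpr (b₁ i).ne_zero))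
  refine ⟨μ, hμ, fun η hη => ?_⟩
  -- everything holds eventually
  have hev : ∀ i < m, ∀ᶠ j in atTop,
      (∃ U : kˣ, (U : k) = β i j ∧ U ∈ NF (a * d) ⊔ LS (v.valuation k)) ∧
      (∃ U : kˣ, (U : k) = -(1 - β i j) ∧ U ∈ NF (a * d) ⊔ LS (v.valuation k)) ∧
      μ < ‖algebraMap k (v.adicCompletion k) (β i j)‖ ∧
      μ < ‖algebraMap k (v.adicCompletion k) (-(1 - β i j))‖ ∧
      nm B (.inl v) ((cc a (W i j) (W (i + 1) j) - 1) *
        (cc a (W i j) (W (i + 1) j) - algebraMap k D (β i j)) - 0) < η := by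
    intro i hi
    obtain ⟨e1, e2, e3, e4⟩ := hb i hi
    have hc1 : Tendsto (fun j => algebraMap k (v.adicCompletion k) (-(1 - β i j))) atTop
        (𝓝 ((-b₁ i : (v.adicCompletion k)ˣ) : v.adicCompletion k)) := by
      rw [Units.val_neg, e2]
      have := ((hβ i).const_sub 1).neg
      refine this.congr fun j => ?_
      rw [map_neg, map_sub, map_one]
    have hμ1 := hμa i hi
    rw [lt_min_iff] at hμ1
    have hcc := cc_Cv (a := a) (h3 i hi.le).2 (h3 (i + 1) hi).2
    have hlim := (hcc.sub (Cv.const B v 1)).mul (hcc.sub (Cv.alg (hβ i)))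
    have h5 : (1 : v.adicCompletion k) ⊗ₜ[k] (1 : D) = 1 := rfl
    rw [h5, e4, ← TensorProduct.tmul_zero (R := k) D (1 : v.adicCompletion k)] at hlim
    have f1 := near_LN e1 (hβ i)
    have f2 := near_LN e3 hc1
    have f3 := (hβ i).norm.eventually (Ioi_mem_nhds hμ1.1)
    have f4 := hc1.norm.eventually (Ioi_mem_nhds (b := ‖((-b₁ i : (v.adicCompletion k)ˣ) :
      v.adicCompletion k)‖) (by rw [Units.val_neg, norm_neg]; exact hμ1.2))
    have f6 := hlim.size.eventually (Iio_mem_nhds hη)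
    filter_upwards [f1, f2, f3, f4, f6] with j g1 g2 g3 g4 g6
    exact ⟨g1, g2, g3, g4, g6⟩
  have hlast : ∀ᶠ j in atTop, nm B (.inl v) (W m j - σ') < η := by
    have h4 := (h3 m le_rfl).2
    rw [hWm] at h4
    exact h4.size.eventually (Iio_mem_nhds hη)
  obtain ⟨j, hj, hjl⟩ : ∃ j, (∀ i < m,
      (∃ U : kˣ, (U : k) = β i j ∧ U ∈ NF (a * d) ⊔ LS (v.valuation k)) ∧
      (∃ U : kˣ, (U : k) = -(1 - β i j) ∧ U ∈ NF (a * d) ⊔ LS (v.valuation k)) ∧
      μ < ‖algebraMap k (v.adicCompletion k) (β i j)‖ ∧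
      μ < ‖algebraMap k (v.adicCompletion k) (-(1 - β i j))‖ ∧
      nm B (.inl v) ((cc a (W i j) (W (i + 1) j) - 1) *
        (cc a (W i j) (W (i + 1) j) - algebraMap k D (β i j)) - 0) < η) ∧
      nm B (.inl v) (W m j - σ') < η := by
    have h1 := (Finset.eventually_all (Finset.range m)).mpr (fun i hi =>
      hev i (Finset.mem_range.mp hi))
    obtain ⟨j, hj, hj'⟩ := (h1.and hlast).exists
    exact ⟨j, fun i hi => hj i (Finset.mem_range.mpr hi), hj'⟩
  choose U hU1 hU2 using fun i (hi : i < m) => (hj i hi).1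
  refine ⟨m, fun i => if hi : i < m then U i hi else 1, fun i => W i j, fun i => X i j,
    fun i => Y i j, ?_, h1 j, hjl, ?_⟩
  · intro i hi
    right
    dsimp only
    rw [dif_pos hi]
    obtain ⟨-, ⟨V, hV1, hV2⟩, h3, h4, -⟩ := hj i hi
    refine ⟨?_, hU2 i hi, ?_⟩
    · rw [hU1, plAbv_norm]
      exact h3.le
    · intro v' hv'
      have hvv : v = v' := Sum.inl_injective hv'
      subst hvv
      refine ⟨-V, ?_, ?_, ?_⟩
      · rw [Units.val_neg, hV1, hU1, neg_neg]
      · rw [Units.val_neg, AbsoluteValue.map_neg, hV1, plAbv_norm]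
        exact h4.le
      · rw [neg_neg]
        exact hV2
  · intro i hi
    dsimp only
    rw [dif_pos hi, hU1]
    obtain ⟨g1, g2, g3, g4⟩ := h2 i hi j
    refine ⟨g1, g2, g3, g4, ?_⟩
    have := (hj i hi).2.2.2.2
    rwa [sub_zero] at this

end Vale.Agent.P011.One.Lc
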