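import Vale.Agent.P011.Two.RelLoc
import Vale.Agent.P011.Two.NormNear
import Vale.Agent.P011.Two.HQCore
import Vale.Agent.P011.One.Quat

/-!
Symmetric square roots of `a` in a division algebra with involution: conjugation by elements of
norm one of the quaternion algebra generated by two of them.
-/

open NumberField IsDedekindDomain Polynomial

set_option linter.unusedSectionVars false

namespace Vale.Agent.P011.One

open Vale.Agent.P011.Arith Vale.Agent.P011.Even Vale.Agent.P011.Two Vale.Agent.P011.MPQ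

section defs

variable {k D : Type} [Field k] [NumberField k] [DivisionRing D] [StarRing D] [Algebra k D]

/-- The subgroup `N` contains the elements of norm one of the quaternion algebras which are close
to one at the places where the quaternion algebra ramifies. -/
def HQ1 (k : Type) {D : Type} [Field k] [NumberField k] [DivisionRing D] [StarRing D] [Algebra k D]
    (e : ℕ) (N : Set D) : Prop :=
  ∀ (F : Type) [Field F] [NumberField F] [Algebra k F] (ι : F →ₐ[k] D) (α β : Fˣ) (i j : D)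
    (p₀ p₁ p₂ p₃ : F) (u : D), QElt ι α β i j p₀ p₁ p₂ p₃ u →
    (∀ ω : HeightOneSpectrum (𝓞 F), β ∉ NF α ⊔ LS (ω.valuation F) →
      ω.valuation F (2 - 2 * p₀) < ω.valuation F (4 * (e : F) ^ 4)) → u ∈ N

/-- The set of symmetric square roots of `a`. -/
def Xa (D : Type) [DivisionRing D] [StarRing D] [Algebra k D] (a : kˣ) : Set D :=
  {x | star x = x ∧ x * x = algebraMap k D a}

/-- The invariant of a pair of symmetric square roots of `a`. -/
noncomputable def cc (a : kˣ) (x y : D) : D := (x + y) * (x + y) * algebraMap k D (4 * a : k)⁻¹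

theorem cc_add {a : kˣ} {x y : D} (hx : x ∈ Xa D a) (hy : y ∈ Xa D a) :
    1 - cc a x y = (x - y) * (x - y) * algebraMap k D (4 * a : k)⁻¹ := by
  have h4 : (4 * a : k) ≠ 0 := mul_ne_zero (by norm_num) a.ne_zero
  have h1 : (x + y) * (x + y) + (x - y) * (x - y) = algebraMap k D (4 * a : k) := by
    have e1 : (x + y) * (x + y) + (x - y) * (x - y) = 2 * (x * x) + 2 * (y * y) := by
      noncomm_ring
    rw [e1, hx.2, hy.2, map_mul, map_ofNat]
    noncomm_ring
  have h2 : (1 : D) = algebraMap k D (4 * a : k) * algebraMap k D (4 * a : k)⁻¹ := by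
    rw [← map_mul, mul_inv_cancel₀ h4, map_one]
  rw [cc, h2, ← h1, add_mul]
  abel

theorem cc_ne_zero {a : kˣ} {x y : D} (h : x + y ≠ 0) : cc a x y ≠ 0 := by
  have h4 : (4 * a : k) ≠ 0 := mul_ne_zero (by norm_num) a.ne_zero
  exact mul_ne_zero (mul_ne_zero h h) ((_root_.map_ne_zero _).mpr (inv_ne_zero h4))

theorem eq_of_cc {a : kˣ} {x y : D} (hx : x ∈ Xa D a) (hy : y ∈ Xa D a) (h : cc a x y = 1) :
    x = y := by
  have h4 : (4 * a : k) ≠ 0 := mul_ne_zero (by norm_num) a.ne_zero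
  have h1 := cc_add hx hy
  rw [h, sub_self, eq_comm, mul_eq_zero, or_iff_left
    ((_root_.map_ne_zero _).mpr (inv_ne_zero h4)), mul_self_eq_zero, sub_eq_zero] at h1
  exact h1

/-- The invariant in terms of the anticommutator. -/
theorem cc_anti {a : kˣ} {x y : D} (hx : x ∈ Xa D a) (hy : y ∈ Xa D a) :
    x * y + y * x = algebraMap k D (4 * a : k) * cc a x y - algebraMap k D (2 * a : k) := by
  have h4 : (4 * a : k) ≠ 0 := mul_ne_zero (by norm_num) a.ne_zero
  have h2 : algebraMap k D (4 * a : k) * cc a x y = (x + y) * (x + y) := by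
    rw [cc, Algebra.commutes, mul_assoc, ← map_mul, inv_mul_cancel₀ h4, map_one, mul_one]
  rw [h2]
  have e1 : (x + y) * (x + y) = x * x + y * y + (x * y + y * x) := by noncomm_ring
  rw [e1, hx.2, hy.2, map_mul, map_ofNat, two_mul]
  abel

/-- The elements `x` and `y` generate a quaternion algebra in which they are conjugate by an
element of norm one close to one at the ramified places. -/
def Rel1 (d : kˣ) (e : ℕ) (a : kˣ) (x y : D) : Prop :=
  x = y ∨ ∃ (F : Type) (_ : Field F) (_ : NumberField F) (_ : Algebra k F) (ι : F →ₐ[k] D)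
    (c' c₁ : Fˣ), (∀ t, star (ι t) = ι t) ∧ (∀ t, ι t * x = x * ι t) ∧ (∀ t, ι t * y = y * ι t) ∧
    ι c' = cc a x y ∧ (c₁ : F) = 1 - c' ∧ c' ∈ NF (inc k F (a * d)) ∧
    ∀ ω : HeightOneSpectrum (𝓞 F), -c₁ ∈ NF (inc k F (a * d)) ⊔ LS (ω.valuation F) ∨
      ω.valuation F (c₁ : F) < ω.valuation F (4 * (e : F) ^ 4)

end defs

theorem key_id {F A : Type*} [Field F] [Ring A] [Algebra F A] {x y δ : A} {a d c P Q : F}
    (ha : a ≠ 0) (hd : d ≠ 0) (hc : c ≠ 0) (h2 : (2 : F) ≠ 0) (hx : x * x = a • 1)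
    (hδ : δ * δ = d • 1) (hδx : δ * x = x * δ) (hδy : δ * y = y * δ)
    (hxy : x * y + y * x = (2 * a * (2 * c - 1)) • 1) :
    P • (1 : A) + Q • (δ * x) + (Q / (2 * c)) • (δ * (y - (2 * c - 1) • x)) +
      (-P / (2 * (a * d) * c)) • ((δ * x) * (δ * (y - (2 * c - 1) • x))) =
    (1 / (2 * c * a)) • ((a • (1 : A) + y * x) * (P • (1 : A) + Q • (δ * x))) := by
  have hyx : y * x = (2 * a * (2 * c - 1)) • 1 - x * y := by rw [← hxy]; abel
  have e1 : (δ * x) * (δ * (y - (2 * c - 1) • x)) =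
      d • (x * y) - (d * (2 * c - 1) * a) • (1 : A) := by
    have : (δ * x) * (δ * (y - (2 * c - 1) • x)) = (δ * δ) * (x * (y - (2 * c - 1) • x)) := by
      rw [mul_assoc, ← mul_assoc x, ← hδx]
      simp only [mul_assoc]
    rw [this, hδ, mul_sub, mul_smul_comm, hx, smul_mul_assoc, one_mul]
    module
  have e2 : (y * x) * (δ * x) = a • (δ * y) := by
    have : (y * x) * (δ * x) = δ * y * (x * x) := by
      rw [hδy]
      simp only [mul_assoc]
      rw [← mul_assoc x δ, ← hδx]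
      simp only [mul_assoc]
    rw [this, hx, mul_smul_comm, mul_one]
  rw [e1, add_mul, mul_add (y * x), mul_smul_comm Q (y * x), e2, mul_smul_comm P, mul_one, hyx,
    mul_sub, mul_smul_comm, smul_mul_assoc, one_mul]
  match_scalars <;> field_simp <;> ring

theorem key_sq {F A : Type*} [Field F] [Ring A] [Algebra F A] {x y δ : A} {a d c : F}
    (hx : x * x = a • 1) (hy : y * y = a • 1)
    (hδ : δ * δ = d • 1) (hδx : δ * x = x * δ) (hδy : δ * y = y * δ)
    (hxy : x * y + y * x = (2 * a * (2 * c - 1)) • 1) :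
    (δ * (y - (2 * c - 1) • x)) * (δ * (y - (2 * c - 1) • x)) =
      (4 * (a * d) * c * (1 - c)) • (1 : A) := by
  obtain ⟨w, hw⟩ : ∃ w, w = y - (2 * c - 1) • x := ⟨_, rfl⟩
  have hwc : δ * w = w * δ := by
    rw [hw, mul_sub, sub_mul, hδy, mul_smul_comm, smul_mul_assoc, hδx]
  have hyx : y * x = (2 * a * (2 * c - 1)) • 1 - x * y := by rw [← hxy]; abel
  have e1 : (δ * w) * (δ * w) = (δ * δ) * (w * w) := by
    rw [mul_assoc δ w, ← mul_assoc w δ, ← hwc, mul_assoc δ w, ← mul_assoc δ δ]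
  rw [← hw, e1, hδ, hw]
  simp only [smul_mul_assoc, one_mul, sub_mul, mul_sub, mul_smul_comm, hy, hx, hyx]
  match_scalars <;> ring

section main

variable {k K D : Type} [Field k] [NumberField k] [Field K] [StarRing K]
    [DivisionRing D] [StarRing D] [Algebra k K] [Algebra k D] [Algebra K D] [IsScalarTower k K D]
    {d : kˣ} {s : K}

theorem star_cc (hS : Setting k K D d s) {a : kˣ} {x y : D} (hx : x ∈ Xa D a) (hy : y ∈ Xa D a) :
    star (cc a x y) = cc a x y := by
  rw [cc, star_mul, star_mul, star_add, hx.1, hy.1, star_alg hS]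
  exact Algebra.commutes _ _

/-- The conjugating element, with its explicit form. -/
theorem exists_qelt' (hS : Setting k K D d s) {a : kˣ} {x y : D} (hx : x ∈ Xa D a)
    (hy : y ∈ Xa D a) {F : Type} [Field F] [NumberField F] [Algebra k F] (ι : F →ₐ[k] D)
    (sym : ∀ t, star (ι t) = ι t) (cx : ∀ t, ι t * x = x * ι t) (cy : ∀ t, ι t * y = y * ι t)
    (c' c₁ : Fˣ) (hc : ι c' = cc a x y) (hc₁ : (c₁ : F) = 1 - c') {P Q : F}
    (hPQ : P ^ 2 - (inc k F (a * d) : F) * Q ^ 2 = c') (β : Fˣ)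
    (hβ : (β : F) = 4 * (inc k F (a * d) : F) * c' * c₁) :
    ∃ (i j : D) (p₁ p₂ p₃ : F) (u : D), QElt ι (inc k F (a * d)) β i j P p₁ p₂ p₃ u ∧
      u * x = y * u ∧ u = ι (1 / (2 * c' * algebraMap k F a)) *
        ((ι (algebraMap k F a) + y * x) * (ι P + ι Q * (algebraMap K D s * x))) := by
  obtain ⟨δ, hδdef⟩ : ∃ δ : D, δ = algebraMap K D s := ⟨_, rfl⟩
  have hδc : ∀ z : D, δ * z = z * δ := fun z => by rw [hδdef]; exact Algebra.commutes _ _
  have hδδ : δ * δ = algebraMap k D d := by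
    rw [hδdef, ← map_mul, ← pow_two, hS.sq, ← IsScalarTower.algebraMap_apply]
  have hδs : star δ = -δ := by rw [hδdef]; exact star_sD hS
  have hα : ((inc k F (a * d) : Fˣ) : F) = algebraMap k F a * algebraMap k F d := by
    change algebraMap k F ((a * d : kˣ) : k) = _
    rw [Units.val_mul, map_mul]
  have ha0 : algebraMap k F a ≠ 0 := (_root_.map_ne_zero _).mpr a.ne_zero
  have hd0 : algebraMap k F d ≠ 0 := (_root_.map_ne_zero _).mpr d.ne_zero
  have hc0 : (c' : F) ≠ 0 := c'.ne_zero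
  have h2 : (2 : F) ≠ 0 := two_ne_zero
  let _ := cenAlg ι
  obtain ⟨X, hX⟩ : ∃ X : Cen ι, (X : D) = x := ⟨⟨x, mem_cen.mpr cx⟩, rfl⟩
  obtain ⟨Y, hY⟩ : ∃ Y : Cen ι, (Y : D) = y := ⟨⟨y, mem_cen.mpr cy⟩, rfl⟩
  obtain ⟨Δ, hΔ⟩ : ∃ Δ : Cen ι, (Δ : D) = δ := ⟨⟨δ, mem_cen.mpr fun t => (hδc _).symm⟩, rfl⟩
  have rX : X * X = (algebraMap k F a) • (1 : Cen ι) := Subtype.ext (by
    change (X : D) * X = ι (algebraMap k F a) * 1
    rw [hX, hx.2, AlgHom.commutes, mul_one])
  have rY : Y * Y = (algebraMap k F a) • (1 : Cen ι) := Subtype.ext (by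
    change (Y : D) * Y = ι (algebraMap k F a) * 1
    rw [hY, hy.2, AlgHom.commutes, mul_one])
  have rΔ : Δ * Δ = (algebraMap k F d) • (1 : Cen ι) := Subtype.ext (by
    change (Δ : D) * Δ = ι (algebraMap k F d) * 1
    rw [hΔ, hδδ, AlgHom.commutes, mul_one])
  have cX : Δ * X = X * Δ := Subtype.ext (by
    change (Δ : D) * X = X * Δ
    rw [hΔ, hδc])
  have cY : Δ * Y = Y * Δ := Subtype.ext (by
    change (Δ : D) * Y = Y * Δ
    rw [hΔ, hδc])
  have rXY : X * Y + Y * X = (2 * algebraMap k F a * (2 * (c' : F) - 1)) • (1 : Cen ι) :=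
    Subtype.ext (by
      change (X : D) * Y + Y * X = ι _ * 1
      rw [hX, hY, cc_anti hx hy, ← hc, mul_one, ← AlgHom.commutes ι, ← AlgHom.commutes ι,
        ← map_mul, ← map_sub]
      congr 1
      rw [map_mul, map_mul, map_ofNat, map_ofNat]
      ring)
  have id1 := key_id (P := P) (Q := Q) ha0 hd0 hc0 h2 rX rΔ cX cY rXY
  have id2 := key_sq rX rY rΔ cX cY rXY
  have hsx : star (y - ι (2 * c' - 1) * x) = y - ι (2 * c' - 1) * x := by
    rw [star_sub, star_mul, hx.1, hy.1, sym, cx]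
  rw [← hδdef]
  have h4 : ι P + ι Q * (δ * x) + ι (Q / (2 * c')) * (δ * (y - ι (2 * c' - 1) * x)) +
      ι (-P / (2 * (inc k F (a * d) : F) * c')) * (δ * x * (δ * (y - ι (2 * c' - 1) * x))) =
      ι (1 / (2 * c' * algebraMap k F a)) * ((ι (algebraMap k F a) + y * x) *
        (ι P + ι Q * (δ * x))) := by
    rw [hα, ← hX, ← hY, ← hΔ]
    have h5 : ι P * 1 + ι Q * ((Δ : D) * X) + ι (Q / (2 * c')) *
        ((Δ : D) * (Y - ι (2 * c' - 1) * X)) + ι (-P / (2 * (algebraMap k F a *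
        algebraMap k F d) * c')) * ((Δ : D) * X * (Δ * (Y - ι (2 * c' - 1) * X))) =
        ι (1 / (2 * c' * algebraMap k F a)) * ((ι (algebraMap k F a) * 1 + Y * X) *
          (ι P * 1 + ι Q * (Δ * X))) := congrArg Subtype.val id1
    simpa only [mul_one] using h5
  refine ⟨δ * x, δ * (y - ι (2 * c' - 1) * x), Q, Q / (2 * c'),
    -P / (2 * (inc k F (a * d) : F) * c'), _, ⟨⟨sym, ?_, ?_, ?_, ?_, ?_, ?_, ?_⟩, ?_, rfl⟩, ?_, h4⟩
  · rw [star_mul, hδs, hx.1, hδc, mul_neg]
  · rw [star_mul, hδs, hsx, hδc, mul_neg]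
  · have : δ * x * (δ * x) = (δ * δ) * (x * x) := by
      rw [mul_assoc δ x, ← mul_assoc x δ, ← hδc x, mul_assoc δ x, ← mul_assoc δ δ]
    rw [this, hδδ, hx.2, hα, map_mul, AlgHom.commutes, AlgHom.commutes, Algebra.commutes]
  · have h3 := congrArg Subtype.val id2
    have h4 : δ * (y - ι (2 * c' - 1) * x) * (δ * (y - ι (2 * c' - 1) * x)) =
        ι (4 * (algebraMap k F a * algebraMap k F d) * c' * (1 - c')) * 1 := by
      rw [← hX, ← hY, ← hΔ]
      exact h3
    rw [h4, mul_one, hβ, hα, hc₁]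
  · have e1 : δ * x * (δ * (y - ι (2 * c' - 1) * x)) =
        (δ * δ) * (x * y - ι (2 * c' - 1) * (x * x)) := by
      rw [mul_assoc δ x, ← mul_assoc x δ, ← hδc x, mul_assoc δ x, ← mul_assoc δ δ, mul_sub,
        ← mul_assoc x (ι _), ← cx, mul_assoc (ι _)]
    have e2 : δ * (y - ι (2 * c' - 1) * x) * (δ * x) =
        (δ * δ) * (y * x - ι (2 * c' - 1) * (x * x)) := by
      rw [mul_assoc δ (y - _), ← mul_assoc (y - _) δ, ← hδc (y - _), mul_assoc δ (y - _),
        ← mul_assoc δ δ, sub_mul, mul_assoc (ι _)]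
    have e3 : x * y + y * x = 2 * (ι (2 * c' - 1) * (x * x)) := by
      have h5 : (X : D) * Y + Y * X = ι (2 * algebraMap k F a * (2 * (c' : F) - 1)) * 1 :=
        congrArg Subtype.val rXY
      rw [hX, hY] at h5
      rw [h5, hx.2, mul_one, ← AlgHom.commutes ι, ← map_mul, ← map_ofNat ι 2, ← map_mul]
      congr 1
      ring
    rw [e1, e2, ← mul_neg]
    congr 1
    rw [eq_sub_iff_add_eq.mpr e3]
    noncomm_ring
  · intro t
    rw [← mul_assoc, ← hδc, mul_assoc, cx, mul_assoc]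
  · intro t
    rw [← mul_assoc, ← hδc, mul_assoc, mul_assoc]
    congr 1
    rw [mul_sub, sub_mul, cy, ← mul_assoc, ← map_mul, mul_comm t, map_mul, mul_assoc, cx,
      mul_assoc]
  · rw [hβ, hα, hc₁]
    rw [hα] at hPQ
    field_simp
    linear_combination 4 * hPQ
  · rw [h4]
    have e1 : (ι (algebraMap k F a) + y * x) * x = y * (ι (algebraMap k F a) + y * x) := by
      rw [add_mul, mul_add, mul_assoc y x x, hx.2, ← mul_assoc y y, hy.2, AlgHom.commutes,
        Algebra.commutes, ← Algebra.commutes _ x, add_comm, Algebra.commutes _ x]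
    have e2 : (ι P + ι Q * (δ * x)) * x = x * (ι P + ι Q * (δ * x)) := by
      rw [add_mul, mul_add, cx, mul_assoc (ι Q), ← mul_assoc x (ι Q), ← cx Q, mul_assoc (ι Q) x,
        ← mul_assoc x δ, ← hδc x]
    obtain ⟨L, hL⟩ : ∃ L, L = ι (1 / (2 * c' * algebraMap k F a)) := ⟨_, rfl⟩
    obtain ⟨M, hM⟩ : ∃ M, M = ι (algebraMap k F a) + y * x := ⟨_, rfl⟩
    obtain ⟨R, hR⟩ : ∃ R, R = ι P + ι Q * (δ * x) := ⟨_, rfl⟩
    rw [← hM] at e1
    rw [← hR] at e2
    have e3 : L * y = y * L := by rw [hL, cy]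
    rw [← hL, ← hM, ← hR, mul_assoc, mul_assoc, e2, ← mul_assoc M x, e1, mul_assoc y,
      ← mul_assoc L y, e3, mul_assoc y]

/-- The conjugating element. -/
theorem exists_qelt (hS : Setting k K D d s) {a : kˣ} {x y : D} (hx : x ∈ Xa D a)
    (hy : y ∈ Xa D a) {F : Type} [Field F] [NumberField F] [Algebra k F] (ι : F →ₐ[k] D)
    (sym : ∀ t, star (ι t) = ι t) (cx : ∀ t, ι t * x = x * ι t) (cy : ∀ t, ι t * y = y * ι t)
    (c' c₁ : Fˣ) (hc : ι c' = cc a x y) (hc₁ : (c₁ : F) = 1 - c') {P Q : F}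
    (hPQ : P ^ 2 - (inc k F (a * d) : F) * Q ^ 2 = c') (β : Fˣ)
    (hβ : (β : F) = 4 * (inc k F (a * d) : F) * c' * c₁) :
    ∃ (i j : D) (p₁ p₂ p₃ : F) (u : D), QElt ι (inc k F (a * d)) β i j P p₁ p₂ p₃ u ∧
      u * x = y * u := by
  obtain ⟨i, j, p₁, p₂, p₃, u, hu, hux, -⟩ :=
    exists_qelt' hS hx hy ι sym cx cy c' c₁ hc hc₁ hPQ β hβ
  exact ⟨i, j, p₁, p₂, p₃, u, hu, hux⟩

/-- Conjugation by an element of `N`. -/
theorem close_rel (hS : Setting k K D d s) {a : kˣ} {e : ℕ} (he : 0 < e) {N : Set D}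
    (h1N : (1 : D) ∈ N) (hN : HQ1 k e N) {x y : D} (hx : x ∈ Xa D a) (hy : y ∈ Xa D a)
    (h : Rel1 d e a x y) : ∃ u ∈ N, u * x = y * u := by
  classical
  rcases h with rfl | ⟨F, _, _, _, ι, c', c₁, sym, cx, cy, hc, hc₁, hcN, hloc⟩
  · exact ⟨1, h1N, by rw [one_mul, mul_one]⟩
  have hβ0 : (4 : F) * (inc k F (a * d) : F) * c' * c₁ ≠ 0 :=
    mul_ne_zero (mul_ne_zero (mul_ne_zero (by norm_num) (Units.ne_zero _)) c'.ne_zero) c₁.ne_zero
  obtain ⟨β, hβ⟩ : ∃ β : Fˣ, (β : F) = 4 * (inc k F (a * d) : F) * c' * c₁ :=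
    ⟨Units.mk0 _ hβ0, rfl⟩
  have hfin : {ω : HeightOneSpectrum (𝓞 F) |
      β ∉ NF (inc k F (a * d)) ⊔ LS (ω.valuation F)}.Finite := by
    have := bad_finite (inc k F (a * d)) β
    exact Set.Finite.preimage (Sum.inl_injective.injOn) this
  have hβ' : β * (-(c' * c₁)) ∈ NF (inc k F (a * d)) := by
    refine ⟨0, 2 * (c' * c₁), ?_⟩
    rw [Units.val_mul, Units.val_neg, Units.val_mul, hβ]
    ring
  obtain ⟨P, Q, hPQ, hPB⟩ := norm_near (inc k F (a * d)) c' hcN hfin.toFinset e he (by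
    intro ω hω
    rw [Set.Finite.mem_toFinset] at hω
    rcases hloc ω with h | h
    · exfalso
      apply hω
      have h2 : -(c' * c₁) ∈ NF (inc k F (a * d)) ⊔ LS (ω.valuation F) := by
        rw [← mul_neg]
        exact mul_mem (Subgroup.mem_sup_left hcN) h
      have h3 := mul_mem (Subgroup.mem_sup_left (T := LS (ω.valuation F)) hβ') (inv_mem h2)
      rwa [mul_inv_cancel_right] at h3
    · rwa [← hc₁])
  obtain ⟨i, j, p₁, p₂, p₃, u, hu, hux⟩ := exists_qelt hS hx hy ι sym cx cy c' c₁ hc hc₁ hPQ β hβ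
  exact ⟨u, hN F ι _ _ _ _ _ _ _ _ _ hu fun ω hω => hPB ω (by
    rw [Set.Finite.mem_toFinset]
    exact hω), hux⟩

/-- The local conditions imply the global one. -/
theorem rel1_of_loc (hS : Setting k K D d s) {n : ℕ} (B : Module.Basis (Fin n) k D) {e : ℕ}
    {a : kˣ} {x y : D} (hx : x ∈ Xa D a) (hy : y ∈ Xa D a) (hxy : x + y ≠ 0)
    (hF : ∀ v : HeightOneSpectrum (𝓞 k), a * d ∉ LS (v.valuation k) →
      LRel (a * d) e (.inl v) (cc a x y))
    (hR : ∀ φ : k →+* ℝ, φ ((a * d : kˣ) : k) < 0 → LRel (a * d) e (.inr φ) (cc a x y)) :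
    Rel1 d e a x y := by
  by_cases hc1 : cc a x y = 1
  · exact Or.inl (eq_of_cc hx hy hc1)
  obtain ⟨E, _, _, _, j, g, hg, hgen⟩ := exists_gen B (cc a x y)
  have hc0 := cc_ne_zero (a := a) hxy
  have hg0 : g ≠ 0 := by
    rintro rfl
    rw [map_zero] at hg
    exact hc0 hg.symm
  have hg1 : 1 - g ≠ 0 := by
    intro h
    apply hc1
    rw [← hg, ← sub_eq_zero.mp h, map_one]
  obtain ⟨c', hc'⟩ : ∃ c' : Eˣ, (c' : E) = g := ⟨Units.mk0 g hg0, rfl⟩
  have hj : j c' = cc a x y := by rw [hc', hg]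
  have hcom : ∀ z : D, cc a x y * z = z * cc a x y → ∀ t : E, j t * z = z * j t := by
    intro z hz t
    obtain ⟨p, rfl⟩ := hgen t
    rw [← aeval_algHom_apply, hg]
    induction p using Polynomial.induction_on' with
    | add p q hp hq => rw [map_add, add_mul, mul_add, hp, hq]
    | monomial n b =>
      rw [aeval_monomial, mul_assoc, ← mul_assoc z, ← Algebra.commutes b z, mul_assoc]
      congr 1
      exact (Commute.pow_left hz n)
  refine Or.inr ⟨E, inferInstance, inferInstance, inferInstance, j, c', Units.mk0 (1 - g) hg1,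
    ?_, hcom x ?_, hcom y ?_, hj, by rw [Units.val_mk0, hc'], ?_, ?_⟩
  · intro t
    obtain ⟨p, rfl⟩ := hgen t
    rw [← aeval_algHom_apply, hg]
    induction p using Polynomial.induction_on' with
    | add p q hp hq => rw [map_add, star_add, hp, hq]
    | monomial n a =>
      rw [aeval_monomial, star_mul, star_alg hS, star_pow, star_cc hS hx hy]
      exact (Algebra.commutes _ _).symm
  · have h1 : (x + y) * (x + y) * x = x * ((x + y) * (x + y)) := by
      have e1 : (x + y) * (x + y) * x - x * ((x + y) * (x + y)) =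
          ((y * y) * x - x * (y * y)) + (y * (x * x) - (x * x) * y) := by
        noncomm_ring
      rw [← sub_eq_zero, e1, hy.2, hx.2, Algebra.commutes, sub_self, Algebra.commutes, sub_self,
        add_zero]
    rw [cc, mul_assoc, Algebra.commutes _ x, ← mul_assoc, h1, mul_assoc]
  · have h1 : (x + y) * (x + y) * y = y * ((x + y) * (x + y)) := by
      have e1 : (x + y) * (x + y) * y - y * ((x + y) * (x + y)) =
          ((x * x) * y - y * (x * x)) + (x * (y * y) - (y * y) * x) := by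
        noncomm_ring
      rw [← sub_eq_zero, e1, hy.2, hx.2, Algebra.commutes, sub_self, Algebra.commutes, sub_self,
        add_zero]
    rw [cc, mul_assoc, Algebra.commutes _ y, ← mul_assoc, h1, mul_assoc]
  · refine hasse_norm _ _ fun p => ?_
    rcases p with w | ψ
    · obtain ⟨v, hw⟩ := Arith.exists_below (F := k) w
      by_cases hd : a * d ∈ LS (v.valuation k)
      · exact mem_of_split hw hd c'
      · exact ((hF v hd E j c' hj).1 v rfl w hw).1
    · by_cases hd : 0 < ψ (algebraMap k E (a * d : kˣ))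
      · exact mem_of_split_real hd c'
      · have hφ : (ψ.comp (algebraMap k E)) ((a * d : kˣ) : k) < 0 := by
          refine lt_of_le_of_ne (not_lt.mp hd) ?_
          exact (_root_.map_ne_zero _).mpr (a * d).ne_zero
        exact Subgroup.mem_sup_right ((hR _ hφ E j c' hj).2 _ rfl ψ rfl)
  · intro w
    obtain ⟨v, hw⟩ := Arith.exists_below (F := k) w
    by_cases hd : a * d ∈ LS (v.valuation k)
    · exact Or.inl (mem_of_split hw hd _)
    · exact ((hF v hd E j c' hj).1 v rfl w hw).2 _ (by rw [Units.val_mk0, hc'])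

end main

end Vale.Agent.P011.One
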