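import Vale.Agent.P011.Two.Shift
import Mathlib.Algebra.QuadraticAlgebra.Basic
import Mathlib.RingTheory.Polynomial.Resultant.Basic

/-!
The norm of a quadratic polynomial with coefficients in a division algebra which splits over a
quadratic extension, and the integrality of the inverse of its values.
-/

open NumberField IsDedekindDomain Polynomial

set_option linter.unusedSectionVars false

namespace Vale.Agent.P011.One

open Vale.Agent.P011.Arith Vale.Agent.P011.Even Vale.Agent.P011.Two

section mat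

variable {k : Type} [Field k] {c : k} {N : ℕ}

/-- The inclusion of matrices over `k` in matrices over `k(√c)`. -/
noncomputable def emb (c : k) : Matrix (Fin N) (Fin N) k →+*
    Matrix (Fin N) (Fin N) (QuadraticAlgebra k c 0) :=
  (algebraMap k (QuadraticAlgebra k c 0)).mapMatrix

/-- The matrix `U + √c V`. -/
noncomputable def qm (c : k) (U V : Matrix (Fin N) (Fin N) k) :
    Matrix (Fin N) (Fin N) (QuadraticAlgebra k c 0) :=
  emb c U + Matrix.scalar (Fin N) QuadraticAlgebra.omega * emb c V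

/-- The determinant of `X + U + √c V`. -/
noncomputable def qp (c : k) (U V : Matrix (Fin N) (Fin N) k) : (QuadraticAlgebra k c 0)[X] :=
  (-(qm c U V)).charpoly

theorem omega_sq : (QuadraticAlgebra.omega : QuadraticAlgebra k c 0) * QuadraticAlgebra.omega =
    algebraMap k _ c := by
  rw [QuadraticAlgebra.omega_mul_omega_eq_mk]
  ext <;> simp

theorem star_omega : star (QuadraticAlgebra.omega : QuadraticAlgebra k c 0) =
    -QuadraticAlgebra.omega := by
  ext <;> simp

theorem star_algMap (x : k) : star (algebraMap k (QuadraticAlgebra k c 0) x) =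
    algebraMap k _ x := by
  ext <;> simp

theorem map_star_emb (U : Matrix (Fin N) (Fin N) k) :
    (starRingEnd (QuadraticAlgebra k c 0)).mapMatrix (emb c U) = emb c U := by
  ext i j : 1
  exact star_algMap (c := c) (U i j)

theorem map_star_qm (U V : Matrix (Fin N) (Fin N) k) :
    (starRingEnd (QuadraticAlgebra k c 0)).mapMatrix (qm c U V) = qm c U (-V) := by
  rw [qm, qm, map_add, map_mul, map_star_emb, map_star_emb, map_neg, mul_neg, ← neg_mul]
  congr 2
  ext i j : 1
  rw [RingHom.mapMatrix_apply, Matrix.map_apply, Matrix.neg_apply, Matrix.scalar_apply,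
    Matrix.diagonal_apply]
  by_cases hij : i = j
  · rw [if_pos hij]
    exact star_omega
  · rw [if_neg hij, map_zero, neg_zero]

theorem qp_map_star (U V : Matrix (Fin N) (Fin N) k) :
    (qp c U V).map (starRingEnd (QuadraticAlgebra k c 0)) = qp c U (-V) := by
  rw [qp, qp, ← Matrix.charpoly_map]
  congr 1
  change (starRingEnd (QuadraticAlgebra k c 0)).mapMatrix (-(qm c U V)) = _
  rw [map_neg, map_star_qm]

theorem qp_monic (U V : Matrix (Fin N) (Fin N) k) : (qp c U V).Monic :=
  Matrix.charpoly_monic _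

theorem qp_natDegree (U V : Matrix (Fin N) (Fin N) k) : (qp c U V).natDegree = N := by
  rw [qp, Matrix.charpoly_natDegree_eq_dim, Fintype.card_fin]

theorem eval_qp (U V : Matrix (Fin N) (Fin N) k) (z : QuadraticAlgebra k c 0) :
    (qp c U V).eval z = (Matrix.scalar (Fin N) z + qm c U V).det := by
  rw [qp, Matrix.eval_charpoly, sub_neg_eq_add]

theorem emb_scalar (z : k) : emb c (Matrix.scalar (Fin N) z) =
    Matrix.scalar (Fin N) (algebraMap k (QuadraticAlgebra k c 0) z) := by
  ext i j : 1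
  by_cases hij : i = j
  · subst hij
    simp [emb]
  · simp [emb, hij]

/-- The factorisation of the determinant. -/
theorem det_fact (U V C : Matrix (Fin N) (Fin N) k) (h1 : C * V = V * C)
    (h2 : U * C * V = V * C * U) (z : k) :
    algebraMap k (QuadraticAlgebra k c 0) (((Matrix.scalar (Fin N) z + U) * C *
        (Matrix.scalar (Fin N) z + U) - c • (V * C * V)).det) =
      star ((qp c U V).eval (algebraMap k _ z)) * algebraMap k _ C.det *
        (qp c U V).eval (algebraMap k _ z) := by
  have hs : star ((qp c U V).eval (algebraMap k _ z)) =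
      (Matrix.scalar (Fin N) (algebraMap k _ z) + qm c U (-V)).det := by
    rw [← eval_qp, ← qp_map_star]
    have e := Polynomial.eval_map_apply (starRingEnd (QuadraticAlgebra k c 0))
      (p := qp c U V) (algebraMap k (QuadraticAlgebra k c 0) z)
    rw [show starRingEnd (QuadraticAlgebra k c 0) (algebraMap k (QuadraticAlgebra k c 0) z) =
      algebraMap k (QuadraticAlgebra k c 0) z from star_algMap z] at e
    exact e.symm
  rw [hs, eval_qp, RingHom.map_det, RingHom.map_det]
  change (emb c _).det = _ * (emb c C).det * _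
  rw [← Matrix.det_mul, ← Matrix.det_mul]
  congr 1
  obtain ⟨w, hw⟩ : ∃ w : Matrix (Fin N) (Fin N) (QuadraticAlgebra k c 0),
    w = Matrix.scalar (Fin N) QuadraticAlgebra.omega := ⟨_, rfl⟩
  have hwc : ∀ x, w * x = x * w := by
    intro x
    rw [hw]
    exact (Matrix.scalar_commute _ (fun r => Commute.all _ r) x).eq
  have hww : w * w = emb c (Matrix.scalar (Fin N) c) := by
    rw [hw, ← map_mul, omega_sq, emb_scalar]
  rw [qm, qm, ← hw, ← emb_scalar]
  have h3 : c • (V * C * V) = Matrix.scalar (Fin N) c * (V * C * V) := by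
    rw [Matrix.smul_eq_diagonal_mul]
    rfl
  obtain ⟨A, hA⟩ : ∃ A, A = Matrix.scalar (Fin N) z + U := ⟨_, rfl⟩
  have h4 : A * C * V = V * C * A := by
    have e1 : Matrix.scalar (Fin N) z * (C * V) = (V * C) * Matrix.scalar (Fin N) z := by
      rw [h1]
      exact (Matrix.scalar_commute _ (fun r => Commute.all _ r) _).eq
    rw [hA, add_mul, add_mul, h2, mul_assoc _ C V, e1, mul_add]
  rw [h3, ← hA, ← add_assoc, ← add_assoc, ← map_add, ← hA]
  have h5 : emb c A * emb c C * emb c V = emb c V * emb c C * emb c A := by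
    rw [← map_mul, ← map_mul, h4, map_mul, map_mul]
  rw [map_sub, map_mul, map_mul, map_mul, map_mul, map_mul, ← hww, map_neg]
  obtain ⟨a, ha⟩ : ∃ a, a = emb c A := ⟨_, rfl⟩
  obtain ⟨b, hb⟩ : ∃ b, b = emb c C := ⟨_, rfl⟩
  obtain ⟨v, hv⟩ : ∃ v, v = emb c V := ⟨_, rfl⟩
  rw [← ha, ← hb, ← hv] at h5 ⊢
  have e1 : a * b * (w * v) = w * (a * b * v) := by
    rw [← mul_assoc, ← hwc (a * b), mul_assoc]
  have e2 : v * b * (w * v) = w * (v * b * v) := by
    rw [← mul_assoc, ← hwc (v * b), mul_assoc]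
  calc a * b * a - w * w * (v * b * v)
      = a * b * a + w * (a * b * v) - w * (v * b * a) - w * (w * (v * b * v)) := by
        rw [h5, mul_assoc w w]
        abel
    _ = a * b * a + a * b * (w * v) - w * (v * b * a) - w * (v * b * (w * v)) := by
        rw [e1, e2]
    _ = _ := by noncomm_ring

theorem fact_ns {c : k} (h : ¬ IsSquare c) : Fact (∀ r : k, r ^ 2 ≠ c + 0 * r) :=
  ⟨fun r hr => h ⟨r, by rw [← sq, hr, zero_mul, add_zero]⟩⟩

/-- The polynomial of the matrix and its conjugate are coprime. -/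
def Cop (c : k) (U V : Matrix (Fin N) (Fin N) k) : Prop :=
  IsCoprime (qp c U V) ((qp c U V).map (starRingEnd (QuadraticAlgebra k c 0)))

end mat

section det

variable {k D : Type} [Field k] [NumberField k] [DivisionRing D] [Algebra k D] {N : ℕ}
  {B : Module.Basis (Fin N) k D} {v : HeightOneSpectrum (𝓞 k)}

/-- The matrix of left multiplication. -/
noncomputable def lm (B : Module.Basis (Fin N) k D) : D →ₐ[k] Matrix (Fin N) (Fin N) k :=
  Algebra.leftMulMatrix B

theorem lm_val_le (hm : MulC B v) {x : D} (hx : Ing B v x) (i j : Fin N) :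
    v.valuation k (lm B x i j) ≤ 1 := by
  rw [lm, Algebra.leftMulMatrix_eq_repr_mul]
  exact Ing.mul hm hx (Ing.basis j) i

/-- A matrix with integral entries comes from the valuation ring. -/
theorem exists_int {M : Matrix (Fin N) (Fin N) k} (h : ∀ i j, v.valuation k (M i j) ≤ 1) :
    ∃ M₀ : Matrix (Fin N) (Fin N) (v.valuation k).integer,
      (v.valuation k).integer.subtype.mapMatrix M₀ = M :=
  ⟨Matrix.of fun i j => ⟨M i j, h i j⟩, by ext i j; rfl⟩

theorem val_det_le {M : Matrix (Fin N) (Fin N) k} (h : ∀ i j, v.valuation k (M i j) ≤ 1) :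
    v.valuation k M.det ≤ 1 := by
  obtain ⟨M₀, rfl⟩ := exists_int h
  rw [← RingHom.map_det]
  exact M₀.det.2

theorem val_adj_le {M : Matrix (Fin N) (Fin N) k} (h : ∀ i j, v.valuation k (M i j) ≤ 1)
    (i j : Fin N) : v.valuation k (M.adjugate i j) ≤ 1 := by
  obtain ⟨M₀, rfl⟩ := exists_int h
  rw [← RingHom.map_adjugate]
  exact (M₀.adjugate i j).2

theorem det_lm_ne_zero {x : D} (hx : x ≠ 0) : (lm B x).det ≠ 0 := by
  intro h
  have h1 : (lm B x) * lm B x⁻¹ = 1 := by rw [← map_mul, mul_inv_cancel₀ hx, map_one]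
  have h2 := congrArg Matrix.det h1
  rw [Matrix.det_mul, h, zero_mul, Matrix.det_one] at h2
  exact zero_ne_one h2

theorem ne_zero_of_det [NeZero N] {x : D} (h : (lm B x).det ≠ 0) : x ≠ 0 := by
  rintro rfl
  apply h
  have _ : Nonempty (Fin N) := ⟨0⟩
  rw [map_zero, Matrix.det_zero]

/-- The inverse of an element with integral coordinates is integral when the norm is a unit. -/
theorem ing_inv_of_det (hm : MulC B v) (h1 : Ing B v (1 : D)) {x : D} (hx : Ing B v x)
    (hdet : v.valuation k (lm B x).det = 1) : Ing B v x⁻¹ := by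
  by_cases hx0 : x = 0
  · rw [hx0, inv_zero]
    exact Ing.zero
  intro l
  have e1 : (lm B x).adjugate.mulVec ((lm B x).mulVec (B.repr x⁻¹)) =
      (lm B x).det • (B.repr x⁻¹ : Fin N → k) := by
    rw [Matrix.mulVec_mulVec, Matrix.adjugate_mul, Matrix.smul_mulVec, Matrix.one_mulVec]
  rw [show (lm B x).mulVec (B.repr x⁻¹) = B.repr (x * x⁻¹) from
    Algebra.leftMulMatrix_mulVec_repr B x x⁻¹, mul_inv_cancel₀ hx0] at e1
  have e2 := congrFun e1 l
  rw [Pi.smul_apply, smul_eq_mul] at e2
  have e3 : v.valuation k (B.repr x⁻¹ l) = v.valuation k ((lm B x).det * B.repr x⁻¹ l) := by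
    rw [map_mul, hdet, one_mul]
  rw [e3, ← e2, Matrix.mulVec, dotProduct]
  refine val_sum_le v _ _ fun j _ => ?_
  rw [map_mul]
  exact mul_le_one' (val_adj_le (lm_val_le hm hx) l j) (h1 j)

/-- The integral elements of `k(√c)`. -/
def KI (c : k) (v : HeightOneSpectrum (𝓞 k)) (hc : v.valuation k c ≤ 1) :
    Subring (QuadraticAlgebra k c 0) where
  carrier := {w | v.valuation k w.re ≤ 1 ∧ v.valuation k w.im ≤ 1}
  mul_mem' := by
    rintro x y ⟨hx, hx'⟩ ⟨hy, hy'⟩
    refine ⟨?_, ?_⟩
    · rw [QuadraticAlgebra.re_mul]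
      refine (Valuation.map_add _ _ _).trans (max_le ?_ ?_)
      · rw [map_mul]; exact mul_le_one' hx hy
      · rw [map_mul, map_mul]; exact mul_le_one' (mul_le_one' hc hx') hy'
    · rw [QuadraticAlgebra.im_mul, zero_mul, zero_mul, add_zero]
      refine (Valuation.map_add _ _ _).trans (max_le ?_ ?_)
      · rw [map_mul]; exact mul_le_one' hx hy'
      · rw [map_mul]; exact mul_le_one' hx' hy
  one_mem' := ⟨by rw [QuadraticAlgebra.re_one, map_one],
    by rw [QuadraticAlgebra.im_one, map_zero]; exact zero_le_one⟩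
  add_mem' := by
    rintro x y ⟨hx, hx'⟩ ⟨hy, hy'⟩
    exact ⟨(Valuation.map_add _ _ _).trans (max_le hx hy),
      (Valuation.map_add _ _ _).trans (max_le hx' hy')⟩
  zero_mem' := ⟨by rw [QuadraticAlgebra.re_zero, map_zero]; exact zero_le_one,
    by rw [QuadraticAlgebra.im_zero, map_zero]; exact zero_le_one⟩
  neg_mem' := by
    rintro x ⟨hx, hx'⟩
    exact ⟨by rw [QuadraticAlgebra.re_neg, Valuation.map_neg]; exact hx,
      by rw [QuadraticAlgebra.im_neg, Valuation.map_neg]; exact hx'⟩

theorem eval_mem_KI {c : k} {hc : v.valuation k c ≤ 1} {p : (QuadraticAlgebra k c 0)[X]}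
    (hp : ∀ i, p.coeff i ∈ KI c v hc) {z : k} (hz : v.valuation k z ≤ 1) :
    p.eval (algebraMap k _ z) ∈ KI c v hc := by
  have hz' : algebraMap k (QuadraticAlgebra k c 0) z ∈ KI c v hc :=
    ⟨by simpa using hz, by simp⟩
  rw [Polynomial.eval_eq_sum_range]
  exact Subring.sum_mem _ fun i _ => Subring.mul_mem _ (hp i) (Subring.pow_mem _ hz' i)

/-- The coefficients of a polynomial are integral at almost all places. -/
theorem finite_not_poly' {c : k} (p : (QuadraticAlgebra k c 0)[X]) :
    {v : HeightOneSpectrum (𝓞 k) | ¬ ∀ i, v.valuation k (p.coeff i).re ≤ 1 ∧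
      v.valuation k (p.coeff i).im ≤ 1}.Finite := by
  have h1 : (⋃ i ∈ p.support, ({v : HeightOneSpectrum (𝓞 k) |
      ¬ v.valuation k (p.coeff i).re ≤ 1} ∪ {v | ¬ v.valuation k (p.coeff i).im ≤ 1})).Finite :=
    (Finset.finite_toSet p.support).biUnion fun i _ => (finite_not_le _).union (finite_not_le _)
  refine h1.subset fun v hv => ?_
  simp only [Set.mem_ofPred_eq, not_forall] at hv
  obtain ⟨i, hi⟩ := hv
  have his : i ∈ p.support := by
    rw [Polynomial.mem_support_iff]
    intro h0
    apply hi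
    rw [h0]
    simp
  refine Set.mem_biUnion his ?_
  by_contra hcon
  rw [Set.mem_union, not_or] at hcon
  exact hi ⟨not_not.mp hcon.1, not_not.mp hcon.2⟩

/-- A value of a polynomial coprime to its conjugate is a unit at the nonsplit places. -/
theorem norm_unit {c : kˣ} {q A A' : (QuadraticAlgebra k (c : k) 0)[X]}
    (hrel : A * q + A' * q.map (starRingEnd _) = 1) (hns : c ∉ LS (v.valuation k))
    (h2 : v.valuation k 2 = 1) (hc : v.valuation k (c : k) = 1)
    (hq : ∀ i, q.coeff i ∈ KI (c : k) v hc.le) (hA : ∀ i, A.coeff i ∈ KI (c : k) v hc.le)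
    (hA' : ∀ i, A'.coeff i ∈ KI (c : k) v hc.le) {z : k} (hz : v.valuation k z ≤ 1) :
    v.valuation k (QuadraticAlgebra.norm (q.eval (algebraMap k _ z))) = 1 := by
  obtain ⟨hx, hy⟩ := eval_mem_KI hq hz
  obtain ⟨w, hw⟩ : ∃ w, w = q.eval (algebraMap k _ z) := ⟨_, rfl⟩
  rw [← hw] at hx hy ⊢
  have hn : QuadraticAlgebra.norm w = w.re ^ 2 - c * w.im ^ 2 := by
    rw [QuadraticAlgebra.norm_def]
    ring
  rw [hn]
  refine le_antisymm ?_ ?_
  · refine (Valuation.map_sub _ _ _).trans (max_le ?_ ?_)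
    · rw [map_pow]; exact pow_le_one₀ zero_le hx
    · rw [map_mul, map_pow, hc, one_mul]; exact pow_le_one₀ zero_le hy
  · by_contra hlt
    rw [not_le] at hlt
    obtain ⟨hx1, hy1⟩ := small_of_norm_small hns h2 hc hx hy hlt
    obtain ⟨ha1, ha2⟩ := eval_mem_KI hA hz
    obtain ⟨hb1, hb2⟩ := eval_mem_KI hA' hz
    have e := congrArg (fun f => Polynomial.eval (algebraMap k _ z) f) hrel
    have hst : (q.map (starRingEnd (QuadraticAlgebra k (c : k) 0))).eval (algebraMap k _ z) =
        star w := by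
      have e := Polynomial.eval_map_apply (starRingEnd (QuadraticAlgebra k (c : k) 0))
        (p := q) (algebraMap k (QuadraticAlgebra k (c : k) 0) z)
      rw [show starRingEnd (QuadraticAlgebra k (c : k) 0)
        (algebraMap k (QuadraticAlgebra k (c : k) 0) z) =
        algebraMap k (QuadraticAlgebra k (c : k) 0) z from star_algMap z] at e
      rw [e, hw]
      rfl
    simp only [Polynomial.eval_add, Polynomial.eval_mul, Polynomial.eval_one] at e
    rw [hst, ← hw] at e
    have e2 := congrArg QuadraticAlgebra.re e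
    rw [QuadraticAlgebra.re_add, QuadraticAlgebra.re_mul, QuadraticAlgebra.re_mul,
      QuadraticAlgebra.re_star, QuadraticAlgebra.im_star, QuadraticAlgebra.re_one, zero_mul,
      add_zero] at e2
    have h3 : v.valuation k (1 : k) < 1 := by
      rw [← e2]
      refine (Valuation.map_add _ _ _).trans_lt (max_lt ?_ ?_)
      · refine (Valuation.map_add _ _ _).trans_lt (max_lt ?_ ?_)
        · rw [map_mul, mul_comm]; exact mul_lt_one_of_lt_of_le hx1 ha1
        · rw [map_mul, map_mul, hc, one_mul, mul_comm]; exact mul_lt_one_of_lt_of_le hy1 ha2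
      · refine (Valuation.map_add _ _ _).trans_lt (max_lt ?_ ?_)
        · rw [map_mul, mul_comm]; exact mul_lt_one_of_lt_of_le hx1 hb1
        · rw [map_mul, map_mul, hc, one_mul, Valuation.map_neg, mul_comm]
          exact mul_lt_one_of_lt_of_le hy1 hb2
    rw [map_one] at h3
    exact lt_irrefl _ h3

/-- The quadratic expression. -/
def EE (c : k) (U V C : D) (z : k) : D :=
  (algebraMap k D z + U) * C * (algebraMap k D z + U) - c • (V * C * V)

theorem lm_algebraMap (z : k) : lm B (algebraMap k D z) = Matrix.scalar (Fin N) z := by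
  rw [AlgHom.commutes]
  rfl

theorem det_EE {c : k} {U V C : D} (h1 : C * V = V * C) (h2 : U * C * V = V * C * U) (z : k) :
    (lm B (EE c U V C z)).det = (lm B C).det *
      QuadraticAlgebra.norm ((qp c (lm B U) (lm B V)).eval (algebraMap k _ z)) := by
  apply (algebraMap k (QuadraticAlgebra k c 0)).injective
  rw [map_mul, QuadraticAlgebra.algebraMap_norm_eq_mul_star, EE, map_sub, map_mul, map_mul,
    map_add, lm_algebraMap, map_smul, map_mul, map_mul, det_fact]
  · ring
  · rw [← map_mul, h1, map_mul]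
  · rw [← map_mul, ← map_mul, h2, map_mul, map_mul]

theorem EE_ne_zero {c : k} (hc : ¬ IsSquare c) {U V C : D} (hC : C ≠ 0) (h1 : C * V = V * C)
    (h2 : U * C * V = V * C * U) (hcop : Cop c (lm B U) (lm B V)) (z : k) :
    EE c U V C z ≠ 0 := by
  have hN : N ≠ 0 := by
    rintro rfl
    apply hC
    apply B.repr.injective
    ext i
    exact i.elim0
  have _ : NeZero N := ⟨hN⟩
  apply ne_zero_of_det (B := B)
  rw [det_EE h1 h2]
  refine mul_ne_zero (det_lm_ne_zero hC) ?_
  have _ := fact_ns hc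
  rw [Ne, QuadraticAlgebra.norm_eq_zero_iff_eq_zero]
  intro h0
  obtain ⟨A, A', hrel⟩ := hcop
  have e := congrArg (fun f => Polynomial.eval (algebraMap k _ z) f) hrel
  have hst := Polynomial.eval_map_apply (starRingEnd (QuadraticAlgebra k c 0))
        (p := qp c (lm B U) (lm B V)) (algebraMap k (QuadraticAlgebra k c 0) z)
  rw [show starRingEnd (QuadraticAlgebra k c 0)
        (algebraMap k (QuadraticAlgebra k c 0) z) =
        algebraMap k (QuadraticAlgebra k c 0) z from star_algMap z, h0, map_zero] at hst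
  simp only [Polynomial.eval_add, Polynomial.eval_mul, Polynomial.eval_one] at e
  rw [hst, h0, mul_zero, mul_zero, add_zero] at e
  exact zero_ne_one e

/-- The inverse of the quadratic expression is integral at the nonsplit places outside a finite
set. -/
theorem cop_ing {c : kˣ} {U V C : D} (hC : C ≠ 0) (h1 : C * V = V * C)
    (h2 : U * C * V = V * C * U) (hcop : Cop (c : k) (lm B U) (lm B V)) :
    ∃ T : Set (HeightOneSpectrum (𝓞 k)), T.Finite ∧ ∀ v ∉ T, MulC B v → Ing B v (1 : D) →
      v.valuation k 2 = 1 → c ∉ LS (v.valuation k) →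
      (Ing B v U ∧ Ing B v V ∧ Ing B v C) ∧
      ∀ z : k, v.valuation k z ≤ 1 → Ing B v (EE (c : k) U V C z)⁻¹ := by
  obtain ⟨A, A', hrel⟩ := hcop
  obtain ⟨q, hq⟩ : ∃ q, q = qp (c : k) (lm B U) (lm B V) := ⟨_, rfl⟩
  rw [← hq] at hrel
  obtain ⟨T, hT⟩ : ∃ T : Set (HeightOneSpectrum (𝓞 k)), T =
    {v | ¬ Ing B v U} ∪ {v | ¬ Ing B v V} ∪ {v | ¬ Ing B v C} ∪
    {v | ¬ Ing B v (algebraMap k D c)} ∪
    {v | v.valuation k ((Units.mk0 _ (det_lm_ne_zero (B := B) hC) : kˣ) : k) ≠ 1} ∪
    {v | v.valuation k (c : k) ≠ 1} ∪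
    {v | ¬ ∀ i, v.valuation k (q.coeff i).re ≤ 1 ∧ v.valuation k (q.coeff i).im ≤ 1} ∪
    {v | ¬ ∀ i, v.valuation k (A.coeff i).re ≤ 1 ∧ v.valuation k (A.coeff i).im ≤ 1} ∪
    {v | ¬ ∀ i, v.valuation k (A'.coeff i).re ≤ 1 ∧ v.valuation k (A'.coeff i).im ≤ 1} :=
    ⟨_, rfl⟩
  refine ⟨T, ?_, fun v hv hm hone htwo hns => ?_⟩
  · rw [hT]
    exact ((((((((finite_not_ing B U).union (finite_not_ing B V)).union
      (finite_not_ing B C)).union (finite_not_ing B _)).union (finite_ne_one _)).union
      (finite_ne_one _)).union (finite_not_poly' q)).union (finite_not_poly' A)).union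
      (finite_not_poly' A')
  · rw [hT] at hv
    simp only [Set.mem_union, not_or, Set.mem_ofPred_eq, not_not, Units.val_mk0, Ne] at hv
    obtain ⟨⟨⟨⟨⟨⟨⟨⟨hU, hV⟩, hCI⟩, hcI⟩, hdC⟩, hc⟩, hqI⟩, hAI⟩, hA'I⟩ := hv
    refine ⟨⟨hU, hV, hCI⟩, fun z hz => ?_⟩
    have hn := norm_unit hrel hns htwo hc (fun i => hqI i) (fun i => hAI i) (fun i => hA'I i) hz
    refine ing_inv_of_det hm hone ?_ ?_
    · have hzI : Ing B v (algebraMap k D z + U) := by
        refine Ing.add ?_ hU
        rw [Algebra.algebraMap_eq_smul_one]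
        exact hone.smul hz
      rw [EE, sub_eq_add_neg]
      exact (Ing.mul hm (Ing.mul hm hzI hCI) hzI).add
        ((Ing.mul hm (Ing.mul hm hV hCI) hV).smul hc.le).neg
    · rw [det_EE h1 h2, map_mul, hdC, one_mul, ← hq]
      exact hn

end det

end Vale.Agent.P011.One
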