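import Vale.Agent.P011.Two.Tr
import Vale.Agent.P011.Even.LocFin

/-!
Symmetric elements of trace zero whose inverse has trace zero give symmetric square roots of
central elements, in degree four.
-/

open Module Polynomial

set_option linter.unusedSectionVars false

namespace Vale.Agent.P011.One.XE

open Vale.Agent.P011.Arith Vale.Agent.P011.Even

section deg

variable {K D : Type} [Field K] [DivisionRing D] [Algebra K D] [FiniteDimensional K D]

open scoped IsMulCommutative in
theorem natDegree_dvd (x : D) : (minpoly K x).natDegree ∣ finrank K D := by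
  have _ : IsMulCommutative (Algebra.adjoin K {x}) := by
    apply IsMulCommutative.of_setLike_mul_comm
    intro a ha b hb
    rw [Algebra.adjoin_singleton_eq_range_aeval] at ha hb
    obtain ⟨p, rfl⟩ := ha
    obtain ⟨q, rfl⟩ := hb
    change aeval x p * aeval x q = aeval x q * aeval x p
    rw [← map_mul, mul_comm, map_mul]
  let _ : Field (Algebra.adjoin K {x}) := fieldOfFiniteDimensional K _
  obtain ⟨g, hg⟩ : ∃ g : Algebra.adjoin K {x}, g = ⟨x, Algebra.self_mem_adjoin_singleton K x⟩ :=
    ⟨_, rfl⟩
  have hgx : (Algebra.adjoin K {x}).val g = x := by rw [hg]; rfl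
  have hm : minpoly K g = minpoly K x := by
    have h := minpoly.algHom_eq (Algebra.adjoin K {x}).val Subtype.val_injective g
    rw [hgx] at h
    exact h.symm
  have h4 : finrank K (IntermediateField.adjoin K {g}) *
      finrank (IntermediateField.adjoin K {g}) (Algebra.adjoin K {x}) =
      finrank K (Algebra.adjoin K {x}) := Module.finrank_mul_finrank _ _ _
  rw [IntermediateField.adjoin.finrank (IsIntegral.of_finite K g), hm] at h4
  have h5 : finrank K (Algebra.adjoin K {x}) * finrank (Algebra.adjoin K {x}) D =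
    finrank K D := Module.finrank_mul_finrank _ _ _
  rw [← h5, ← h4, mul_assoc]
  exact Dvd.intro _ rfl

theorem li_of_deg (x : D) {n : ℕ} (hn : (minpoly K x).natDegree = n) :
    LinearIndependent K (fun i : Fin n => x ^ (i : ℕ)) := by
  rw [Fintype.linearIndependent_iff]
  intro a ha
  by_contra hne
  push Not at hne
  obtain ⟨i, hi⟩ := hne
  let p : K[X] := ∑ i : Fin n, C (a i) * X ^ (i : ℕ)
  have hp : aeval x p = 0 := by
    rw [← ha, map_sum]
    refine Finset.sum_congr rfl fun i _ => ?_
    rw [map_mul, aeval_C, map_pow, aeval_X, Algebra.smul_def]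
  have hcoeff : p.coeff (i : ℕ) = a i := by
    simp only [p, finsetSum_coeff, coeff_C_mul, coeff_X_pow]
    rw [Finset.sum_eq_single i]
    · simp
    · intro j _ hj
      rw [if_neg (fun h => hj (Fin.ext h.symm)), mul_zero]
    · intro h; exact absurd (Finset.mem_univ i) h
  have hp0 : p ≠ 0 := by
    intro h
    rw [h, coeff_zero] at hcoeff
    exact hi hcoeff.symm
  have hpn : p.degree < n := degree_sum_fin_lt a
  have h1 := minpoly.degree_le_of_ne_zero K x hp0 hp
  have h2 : (minpoly K x).degree = n := by
    rw [← hn]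
    exact degree_eq_natDegree (minpoly.ne_zero (IsIntegral.of_finite K x))
  rw [h2] at h1
  exact absurd hpn (not_lt.mpr h1)

theorem natDegree_le [Algebra.IsCentral K D] [CharZero K] {n : ℕ} (hn : 0 < n)
    (hdeg : finrank K D = n ^ 2) (z : D) : (minpoly K z).natDegree ≤ n := by
  obtain ⟨f⟩ := Vale.Agent.P011S.exists_split (K := K) (D := D) hdeg (AlgebraicClosure K)
  by_contra hcon
  push Not at hcon
  have h0 := li_of_deg (K := K) z rfl
  have h : LinearIndependent K (fun i : Fin (n + 1) => z ^ (i : ℕ)) :=
    h0.comp (fun i : Fin (n + 1) => (⟨i, by omega⟩ : Fin (minpoly K z).natDegree)) (by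
      intro i j hij
      exact Fin.ext (Fin.mk.inj_iff.mp hij))
  have h2 := Vale.Agent.P011S.SF.split_indep hn f _ h
  rw [Fintype.linearIndependent_iff] at h2
  have hcd : (f z).charpoly.natDegree = n := by
    rw [Matrix.charpoly_natDegree_eq_dim, Fintype.card_fin]
  have h3 := h2 (fun i => (f z).charpoly.coeff (i : ℕ)) (by
    have h4 := Matrix.aeval_self_charpoly (f z)
    rw [aeval_eq_sum_range, hcd, Finset.sum_range] at h4
    rw [← h4]
    exact Finset.sum_congr rfl fun i _ => by rw [map_pow]) (Fin.last n)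
  have h5 : (f z).charpoly.coeff n = 1 := by
    have h6 := (f z).charpoly_monic.coeff_natDegree
    rwa [hcd] at h6
  rw [Fin.val_last, h5] at h3
  exact one_ne_zero h3

theorem deg_cases [Algebra.IsCentral K D] [CharZero K] (hdeg : finrank K D = 4 ^ 2) (z : D) :
    (minpoly K z).natDegree = 1 ∨ (minpoly K z).natDegree = 2 ∨ (minpoly K z).natDegree = 4 := by
  have h1 := natDegree_le (K := K) (by norm_num) hdeg z
  have h2 := natDegree_dvd (K := K) z
  have h3 : 0 < (minpoly K z).natDegree := minpoly.natDegree_pos (IsIntegral.of_finite K z)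
  rw [hdeg] at h2
  interval_cases h : (minpoly K z).natDegree <;> revert h2 <;> decide

end deg

section sq

variable {k K D : Type} [Field k] [NumberField k] [Field K] [StarRing K]
    [DivisionRing D] [StarRing D] [Algebra k K] [Algebra k D] [Algebra K D] [IsScalarTower k K D]
    {d : kˣ} {s : K}

theorem star_algk (hS : Setting k K D d s) (c : k) :
    star (algebraMap k D c) = algebraMap k D c := by
  rw [IsScalarTower.algebraMap_apply k K D, hS.star_alg, (hS.fix _).mpr ⟨c, rfl⟩]

/-- Coefficients of the minimal polynomials of symmetric elements. -/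
theorem exists_coeff (hS : Setting k K D d s) {x : D} (hx : star x = x) (i : ℕ) :
    ∃ a : k, algebraMap k K a = (minpoly K x).coeff i := by
  apply (hS.fix _).mp
  have h := Two.minpoly_star hS x
  rw [hx] at h
  conv_rhs => rw [h]
  rw [coeff_map]
  rfl

/-- Conclusion from an element of degree two. -/
theorem of_two (hS : Setting k K D d s) {x : D} (hx : star x = x)
    (h2 : (minpoly K x).natDegree = 2) :
    ∃ (a : kˣ) (σ : D), star σ = σ ∧ σ * σ = algebraMap k D a ∧
      ∀ c : k, algebraMap k D c ≠ σ := by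
  have _ := hS.fin
  have hint : IsIntegral K x := IsIntegral.of_finite K x
  have _ : CharZero k := inferInstance
  have _ : CharZero K := charZero_of_injective_algebraMap (algebraMap k K).injective
  have _ : CharZero D := charZero_of_injective_algebraMap (algebraMap k D).injective
  obtain ⟨a1, ha1⟩ := exists_coeff hS hx 1
  obtain ⟨a0, ha0⟩ := exists_coeff hS hx 0
  have hc2 : (minpoly K x).coeff 2 = 1 := by
    have := (minpoly.monic hint).coeff_natDegree
    rwa [h2] at this
  have h3 : algebraMap k D a0 + algebraMap k D a1 * x + x ^ 2 = 0 := by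
    have h := minpoly.aeval K x
    rw [aeval_eq_sum_range, h2, Finset.sum_range_succ, Finset.sum_range_succ,
      Finset.sum_range_succ, Finset.sum_range_zero, hc2, ← ha1, ← ha0, zero_add, pow_zero, pow_one,
      one_smul, Algebra.smul_def, Algebra.smul_def, mul_one,
      ← IsScalarTower.algebraMap_apply, ← IsScalarTower.algebraMap_apply] at h
    exact h
  obtain ⟨σ, hσ⟩ : ∃ σ : D, σ = x + algebraMap k D (a1 / 2) := ⟨_, rfl⟩
  have hsq : σ * σ = algebraMap k D (a1 ^ 2 / 4 - a0) := by
    have h4 : x * algebraMap k D (a1 / 2) = algebraMap k D (a1 / 2) * x :=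
      (Algebra.commutes _ _).symm
    have h5 : algebraMap k D a1 = algebraMap k D (a1 / 2) + algebraMap k D (a1 / 2) := by
      rw [← map_add]; congr 1; ring
    have h6 : algebraMap k D (a1 ^ 2 / 4 - a0) =
        algebraMap k D (a1 / 2) * algebraMap k D (a1 / 2) - algebraMap k D a0 := by
      rw [← map_mul, ← map_sub]; congr 1; ring
    have h7 : x ^ 2 = -algebraMap k D a0 - algebraMap k D a1 * x := by
      rw [← sub_eq_zero, ← h3]; abel
    rw [hσ, add_mul, mul_add, mul_add, ← pow_two, h7, h4, h6, h5]
    noncomm_ring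
  have hnot : ∀ c : k, algebraMap k D c ≠ σ := by
    intro c hc
    have h4 : x = algebraMap K D (algebraMap k K (c - a1 / 2)) := by
      rw [← IsScalarTower.algebraMap_apply, map_sub, hc, hσ]; abel
    have h5 := minpoly.eq_X_sub_C (B := D) (algebraMap k K (c - a1 / 2))
    rw [← h4] at h5
    rw [h5, natDegree_X_sub_C] at h2
    exact absurd h2 (by norm_num)
  have ha : a1 ^ 2 / 4 - a0 ≠ 0 := by
    intro h0
    rw [h0, map_zero] at hsq
    have h4 : σ = 0 := by simpa using mul_self_eq_zero.mp hsq
    exact hnot 0 (by rw [h4, map_zero])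
  refine ⟨Units.mk0 _ ha, σ, ?_, hsq, hnot⟩
  rw [hσ, star_add, hx, star_algk hS]

omit [NumberField k] [StarRing K] [StarRing D] [Algebra k K] [Algebra k D]
  [IsScalarTower k K D] [Field k] in
theorem li_four {x : D} (hli : LinearIndependent K (fun i : Fin 4 => x ^ (i : ℕ)))
    {c0 c1 c2 c3 : K} (h : c0 • (1 : D) + c1 • x + c2 • x ^ 2 + c3 • x ^ 3 = 0) :
    c0 = 0 ∧ c1 = 0 ∧ c2 = 0 ∧ c3 = 0 := by
  have h1 := Fintype.linearIndependent_iff.mp hli ![c0, c1, c2, c3] (by
    rw [Fin.sum_univ_four]
    simpa using h)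
  exact ⟨h1 0, h1 1, h1 2, h1 3⟩

/-- The last coefficient of the minimal polynomial of an element of degree four such that the
element and its inverse have trace zero. -/
theorem coeff_one_zero (hS : Setting k K D d s) (hdeg : finrank K D = 4 ^ 2) {x : D}
    (hx0 : x ≠ 0) (h4 : (minpoly K x).natDegree = 4) (h1 : Two.tr K x = 0)
    (h2 : Two.tr K x⁻¹ = 0) :
    (minpoly K x).coeff 1 = 0 ∧ (minpoly K x).coeff 3 = 0 ∧
      (minpoly K x).coeff 0 • (1 : D) + (minpoly K x).coeff 2 • x ^ 2 + x ^ 4 = 0 := by
  have _ := hS.fin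
  have _ := hS.cen
  have _ : CharZero K := charZero_of_injective_algebraMap (algebraMap k K).injective
  have hint : IsIntegral K x := IsIntegral.of_finite K x
  have hint' : IsIntegral K x⁻¹ := IsIntegral.of_finite K x⁻¹
  have hli := li_of_deg (K := K) x h4
  have hd0 : ((finrank K D : ℕ) : K) ≠ 0 := by
    rw [hdeg]; norm_num
  have hnext : ∀ y : D, Two.tr K y = 0 → (minpoly K y).nextCoeff = 0 := by
    intro y hy
    have h := Two.natDegree_mul_tr (K := K) y
    rw [hy, mul_zero, eq_comm, neg_eq_zero] at h
    exact (mul_eq_zero.mp h).resolve_left hd0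
  have hp3 : (minpoly K x).coeff 3 = 0 := by
    have h := hnext x h1
    rwa [nextCoeff_of_natDegree_pos (by omega), h4] at h
  have hp4 : (minpoly K x).coeff 4 = 1 := by
    have := (minpoly.monic hint).coeff_natDegree
    rwa [h4] at this
  have hp : (minpoly K x).coeff 0 • (1 : D) + (minpoly K x).coeff 1 • x +
      (minpoly K x).coeff 2 • x ^ 2 + x ^ 4 = 0 := by
    have h := minpoly.aeval K x
    rw [aeval_eq_sum_range, h4, Finset.sum_range_succ, Finset.sum_range_succ,
      Finset.sum_range_succ, Finset.sum_range_succ, Finset.sum_range_succ, Finset.sum_range_zero,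
      hp3, hp4, zero_add, pow_zero, pow_one, zero_smul, add_zero, one_smul] at h
    exact h
  have hxx : x⁻¹ * x = 1 := inv_mul_cancel₀ hx0
  have hx2 : x⁻¹ ^ 2 * x ^ 2 = 1 := by rw [← (Commute.inv_left₀ (Commute.refl x)).mul_pow, hxx,
    one_pow]
  have hp1 : (minpoly K x).coeff 1 = 0 := by
    rcases deg_cases (K := K) hdeg x⁻¹ with he | he | he
    · exfalso
      have hq : (minpoly K x⁻¹).coeff 1 = 1 := by
        have := (minpoly.monic hint').coeff_natDegree
        rwa [he] at this
      have h := minpoly.aeval K x⁻¹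
      rw [aeval_eq_sum_range, he, Finset.sum_range_succ, Finset.sum_range_succ,
        Finset.sum_range_zero, hq, zero_add, pow_zero, pow_one, one_smul] at h
      have h5 := congrArg (· * x) h
      simp only [add_mul, smul_mul_assoc, zero_mul, one_mul, hxx] at h5
      have h6 := li_four hli (c0 := 1) (c1 := (minpoly K x⁻¹).coeff 0) (c2 := 0) (c3 := 0) (by
        rw [one_smul, zero_smul, zero_smul, add_zero, add_zero, add_comm]; exact h5)
      exact one_ne_zero h6.1
    · exfalso
      have hq : (minpoly K x⁻¹).coeff 2 = 1 := by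
        have := (minpoly.monic hint').coeff_natDegree
        rwa [he] at this
      have h := minpoly.aeval K x⁻¹
      rw [aeval_eq_sum_range, he, Finset.sum_range_succ, Finset.sum_range_succ,
        Finset.sum_range_succ, Finset.sum_range_zero, hq, zero_add, pow_zero, pow_one,
        one_smul] at h
      have h5 := congrArg (· * x ^ 2) h
      have hx1 : x⁻¹ * x ^ 2 = x := by rw [pow_two, ← mul_assoc, hxx, one_mul]
      simp only [add_mul, smul_mul_assoc, zero_mul, one_mul, hx1, hx2] at h5
      have h6 := li_four hli (c0 := 1) (c1 := (minpoly K x⁻¹).coeff 1)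
        (c2 := (minpoly K x⁻¹).coeff 0) (c3 := 0) (by
          rw [one_smul, zero_smul, add_zero, ← h5]; abel)
      exact one_ne_zero h6.1
    · have hq : (minpoly K x⁻¹).coeff 4 = 1 := by
        have := (minpoly.monic hint').coeff_natDegree
        rwa [he] at this
      have hq3 : (minpoly K x⁻¹).coeff 3 = 0 := by
        have h := hnext x⁻¹ h2
        rwa [nextCoeff_of_natDegree_pos (by omega), he] at h
      have hq0 : (minpoly K x⁻¹).coeff 0 ≠ 0 :=
        minpoly.coeff_zero_ne_zero hint' (inv_ne_zero hx0)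
      have h := minpoly.aeval K x⁻¹
      rw [aeval_eq_sum_range, he, Finset.sum_range_succ, Finset.sum_range_succ,
        Finset.sum_range_succ, Finset.sum_range_succ, Finset.sum_range_succ,
        Finset.sum_range_zero, hq, hq3, zero_add, pow_zero, pow_one, one_smul, zero_smul,
        add_zero] at h
      have h5 := congrArg (· * x ^ 4) h
      have hx1 : x⁻¹ * x ^ 4 = x ^ 3 := by rw [pow_succ' x 3, ← mul_assoc, hxx, one_mul]
      have hx22 : x⁻¹ ^ 2 * x ^ 4 = x ^ 2 := by
        rw [show x ^ 4 = x ^ 2 * x ^ 2 by rw [← pow_add], ← mul_assoc, hx2, one_mul]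
      have hx4 : x⁻¹ ^ 4 * x ^ 4 = 1 := by
        rw [← (Commute.inv_left₀ (Commute.refl x)).mul_pow, hxx, one_pow]
      simp only [add_mul, smul_mul_assoc, zero_mul, one_mul, hx1, hx22, hx4] at h5
      have hx4' : x ^ 4 = -((minpoly K x).coeff 0 • (1 : D) + (minpoly K x).coeff 1 • x +
          (minpoly K x).coeff 2 • x ^ 2) := eq_neg_of_add_eq_zero_right hp
      have h6 := li_four hli (c0 := 1 - (minpoly K x⁻¹).coeff 0 * (minpoly K x).coeff 0)
        (c1 := -((minpoly K x⁻¹).coeff 0 * (minpoly K x).coeff 1))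
        (c2 := (minpoly K x⁻¹).coeff 2 - (minpoly K x⁻¹).coeff 0 * (minpoly K x).coeff 2)
        (c3 := (minpoly K x⁻¹).coeff 1) (by
          rw [← h5, hx4']
          simp only [smul_neg, smul_add, smul_smul, sub_smul, neg_smul, one_smul]
          abel)
      have h7 := h6.2.1
      rw [neg_eq_zero] at h7
      exact (mul_eq_zero.mp h7).resolve_left hq0
  refine ⟨hp1, hp3, ?_⟩
  rw [hp1, zero_smul, add_zero] at hp
  exact hp

/-- Conclusion from an element such that the element and its inverse have trace zero. -/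
theorem of_trace (hS : Setting k K D d s) (hdeg : finrank K D = 4 ^ 2) {x : D}
    (hx : star x = x) (hx0 : x ≠ 0) (h1 : Two.tr K x = 0) (h2 : Two.tr K x⁻¹ = 0) :
    ∃ (a : kˣ) (σ : D), star σ = σ ∧ σ * σ = algebraMap k D a ∧
      ∀ c : k, algebraMap k D c ≠ σ := by
  have _ := hS.fin
  have _ := hS.cen
  have _ : CharZero K := charZero_of_injective_algebraMap (algebraMap k K).injective
  have hint : IsIntegral K x := IsIntegral.of_finite K x
  rcases deg_cases (K := K) hdeg x with he | he | he
  · exfalso
    have h := Two.natDegree_mul_tr (K := K) x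
    have hd0 : ((finrank K D : ℕ) : K) ≠ 0 := by
      rw [hdeg]; norm_num
    rw [h1, mul_zero, eq_comm, neg_eq_zero] at h
    have h3 := (mul_eq_zero.mp h).resolve_left hd0
    rw [nextCoeff_of_natDegree_pos (by omega), he] at h3
    exact minpoly.coeff_zero_ne_zero hint hx0 h3
  · exact of_two hS hx he
  · obtain ⟨-, -, hrel⟩ := coeff_one_zero hS hdeg hx0 he h1 h2
    obtain ⟨a2, ha2⟩ := exists_coeff hS hx 2
    obtain ⟨a0, ha0⟩ := exists_coeff hS hx 0
    have hli := li_of_deg (K := K) x he
    rw [← ha2, ← ha0, Algebra.smul_def, Algebra.smul_def, mul_one,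
      ← IsScalarTower.algebraMap_apply, ← IsScalarTower.algebraMap_apply] at hrel
    obtain ⟨σ, hσ⟩ : ∃ σ : D, σ = x ^ 2 + algebraMap k D (a2 / 2) := ⟨_, rfl⟩
    have hsq : σ * σ = algebraMap k D (a2 ^ 2 / 4 - a0) := by
      have h4 : x ^ 2 * algebraMap k D (a2 / 2) = algebraMap k D (a2 / 2) * x ^ 2 :=
        (Algebra.commutes _ _).symm
      have h5 : algebraMap k D a2 = algebraMap k D (a2 / 2) + algebraMap k D (a2 / 2) := by
        rw [← map_add]; congr 1; ring
      have h6 : algebraMap k D (a2 ^ 2 / 4 - a0) =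
          algebraMap k D (a2 / 2) * algebraMap k D (a2 / 2) - algebraMap k D a0 := by
        rw [← map_mul, ← map_sub]; congr 1; ring
      have h7 : x ^ 2 * x ^ 2 = -algebraMap k D a0 - algebraMap k D a2 * x ^ 2 := by
        rw [← pow_add, ← sub_eq_zero, ← hrel]; abel
      rw [hσ, add_mul, mul_add, mul_add, h7, h4, h6, h5]
      noncomm_ring
    have hnot : ∀ c : k, algebraMap k D c ≠ σ := by
      intro c hc
      have h3 := li_four hli (c0 := algebraMap k K (a2 / 2 - c)) (c1 := 0) (c2 := 1) (c3 := 0) (by
        rw [zero_smul, zero_smul, add_zero, add_zero, one_smul, Algebra.smul_def, mul_one,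
          ← IsScalarTower.algebraMap_apply, map_sub, hc, hσ]
        abel)
      exact one_ne_zero h3.2.2.1
    have ha : a2 ^ 2 / 4 - a0 ≠ 0 := by
      intro h0
      rw [h0, map_zero] at hsq
      have h4 : σ = 0 := by simpa using mul_self_eq_zero.mp hsq
      exact hnot 0 (by rw [h4, map_zero])
    refine ⟨Units.mk0 _ ha, σ, ?_, hsq, hnot⟩
    rw [hσ, star_add, star_pow, hx, star_algk hS]

end sq

end Vale.Agent.P011.One.XE
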