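import Vale.Agent.P011.One.XaModel
import Vale.Agent.P011.One.XaAlg
import Vale.Agent.P011.One.Close
import Vale.Agent.P011.RP.Iface
import Vale.Agent.P011.Arith.Landherr
import Vale.Agent.P011.Even.RealSide
import Vale.Agent.P011.Even.GFinish
import Vale.Agent.P011.RP.Eigen
import Vale.Agent.P011.Three.Scal
import Vale.Agent.P011.T2.MaxSub

/-!
Existence of symmetric square roots of central elements in degree four.
-/

open Module Polynomial

set_option linter.unusedSectionVars false

namespace Vale.Agent.P011.One.XE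

open Vale.Agent.P011.Arith Vale.Agent.P011.Even
open Vale.Agent.P011.RP (RData)

section main

variable {k K D : Type} [Field k] [NumberField k] [Field K] [StarRing K]
    [DivisionRing D] [StarRing D] [Algebra k K] [Algebra k D] [Algebra K D] [IsScalarTower k K D]
    {d : kˣ} {s : K}

theorem s_ne (hS : Setting k K D d s) : s ≠ 0 := by
  intro h0
  have := hS.sq
  rw [h0, zero_pow two_ne_zero] at this
  exact d.ne_zero ((map_eq_zero _).mp this.symm)

theorem exists_noncomm (hS : Setting k K D d s) (hdeg : finrank K D = 4 ^ 2) :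
    ∃ y w : D, star y = y ∧ star w = w ∧ y * w ≠ w * y := by
  by_contra hcon
  push Not at hcon
  have _ := hS.fin
  have _ := hS.cen
  have _ : CharZero K := charZero_of_injective_algebraMap (algebraMap k K).injective
  have hs0 := s_ne hS
  have hdec : ∀ x : D, ∃ y w : D, star y = y ∧ star w = w ∧ x = y + s • w := by
    intro x
    refine ⟨(2 : K)⁻¹ • (x + star x), (2 * s)⁻¹ • (x - star x), ?_, ?_, ?_⟩
    · rw [hS.star_smul, star_add, star_star, star_inv₀, star_ofNat, add_comm]
    · rw [hS.star_smul, star_sub, star_star, star_inv₀, star_mul', star_ofNat, hS.star_s, mul_neg,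
        inv_neg, neg_smul, ← smul_neg, neg_sub]
    · rw [smul_smul, mul_inv, ← mul_assoc, mul_comm s, mul_assoc, mul_inv_cancel₀ hs0, mul_one,
        ← smul_add]
      have : x + star x + (x - star x) = (2 : K) • x := by rw [two_smul]; abel
      rw [this, smul_smul, inv_mul_cancel₀ two_ne_zero, one_smul]
  have hcomm : ∀ x x' : D, x * x' = x' * x := by
    intro x x'
    obtain ⟨y, w, hy, hw, rfl⟩ := hdec x
    obtain ⟨y', w', hy', hw', rfl⟩ := hdec x'
    rw [add_mul, mul_add, mul_add, add_mul, mul_add, mul_add, hcon y y' hy hy', smul_mul_assoc,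
      smul_mul_assoc, smul_mul_assoc, smul_mul_assoc, mul_smul_comm, mul_smul_comm, mul_smul_comm,
      mul_smul_comm, hcon y w' hy hw', hcon w y' hw hy', hcon w w' hw hw']
    abel
  have hsurj : Function.Surjective (algebraMap K D) := fun x => T2.mem_base fun y => hcomm x y
  have h1 : finrank K D = 1 := by
    have e : K ≃ₐ[K] D := AlgEquiv.ofBijective (Algebra.ofId K D)
      ⟨(algebraMap K D).injective, hsurj⟩
    rw [← e.toLinearEquiv.finrank_eq, finrank_self]
  rw [h1] at hdeg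
  norm_num at hdeg

theorem exists_min {ι : Type} [Fintype ι] (ε : ι → ℝ) (h : ∀ i, 0 < ε i) :
    ∃ δ : ℝ, 0 < δ ∧ ∀ i, δ ≤ ε i := by
  classical
  by_cases hne : Nonempty ι
  · exact ⟨Finset.univ.inf' Finset.univ_nonempty ε, by
      rw [Finset.lt_inf'_iff]; exact fun i _ => h i, fun i => Finset.inf'_le _ (Finset.mem_univ i)⟩
  · exact ⟨1, one_pos, fun i => absurd ⟨i⟩ hne⟩

/-- The pair of symmetric elements. -/
theorem exists_pair (hS : Setting k K D d s) (hdeg : finrank K D = 4 ^ 2) :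
    ∃ y w : D, star y = y ∧ star w = w ∧ y * w ≠ w * y ∧
      ∀ φ : k →+* ℝ, φ d < 0 → ∃ R : RData K D 4,
        (∀ a, R.s (algebraMap k K a) = ((φ a : ℝ) : ℂ)) ∧ (Fq (R.s s) (R.f y) (R.f w)).re < 0 := by
  have _ := hS.fin
  have _ := hS.cen
  have _ : StarModule K D := ⟨hS.star_smul⟩
  have _ : CharZero K := charZero_of_injective_algebraMap (algebraMap k K).injective
  have _ : FiniteDimensional k K := Module.finite_of_finrank_pos (by rw [hS.rank]; norm_num)
  have _ : NumberField K := numberField_fin (k := k)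
  have hs0 := s_ne hS
  have hK : ∃ z : K, star z ≠ z := ⟨s, by
    rw [hS.star_s]
    intro h
    apply hs0
    have h2 : (2 : K) * s = 0 := by linear_combination -h
    exact (mul_eq_zero.mp h2).resolve_left two_ne_zero⟩
  obtain ⟨ι, _, R, hc, hd⟩ := RP.exists_family (D := D) (n := 4) hK (by norm_num) hdeg
  have ht : ∀ i, star ((R i).s s) = -(R i).s s := fun i => by
    rw [← (R i).hs, hS.star_s, map_neg]
  have ht0 : ∀ i, (R i).s s ≠ 0 := fun i => (_root_.map_ne_zero _).mpr hs0
  choose Y W hY hW hdet hF using fun i => exists_model (R i).hA (R i).unit (ht i) (ht0 i)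
  choose ε hε hnear using fun i => Fq_near (hdet i) (hF i)
  obtain ⟨δ, hδ, hδε⟩ := exists_min ε hε
  obtain ⟨y, hy, hyY⟩ := RP.exists_sym R hd Y hY hδ
  obtain ⟨w, hw, hwW⟩ := RP.exists_sym R hd W hW hδ
  have hall : ∀ i, (Fq ((R i).s s) ((R i).f y) ((R i).f w)).re < 0 := fun i =>
    hnear i _ _ (fun a b => (hyY i a b).trans_le (hδε i)) fun a b => (hwW i a b).trans_le (hδε i)
  have hplace : ∀ (y w : D), (∀ i, (Fq ((R i).s s) ((R i).f y) ((R i).f w)).re < 0) →
      ∀ φ : k →+* ℝ, φ d < 0 → ∃ R : RData K D 4,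
        (∀ a, R.s (algebraMap k K a) = ((φ a : ℝ) : ℂ)) ∧
          (Fq (R.s s) (R.f y) (R.f w)).re < 0 := by
    intro y w hyw φ hφ
    obtain ⟨R', hR'⟩ := exists_rdata_of (D := D) (n := 4) hS (by norm_num) hdeg hφ
    obtain ⟨i, hi⟩ := hc R'.s R'.hs
    refine ⟨R i, fun a => ?_, hyw i⟩
    rcases hi with hi | hi
    · rw [hi, hR']
    · rw [hi, hR', Complex.star_def, Complex.conj_ofReal]
  by_cases hne : Nonempty ι
  · obtain ⟨i⟩ := hne
    refine ⟨y, w, hy, hw, ?_, hplace y w hall⟩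
    intro hcomm
    have h1 := hall i
    have h2 : (R i).f y * (R i).f w - (R i).f w * (R i).f y = 0 := by
      rw [← map_mul, ← map_mul, hcomm, sub_self]
    rw [Fq, h2, Matrix.inv_zero] at h1
    simp at h1
  · obtain ⟨y, w, hy, hw, hyw⟩ := exists_noncomm hS hdeg
    exact ⟨y, w, hy, hw, hyw, hplace y w fun i => absurd ⟨i⟩ hne⟩

omit [Field k] [NumberField k] [StarRing K] [StarRing D] [Algebra k K] [Algebra k D]
  [IsScalarTower k K D] in
theorem tr_comm (x y : D) : Two.tr K (x * y) = Two.tr K (y * x) := by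
  change LinearMap.trace K D (LinearMap.mul K D (x * y)) = LinearMap.trace K D
    (LinearMap.mul K D (y * x))
  have h1 : ∀ x y : D, LinearMap.mul K D (x * y) =
      (LinearMap.mul K D x) * (LinearMap.mul K D y) := by
    intro x y
    ext z
    simp [mul_assoc]
  rw [h1, h1, LinearMap.trace_mul_comm]

/-- Combinations of powers. -/
def lc (y : D) (c : Fin 4 → K) : D := ∑ i : Fin 4, c i • y ^ (i : ℕ)

/-- The hermitian form. -/
noncomputable def bf (y v : D) (c c' : Fin 4 → K) : K :=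
  Two.tr K (star (lc y c') * v⁻¹ * lc y c)

omit [Field k] [NumberField k] [StarRing K] [StarRing D] [Algebra k K] [Algebra k D]
  [IsScalarTower k K D] in
theorem lc_add (y : D) (c c' : Fin 4 → K) : lc y (c + c') = lc y c + lc y c' := by
  rw [lc, lc, lc, ← Finset.sum_add_distrib]
  exact Finset.sum_congr rfl fun i _ => by rw [Pi.add_apply, add_smul]

omit [Field k] [NumberField k] [StarRing K] [StarRing D] [Algebra k K] [Algebra k D]
  [IsScalarTower k K D] in
theorem lc_smul (y : D) (a : K) (c : Fin 4 → K) : lc y (a • c) = a • lc y c := by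
  rw [lc, lc, Finset.smul_sum]
  exact Finset.sum_congr rfl fun i _ => by rw [Pi.smul_apply, smul_eq_mul, mul_smul]

omit [Field k] [NumberField k] [StarRing K] [StarRing D] [Algebra k K] [Algebra k D]
  [IsScalarTower k K D] in
theorem lc_comm (y : D) (c : Fin 4 → K) : y * lc y c = lc y c * y := by
  rw [lc, Finset.mul_sum, Finset.sum_mul]
  refine Finset.sum_congr rfl fun i _ => ?_
  rw [mul_smul_comm, smul_mul_assoc, ← pow_succ, ← pow_succ']

theorem bf_herm (hS : Setting k K D d s) (y : D) {v : D} (hv : star v = v) :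
    Lan.Herm (bf (K := K) y v) where
  add_left x y z := by rw [bf, bf, bf, lc_add, mul_add, map_add]
  smul_left c x y := by rw [bf, bf, lc_smul, mul_smul_comm, map_smul, smul_eq_mul]
  symm x y := by
    rw [bf, bf, ← Two.tr_star hS, star_mul, star_mul, star_star, star_inv₀, hv, mul_assoc]

theorem quad (hS : Setting k K D d s) : Lan.Quad (E := k) d s where
  star_theta := hS.star_s
  sq := hS.sq
  fix x hx := (hS.fix x).mp hx
  star_alg y := (hS.fix _).mpr ⟨y, rfl⟩

omit [Field k] [NumberField k] [StarRing K] [StarRing D] [Algebra k K] [Algebra k D]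
  [IsScalarTower k K D] in
theorem lc3 (y : D) : lc y (![0, 3, -4, 1] : Fin 4 → K) = P3 y := by
  rw [lc, Fin.sum_univ_four, P3]
  simp only [Matrix.cons_val_zero, Matrix.cons_val_one, Matrix.cons_val, Fin.isValue]
  simp [Algebra.smul_def, map_ofNat]
  abel

omit [Field k] [NumberField k] [StarRing K] [StarRing D] [Algebra k K] [Algebra k D]
  [IsScalarTower k K D] in
theorem lc4 (y : D) : lc y (![0, 2, -3, 1] : Fin 4 → K) = P4 y := by
  rw [lc, Fin.sum_univ_four, P4]
  simp only [Matrix.cons_val_zero, Matrix.cons_val_one, Matrix.cons_val, Fin.isValue]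
  simp [Algebra.smul_def, map_ofNat]
  abel

/-- The value of the trace form at a real place. -/
theorem val_at (hS : Setting k K D d s) (hdeg : finrank K D = 4 ^ 2) (R : RData K D 4) {y w : D}
    (hyw : y * w ≠ w * y) (p : D) :
    R.s (Two.tr K (p * (s • (y * w - w * y))⁻¹ * p)) =
      4 * ((R.f p * (R.f y * R.f w - R.f w * R.f y)⁻¹ * R.f p).trace / R.s s) := by
  have _ := hS.fin
  have _ := hS.cen
  have _ : CharZero K := charZero_of_injective_algebraMap (algebraMap k K).injective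
  have hs0 := s_ne hS
  have hu : y * w - w * y ≠ 0 := sub_ne_zero.mpr hyw
  have h1 : (s • (y * w - w * y))⁻¹ = s⁻¹ • (y * w - w * y)⁻¹ := by
    apply inv_eq_of_mul_eq_one_right
    rw [smul_mul_smul_comm, mul_inv_cancel₀ hs0, mul_inv_cancel₀ hu, one_smul]
  have h2 : (R.f y * R.f w - R.f w * R.f y)⁻¹ = R.f (y * w - w * y)⁻¹ := by
    apply Matrix.inv_eq_right_inv
    rw [← map_mul, ← map_mul, ← map_sub, ← map_mul, mul_inv_cancel₀ hu, map_one]
  have h3 := Three.rdata_trace (n := 4) (by norm_num) hdeg R (p * (s • (y * w - w * y))⁻¹ * p)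
  change R.s (LinearMap.trace K D (LinearMap.mul K D (p * (s • (y * w - w * y))⁻¹ * p))) = _
  rw [h3, h1, h2, map_mul, map_mul, RP.RData.smul, Matrix.mul_smul, Matrix.smul_mul,
    Matrix.trace_smul, smul_eq_mul, map_inv₀]
  push_cast
  ring

/-- The element `x` such that `x` and `x⁻¹` have trace zero. -/
theorem exists_x (hS : Setting k K D d s) (hdeg : finrank K D = 4 ^ 2) {y w : D}
    (hy : star y = y) (hw : star w = w) (hyw : y * w ≠ w * y)
    (h4 : (minpoly K y).natDegree = 4)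
    (hreal : ∀ φ : k →+* ℝ, φ d < 0 → ∃ R : RData K D 4,
        (∀ a, R.s (algebraMap k K a) = ((φ a : ℝ) : ℂ)) ∧
          (Fq (R.s s) (R.f y) (R.f w)).re < 0) :
    ∃ x : D, star x = x ∧ x ≠ 0 ∧ Two.tr K x = 0 ∧ Two.tr K x⁻¹ = 0 := by
  have _ := hS.fin
  have _ := hS.cen
  have hs0 := s_ne hS
  have hu : y * w - w * y ≠ 0 := sub_ne_zero.mpr hyw
  obtain ⟨v, hvd⟩ : ∃ v : D, v = s • (y * w - w * y) := ⟨_, rfl⟩
  have hv0 : v ≠ 0 := by
    rw [hvd]
    exact smul_ne_zero hs0 hu
  have hv : star v = v := by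
    rw [hvd, hS.star_smul, star_sub, star_mul, star_mul, hy, hw, hS.star_s, neg_smul,
      ← smul_neg, neg_sub]
  have hb := bf_herm hS y hv
  obtain ⟨q, hq⟩ := Lan.q_of (quad hS) hb
  have hP3 : star (P3 y) = P3 y := by
    rw [P3]
    simp only [star_add, star_sub, star_mul, star_pow, hy, star_ofNat]
    have h4 : y ^ 2 * 4 = 4 * y ^ 2 := (Nat.cast_commute (4 : ℕ) (y ^ 2)).symm.eq
    have h3 : y * 3 = 3 * y := (Nat.cast_commute (3 : ℕ) y).symm.eq
    rw [h4, h3]
  have hP4 : star (P4 y) = P4 y := by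
    rw [P4]
    simp only [star_add, star_sub, star_mul, star_pow, hy, star_ofNat]
    have h4 : y ^ 2 * 3 = 3 * y ^ 2 := (Nat.cast_commute (3 : ℕ) (y ^ 2)).symm.eq
    have h3 : y * 2 = 2 * y := (Nat.cast_commute (2 : ℕ) y).symm.eq
    rw [h4, h3]
  have hprod : ∀ φ : k →+* ℝ, φ d < 0 →
      φ (q (![0, 3, -4, 1] : Fin 4 → K)) * φ (q (![0, 2, -3, 1] : Fin 4 → K)) < 0 := by
    intro φ hφ
    obtain ⟨R, hR, hF⟩ := hreal φ hφ
    have e3 : ((φ (q (![0, 3, -4, 1] : Fin 4 → K)) : ℝ) : ℂ) =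
        4 * ((P3 (R.f y) * (R.f y * R.f w - R.f w * R.f y)⁻¹ * P3 (R.f y)).trace / R.s s) := by
      rw [← hR, hq, bf, lc3, hP3, hvd, val_at hS hdeg R hyw, P3_map]
    have e4 : ((φ (q (![0, 2, -3, 1] : Fin 4 → K)) : ℝ) : ℂ) =
        4 * ((P4 (R.f y) * (R.f y * R.f w - R.f w * R.f y)⁻¹ * P4 (R.f y)).trace / R.s s) := by
      rw [← hR, hq, bf, lc4, hP4, hvd, val_at hS hdeg R hyw, P4_map]
    have e5 : ((φ (q (![0, 3, -4, 1] : Fin 4 → K)) * φ (q (![0, 2, -3, 1] : Fin 4 → K)) : ℝ) : ℂ) =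
        ((16 : ℝ) : ℂ) * Fq (R.s s) (R.f y) (R.f w) := by
      rw [Complex.ofReal_mul, e3, e4, Fq]
      push_cast
      ring
    have e6 := congrArg Complex.re e5
    rw [Complex.ofReal_re, Complex.re_ofReal_mul] at e6
    rw [e6]
    linarith
  have hrank : finrank K (Fin 4 → K) = 4 := by simp
  obtain ⟨c, hc0, hc⟩ := Lan.exists_isotropic (quad hS) hb hq (by rw [hrank]; norm_num)
    (fun φ hφ => by
      have h := hprod φ hφ
      rcases lt_or_ge 0 (φ (q (![0, 3, -4, 1] : Fin 4 → K))) with h1 | h1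
      · exact ⟨_, h1⟩
      · exact ⟨_, pos_of_mul_neg_right h h1⟩)
    (fun φ hφ => by
      have h := hprod φ hφ
      rcases lt_or_ge (φ (q (![0, 3, -4, 1] : Fin 4 → K))) 0 with h1 | h1
      · exact ⟨_, h1⟩
      · exact ⟨_, neg_of_mul_neg_right h h1⟩)
  have hli := li_of_deg (K := K) y h4
  have hl0 : lc y c ≠ 0 := by
    intro h0
    apply hc0
    funext i
    exact Fintype.linearIndependent_iff.mp hli c h0 i
  have hbc : Two.tr K (star (lc y c) * v⁻¹ * lc y c) = 0 := by
    have h := hq c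
    rw [hc, map_zero] at h
    exact h.symm
  have hsl0 : star (lc y c) ≠ 0 := star_ne_zero.mpr hl0
  refine ⟨(star (lc y c) * v⁻¹ * lc y c)⁻¹, ?_, ?_, ?_, ?_⟩
  · rw [star_inv₀, star_mul, star_mul, star_star, star_inv₀, hv, mul_assoc]
  · exact inv_ne_zero (mul_ne_zero (mul_ne_zero hsl0 (inv_ne_zero hv0)) hl0)
  · -- the trace of `l⁻¹ v (l*)⁻¹`
    have h1 : (star (lc y c) * v⁻¹ * lc y c)⁻¹ = (lc y c)⁻¹ * (v * (star (lc y c))⁻¹) := by
      rw [mul_inv_rev, mul_inv_rev, inv_inv]
    have hcl : y * (lc y c)⁻¹ = (lc y c)⁻¹ * y :=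
      (Commute.inv_right₀ (lc_comm y c)).eq
    have hcs : y * (star (lc y c))⁻¹ = (star (lc y c))⁻¹ * y := by
      have h := congrArg star (lc_comm y c)
      rw [star_mul, star_mul, hy] at h
      exact (Commute.inv_right₀ (show Commute y (star (lc y c)) from h.symm)).eq
    obtain ⟨m, hm⟩ : ∃ m : D, m = (star (lc y c))⁻¹ * (lc y c)⁻¹ := ⟨_, rfl⟩
    have hmy : m * y = y * m := by
      rw [hm, mul_assoc, ← hcl, ← mul_assoc, ← hcs, mul_assoc]
    rw [h1, tr_comm, mul_assoc, ← hm, hvd, smul_mul_assoc, map_smul, sub_mul, map_sub]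
    have h2 : Two.tr K (y * w * m) = Two.tr K (w * y * m) := by
      rw [mul_assoc, tr_comm, mul_assoc, hmy, ← mul_assoc]
    rw [h2, sub_self, smul_zero]
  · rw [inv_inv]
    exact hbc

/-- Existence of symmetric square roots of central elements. -/
theorem exists_sq (hS : Setting k K D d s) (hdeg : finrank K D = 16) :
    ∃ (a : kˣ) (σ : D), star σ = σ ∧ σ * σ = algebraMap k D a ∧
      ∀ c : k, algebraMap k D c ≠ σ := by
  have _ := hS.fin
  have _ := hS.cen
  have _ : CharZero K := charZero_of_injective_algebraMap (algebraMap k K).injective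
  have hdeg' : finrank K D = 4 ^ 2 := by rw [hdeg]; norm_num
  obtain ⟨y, w, hy, hw, hyw, hreal⟩ := exists_pair hS hdeg'
  rcases deg_cases (K := K) hdeg' y with h | h | h
  · exfalso
    apply hyw
    have h1 := minpoly.natDegree_eq_one_iff.mp h
    obtain ⟨c, hc⟩ := h1
    rw [← hc, Algebra.commutes]
  · exact of_two hS hy h
  · obtain ⟨x, hx, hx0, h1, h2⟩ := exists_x hS hdeg' hy hw hyw h hreal
    exact of_trace hS hdeg' hx hx0 h1 h2

end main

end Vale.Agent.P011.One.XE

namespace Vale.Agent.P011.One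

open Vale.Agent.P011.Even

/-- The sets `X_a` are not all empty. -/
theorem exists_Xa {k K D : Type} [Field k] [NumberField k] [Field K] [StarRing K]
    [DivisionRing D] [StarRing D] [Algebra k K] [Algebra k D] [Algebra K D] [IsScalarTower k K D]
    {d : kˣ} {s : K} (hS : Setting k K D d s) (hdeg : Module.finrank K D = 16) :
    ∃ (a : kˣ) (σ : D), σ ∈ Xa D a ∧ ∀ c : k, algebraMap k D c ≠ σ := by
  obtain ⟨a, σ, h1, h2, h3⟩ := XE.exists_sq hS hdeg
  exact ⟨a, σ, ⟨h1, h2⟩, h3⟩

end Vale.Agent.P011.One
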