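import Vale.Agent.P011.One.Assembly
import Vale.Agent.P011.One.CloseNear

/-!
Conjugating elements which are close to one at finitely many places.
-/

open NumberField IsDedekindDomain

set_option linter.unusedSectionVars false

namespace Vale.Agent.P011.One

open Vale.Agent.P011.Arith Vale.Agent.P011.Even Vale.Agent.P011.Two

variable {k K D : Type} [Field k] [NumberField k] [Field K] [StarRing K]
    [DivisionRing D] [StarRing D] [Algebra k K] [Algebra k D] [Algebra K D] [IsScalarTower k K D]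
    {d : kˣ} {s : K} {M : ℕ}

theorem plAbv_add_lt (v : HeightOneSpectrum (𝓞 k)) {x y : k} {ρ : ℝ}
    (hx : plAbv (.inl v) x < ρ) (hy : plAbv (.inl v) y < ρ) : plAbv (.inl v) (x + y) < ρ := by
  refine lt_of_le_of_lt ?_ (max_lt hx hy)
  rcases le_total (v.valuation k x) (v.valuation k y) with h | h
  · refine le_trans ?_ (le_max_right _ _)
    rw [← not_lt, plAbv_lt, not_lt]
    exact (Valuation.map_add _ x y).trans (max_le h le_rfl)
  · refine le_trans ?_ (le_max_left _ _)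
    rw [← not_lt, plAbv_lt, not_lt]
    exact (Valuation.map_add _ x y).trans (max_le le_rfl h)

/-- A neighbourhood of one which is closed under products. -/
theorem exists_nhd (B : Module.Basis (Fin M) k D) (v : HeightOneSpectrum (𝓞 k)) {θ : ℝ}
    (hθ : 0 < θ) : ∃ ρ : ℝ, 0 < ρ ∧
      (∀ x : D, (∀ i, plAbv (.inl v) (B.repr (x - 1) i) < ρ) → nm B (.inl v) (x - 1) < θ) ∧
      ∀ x y : D, (∀ i, plAbv (.inl v) (B.repr (x - 1) i) < ρ) →
        (∀ i, plAbv (.inl v) (B.repr (y - 1) i) < ρ) →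
        ∀ i, plAbv (.inl v) (B.repr (x * y - 1) i) < ρ := by
  obtain ⟨C, hC, hCm⟩ := nm_mul B (.inl v : Pl k)
  obtain ⟨ρ, hρ0, h1, h2⟩ : ∃ ρ : ℝ, 0 < ρ ∧ (M : ℝ) * ρ < θ ∧ C * ((M : ℝ) * ρ) * (M : ℝ) < 1 := by
    refine ⟨min (θ / (M + 1)) (1 / (C * M * M + 1)), by positivity, ?_, ?_⟩
    · have h := min_le_left (θ / (M + 1)) (1 / (C * M * M + 1))
      rw [le_div_iff₀ (by positivity)] at h
      have h0 : 0 < min (θ / (M + 1)) (1 / (C * M * M + 1)) := by positivity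
      nlinarith
    · have h := min_le_right (θ / (M + 1)) (1 / (C * M * M + 1))
      rw [le_div_iff₀ (by positivity)] at h
      have h0 : 0 < min (θ / (M + 1)) (1 / (C * M * M + 1)) := by positivity
      nlinarith
  have hnm : ∀ x : D, (∀ i, plAbv (.inl v) (B.repr (x - 1) i) < ρ) →
      nm B (.inl v) (x - 1) ≤ M * ρ := fun x hx => nm_le_of_coord B _ fun i => (hx i).le
  refine ⟨ρ, hρ0, fun x hx => (hnm x hx).trans_lt h1, fun x y hx hy i => ?_⟩
  have e : x * y - 1 = (x - 1) + ((y - 1) + (x - 1) * (y - 1)) := by noncomm_ring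
  rw [e, map_add, map_add, Finsupp.add_apply, Finsupp.add_apply]
  refine plAbv_add_lt v (hx i) (plAbv_add_lt v (hy i) ?_)
  have h3 := nm_lt_coord B (.inl v) (x := (x - 1) * (y - 1)) (ε := ρ) (by
    refine (hCm _ _).trans_lt ?_
    have h4 := hnm x hx
    have h5 := hnm y hy
    have h6 := nm_nonneg B (.inl v) (y - 1)
    have h7 : C * nm B (.inl v) (x - 1) * nm B (.inl v) (y - 1) ≤
        C * (M * ρ) * nm B (.inl v) (y - 1) :=
      mul_le_mul_of_nonneg_right (mul_le_mul_of_nonneg_left h4 hC.le) h6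
    have h8 : C * (M * ρ) * nm B (.inl v) (y - 1) ≤ C * (M * ρ) * (M * ρ) :=
      mul_le_mul_of_nonneg_left h5 (by positivity)
    have h9 : C * (M * ρ) * (M * ρ) = C * (M * ρ) * M * ρ := by ring
    nlinarith) i
  exact h3

/-- **Conjugation by elements of `N` close to one.** -/
theorem pair_near (hS : Setting k K D d s) (B : Module.Basis (Fin M) k D) {a : kˣ} {e : ℕ}
    (he : 0 < e) {N : Set D} (h1N : (1 : D) ∈ N) (hmul : ∀ x ∈ N, ∀ y ∈ N, x * y ∈ N)
    (hN : HQ1 k e N) {S₀ : Set (HeightOneSpectrum (𝓞 k))} (hS₀ : S₀.Finite)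
    (hgood : ∀ v ∉ S₀, GoodAt B d s v ∧ v.valuation k (a : k) = 1 ∧ v.valuation k (e : k) = 1)
    (σ : D) (θ : Pl k → ℝ) (hθ : ∀ q, 0 < θ q) :
    ∃ (N' : Set D) (κ : Pl k → ℝ), N' ⊆ N ∧
      (∀ ν ∈ N', ∀ v ∈ S₀, nm B (.inl v) (ν - 1) < θ (.inl v)) ∧
      (∀ x ∈ N', ∀ y ∈ N', x * y ∈ N') ∧ (∀ q, 0 < κ q) ∧
      ∀ S : Set (HeightOneSpectrum (𝓞 k)), S.Finite → S₀ ⊆ S →
        Pair B d a S (PS (a * d) S₀ S) (RS B d a e S₀ σ κ) N' := by
  classical
  choose ρ hρ0 hρ1 hρ2 using fun v : HeightOneSpectrum (𝓞 k) => exists_nhd B v (hθ (.inl v))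
  obtain ⟨ε, hε, hεle⟩ := exists_le_all hS₀.toFinset ρ hρ0
  obtain ⟨R, hR⟩ : ∃ R : ℝ, ∀ v ∈ S₀, nm B (.inl v) σ + 1 ≤ R := by
    obtain ⟨R, hR⟩ := (hS₀.image fun v => nm B (.inl v) σ + 1).bddAbove
    exact ⟨R, fun v hv => hR ⟨v, hv, rfl⟩⟩
  obtain ⟨δ, hδ, hclose⟩ := close_rel_near hS B (a := a) he h1N hN hS₀.toFinset R hε
  refine ⟨{ν | ν ∈ N ∧ ∀ v ∈ S₀, ∀ i, plAbv (.inl v) (B.repr (ν - 1) i) < ρ v},
    fun _ => min 1 (δ / 2), fun ν hν => hν.1, fun ν hν v hv => hρ1 v ν (hν.2 v hv),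
    fun x hx y hy => ⟨hmul x hx.1 y hy.1, fun v hv => hρ2 v x y (hx.2 v hv) (hy.2 v hv)⟩,
    fun _ => by positivity, fun S _ hSS x hx y hy hxy hI hL => ?_⟩
  have hrel : Rel1 d e a x y := by
    refine rel1_of_loc hS B hx hy hxy (fun v hv => ?_) fun φ hφ =>
      (hL _ (Or.inl (Or.inr ⟨φ, hφ, rfl⟩))).1
    by_cases hvS : v ∈ S
    · exact (hL _ (Or.inl (Or.inl ⟨v, hvS, hv, rfl⟩))).1
    · obtain ⟨hG, ha, he'⟩ := hgood v fun h => hvS (hSS h)
      obtain ⟨i1, i2, i3⟩ := hI v hvS hv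
      exact lrel_unit B hG.two ha hG.dd he' hG.mul hxy i1 i2 i3
  have hnear : ∀ v ∈ hS₀.toFinset, nm B (.inl v) (x - σ) < min 1 (δ / 2) ∧
      nm B (.inl v) (y - σ) < min 1 (δ / 2) := by
    intro v hv
    rw [Set.Finite.mem_toFinset] at hv
    exact (hL _ (Or.inr ⟨v, hv, rfl⟩)).2 v hv rfl
  obtain ⟨u, hu, hux, hu1⟩ := hclose x hx y hy hrel (fun v hv => by
    have h1 := (hnear v hv).1.trans_le (min_le_left _ _)
    rw [Set.Finite.mem_toFinset] at hv
    have h2 := nm_add_le B (.inl v) (x - σ) σ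
    rw [sub_add_cancel] at h2
    have h3 := hR v hv
    linarith) (fun v hv => by
    obtain ⟨h1, h2⟩ := hnear v hv
    have h3 := nm_sub_le B (.inl v) (x - σ) (y - σ)
    rw [sub_sub_sub_cancel_right] at h3
    have h4 := h1.trans_le (min_le_right _ _)
    have h5 := h2.trans_le (min_le_right _ _)
    linarith)
  refine ⟨u, ⟨hu, fun v hv i => ?_⟩, hux⟩
  exact (nm_lt_coord B (.inl v) (hu1 v (hS₀.mem_toFinset.mpr hv)) i).trans_le
    (hεle v (hS₀.mem_toFinset.mpr hv))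

end Vale.Agent.P011.One
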