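import Vale.Agent.P011.One.LTns
import Vale.Agent.P011.Two.Local
import Vale.Agent.P011.Two.LocChain
import Vale.Agent.P011.W.Nrd

/-!
Every element of the special unitary group of a division algebra is, at a nonsplit place, a limit
of products of powers of commutators of Cayley elements: the finite and the real places.
-/

open Module Filter Topology Matrix NumberField IsDedekindDomain TensorProduct
open Vale.Agent.P011.T2 (QuadL HF)
open Vale.Agent.P011.RP (RData)
open Vale.Agent.P011.W (HasNrd)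

set_option linter.unusedSectionVars false

namespace Vale.Agent.P011.One.Ns

open Vale.Agent.P011.Arith Vale.Agent.P011.Two Vale.Agent.P011.Even

/-- The reduced norm of a given element is seen in every splitting. -/
theorem hasNrd_one {K D : Type} [Field K] [CharZero K] [DivisionRing D] [Algebra K D]
    [FiniteDimensional K D] [Algebra.IsCentral K D] {n : ℕ} (hdeg : finrank K D = n ^ 2)
    {Ω : Type} [Field Ω] [Algebra K Ω] (f : D →ₐ[K] Matrix (Fin n) (Fin n) Ω) {g : D}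
    (hg : (f g).det = 1) : HasNrd K n g 1 := by
  obtain ⟨L, _, _, _, j, u, hL, hu⟩ := W.exists_maxfield hdeg g
  have h1 := W.hasNrd_norm hdeg hL j u
  rw [hu] at h1
  have h2 := h1 Ω f
  rw [hg] at h2
  have h3 : Algebra.norm K u = 1 := by
    apply (algebraMap K Ω).injective
    rw [← h2, map_one]
  rwa [h3] at h1

/-- The centre is mapped to scalars. -/
theorem exists_center {k K D F L : Type} [Field k] [Field K] [DivisionRing D] [Algebra k D]
    [Algebra K D] [Field F] [Field L] [Algebra F L] {n N : ℕ} (hn : 0 < n) (B : Basis (Fin N) k D)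
    (f : D →+* Matrix (Fin n) (Fin n) L)
    (hspan : ∀ Y, ∃ b : Fin N → F, ∑ j, b j • f (B j) = Y) :
    ∃ φ : K →+* L, ∀ c, f (algebraMap K D c) = Matrix.scalar (Fin n) (φ c) := by
  have : Nonempty (Fin n) := ⟨⟨0, hn⟩⟩
  have h1 : ∀ c : K, ∃ x : L, Matrix.scalar (Fin n) x = f (algebraMap K D c) := by
    intro c
    have h2 : ∀ Y, Commute Y (f (algebraMap K D c)) := by
      intro Y
      obtain ⟨b, rfl⟩ := hspan Y
      refine Commute.sum_left _ _ _ fun j _ => ?_
      refine Commute.smul_left ?_ _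
      rw [Commute, SemiconjBy, ← map_mul, ← map_mul, Algebra.commutes]
    exact Matrix.mem_range_scalar_of_commute_single fun i j _ => h2 _
  choose φ hφ using h1
  have hinj : Function.Injective (Matrix.scalar (α := L) (Fin n)) := fun _ _ h =>
    Matrix.scalar_inj.mp h
  refine ⟨{ toFun := φ, map_one' := ?_, map_mul' := ?_, map_zero' := ?_, map_add' := ?_ },
    fun c => (hφ c).symm⟩
  · apply hinj
    rw [hφ, map_one, map_one, map_one]
  · intro a b
    apply hinj
    rw [hφ, map_mul, map_mul, map_mul, hφ, hφ]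
  · apply hinj
    rw [hφ, map_zero, map_zero, map_zero]
  · intro a b
    apply hinj
    rw [hφ, map_add, map_add, map_add, hφ, hφ]

/-- An isotropic vector lies in a hyperbolic pair. -/
theorem exists_pair {L : Type} [Field L] [CharZero L] [StarRing L] {n : ℕ}
    {H : Matrix (Fin n) (Fin n) L} (hH : Hᴴ = H) (hd : H.det ≠ 0) {z : Fin n → L} (hz : z ≠ 0)
    (h0 : bh H z z = 0) : ∃ z', bh H z' z' = 0 ∧ bh H z z' = 1 := by
  obtain ⟨w, hw⟩ : ∃ w, bh H z w ≠ 0 := by
    by_contra hcon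
    push Not at hcon
    exact hz (rowHF_nondeg H hH hd z fun y => by rw [bh_eq]; exact hcon y)
  obtain ⟨c, hc⟩ : ∃ c, c = star (bh H z w)⁻¹ := ⟨_, rfl⟩
  have h1 : bh H z (c • w) = 1 := by
    rw [bh_smul_right hH, hc, star_star, inv_mul_cancel₀ hw]
  obtain ⟨u, hu⟩ : ∃ u, u = c • w := ⟨_, rfl⟩
  rw [← hu] at h1
  have h1' : bh H u z = 1 := by rw [← star_bh hH, h1, star_one]
  obtain ⟨a, ha⟩ : ∃ a, a = bh H u u := ⟨_, rfl⟩
  have has : star a = a := by rw [ha, star_bh hH]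
  refine ⟨u - (a / 2) • z, ?_, ?_⟩
  · rw [bh_sub_left, bh_smul_left, bh_sub_right hH, bh_sub_right hH, bh_smul_right hH,
      bh_smul_right hH, h0, h1, h1', ← ha, star_div₀, star_ofNat, has]
    ring
  · rw [bh_sub_right hH, bh_smul_right hH, h0, h1]
    ring

theorem sqNear_real : SqNear ℝ := by
  intro B C B' C'
  have hc : ∀ B C : ℝ, ∀ᶠ x in 𝓝 (0 : ℝ), |B * x ^ 2 + C * x ^ 4| < 1 / 2 := by
    intro B C
    have h1 : Continuous fun x : ℝ => |B * x ^ 2 + C * x ^ 4| := by fun_prop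
    have h2 := h1.tendsto 0
    simp only [ne_eq, OfNat.ofNat_ne_zero, not_false_eq_true, zero_pow, mul_zero, add_zero,
      abs_zero] at h2
    exact h2.eventually (Iio_mem_nhds (by norm_num))
  have h3 := ((hc B C).and (hc B' C')).filter_mono
    (nhdsWithin_le_nhds (a := (0 : ℝ)) (s := {0}ᶜ))
  obtain ⟨x, ⟨h4, h5⟩, hx⟩ := (h3.and self_mem_nhdsWithin).exists
  rw [abs_lt] at h4 h5
  have h6 : 0 < 1 + B * x ^ 2 + C * x ^ 4 := by linarith
  refine ⟨x, Real.sqrt (1 + B * x ^ 2 + C * x ^ 4), hx, (Real.sqrt_pos.mpr h6).ne',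
    (Real.sq_sqrt h6.le).symm, by linarith⟩

section cplx

variable {n : ℕ} {H : Matrix (Fin n) (Fin n) ℂ}

theorem bh_real (hH : Hᴴ = H) (x : Fin n → ℂ) : ∃ a : ℝ, bh H x x = (a : ℂ) := by
  have h1 : star (bh H x x) = bh H x x := star_bh hH x x
  exact ⟨(bh H x x).re, (Complex.conj_eq_iff_re.mp h1).symm⟩

theorem real_scale (hH : Hᴴ = H) (hdef : ∀ x : Fin n → ℂ, x ≠ 0 → bh H x x ≠ 0)
    (x y : Fin n → ℂ) (hx : x ≠ 0) (hy : y ≠ 0) :
    ∃ c : ℂ, c ≠ 0 ∧ bh H (c • x) (c • x) = bh H y y := by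
  obtain ⟨a, ha⟩ := bh_real hH x
  obtain ⟨b, hb⟩ := bh_real hH y
  have ha0 : a ≠ 0 := by
    rintro rfl
    exact hdef x hx (by rw [ha, Complex.ofReal_zero])
  have hb0 : b ≠ 0 := by
    rintro rfl
    exact hdef y hy (by rw [hb, Complex.ofReal_zero])
  have hsc : ∀ (c : ℝ) (x : Fin n → ℂ), bh H ((c : ℂ) • x) ((c : ℂ) • x) = (c : ℂ) ^ 2 * bh H x x := by
    intro c x
    rw [bh_smul_left, bh_smul_right hH]
    have : star (c : ℂ) = c := Complex.conj_ofReal c
    rw [this]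
    ring
  by_cases hab : 0 < b / a
  · refine ⟨((Real.sqrt (b / a) : ℝ) : ℂ), ?_, ?_⟩
    · exact_mod_cast (Real.sqrt_pos.mpr hab).ne'
    · rw [hsc, ha, hb, ← Complex.ofReal_pow, Real.sq_sqrt hab.le, ← Complex.ofReal_mul,
        div_mul_cancel₀ _ ha0]
  · exfalso
    have hab' : 0 < -a / b := by
      have h1 : b / a < 0 := lt_of_le_of_ne (not_lt.mp hab) (div_ne_zero hb0 ha0)
      have h2 : -a / b = -(b / a)⁻¹ := by rw [inv_div, neg_div]
      rw [h2]
      exact neg_pos.mpr (inv_lt_zero.mpr h1)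
    -- a rotation making the product imaginary
    obtain ⟨q, hq⟩ : ∃ q, q = bh H x y := ⟨_, rfl⟩
    obtain ⟨u, hu1, hu2⟩ : ∃ u : ℂ, u * star u = 1 ∧ star u * q + u * star q = 0 := by
      by_cases hq0 : q = 0
      · exact ⟨1, by rw [star_one, mul_one], by rw [hq0, star_zero]; ring⟩
      · have hn : ((‖q‖ : ℝ) : ℂ) ≠ 0 := by exact_mod_cast norm_ne_zero_iff.mpr hq0
        have hqq : q * star q = ((‖q‖ : ℝ) : ℂ) ^ 2 := by
          change q * (starRingEnd ℂ) q = _
          rw [Complex.mul_conj, Complex.normSq_eq_norm_sq, Complex.ofReal_pow]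
        have hns : star ((‖q‖ : ℝ) : ℂ) = ((‖q‖ : ℝ) : ℂ) := Complex.conj_ofReal _
        have hI : star Complex.I = -Complex.I := Complex.conj_I
        refine ⟨Complex.I * q / ((‖q‖ : ℝ) : ℂ), ?_, ?_⟩
        · rw [star_div₀, star_mul', hns, hI]
          field_simp
          rw [mul_assoc, hqq, Complex.I_sq]
          ring
        · rw [star_div₀, star_mul', hns, hI]
          field_simp
          ring
    obtain ⟨t, ht⟩ : ∃ t : ℝ, t = Real.sqrt (-a / b) := ⟨_, rfl⟩
    have ht2 : t ^ 2 = -a / b := by rw [ht, Real.sq_sqrt hab'.le]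
    have huy : bh H (u • y) (u • y) = bh H y y := by
      rw [bh_smul_left, bh_smul_right hH, ← mul_assoc, hu1, one_mul]
    have hts : star (t : ℂ) = t := Complex.conj_ofReal t
    have h1 : bh H (x + (t : ℂ) • u • y) (x + (t : ℂ) • u • y) = 0 := by
      have hyx : bh H y x = star q := by rw [hq, star_bh hH]
      rw [bh_add_left, bh_add_right hH, bh_add_right hH, bh_smul_right hH, bh_smul_left,
        bh_smul_left, bh_smul_right hH, bh_smul_right hH, bh_smul_left, huy, ha, hb, hts, ← hq,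
        hyx]
      have h3 : ((t : ℂ)) ^ 2 * b = -a := by
        rw [← Complex.ofReal_pow, ht2, ← Complex.ofReal_mul, div_mul_cancel₀ _ hb0,
          Complex.ofReal_neg]
      linear_combination h3 + (t : ℂ) * hu2
    have h2 : x + (t : ℂ) • u • y = 0 := by
      by_contra h
      exact hdef _ h h1
    have h3 : x = (((-t : ℝ)) : ℂ) • u • y := by
      rw [Complex.ofReal_neg, neg_smul]
      exact eq_neg_of_add_eq_zero_left h2
    have h4 : bh H x x = ((-t : ℝ) : ℂ) ^ 2 * bh H y y := by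
      rw [h3, hsc, huy]
    rw [ha, hb, ← Complex.ofReal_pow, ← Complex.ofReal_mul, Complex.ofReal_inj, neg_sq, ht2,
      div_mul_cancel₀ _ hb0] at h4
    apply ha0
    linarith

theorem root_norm_one {e : ℕ} (he : e ≠ 0) {θ : ℂ} (hθ : θ * star θ = 1) :
    ∃ η : ℂ, η * star η = 1 ∧ η ^ e = θ := by
  have hn : ∀ z : ℂ, z * star z = ((‖z‖ ^ 2 : ℝ) : ℂ) := by
    intro z
    change z * (starRingEnd ℂ) z = _
    rw [Complex.mul_conj, Complex.normSq_eq_norm_sq]
  obtain ⟨η, hη⟩ := IsAlgClosed.exists_pow_nat_eq θ (Nat.pos_of_ne_zero he)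
  refine ⟨η, ?_, hη⟩
  have h1 : ‖θ‖ = 1 := by
    rw [hn] at hθ
    have h2 : ‖θ‖ ^ 2 = 1 := by exact_mod_cast hθ
    nlinarith [norm_nonneg θ]
  have h2 : ‖η‖ = 1 := by
    rw [← hη, norm_pow] at h1
    exact (pow_eq_one_iff_of_nonneg (norm_nonneg η) he).mp h1
  rw [hn, h2]
  norm_num

end cplx

section final

variable {k K D : Type} [Field k] [NumberField k] [Field K] [StarRing K]
    [DivisionRing D] [StarRing D] [Algebra k K] [Algebra k D] [Algebra K D] [IsScalarTower k K D]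
    {d : kˣ} {s : K} {n : ℕ} {N : ℕ}

theorem card_basis (hS : Setting k K D d s) (hdeg : finrank K D = n ^ 2) (B : Basis (Fin N) k D)
    {F L : Type} [Field F] [Field L] [Algebra F L] (hL : finrank F L = 2) :
    finrank F (Matrix (Fin n) (Fin n) L) = N := by
  have := hS.fin
  have h1 : finrank k D = N := by rw [Module.finrank_eq_card_basis B, Fintype.card_fin]
  have h2 := Module.finrank_mul_finrank k K D
  rw [hS.rank, hdeg, h1] at h2
  rw [Module.finrank_matrix, Fintype.card_fin, hL, ← h2]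
  ring

/-- LT at the nonsplit finite places. -/
theorem lt_inl (hS : Setting k K D d s) (hn : 3 ≤ n) (hdeg : finrank K D = n ^ 2)
    (B : Basis (Fin N) k D) (v : HeightOneSpectrum (𝓞 k)) (hv : d ∉ LS (v.valuation k))
    {e : ℕ} (he : e ≠ 0) {Ω : Type} [Field Ω] [Algebra K Ω]
    (fΩ : D →ₐ[K] Matrix (Fin n) (Fin n) Ω) {g : D} (hg : g * star g = 1)
    (hg1 : (fΩ g).det = 1) : LT B (Sum.inl v) e g := by
  classical
  have := hS.fin
  have := hS.cen
  have : CharZero K := charZero_of_injective_algebraMap (algebraMap k K).injective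
  let _ := nnf v
  obtain ⟨L, _, _, _, ρ, G, hfix, hL2, hGu, hGs, hG⟩ := exists_local_model hS hdeg v hv
  obtain ⟨dL, hQ⟩ := exists_quadL hfix hL2
  have : CharZero L :=
    charZero_of_injective_algebraMap (algebraMap (v.adicCompletion k) L).injective
  have : FiniteDimensional (v.adicCompletion k) L :=
    Module.finite_of_finrank_pos (by rw [hL2]; exact two_pos)
  have hσ : ∀ x, hS.sig x = star x := fun x => rfl
  have hG' : ∀ T, G * ρ (sg hS v T) = (ρ T)ᴴ * G := hG
  obtain ⟨θ, -, -, hθs, hθd⟩ := model_theta (by omega) hGu hG'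
  have hU := univ2 hv hfix hθs hθd
  have hGd : IsUnit G.det := (Matrix.isUnit_iff_isUnit_det G).mp hGu
  have hGG : G * G⁻¹ = 1 := Matrix.mul_nonsing_inv _ hGd
  have hGG' : G⁻¹ * G = 1 := Matrix.nonsing_inv_mul _ hGd
  have hGis : (G⁻¹)ᴴ = G⁻¹ := by rw [Matrix.conjTranspose_nonsing_inv, hGs]
  have hGid : (G⁻¹).det ≠ 0 := by
    have h1 : IsUnit G⁻¹ := ⟨⟨G⁻¹, G, hGG', hGG⟩, rfl⟩
    exact ((Matrix.isUnit_iff_isUnit_det _).mp h1).ne_zero
  let f : D →+* Matrix (Fin n) (Fin n) L :=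
    (ρ.toAlgHom : v.adicCompletion k ⊗[k] D →+* Matrix (Fin n) (Fin n) L).comp
      (Algebra.TensorProduct.includeRight : D →ₐ[k] v.adicCompletion k ⊗[k] D).toRingHom
  have hf : ∀ x, f x = ρ (1 ⊗ₜ x) := fun x => rfl
  have hspan : ∀ Y, ∃ b : Fin N → v.adicCompletion k, ∑ j, b j • f (B j) = Y := by
    intro Y
    let BA := Algebra.TensorProduct.basis (v.adicCompletion k) B
    refine ⟨fun j => BA.repr (ρ.symm Y) j, ?_⟩
    have h1 : ∑ j, BA.repr (ρ.symm Y) j • BA j = ρ.symm Y := BA.sum_repr _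
    have h2 := congrArg ρ h1
    rw [map_sum, AlgEquiv.apply_symm_apply] at h2
    refine Eq.trans (Finset.sum_congr rfl fun j _ => ?_) h2
    rw [map_smul, hf, Algebra.TensorProduct.basis_apply]
  obtain ⟨φ, hφ⟩ := exists_center (K := K) (by omega) B f hspan
  have hdet : (f g).det = 1 := by
    have h1 := (W.hasNrd_iff.mp (hasNrd_one hdeg fΩ hg1)) L φ f hφ
    rw [h1, map_one]
  have hgU : g ∈ unitary D := by
    rw [Unitary.mem_iff]
    exact ⟨mul_eq_one_comm.mp hg, hg⟩
  obtain ⟨z, z', hp⟩ := Fr.exists_hp hQ hU (rowHF G⁻¹ hGis) (rowHF_nondeg G⁻¹ hGis hGid)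
    (by rw [Module.finrank_fin_fun]; exact hn)
  have h00 := hp.zz
  have h11 := hp.zz'
  have h01 := hp.one
  rw [bh_eq] at h00 h11 h01
  refine lt_model B (Sum.inl v) hQ f ?_ hGis ⟨⟨G⁻¹, G, hGG', hGG⟩, rfl⟩ ?_ hspan ?_ ?_
    (card_basis hS hdeg B hL2) e ⟨g, hgU⟩ ?_
  · intro a x
    rw [hf, hf, TensorProduct.tmul_smul, ← map_smul,
      ← algebraMap_smul (v.adicCompletion k) a ((1 : v.adicCompletion k) ⊗ₜ[k] x)]
  · intro x
    have h1 := hG (1 ⊗ₜ x)
    rw [LinearMap.baseChange_tmul, hσ, ← hf, ← hf] at h1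
    calc f (star x) * G⁻¹ = G⁻¹ * (G * f (star x)) * G⁻¹ := by
          rw [← mul_assoc, hGG', one_mul]
      _ = G⁻¹ * (f x)ᴴ * (G * G⁻¹) := by rw [h1]; simp only [mul_assoc]
      _ = _ := by rw [hGG, mul_one]
  · exact fun x => norm_algebraMap_eq v x
  · intro y ε hε
    obtain ⟨x, hx⟩ := dense v y ε hε
    exact ⟨x, by rwa [← norm_neg, neg_sub]⟩
  · intro T hT hTg
    exact su_iso hQ (sqNear v) hGis hGid he h00 h11 h01 hT (by rw [hTg]; exact hdet)

/-- LT at the nonsplit real places. -/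
theorem lt_inr [NumberField K] (hS : Setting k K D d s) (hn : 3 ≤ n)
    (hdeg : finrank K D = n ^ 2) (B : Basis (Fin N) k D) (φ : k →+* ℝ) (hφ : φ d < 0)
    {e : ℕ} (he : e ≠ 0) {Ω : Type} [Field Ω] [Algebra K Ω]
    (fΩ : D →ₐ[K] Matrix (Fin n) (Fin n) Ω) {g : D} (hg : g * star g = 1)
    (hg1 : (fΩ g).det = 1) : LT B (Sum.inr φ) e g := by
  classical
  have := hS.fin
  have := hS.cen
  obtain ⟨R, hR⟩ := exists_rdata_of (D := D) hS (by omega : 0 < n) hdeg hφ
  let _ : Algebra k ℝ := φ.toAlgebra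
  have hal : ∀ a : k, algebraMap k ℝ a = φ a := fun a => rfl
  have hspan : ∀ Y, ∃ b : Fin N → ℝ, ∑ j, b j • R.f (B j) = Y := fun Y =>
    span_real hS (by omega) hdeg R hR B Y
  have hdet : (R.f g).det = 1 := by
    have h1 := (W.hasNrd_iff.mp (hasNrd_one hdeg fΩ hg1)) ℂ R.s R.f R.hf
    rw [h1, map_one]
  have hgU : g ∈ unitary D := by
    rw [Unitary.mem_iff]
    exact ⟨mul_eq_one_comm.mp hg, hg⟩
  have hd : R.A.det ≠ 0 := ((Matrix.isUnit_iff_isUnit_det _).mp R.unit).ne_zero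
  refine lt_model B (Sum.inr φ) quadC R.f ?_ R.hA R.unit R.star_f hspan ?_ ?_
    (card_basis hS hdeg B Complex.finrank_real_complex) e ⟨g, hgU⟩ ?_
  · intro a x
    rw [f_smul R hR, hal]
  · intro x
    rw [plAbv_inr, hal, Real.norm_eq_abs]
  · intro y ε hε
    obtain ⟨q, hq1, hq2⟩ := exists_rat_btwn (show y - ε < y + ε by linarith)
    refine ⟨(q : k), ?_⟩
    rw [hal, map_ratCast, Real.norm_eq_abs, abs_lt]
    constructor <;> linarith
  · intro T hT hTg
    by_cases hdef : ∀ x : Fin n → ℂ, x ≠ 0 → bh R.A x x ≠ 0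
    · exact su_def quadC R.hA hd hn hdef (real_scale R.hA hdef) (fun θ hθ => root_norm_one he hθ)
        hT (by rw [hTg]; exact hdet)
    · push Not at hdef
      obtain ⟨z, hz, h0⟩ := hdef
      obtain ⟨z', h11, h01⟩ := exists_pair R.hA hd hz h0
      exact su_iso quadC sqNear_real R.hA hd he h0 h11 h01 hT (by rw [hTg]; exact hdet)

end final

end Vale.Agent.P011.One.Ns
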