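import Vale.Agent.P011.One.SplitLT
import Vale.Agent.P011.One.LTns2

/-!
A set of unitary elements of reduced norm one which is closed under products, contains the powers
and contains all elements close to one at finitely many places contains all elements close to one
at the places which split and where the algebra remains a division algebra.
-/

open Filter Topology Module TensorProduct NumberField IsDedekindDomain

set_option linter.unusedSectionVars false

namespace Vale.Agent.P011.One

open Vale.Agent.P011.Arith Vale.Agent.P011.Even Vale.Agent.P011.Two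

variable {k K D : Type} [Field k] [NumberField k] [Field K] [NumberField K] [StarRing K]
  [DivisionRing D] [StarRing D] [Algebra k K] [Algebra k D] [Algebra K D] [IsScalarTower k K D]
  {d : kˣ} {s : K}

/-- The unitary elements of reduced norm one. -/
def GU {K D Ω : Type} [Field K] [DivisionRing D] [StarRing D] [Algebra K D] [Field Ω]
    [Algebra K Ω] {n : ℕ} (f : D →ₐ[K] Matrix (Fin n) (Fin n) Ω) : Set D :=
  {g | g * star g = 1 ∧ (f g).det = 1}

/-- **From finitely many places to the places of `Tdiv`.** -/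
theorem pf_tdiv (hS : Setting k K D d s) {n : ℕ} (hn : 3 ≤ n) (hdeg : finrank K D = n ^ 2)
    {Ω : Type} [Field Ω] [Algebra K Ω] (f : D →ₐ[K] Matrix (Fin n) (Fin n) Ω) {N : ℕ}
    (B : Basis (Fin N) k D) {M : Set D} (hMG : M ⊆ GU f) (h1M : (1 : D) ∈ M)
    (hmul : ∀ a ∈ M, ∀ b ∈ M, a * b ∈ M) {e : ℕ} (he : e ≠ 0) (hpow : ∀ x ∈ GU f, x ^ e ∈ M)
    {S : Set (Pl k)} (hSf : S.Finite) (h : PF B (GU f) M S) : PF B (GU f) M (Tdiv k K D) := by
  have hcharD : CharZero D := charZero_of_injective_algebraMap (algebraMap k D).injective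
  have := hS.fin
  have := hS.cen
  have hsm : StarModule K D := ⟨hS.star_smul⟩
  have hst : ∀ (c : k) (x : D), star (c • x) = c • star x := fun c x => hS.sig.map_smul c x
  have h0 : ∀ x ∈ GU f, x ≠ 0 := fun x hx => left_ne_zero_of_mul_eq_one hx.1
  have hinv : ∀ x ∈ GU f, x⁻¹ * star x⁻¹ = 1 := by
    intro x hx
    have h1 : star x = x⁻¹ := (inv_eq_of_mul_eq_one_right hx.1).symm
    rw [star_inv₀, h1, inv_inv, inv_mul_cancel₀ (h0 x hx)]
  have hdet : ∀ x : D, x ≠ 0 → (f x).det * (f x⁻¹).det = 1 := by
    intro x hx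
    rw [← Matrix.det_mul, ← map_mul, mul_inv_cancel₀ hx, map_one, Matrix.det_one]
  refine tform hst (e := e) (G := GU f) (M := M) (fun h => h0 _ h rfl) ?_ (fun h => h0 _ (hMG h) rfl)
    h1M hmul ?_ hSf ?_ h
  · intro g hg u hu
    have hu' := hMG hu
    refine ⟨?_, ?_⟩
    · rw [star_mul, mul_assoc, ← mul_assoc u⁻¹, hinv u hu', one_mul]
      exact hg.1
    · have h1 := hdet u (h0 u hu')
      rw [hu'.2, one_mul] at h1
      rw [map_mul, Matrix.det_mul, hg.2, h1, mul_one]
  · intro y z hy hz
    have hy0 := cy_ne hy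
    have hz0 := cy_ne hz
    apply hpow
    refine ⟨?_, ?_⟩
    · have := cq_star (e := 1) hy hz
      rwa [cq, pow_one] at this
    · rw [map_mul, map_mul, map_mul, Matrix.det_mul, Matrix.det_mul, Matrix.det_mul]
      have h1 := hdet _ hy0
      have h2 := hdet _ hz0
      calc (f (cy y)).det * (f (cy z)).det * (f (cy y)⁻¹).det * (f (cy z)⁻¹).det
          = ((f (cy y)).det * (f (cy y)⁻¹).det) * ((f (cy z)).det * (f (cy z)⁻¹).det) := by ring
        _ = 1 := by rw [h1, h2, one_mul]
  · intro p _ hpT g hg
    by_cases hp : d ∈ LSp p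
    · exact lt_split_all hS (by omega) hdeg f B hp hpT he hg.1 hg.2
    · rcases p with v | φ
      · exact Ns.lt_inl hS hn hdeg B v hp he f hg.1 hg.2
      · refine Ns.lt_inr hS hn hdeg B φ ?_ he f hg.1 hg.2
        by_contra hφ
        apply hp
        have hne : φ (d : k) ≠ 0 := (map_ne_zero φ).mpr d.ne_zero
        exact lt_of_le_of_ne (not_lt.mp hφ) hne.symm

end Vale.Agent.P011.One
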