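import Vale.Agent.P011.One.Loc
import Vale.Agent.P011.One.HelDefs
import Vale.Agent.P011.Two.LocChain

/-!
Local chains of symmetric square roots of `a`: definitions.
-/

open NumberField IsDedekindDomain TensorProduct

set_option linter.unusedSectionVars false

namespace Vale.Agent.P011.One

open Vale.Agent.P011.Arith Vale.Agent.P011.Even Vale.Agent.P011.Two

/-- Local chains from `σ` to `σ'` at the place `p`. The number `μ` does not depend on `η`. -/
def Chain1 {k K D : Type} [Field k] [NumberField k] [Field K] [DivisionRing D] [StarRing D]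
    [Algebra k D] [Algebra K D] {N : ℕ} (B : Module.Basis (Fin N) k D) (d a : kˣ) (s : K)
    (p : Pl k) (σ σ' : D) : Prop :=
  ∃ μ : ℝ, 0 < μ ∧ ∀ η : ℝ, 0 < η → ∃ (m : ℕ) (α : ℕ → kˣ) (W X Y : ℕ → D),
    (∀ i < m, α i = 1 ∨ (μ ≤ plAbv p (α i : k) ∧ α i ∈ NF (a * d) ⊔ LSp p ∧
      ∀ v, p = .inl v → ∃ a₁ : kˣ, (a₁ : k) = 1 - α i ∧ μ ≤ plAbv p (a₁ : k) ∧
        -a₁ ∈ NF (a * d) ⊔ LSp p)) ∧
    W 0 = σ ∧ nm B p (W m - σ') < η ∧
    ∀ i < m, star (X i) = -X i ∧ star (Y i) = Y i ∧ Y i * W i = W i * Y i ∧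
      W (i + 1) = hel s (X i) (Y i) * W i * star (hel s (X i) (Y i)) ∧
      nm B p ((cc a (W i) (W (i + 1)) - 1) *
        (cc a (W i) (W (i + 1)) - algebraMap k D (α i))) < η

section

variable {k K D : Type} [Field k] [NumberField k] [Field K] [StarRing K]
  [DivisionRing D] [StarRing D] [Algebra k K] [Algebra k D] [Algebra K D] [IsScalarTower k K D]
  {d : kˣ} {s : K}

/-- The invariant of a pair in the completed algebra. -/
noncomputable def ccT (v : HeightOneSpectrum (𝓞 k)) (a : kˣ) (W W' : v.adicCompletion k ⊗[k] D) :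
    v.adicCompletion k ⊗[k] D :=
  (W + W') * (W + W') * (1 ⊗ₜ algebraMap k D (4 * a : k)⁻¹)

/-- Local steps: `W' = H W H⁻¹` with `H = G C G⁻¹`, where `G`, `C` are unitary and `C` commutes
with `W`. -/
structure LStep1 (hS : Setting k K D d s) (a : kˣ) (v : HeightOneSpectrum (𝓞 k))
    (W W' : v.adicCompletion k ⊗[k] D) : Prop where
  conj : ∃ G C : v.adicCompletion k ⊗[k] D, G * sg hS v G = 1 ∧ sg hS v G * G = 1 ∧
    C * sg hS v C = 1 ∧ sg hS v C * C = 1 ∧ IsUnit (1 + G) ∧ IsUnit (1 + C) ∧ C * W = W * C ∧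
    W' = (G * C * sg hS v G) * W * (G * sg hS v C * sg hS v G)
  rel : ∃ α α₁ : (v.adicCompletion k)ˣ, α ∈ LN (iu v (a * d)) ∧
    (α₁ : v.adicCompletion k) = 1 - α ∧ -α₁ ∈ LN (iu v (a * d)) ∧
    (ccT v a W W' - 1) * (ccT v a W W' - algebraMap (v.adicCompletion k) _
      (α : v.adicCompletion k)) = 0

end

end Vale.Agent.P011.One
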