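import Vale.Agent.P011.One.FrameOp
import Vale.Agent.P011.One.LocDefs

/-!
Local chains of symmetric square roots of `a` at the places which do not split in `K` and at which
`a` is a square.
-/

open NumberField IsDedekindDomain TensorProduct Matrix Module

set_option linter.unusedSectionVars false

namespace Vale.Agent.P011.One

open Vale.Agent.P011.Arith Vale.Agent.P011.Even Vale.Agent.P011.T2 Vale.Agent.P011.Two

namespace Rk

section decomp

variable {F L : Type} [Field F] [Field L] [CharZero L] [StarRing L] [Algebra F L] {d : F}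
  {n : ℕ} {H : Matrix (Fin n) (Fin n) L} (hH : Hᴴ = H) (hHu : IsUnit H)

/-- The eigenspace of an operator on row vectors. -/
def eig (S : Matrix (Fin n) (Fin n) L) (c : L) : Submodule L (Fin n → L) :=
  LinearMap.ker (Matrix.vecMulLinear S - c • LinearMap.id)

theorem mem_eig {S : Matrix (Fin n) (Fin n) L} {c : L} {v : Fin n → L} :
    v ∈ eig S c ↔ v ᵥ* S = c • v := by
  rw [eig, LinearMap.mem_ker, LinearMap.sub_apply, LinearMap.smul_apply, LinearMap.id_apply,
    sub_eq_zero]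
  rfl

variable {S : Matrix (Fin n) (Fin n) L} {α : L} (hS2 : S * S = Matrix.scalar _ (α * α))

include hS2 in
theorem eig_sup (hα : α ≠ 0) (v : Fin n → L) :
    (2 : L)⁻¹ • (v + α⁻¹ • (v ᵥ* S)) ∈ eig S α ∧ (2 : L)⁻¹ • (v - α⁻¹ • (v ᵥ* S)) ∈ eig S (-α) := by
  have h1 : (v ᵥ* S) ᵥ* S = (α * α) • v := by
    rw [Matrix.vecMul_vecMul, hS2, Matrix.scalar_apply, ← Matrix.smul_one_eq_diagonal,
      Matrix.vecMul_smul, Matrix.vecMul_one]
  constructor
  · rw [mem_eig, Matrix.smul_vecMul, Matrix.add_vecMul, Matrix.smul_vecMul, h1]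
    match_scalars <;> field_simp
  · rw [mem_eig, Matrix.smul_vecMul, Matrix.sub_vecMul, Matrix.smul_vecMul, h1]
    match_scalars <;> field_simp

include hS2 in
theorem eig_finrank (hα : α ≠ 0) :
    finrank L (eig S α) + finrank L (eig S (-α)) = n := by
  have h1 : eig S α ⊓ eig S (-α) = ⊥ := by
    rw [Submodule.eq_bot_iff]
    intro v hv
    obtain ⟨h1, h2⟩ := Submodule.mem_inf.mp hv
    rw [mem_eig] at h1 h2
    have h3 : (2 * α) • v = 0 := by
      have : α • v = (-α) • v := h1.symm.trans h2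
      rw [two_mul, add_smul]
      nth_rewrite 1 [this]
      rw [neg_smul, neg_add_cancel]
    exact (smul_eq_zero.mp h3).resolve_left (mul_ne_zero two_ne_zero hα)
  have h2 : eig S α ⊔ eig S (-α) = ⊤ := by
    rw [eq_top_iff]
    intro v _
    obtain ⟨h3, h4⟩ := eig_sup hS2 hα v
    have h5 : v = (2 : L)⁻¹ • (v + α⁻¹ • (v ᵥ* S)) + (2 : L)⁻¹ • (v - α⁻¹ • (v ᵥ* S)) := by
      match_scalars <;> field_simp <;> ring
    rw [h5]
    exact Submodule.add_mem_sup h3 h4
  have h3 := Submodule.finrank_sup_add_finrank_inf_eq (eig S α) (eig S (-α))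
  rw [h1, h2, finrank_bot, finrank_top, Module.finrank_fin_fun, add_zero] at h3
  exact h3.symm

include hHu in
theorem eig_orth (hα : α ≠ 0) (hαs : star α = α) (hSs : adj H S = S) {v w : Fin n → L}
    (hv : v ∈ eig S α) (hw : w ∈ eig S (-α)) : (rowHF H hH).h v w = 0 := by
  rw [mem_eig] at hv hw
  have h1 := h_adj hH hHu v w S
  rw [hSs, hv, hw, (rowHF H hH).smul_left, (rowHF H hH).smul_right, star_neg, hαs] at h1
  have h2 : 2 * α * (rowHF H hH).h v w = 0 := by linear_combination h1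
  exact (mul_eq_zero.mp h2).resolve_left (mul_ne_zero two_ne_zero hα)

include hHu hS2 in
/-- The involution is the one attached to a frame. -/
theorem exists_frame_of (hQ : QuadL F L d) (hα : α ≠ 0) (hαs : star α = α)
    (hSs : adj H S = S) : ∃ (δ : Fin (finrank L (eig S α)) → Fˣ)
      (f : Fin (finrank L (eig S α)) → Fin n → L), IsFrame (rowHF H hH) δ f ∧ sy hH α f = S := by
  have hn0 : (rowHF H hH).Nondeg := rowHF_nondeg H hH
    ((Matrix.isUnit_iff_isUnit_det H).mp hHu).ne_zero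
  have hnd : ((rowHF H hH).sub (eig S α)).Nondeg := by
    rintro ⟨x, hx⟩ h
    apply Subtype.ext
    apply hn0
    intro y
    obtain ⟨h3, h4⟩ := eig_sup hS2 hα y
    have h5 : y = (2 : L)⁻¹ • (y + α⁻¹ • (y ᵥ* S)) + (2 : L)⁻¹ • (y - α⁻¹ • (y ᵥ* S)) := by
      match_scalars <;> field_simp <;> ring
    rw [h5, (rowHF H hH).add_right, eig_orth hH hHu hα hαs hSs hx h4, add_zero]
    exact h ⟨_, h3⟩
  obtain ⟨w, hw1, hw2⟩ := RP.exists_orth_basis hQ _ (eig S α) _ hnd rfl
  choose δ hδ using fun i => hQ.fix _ (((rowHF H hH).sub (eig S α)).star_h (w i) (w i))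
  have hδ0 : ∀ i, δ i ≠ 0 := by
    intro i h0
    apply hw2 i
    rw [← hδ, h0, map_zero]
  have hfr : IsFrame (rowHF H hH) (fun i => Units.mk0 (δ i) (hδ0 i))
      (fun i => ((w i : eig S α) : Fin n → L)) :=
    ⟨fun i => (hδ i).symm, fun i j hij => hw1 i j hij⟩
  refine ⟨_, _, hfr, ?_⟩
  have h1 : ∀ v ∈ eig S α, v ᵥ* prF hH (fun i => ((w i : eig S α) : Fin n → L)) = v := by
    intro v hv
    have h2 : v = ∑ i, w.repr ⟨v, hv⟩ i • ((w i : eig S α) : Fin n → L) := by
      have h3 := congrArg Subtype.val (w.sum_repr ⟨v, hv⟩)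
      rw [Submodule.coe_sum] at h3
      simp only [Submodule.coe_smul] at h3
      exact h3.symm
    rw [h2, Matrix.sum_vecMul]
    refine Finset.sum_congr rfl fun i _ => ?_
    rw [Matrix.smul_vecMul, vecMul_prF hH hfr i]
  apply mat_ext
  intro v
  obtain ⟨h3, h4⟩ := eig_sup hS2 hα v
  have h5 : v = (2 : L)⁻¹ • (v + α⁻¹ • (v ᵥ* S)) + (2 : L)⁻¹ • (v - α⁻¹ • (v ᵥ* S)) := by
    match_scalars <;> field_simp <;> ring
  obtain ⟨x, hx⟩ : ∃ x, x = (2 : L)⁻¹ • (v + α⁻¹ • (v ᵥ* S)) := ⟨_, rfl⟩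
  obtain ⟨y, hy⟩ : ∃ y, y = (2 : L)⁻¹ • (v - α⁻¹ • (v ᵥ* S)) := ⟨_, rfl⟩
  rw [← hx, ← hy] at h5
  rw [← hx] at h3
  rw [← hy] at h4
  have h6 : y ᵥ* prF hH (fun i => ((w i : eig S α) : Fin n → L)) = 0 := by
    apply vecMul_prF_orth hH
    intro i
    rw [← (rowHF H hH).star_h, eig_orth hH hHu hα hαs hSs (w i).2 h4, star_zero]
  have h7 := mem_eig.mp h3
  have h8 := mem_eig.mp h4
  rw [h5, Matrix.add_vecMul, Matrix.add_vecMul, h7, h8, sy, Matrix.vecMul_smul,
    Matrix.vecMul_smul, Matrix.vecMul_sub, Matrix.vecMul_sub, Matrix.vecMul_add,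
    Matrix.vecMul_add, h1 x h3, h6, Matrix.vecMul_one, Matrix.vecMul_one]
  module

end decomp

theorem LN_mul_sq {F : Type} [Field F] {a d : Fˣ} {b : F} (hb : (a : F) = b * b) {u : Fˣ}
    (hu : u ∈ LN d) : u ∈ LN (a * d) := by
  obtain ⟨x, y, h⟩ := hu
  have hb0 : b ≠ 0 := by
    rintro rfl
    exact a.ne_zero (by rw [hb, mul_zero])
  refine ⟨x, y / b, ?_⟩
  rw [h, Units.val_mul, hb]
  field_simp

section model

variable {k K D : Type} [Field k] [NumberField k] [Field K] [StarRing K]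
  [DivisionRing D] [StarRing D] [Algebra k K] [Algebra k D] [Algebra K D] [IsScalarTower k K D]
  {d : kˣ} {s : K} {hS : Setting k K D d s} {v : HeightOneSpectrum (𝓞 k)}
  {n : ℕ} {L : Type} [Field L] [Algebra (v.adicCompletion k) L] [StarRing L]
  {ρ : v.adicCompletion k ⊗[k] D ≃ₐ[v.adicCompletion k] Matrix (Fin n) (Fin n) L}
  {G : Matrix (Fin n) (Fin n) L}

theorem adj_model (hGu : IsUnit G) (hG : ∀ T, G * ρ (sg hS v T) = (ρ T)ᴴ * G)
    (T : v.adicCompletion k ⊗[k] D) : adj G⁻¹ (ρ T) = ρ (sg hS v T) := by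
  obtain ⟨h1, h2⟩ := model_inv hGu
  have hd : IsUnit G.det := (Matrix.isUnit_iff_isUnit_det G).mp hGu
  unfold adj
  rw [← model_sg hGu hG, Matrix.nonsing_inv_nonsing_inv _ hd, Matrix.mul_assoc, h2,
    Matrix.mul_one]

theorem rho_alg (c : k) : ρ (1 ⊗ₜ algebraMap k D c) = Matrix.scalar (Fin n)
    (algebraMap (v.adicCompletion k) L (algebraMap k _ c)) := by
  have h2 : (1 : v.adicCompletion k) ⊗ₜ[k] algebraMap k D c =
      algebraMap (v.adicCompletion k) _ (algebraMap k (v.adicCompletion k) c) := by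
    rw [Algebra.TensorProduct.algebraMap_apply, Algebra.algebraMap_eq_smul_one c,
      TensorProduct.tmul_smul, TensorProduct.smul_tmul', Algebra.smul_def, mul_one]
    rfl
  rw [h2, AlgEquiv.commutes]
  rfl

theorem mv_lstep (hn : 0 < n) (hGu : IsUnit G)
    (hG : ∀ T, G * ρ (sg hS v T) = (ρ T)ᴴ * G)
    (hfix : ∀ x : L, star x = x ↔ x ∈ Set.range (algebraMap (v.adicCompletion k) L))
    (hv : d ∉ LS (v.valuation k)) (hH : (G⁻¹)ᴴ = G⁻¹) {r : ℕ} (hr : r + 2 ≤ n) {a : kˣ}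
    {b : v.adicCompletion k} (hb : algebraMap k _ (a : k) = b * b) {α : L}
    (hα : α * α = algebraMap (v.adicCompletion k) L (b * b))
    {δ : Fin r → (v.adicCompletion k)ˣ} (f f' : Fin r → Fin n → L)
    (hM : Mv (rowHF G⁻¹ hH) δ f f') :
    LStep1 hS a v (ρ.symm (sy hH α f)) (ρ.symm (sy hH α f')) := by
  have : CharZero L := charZero_of_injective_algebraMap
    (algebraMap (v.adicCompletion k) L).injective
  obtain ⟨θ, -, hθ0, hθs, hθ⟩ := model_theta (hS := hS) hn hGu hG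
  have hQ : QuadL (v.adicCompletion k) L (algebraMap k _ (d : k)) :=
    ⟨fun x hx => (hfix x).mp hx, fun e => (hfix _).mpr ⟨e, rfl⟩, θ, hθ0, hθs, hθ⟩
  have hGi : IsUnit G⁻¹ := Matrix.isUnit_nonsing_inv_iff.mpr hGu
  -- an element of norm one
  have h1θ : (1 : L) - θ ≠ 0 := by
    intro h
    have h1 : θ = 1 := by linear_combination -h
    rw [h1, star_one] at hθs
    have h2 : (2 : L) = 0 := by linear_combination hθs
    exact two_ne_zero h2
  have h1θ' : (1 : L) + θ ≠ 0 := by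
    intro h
    have h1 : θ = -1 := by linear_combination h
    rw [h1, star_neg, star_one, neg_neg] at hθs
    have h2 : (2 : L) = 0 := by linear_combination -hθs
    exact two_ne_zero h2
  obtain ⟨ω, hω⟩ : ∃ ω : L, ω = (1 + θ) / (1 - θ) := ⟨_, rfl⟩
  have hω1 : ω * star ω = 1 := by
    rw [hω, star_div₀, star_add, star_sub, star_one, hθs, sub_neg_eq_add]
    field_simp
    ring
  have hω2 : ω ≠ 1 := by
    rw [hω]
    intro h
    rw [div_eq_one_iff_eq h1θ] at h
    have h2 : 2 * θ = 0 := by linear_combination h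
    exact hθ0 ((mul_eq_zero.mp h2).resolve_left two_ne_zero)
  have hω3 : ω ≠ -1 := by
    rw [hω]
    intro h
    rw [div_eq_iff h1θ] at h
    have h2 : (2 : L) = 0 := by linear_combination h
    exact two_ne_zero h2
  obtain ⟨G', C', ⟨hG1, hG2⟩, ⟨hC1, hC2⟩, hGu', hCu', hCS, hSS⟩ :=
    mv_conj hH hGi hQ (univ2 hv hfix hθs hθ) hr hω1 hω2 hω3 hM α
  have hsg : ∀ T, sg hS v (ρ.symm T) = ρ.symm (adj G⁻¹ T) := by
    intro T
    apply ρ.injective
    rw [← adj_model hGu hG, AlgEquiv.apply_symm_apply, AlgEquiv.apply_symm_apply]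
  obtain ⟨θ', p, hθ'0, hp0, hθp, hrel⟩ := sy_rel hH hM
  obtain ⟨u, hu, hu'⟩ := norm_mem_LN hθ0 hθs hfix hθ hθ'0
  obtain ⟨u₁, hu₁, hu₁'⟩ := norm_mem_LN hθ0 hθs hfix hθ hp0
  have hau : ((iu v a : (v.adicCompletion k)ˣ) : v.adicCompletion k) = b * b := hb
  refine ⟨⟨ρ.symm G', ρ.symm C', ?_, ?_, ?_, ?_, ?_, ?_, ?_, ?_⟩, u, -u₁, ?_, ?_, ?_, ?_⟩
  · rw [hsg, ← map_mul, hG1, map_one]
  · rw [hsg, ← map_mul, hG2, map_one]
  · rw [hsg, ← map_mul, hC1, map_one]
  · rw [hsg, ← map_mul, hC2, map_one]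
  · rw [← map_one ρ.symm, ← map_add]
    exact hGu'.map ρ.symm
  · rw [← map_one ρ.symm, ← map_add]
    exact hCu'.map ρ.symm
  · rw [← map_mul, hCS, map_mul]
  · rw [hSS, hsg, hsg]
    simp only [map_mul]
  · rw [map_mul]
    exact LN_mul_sq hau hu
  · have : algebraMap (v.adicCompletion k) L (u : v.adicCompletion k) =
        algebraMap _ L (1 + (u₁ : v.adicCompletion k)) := by
      rw [← hu', hθp, hu₁', map_add, map_one]
    have h2 := (algebraMap (v.adicCompletion k) L).injective this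
    rw [h2, Units.val_neg]
    ring
  · rw [neg_neg, map_mul]
    exact LN_mul_sq hau hu₁
  · apply ρ.injective
    have e1 : ρ (ccT v a (ρ.symm (sy hH α f)) (ρ.symm (sy hH α f'))) =
        (prF hH f + prF hH f' - 1) * (prF hH f + prF hH f' - 1) := by
      have e2 : sy hH α f + sy hH α f' = (2 * α) • (prF hH f + prF hH f' - 1) := by
        rw [sy, sy]; module
      rw [ccT, map_mul, map_mul, map_add, AlgEquiv.apply_symm_apply, AlgEquiv.apply_symm_apply,
        rho_alg, e2, Matrix.smul_mul, Matrix.mul_smul, smul_smul, Matrix.scalar_apply,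
        ← Matrix.smul_one_eq_diagonal, Matrix.mul_smul, Matrix.mul_one, smul_smul]
      have e3 : algebraMap (v.adicCompletion k) L (algebraMap k _ (4 * a : k)⁻¹) *
          (2 * α * (2 * α)) = 1 := by
        have hb0 : b * b ≠ 0 := by rw [← hau]; exact Units.ne_zero _
        have h4 : 2 * α * (2 * α) = algebraMap (v.adicCompletion k) L (4 * (b * b)) := by
          rw [map_mul, ← hα, map_ofNat]; ring
        have h5 : algebraMap k (v.adicCompletion k) (4 * a : k) = 4 * (b * b) := by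
          rw [map_mul, hb, map_ofNat]
        rw [h4, ← map_mul, map_inv₀, h5, inv_mul_cancel₀ (mul_ne_zero (by norm_num) hb0), map_one]
      rw [e3, one_smul]
    rw [map_zero, map_mul, map_sub, map_sub, e1, map_one, AlgEquiv.commutes]
    have e4 : algebraMap (v.adicCompletion k) (Matrix (Fin n) (Fin n) L)
        (u : v.adicCompletion k) = Matrix.scalar _ (θ' * star θ') := by
      rw [hu']
      rfl
    rw [e4]
    exact hrel

end model

end Rk

open Rk

/-- Local chains at the nonsplit places at which `a` is a square. -/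
theorem local_chain_one {k K D : Type} [Field k] [NumberField k] [Field K] [StarRing K]
    [DivisionRing D] [StarRing D] [Algebra k K] [Algebra k D] [Algebra K D] [IsScalarTower k K D]
    {d : kˣ} {s : K} (hS : Setting k K D d s) {n : ℕ} (hn : 3 ≤ n)
    (hdeg : finrank K D = n ^ 2) {v : HeightOneSpectrum (𝓞 k)} (hv : d ∉ LS (v.valuation k))
    {a : kˣ} (hav : a ∈ LS (v.valuation k)) {σ g : D} (hσ : σ ∈ Xa D a) (hg : g * star g = 1)
    (hg' : star g * g = 1) :
    Relation.ReflTransGen (LStep1 hS a v) ((1 : v.adicCompletion k) ⊗ₜ[k] σ)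
      ((1 : v.adicCompletion k) ⊗ₜ[k] (g * σ * star g)) := by
  classical
  obtain ⟨L, _, _, _, ρ, G, hfix, hL2, hGu, hGs, hG⟩ := exists_local_model hS hdeg v hv
  have hG' : ∀ T, G * ρ (sg hS v T) = (ρ T)ᴴ * G := hG
  have : CharZero L := charZero_of_injective_algebraMap
    (algebraMap (v.adicCompletion k) L).injective
  obtain ⟨θ, -, hθ0, hθs, hθ⟩ := model_theta (hS := hS) (by omega) hGu hG'
  have hQ : QuadL (v.adicCompletion k) L (algebraMap k _ (d : k)) :=
    ⟨fun x hx => (hfix x).mp hx, fun e => (hfix _).mpr ⟨e, rfl⟩, θ, hθ0, hθs, hθ⟩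
  have hH : (G⁻¹)ᴴ = G⁻¹ := by rw [Matrix.conjTranspose_nonsing_inv, hGs]
  have hGi : IsUnit G⁻¹ := Matrix.isUnit_nonsing_inv_iff.mpr hGu
  have hn0 : (rowHF G⁻¹ hH).Nondeg := rowHF_nondeg G⁻¹ hH
    ((Matrix.isUnit_iff_isUnit_det _).mp hGi).ne_zero
  obtain ⟨b, hb⟩ := (isSquare_iff v a).mpr hav
  have hb0 : b ≠ 0 := by
    rintro rfl
    rw [mul_zero] at hb
    exact (alg_ne_zero' v a.ne_zero) hb
  obtain ⟨S, hSdef⟩ : ∃ S, S = ρ (1 ⊗ₜ σ) := ⟨_, rfl⟩
  have hS2 : S * S = Matrix.scalar _ (algebraMap (v.adicCompletion k) L (b * b)) := by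
    rw [hSdef, ← map_mul, Algebra.TensorProduct.tmul_mul_tmul, one_mul, hσ.2, rho_alg, hb]
  have hSs : adj G⁻¹ S = S := by
    rw [hSdef, adj_model hGu hG', sg_tmul, hσ.1]
  -- the sign of the root
  obtain ⟨α, hα0, hαs, hαα, hr⟩ : ∃ α : L, α ≠ 0 ∧ star α = α ∧
      α * α = algebraMap (v.adicCompletion k) L (b * b) ∧ finrank L (eig S α) + 2 ≤ n := by
    have h0 : algebraMap (v.adicCompletion k) L b ≠ 0 := (_root_.map_ne_zero _).mpr hb0
    have hs : star (algebraMap (v.adicCompletion k) L b) = algebraMap (v.adicCompletion k) L b :=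
      (hfix _).mpr ⟨b, rfl⟩
    have h1 := eig_finrank (S := S) (α := algebraMap (v.adicCompletion k) L b)
      (by rw [hS2, map_mul]) h0
    rcases Nat.lt_or_ge (finrank L (eig S (algebraMap (v.adicCompletion k) L b))) (n - 1)
      with h2 | h2
    · exact ⟨_, h0, hs, (map_mul _ _ _).symm, by omega⟩
    · exact ⟨-algebraMap (v.adicCompletion k) L b, neg_ne_zero.mpr h0, by rw [star_neg, hs],
        by rw [neg_mul_neg, map_mul], by omega⟩
  obtain ⟨δ, f, hf, hfS⟩ := exists_frame_of hH hGi (by rw [hS2, hαα]) hQ hα0 hαs hSs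
  -- the second frame
  obtain ⟨T, hT⟩ : ∃ T, T = ρ (1 ⊗ₜ star g) := ⟨_, rfl⟩
  have hTa : adj G⁻¹ T = ρ (1 ⊗ₜ g) := by rw [hT, adj_model hGu hG', sg_tmul, star_star]
  have hT1 : T * adj G⁻¹ T = 1 := by
    rw [hTa, hT, ← map_mul, Algebra.TensorProduct.tmul_mul_tmul, one_mul, hg',
      ← Algebra.TensorProduct.one_def, map_one]
  have hT2 : adj G⁻¹ T * T = 1 := by
    rw [hTa, hT, ← map_mul, Algebra.TensorProduct.tmul_mul_tmul, one_mul, hg,
      ← Algebra.TensorProduct.one_def, map_one]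
  have hTh : ∀ x y, (rowHF G⁻¹ hH).h (x ᵥ* T) (y ᵥ* T) = (rowHF G⁻¹ hH).h x y := by
    intro x y
    rw [← h_adj hH hGi, Matrix.vecMul_vecMul, hT1, Matrix.vecMul_one]
  have hf' : IsFrame (rowHF G⁻¹ hH) δ (fun i => f i ᵥ* T) :=
    ⟨fun i => by rw [hTh, hf.1], fun i j hij => by rw [hTh, hf.2 i j hij]⟩
  have hfS' : sy hH α (fun i => f i ᵥ* T) = ρ (1 ⊗ₜ (g * σ * star g)) := by
    rw [← adj_conj_sy hH hGi hT1 hT2, hfS, hTa, hT, hSdef, ← map_mul, ← map_mul,
      Algebra.TensorProduct.tmul_mul_tmul, Algebra.TensorProduct.tmul_mul_tmul, one_mul, one_mul]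
  have hc := chain_frames hQ (univ2 hv hfix hθs hθ) (sqNear v) _ (rowHF G⁻¹ hH) hn0
    (by rw [Module.finrank_fin_fun]; exact hr) δ _ _ hf hf'
  have h3 : Relation.ReflTransGen (LStep1 hS a v) (ρ.symm (sy hH α f))
      (ρ.symm (sy hH α (fun i => f i ᵥ* T))) :=
    hc.lift (p := LStep1 hS a v) (fun f => ρ.symm (sy hH α f)) (fun f f' hff =>
      mv_lstep (by omega) hGu hG' hfix hv hH hr hb hαα f f' hff)
  rw [hfS, hfS', hSdef, AlgEquiv.symm_apply_apply, AlgEquiv.symm_apply_apply] at h3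
  exact h3

end Vale.Agent.P011.One
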