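import Vale.Agent.P011.One.FrameS
import Vale.Agent.P011.One.PairNear
import Vale.Agent.P011.One.HQ1
import Vale.Agent.P011.One.ExistsXa
import Vale.Agent.P011.One.ChainOf
import Vale.Agent.P011.One.TypeOne
import Vale.Agent.P011.One.TwoSplit
import Vale.Agent.P011.One.TGlue
import Vale.Agent.P011.One.Adic
import Vale.Agent.P011.MPQ.Final

/-!
Subgroups of finite index of the special unitary group of rank one over a division algebra with an
involution of the second kind.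
-/

open Module NumberField IsDedekindDomain Topology TensorProduct

set_option linter.unusedSectionVars false

namespace Vale.Agent.P011.One

open Vale.Agent.P011.Arith Vale.Agent.P011.Even Vale.Agent.P011.Two

section defs

variable {K D Ω : Type} [Field K] [DivisionRing D] [StarRing D] [Algebra K D] [Field Ω]
    [Algebra K Ω] {n : ℕ}

theorem mem_SUD {f : D →ₐ[K] Matrix (Fin n) (Fin n) Ω} {g : Dˣ} :
    g ∈ SUD f ↔ (g : D) * star (g : D) = 1 ∧ (f (g : D)).det = 1 := Iff.rfl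

theorem exists_SUD {f : D →ₐ[K] Matrix (Fin n) (Fin n) Ω} {x : D} (hx : x ∈ GU f) :
    ∃ g ∈ SUD f, (g : D) = x := by
  have h0 : x ≠ 0 := left_ne_zero_of_mul_eq_one hx.1
  exact ⟨Units.mk0 x h0, hx, rfl⟩

/-- The underlying set of elements. -/
def Im {f : D →ₐ[K] Matrix (Fin n) (Fin n) Ω} (N : Subgroup (SUD f)) : Set D :=
  {x | ∃ g ∈ N, (((g : SUD f) : Dˣ) : D) = x}

variable {f : D →ₐ[K] Matrix (Fin n) (Fin n) Ω} {N : Subgroup (SUD f)}

theorem im_sub : Im N ⊆ GU f := by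
  rintro _ ⟨g, -, rfl⟩
  exact g.2

theorem mem_of_im {g : SUD f} (h : ((g : Dˣ) : D) ∈ Im N) : g ∈ N := by
  obtain ⟨g', hg', h1⟩ := h
  have h2 : g' = g := Subtype.ext (Units.ext h1)
  rwa [h2] at hg'

theorem one_im : (1 : D) ∈ Im N := ⟨1, N.one_mem, rfl⟩

theorem mul_im {x y : D} (hx : x ∈ Im N) (hy : y ∈ Im N) : x * y ∈ Im N := by
  obtain ⟨g, hg, rfl⟩ := hx
  obtain ⟨g', hg', rfl⟩ := hy
  exact ⟨g * g', N.mul_mem hg hg', rfl⟩

theorem pow_im {e : ℕ} (he : ∀ g : SUD f, g ^ e ∈ N) {x : D} (hx : x ∈ GU f) : x ^ e ∈ Im N := by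
  obtain ⟨g, hg, rfl⟩ := exists_SUD hx
  exact ⟨_, he ⟨g, hg⟩, rfl⟩

end defs

variable {k K D : Type} [Field k] [NumberField k] [Field K] [StarRing K]
  [DivisionRing D] [StarRing D] [Algebra k K] [Algebra k D] [Algebra K D] [IsScalarTower k K D]
  {d : kˣ} {s : K} {Ω : Type} [Field Ω] [Algebra K Ω] {n : ℕ}

theorem mpq_st : MPQStatement := fun _ _ _ a b hab N hN hfin e he hexp g hg =>
  MPQ.mpq a b hab N hN hfin e he hexp g hg

/-- Property `HQ1` for a normal subgroup of finite index. -/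
theorem hq1_im (f : D →ₐ[K] Matrix (Fin n) (Fin n) Ω) (N : Subgroup (SUD f)) [hN : N.Normal]
    (hi : N.index ≠ 0) {e : ℕ} (he : 0 < e) (hpow : ∀ g : SUD f, g ^ e ∈ N) : HQ1 k e (Im N) := by
  have h1 := hq1_core (k := k) mpq_st (SUD f) (N.map (SUD f).subtype) ?_ ?_ ?_ e he ?_
  · have h2 : {u : D | ∃ x ∈ N.map (SUD f).subtype, (x : D) = u} = Im N := by
      ext u
      constructor
      · rintro ⟨_, ⟨g, hg, rfl⟩, rfl⟩
        exact ⟨g, hg, rfl⟩
      · rintro ⟨g, hg, rfl⟩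
        exact ⟨_, ⟨g, hg, rfl⟩, rfl⟩
    rwa [h2] at h1
  · intro F _ _ _ ι α β i j p₀ p₁ p₂ p₃ u hu
    apply exists_SUD
    refine ⟨hu.mul_star_self, ?_⟩
    let m : D →* Ω := (Matrix.detMonoidHom : Matrix (Fin n) (Fin n) Ω →* Ω).comp
      (f : D →* Matrix (Fin n) (Fin n) Ω)
    exact QElt.map_eq_one m hu
  · rintro v hv _ ⟨x, hx, rfl⟩
    exact ⟨⟨v, hv⟩ * x * ⟨v, hv⟩⁻¹, hN.conj_mem x hx ⟨v, hv⟩, rfl⟩
  · rw [Subgroup.relIndex, Subgroup.subgroupOf, Subgroup.comap_map_eq_self_of_injective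
      (Subgroup.subtype_injective _)]
    exact hi
  · intro x hx
    exact ⟨_, hpow ⟨x, hx⟩, rfl⟩

/-- The set of conditions at the split division places suffices. -/
theorem pf_inter [NumberField K] (hS : Setting k K D d s) (hn : 3 ≤ n)
    (hdeg : finrank K D = n ^ 2) (f : D →ₐ[K] Matrix (Fin n) (Fin n) Ω) {N : ℕ}
    (B : Basis (Fin N) k D) {M : Set D} (hMG : M ⊆ GU f) (h1M : (1 : D) ∈ M)
    (hmul : ∀ a ∈ M, ∀ b ∈ M, a * b ∈ M) {e : ℕ} (he : e ≠ 0) (hpow : ∀ x ∈ GU f, x ^ e ∈ M)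
    {S : Set (Pl k)} (hSf : S.Finite) (h : PF B (GU f) M S) :
    PF B (GU f) M (S ∩ Tdiv k K D) := by
  have hcharD : CharZero D := charZero_of_injective_algebraMap (algebraMap k D).injective
  have := hS.fin
  have := hS.cen
  have hsm : StarModule K D := ⟨hS.star_smul⟩
  have hst : ∀ (c : k) (x : D), star (c • x) = c • star x := fun c x => hS.sig.map_smul c x
  have h0 : ∀ x ∈ GU f, x ≠ 0 := fun x hx => left_ne_zero_of_mul_eq_one hx.1
  have hinv : ∀ x ∈ GU f, x⁻¹ * star x⁻¹ = 1 := by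
    intro x hx
    have h1 : star x = x⁻¹ := (inv_eq_of_mul_eq_one_right hx.1).symm
    rw [star_inv₀, h1, inv_inv, inv_mul_cancel₀ (h0 x hx)]
  have hdet : ∀ x : D, x ≠ 0 → (f x).det * (f x⁻¹).det = 1 := by
    intro x hx
    rw [← Matrix.det_mul, ← map_mul, mul_inv_cancel₀ hx, map_one, Matrix.det_one]
  refine tform hst (e := e) (G := GU f) (M := M) (fun h => h0 _ h rfl) ?_ (fun h => h0 _ (hMG h) rfl)
    h1M hmul ?_ hSf ?_ h
  · intro g hg u hu
    have hu' := hMG hu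
    refine ⟨?_, ?_⟩
    · rw [star_mul, mul_assoc, ← mul_assoc u⁻¹, hinv u hu', one_mul]
      exact hg.1
    · have h1 := hdet u (h0 u hu')
      rw [hu'.2, one_mul] at h1
      rw [map_mul, Matrix.det_mul, hg.2, h1, mul_one]
  · intro y z hy hz
    have hy0 := cy_ne hy
    have hz0 := cy_ne hz
    apply hpow
    refine ⟨?_, ?_⟩
    · have := cq_star (e := 1) hy hz
      rwa [cq, pow_one] at this
    · rw [map_mul, map_mul, map_mul, Matrix.det_mul, Matrix.det_mul, Matrix.det_mul]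
      have h1 := hdet _ hy0
      have h2 := hdet _ hz0
      calc (f (cy y)).det * (f (cy z)).det * (f (cy y)⁻¹).det * (f (cy z)⁻¹).det
          = ((f (cy y)).det * (f (cy y)⁻¹).det) * ((f (cy z)).det * (f (cy z)⁻¹).det) := by ring
        _ = 1 := by rw [h1, h2, one_mul]
  · intro p hp1 hpT g hg
    have hpT' : p ∉ Tdiv k K D := fun h => hpT ⟨hp1, h⟩
    by_cases hp : d ∈ LSp p
    · exact lt_split_all hS (by omega) hdeg f B hp hpT' he hg.1 hg.2
    · rcases p with v | φ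
      · exact Ns.lt_inl hS hn hdeg B v hp he f hg.1 hg.2
      · refine Ns.lt_inr hS hn hdeg B φ ?_ he f hg.1 hg.2
        by_contra hφ
        apply hp
        have hne : φ (d : k) ≠ 0 := (map_ne_zero φ).mpr d.ne_zero
        exact lt_of_le_of_ne (not_lt.mp hφ) hne.symm

/-- **From finitely many places to openness.** -/
theorem isOpen_of_pf [NumberField K] (hS : Setting k K D d s) (hn : 3 ≤ n)
    (hdeg : finrank K D = n ^ 2) (f : D →ₐ[K] Matrix (Fin n) (Fin n) Ω) {N : ℕ}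
    (B : Basis (Fin N) k D) (H : Subgroup (SUD f)) {e : ℕ} (he : e ≠ 0)
    (hpow : ∀ g : SUD f, g ^ e ∈ H) {S : Set (Pl k)} (hSf : S.Finite)
    (h : PF B (GU f) (Im H) S) : IsOpen[adicTop (Adiv k K D) (SUD f)] (H : Set (SUD f)) := by
  obtain ⟨η, hη, h1⟩ := pf_inter hS hn hdeg f B im_sub one_im (fun _ ha _ hb => mul_im ha hb) he
    (fun x hx => pow_im hpow hx) hSf h
  refine isOpen_of_near B (A' := {v | (Sum.inl v : Pl k) ∈ S ∩ Tdiv k K D})
    ((hSf.inter_of_left _).preimage Sum.inl_injective.injOn) ?_ H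
    (η := fun v => η (Sum.inl v)) (fun v => hη _) fun g hg => mem_of_im (h1 _ g.2 ?_)
  · rintro v ⟨-, v', hv', h2⟩
    obtain rfl := Sum.inl_injective hv'
    exact h2
  · rintro p ⟨hp, v, rfl, h2⟩
    exact hg v ⟨hp, v, rfl, h2⟩

/-- The elements of the group close to one at finitely many places, up to the centralizer. -/
theorem frame_out (hS : Setting k K D d s) (hn : 3 ≤ n) (hdeg : finrank K D = n ^ 2)
    (f : D →ₐ[K] Matrix (Fin n) (Fin n) Ω) {M : ℕ} (B : Basis (Fin M) k D) {a : kˣ} {σ : D}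
    (hσ : σ ∈ Xa D a) {e : ℕ} (he : 0 < e) {N : Set D} (h1N : (1 : D) ∈ N)
    (hmul : ∀ x ∈ N, ∀ y ∈ N, x * y ∈ N) (hNG : N ⊆ GU f) (hHQ : HQ1 k e N)
    {SV : Set (HeightOneSpectrum (𝓞 k))} (hSV : SV.Finite) (θ : Pl k → ℝ) (hθ : ∀ q, 0 < θ q) :
    ∃ S₀ : Set (HeightOneSpectrum (𝓞 k)), S₀.Finite ∧ SV ⊆ S₀ ∧ ∃ η : Pl k → ℝ, (∀ q, 0 < η q) ∧
      ∀ g ∈ GU f, (∀ q ∈ SP S₀, nm B q (g - 1) < η q) →
        ∃ ν ∈ N, ∃ e' : D, g = ν * e' ∧ e' * σ = σ * e' ∧ e' * star e' = 1 ∧ star e' * e' = 1 ∧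
          ∀ v ∈ S₀, nm B (.inl v) (e' - 1) < θ (.inl v) := by
  classical
  obtain ⟨S1, hS1, hgood⟩ := exists_good hS B {σ} (Set.finite_singleton σ) e he
  obtain ⟨S2, hS2, htwo⟩ := local_chain_two hS (by omega : 0 < n) hdeg f
  obtain ⟨v₀⟩ := nonempty_prime (F := k)
  obtain ⟨S₀, hS₀d⟩ : ∃ S₀, S₀ = SV ∪ S1 ∪ S2 ∪ {v₀} ∪ {v | v.valuation k (a : k) ≠ 1} := ⟨_, rfl⟩
  have hS₀ : S₀.Finite := hS₀d ▸ ((((hSV.union hS1).union hS2).union (Set.finite_singleton v₀)).union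
    (finite_ne_one a))
  have hout : ∀ v ∉ S₀, v ∉ S1 ∧ v ∉ S2 ∧ v.valuation k (a : k) = 1 := by
    intro v hv
    rw [hS₀d] at hv
    simp only [Set.mem_union, not_or, Set.mem_ofPred_eq, not_not] at hv
    exact ⟨hv.1.1.1.2, hv.1.1.2, hv.2⟩
  have huni : ∀ g : D, g * star g = 1 → star g * g = 1 := by
    intro g hg
    have h0 : g ≠ 0 := left_ne_zero_of_mul_eq_one hg
    rw [eq_inv_of_mul_eq_one_right hg, inv_mul_cancel₀ h0]
  refine ⟨S₀, hS₀, ?_, frame_s hS B he hσ (S₀ := S₀) (N := N) (G := GU f) hS₀ ?_ ?_ ?_ ?_ ?_ ?_ θ hθ⟩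
  · rw [hS₀d]
    intro v hv
    exact Or.inl (Or.inl (Or.inl (Or.inl hv)))
  · refine ⟨v₀, ?_⟩
    rw [hS₀d]
    exact Or.inl (Or.inr rfl)
  · intro v hv
    obtain ⟨h1, h2, h3⟩ := hout v hv
    exact ⟨(hgood v h1).1, h3, (hgood v h1).2.2 σ rfl⟩
  · exact fun g hg => ⟨hg.1, huni g hg.1⟩
  · exact fun g hg => ⟨(hNG hg).1, huni g (hNG hg).1⟩
  · intro v hv hns g hg
    obtain ⟨h1, h2, h3⟩ := hout v hv
    have hG := (hgood v h1).1
    have hiff := mul_mem_LS_iff hG.two h3 hG.dd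
    have hchain : Relation.ReflTransGen (LStep1 hS a v) ((1 : v.adicCompletion k) ⊗ₜ[k] σ)
        ((1 : v.adicCompletion k) ⊗ₜ[k] (g * σ * star g)) := by
      by_cases hd : d ∈ LS (v.valuation k)
      · exact htwo v h2 hd a (fun h => hns (hiff.mpr (iff_of_true h hd))) σ hσ g hg.1 hg.2
      · refine local_chain_one hS hn hdeg hd ?_ hσ hg.1 (huni g hg.1)
        by_contra h
        exact hns (hiff.mpr (iff_of_false h hd))
    exact lpath_of_chain he (conj_mem hσ hg.1 (huni g hg.1)) (fun φ h => absurd h Sum.inl_ne_inr)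
      (chain1_of_local hS B hσ hchain)
  · exact fun θ hθ => pair_near hS B he h1N hmul hHQ hS₀ (fun v hv => ⟨(hgood v (hout v hv).1).1,
      (hout v hv).2.2, (hgood v (hout v hv).1).2.1⟩) σ θ hθ

/-- The statement on the elements of the centralizer. -/
def AbAt (B : Basis (Fin n) k D) {m : ℕ} (f : D →ₐ[K] Matrix (Fin m) (Fin m) Ω) (N : Set D)
    (t : D) : Prop :=
  ∃ S : Set (HeightOneSpectrum (𝓞 k)), S.Finite ∧ ∃ η : HeightOneSpectrum (𝓞 k) → ℝ,
    (∀ v, 0 < η v) ∧ ∀ e : D, e * t = t * e → star e * e = 1 → (f e).det = 1 →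
      (∀ v ∈ S, nm B (.inl v) (e - 1) < η v) → e ∈ N

/-- **The elements close to one at finitely many places**, from the elements of the centralizer of
a symmetric square root. -/
theorem pf_of_ab (hS : Setting k K D d s) (hn : 3 ≤ n) (hdeg : finrank K D = n ^ 2)
    (f : D →ₐ[K] Matrix (Fin n) (Fin n) Ω) {M : ℕ} (B : Basis (Fin M) k D) {a : kˣ} {σ : D}
    (hσ : σ ∈ Xa D a) {e : ℕ} (he : 0 < e) {N : Set D} (h1N : (1 : D) ∈ N)
    (hmul : ∀ x ∈ N, ∀ y ∈ N, x * y ∈ N) (hNG : N ⊆ GU f) (hHQ : HQ1 k e N)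
    (hab : AbAt B f N σ) : ∃ S : Set (Pl k), S.Finite ∧ PF B (GU f) N S := by
  obtain ⟨SV, hSV, η, hη, h⟩ := hab
  obtain ⟨S₀, hS₀, hsub, η', hη', h1⟩ := frame_out hS hn hdeg f B hσ he h1N hmul hNG hHQ hSV
    (fun q => Sum.elim η (fun _ => 1) q) (fun q => by
      rcases q with v | φ
      · exact hη v
      · exact one_pos)
  refine ⟨SP S₀, SP_finite hS₀, η', hη', fun g hg hgn => ?_⟩
  obtain ⟨ν, hν, e', rfl, h2, h3, h4, h5⟩ := h1 g hg hgn
  refine hmul _ hν _ (h e' h2 h4 ?_ fun v hv => h5 v (hsub hv))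
  have h6 := hg.2
  rw [map_mul, Matrix.det_mul, (hNG hν).2, one_mul] at h6
  exact h6

theorem PF.mono {k D : Type} [Field k] [NumberField k] [DivisionRing D] [StarRing D]
    [Algebra k D] {M : ℕ} {B : Basis (Fin M) k D} {G N N' : Set D} {S : Set (Pl k)}
    (h : PF B G N S) (hN : N ⊆ N') : PF B G N' S := by
  obtain ⟨η, hη, h1⟩ := h
  exact ⟨η, hη, fun g hg hgS => hN (h1 g hg hgS)⟩

/-- **Subgroups of finite index are open**, from the statement on the centralizer. -/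
theorem isOpen_of_ab [NumberField K] (hS : Setting k K D d s) (hn : 3 ≤ n)
    (hdeg : finrank K D = n ^ 2) (f : D →ₐ[K] Matrix (Fin n) (Fin n) Ω) {M : ℕ}
    (B : Basis (Fin M) k D) {a : kˣ} {σ : D} (hσ : σ ∈ Xa D a)
    (hab : ∀ (N : Subgroup (SUD f)) [N.Normal], N.index ≠ 0 → AbAt B f (Im N) σ)
    (H : Subgroup (SUD f)) (hi : H.index ≠ 0) :
    IsOpen[adicTop (Adiv k K D) (SUD f)] (H : Set (SUD f)) := by
  have : H.FiniteIndex := ⟨hi⟩
  have hi' : H.normalCore.index ≠ 0 := Subgroup.FiniteIndex.index_ne_zero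
  have hpow : ∀ g : SUD f, g ^ H.normalCore.index ∈ H.normalCore := fun g =>
    Subgroup.pow_index_mem _ g
  obtain ⟨S, hSf, h⟩ := pf_of_ab hS hn hdeg f B hσ (Nat.pos_of_ne_zero hi') one_im
    (fun _ ha _ hb => mul_im ha hb) im_sub
    (hq1_im f H.normalCore hi' (Nat.pos_of_ne_zero hi') hpow) (hab _ hi')
  refine isOpen_of_pf hS hn hdeg f B H hi' (fun g => H.normalCore_le (hpow g)) hSf
    (h.mono ?_)
  rintro _ ⟨g, hg, rfl⟩
  exact ⟨g, H.normalCore_le hg, rfl⟩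

end Vale.Agent.P011.One
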