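import Vale.Agent.P011.Even.Defs

/-!
The standing assumptions from a number field with a nontrivial involution.
-/

open Module NumberField

namespace Vale.Agent.P011.One

open Vale.Agent.P011.Even

theorem exists_setting {k K D : Type} [Field k] [NumberField k] [Field K] [NumberField K]
    [Algebra k K] [StarRing K] [DivisionRing D] [StarRing D] [Algebra k D] [Algebra K D]
    [IsScalarTower k K D] [StarModule K D] [FiniteDimensional K D] [Algebra.IsCentral K D]
    (hfix : ∀ x : K, star x = x ↔ x ∈ Set.range (algebraMap k K)) (hK : ∃ x : K, star x ≠ x) :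
    ∃ (d : kˣ) (s : K), Setting k K D d s := by
  obtain ⟨x, hx⟩ := hK
  have h2 : (2 : K) ≠ 0 := two_ne_zero
  obtain ⟨s, hs⟩ : ∃ s, s = x - star x := ⟨_, rfl⟩
  have hs0 : s ≠ 0 := by
    rw [hs]
    exact sub_ne_zero.mpr fun h => hx h.symm
  have hss : star s = -s := by rw [hs, star_sub, star_star, neg_sub]
  obtain ⟨c, hc⟩ := (hfix (s ^ 2)).mp (by rw [star_pow, hss, neg_sq])
  have hc0 : c ≠ 0 := by
    rintro rfl
    rw [map_zero, eq_comm] at hc
    exact hs0 (pow_eq_zero_iff two_ne_zero |>.mp hc)
  have hneg : star s ≠ s := by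
    rw [hss]
    intro h
    have h1 : (2 : K) * s = 0 := by linear_combination -h
    exact hs0 ((mul_eq_zero.mp h1).resolve_left h2)
  have hns : ∀ y : k, algebraMap k K y ≠ s := fun y h => hneg ((hfix s).mpr ⟨y, h⟩)
  refine ⟨Units.mk0 c hc0, s, ⟨?_, hss, ?_, hfix, ?_, inferInstance, inferInstance, ?_⟩⟩
  · rw [Units.val_mk0, hc]
  · rw [Units.val_mk0]
    rintro ⟨y, hy⟩
    have h1 : (s - algebraMap k K y) * (s + algebraMap k K y) = 0 := by
      have h3 : (s - algebraMap k K y) * (s + algebraMap k K y) =
          s ^ 2 - algebraMap k K y * algebraMap k K y := by ring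
      rw [h3, ← hc, hy, map_mul, sub_self]
    rcases mul_eq_zero.mp h1 with h | h
    · exact hns y (sub_eq_zero.mp h).symm
    · exact hns (-y) (by rw [map_neg]; exact (eq_neg_of_add_eq_zero_left h).symm)
  · have hli : LinearIndependent k ![(1 : K), s] := by
      rw [LinearIndependent.pair_iff]
      intro a b hab
      rw [Algebra.smul_def, Algebra.smul_def, mul_one] at hab
      have hb : b = 0 := by
        by_contra hb
        apply hns (-a / b)
        rw [map_div₀, map_neg, div_eq_iff ((map_ne_zero _).mpr hb)]
        linear_combination -hab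
      subst hb
      rw [map_zero, zero_mul, add_zero] at hab
      exact ⟨(map_eq_zero _).mp hab, rfl⟩
    have hsp : ⊤ ≤ Submodule.span k (Set.range ![(1 : K), s]) := by
      intro z _
      obtain ⟨p, hp⟩ := (hfix ((z + star z) / 2)).mp (by
        rw [star_div₀, star_add, star_star, star_ofNat, add_comm])
      obtain ⟨q, hq⟩ := (hfix ((z - star z) / (2 * s))).mp (by
        rw [star_div₀, star_sub, star_star, star_mul', star_ofNat, hss, div_eq_div_iff
          (mul_ne_zero h2 (neg_ne_zero.mpr hs0)) (mul_ne_zero h2 hs0)]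
        ring)
      rw [Matrix.range_cons, Matrix.range_cons, Matrix.range_empty, Set.union_empty,
        Set.singleton_union, Submodule.mem_span_pair]
      refine ⟨p, q, ?_⟩
      rw [Algebra.smul_def, Algebra.smul_def, hp, hq]
      field_simp
      ring
    rw [finrank_eq_card_basis (Basis.mk hli hsp)]
    rfl
  · intro y z
    exact star_smul y z

end Vale.Agent.P011.One
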