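import Vale.Agent.P011.One.AbEnd
import Vale.Agent.P011.One.Final
import Vale.Agent.P011.One.SettingOf

/-!
The special unitary group of rank one over a division algebra of degree four.
-/

open Module NumberField IsDedekindDomain Topology

set_option linter.unusedSectionVars false

namespace Vale.Agent.P011.One

open Vale.Agent.P011.Arith Vale.Agent.P011.Even Vale.Agent.P011.Two

variable {k K D : Type} [Field k] [NumberField k] [Field K] [StarRing K]
  [DivisionRing D] [StarRing D] [Algebra k K] [Algebra k D] [Algebra K D] [IsScalarTower k K D]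
  {d : kˣ} {s : K} {Ω : Type} [Field Ω] [Algebra K Ω] {n : ℕ}

theorem not_isSquare_of_mem {a : kˣ} {σ : D} (hσ : σ ∈ Xa D a)
    (hne : ∀ c : k, algebraMap k D c ≠ σ) : ¬ IsSquare (a : k) := by
  rintro ⟨c, hc⟩
  have h1 : (σ - algebraMap k D c) * (σ + algebraMap k D c) = 0 := by
    rw [sub_mul, mul_add, mul_add, hσ.2, hc, map_mul, Algebra.commutes c σ]
    abel
  rcases mul_eq_zero.mp h1 with h | h
  · exact hne c (sub_eq_zero.mp h).symm
  · exact hne (-c) (by rw [map_neg]; exact (eq_neg_of_add_eq_zero_left h).symm)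

/-- **Degree four.** -/
theorem isOpen_four [NumberField K] (hS : Setting k K D d s) (hdeg : finrank K D = 4 ^ 2)
    (f : D →ₐ[K] Matrix (Fin 4) (Fin 4) Ω) (H : Subgroup (SUD f)) (hi : H.index ≠ 0) :
    IsOpen[adicTop (Adiv k K D) (SUD f)] (H : Set (SUD f)) := by
  have hfin := hS.fin
  have hKf : FiniteDimensional k K := Module.finite_of_finrank_pos (by rw [hS.rank]; norm_num)
  have hDf : FiniteDimensional k D := Module.Finite.trans K D
  obtain ⟨a, σ, hσ, hne⟩ := exists_Xa hS (by rw [hdeg]; norm_num)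
  refine isOpen_of_ab hS (by norm_num) hdeg f (finBasis k D) hσ (fun N _ hN => ?_) H hi
  have hpow : ∀ g : SUD f, g ^ N.index ∈ N := fun g => Subgroup.pow_index_mem _ g
  exact ab_end hS (by rw [hdeg]; norm_num) (not_isSquare_of_mem hσ hne) hσ rfl f (finBasis k D)
    (Nat.pos_of_ne_zero hN) (fun _ ha _ hb => mul_im ha hb)
    (hq1_im f N hN (Nat.pos_of_ne_zero hN) hpow)

/-- If there are no places in `A`, an open subgroup is the whole group. -/
theorem top_of_isOpen {A : Set (HeightOneSpectrum (𝓞 k))} (hA : A = ∅) {G : Subgroup Dˣ}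
    (H : Subgroup G) (hH : IsOpen[adicTop A G] (H : Set G)) : H = ⊤ := by
  subst hA
  obtain ⟨U, -, hU⟩ := hH
  rw [Subgroup.eq_top_iff']
  intro g
  have h1 : delta (∅ : Set (HeightOneSpectrum (𝓞 k))) ((g : Dˣ) : D) =
      delta (∅ : Set (HeightOneSpectrum (𝓞 k))) (((1 : G) : Dˣ) : D) :=
    funext fun v => (v.2 : False).elim
  have h2 : (1 : G) ∈ (fun g : G => delta (∅ : Set (HeightOneSpectrum (𝓞 k))) ((g : Dˣ) : D)) ⁻¹' U :=
    hU ▸ H.one_mem
  have h3 : g ∈ (fun g : G => delta (∅ : Set (HeightOneSpectrum (𝓞 k))) ((g : Dˣ) : D)) ⁻¹' U := by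
    rw [Set.mem_preimage, h1]
    exact h2
  rw [hU] at h3
  exact h3

end Vale.Agent.P011.One
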