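import Vale.Agent.P011.One.FrameS
import Vale.Agent.P011.One.PairNear
import Vale.Agent.P011.One.TwoSplit
import Vale.Agent.P011.One.TypeOne
import Vale.Agent.P011.One.ChainOf

/-!
Elements of the group close to one at finitely many places: reduction to the centralizer of a
symmetric square root, for every degree at least three.
-/

open NumberField IsDedekindDomain Module

set_option linter.unusedSectionVars false

namespace Vale.Agent.P011.One

open Vale.Agent.P011.Arith Vale.Agent.P011.Even Vale.Agent.P011.Two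

variable {k K D : Type} [Field k] [NumberField k] [Field K] [StarRing K]
    [DivisionRing D] [StarRing D] [Algebra k K] [Algebra k D] [Algebra K D] [IsScalarTower k K D]
    {d : kˣ} {s : K} {M : ℕ}

theorem unit_comm_of_right {x : D} (h : x * star x = 1) : star x * x = 1 := by
  have h0 : x ≠ 0 := by
    rintro rfl
    rw [zero_mul] at h
    exact zero_ne_one h
  have h1 : star x = x⁻¹ := eq_inv_of_mul_eq_one_right h
  rw [h1, inv_mul_cancel₀ h0]

/-- Local paths at the places outside a finite set. -/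
theorem exists_hchain (hS : Setting k K D d s) {n : ℕ} (hn : 3 ≤ n)
    (hdeg : finrank K D = n ^ 2) (B : Module.Basis (Fin M) k D) {Ω : Type} [Field Ω] [Algebra K Ω]
    (F : D →ₐ[K] Matrix (Fin n) (Fin n) Ω) {a : kˣ} {σ : D} (hσ : σ ∈ Xa D a) {e : ℕ}
    (he : 0 < e) : ∃ S : Set (HeightOneSpectrum (𝓞 k)), S.Finite ∧ ∀ v ∉ S,
      a * d ∉ LS (v.valuation k) → ∀ g : D, g * star g = 1 → (F g).det = 1 →
      ∃ m, LPath B a s (.inl v) (LR d a e (.inl v)) (g * σ * star g) m σ := by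
  obtain ⟨S₁, hS₁, h1⟩ := local_chain_two hS (by omega) hdeg F
  obtain ⟨S₂, hS₂, h2⟩ := exists_good hS B (∅ : Set D) Set.finite_empty e he
  refine ⟨S₁ ∪ S₂ ∪ {v | v.valuation k (a : k) ≠ 1}, (hS₁.union hS₂).union (finite_ne_one _),
    fun v hv hns g hg hFg => ?_⟩
  simp only [Set.mem_union, not_or, Set.mem_ofPred_eq, not_not] at hv
  obtain ⟨⟨hv1, hv2⟩, hva⟩ := hv
  obtain ⟨hG, -, -⟩ := h2 v hv2
  have hg' := unit_comm_of_right hg
  refine lpath_of_chain he (conj_mem hσ hg hg') (fun φ h => absurd h Sum.inl_ne_inr) ?_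
  refine chain1_of_local hS B hσ ?_
  by_cases hd : d ∈ LS (v.valuation k)
  · refine h1 v hv1 hd a (fun ha => hns ?_) σ hσ g hg hFg
    exact Subgroup.mul_mem _ ha hd
  · by_cases ha : a ∈ LS (v.valuation k)
    · exact local_chain_one hS hn hdeg hd ha hσ hg hg'
    · exact absurd ((mul_mem_LS_iff hG.two hva hG.dd).mpr (iff_of_false ha hd)) hns

/-- **Reduction to the centralizer** of a symmetric square root `σ` of `a`, for every degree
`n ≥ 3`: every element of the group close to one is a product of an element of `N` and of an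
element of the group commuting with `σ` and close to one. -/
theorem frame_n (hS : Setting k K D d s) {n : ℕ} (hn : 3 ≤ n) (hdeg : finrank K D = n ^ 2)
    (B : Module.Basis (Fin M) k D) {Ω : Type} [Field Ω] [Algebra K Ω]
    (F : D →ₐ[K] Matrix (Fin n) (Fin n) Ω) {a : kˣ} {σ : D} (hσ : σ ∈ Xa D a) {e : ℕ}
    (he : 0 < e) {N : Set D} (h1N : (1 : D) ∈ N) (hmul : ∀ x ∈ N, ∀ y ∈ N, x * y ∈ N)
    (hNu : ∀ x ∈ N, x * star x = 1) (hNd : ∀ x ∈ N, (F x).det = 1) (hN : HQ1 k e N) :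
    ∃ S₁ : Set (HeightOneSpectrum (𝓞 k)), S₁.Finite ∧ ∀ S₀ : Set (HeightOneSpectrum (𝓞 k)),
      S₁ ⊆ S₀ → S₀.Finite → S₀.Nonempty → ∀ θ : Pl k → ℝ, (∀ q, 0 < θ q) →
      ∃ η : Pl k → ℝ, (∀ q, 0 < η q) ∧ ∀ g : D, g * star g = 1 → (F g).det = 1 →
        (∀ q ∈ SP S₀, nm B q (g - 1) < η q) →
        ∃ ν ∈ N, ∃ e' : D, g = ν * e' ∧ e' * σ = σ * e' ∧ e' * star e' = 1 ∧
          star e' * e' = 1 ∧ (F e').det = 1 ∧ ∀ v ∈ S₀, nm B (.inl v) (e' - 1) < θ (.inl v) := by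
  obtain ⟨S₂, hS₂, h2⟩ := exists_good hS B {σ} (Set.finite_singleton σ) e he
  obtain ⟨S₃, hS₃, h3⟩ := exists_hchain hS hn hdeg B F hσ he
  refine ⟨S₂ ∪ S₃ ∪ {v | v.valuation k (a : k) ≠ 1}, (hS₂.union hS₃).union (finite_ne_one _),
    fun S₀ hSS hS₀ hne θ hθ => ?_⟩
  have hout : ∀ v ∉ S₀, v ∉ S₂ ∧ v ∉ S₃ ∧ v.valuation k (a : k) = 1 := by
    intro v hv
    refine ⟨fun h => hv (hSS (Or.inl (Or.inl h))), fun h => hv (hSS (Or.inl (Or.inr h))), ?_⟩
    by_contra h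
    exact hv (hSS (Or.inr h))
  obtain ⟨η, hη, h⟩ := frame_s hS B he hσ hS₀ hne (N := N)
    (G := {g : D | g * star g = 1 ∧ (F g).det = 1})
    (fun v hv => ⟨(h2 v (hout v hv).1).1, (hout v hv).2.2, (h2 v (hout v hv).1).2.2 σ rfl⟩)
    (fun g hg => ⟨hg.1, unit_comm_of_right hg.1⟩)
    (fun g hg => ⟨hNu g hg, unit_comm_of_right (hNu g hg)⟩)
    (fun v hv hns g hg => h3 v (hout v hv).2.1 hns g hg.1 hg.2)
    (pair_near hS B he h1N hmul hN hS₀
      (fun v hv => ⟨(h2 v (hout v hv).1).1, (hout v hv).2.2, (h2 v (hout v hv).1).2.1⟩) σ) θ hθ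
  refine ⟨η, hη, fun g hg hFg hgn => ?_⟩
  obtain ⟨ν, hν, e', h4, h5, h6, h7, h8⟩ := h g ⟨hg, hFg⟩ hgn
  refine ⟨ν, hν, e', h4, h5, h6, h7, ?_, h8⟩
  have h9 : (F ν).det * (F e').det = 1 := by rw [← Matrix.det_mul, ← map_mul, ← h4, hFg]
  rwa [hNd ν hν, one_mul] at h9

end Vale.Agent.P011.One
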