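import Vale.Agent.P011.One.Rk
import Vale.Agent.P011.Two.Frames

/-!
Symmetric involutions attached to frames in a hermitian space of row vectors.
-/

open Matrix Module

set_option linter.unusedSectionVars false

namespace Vale.Agent.P011.One

open Vale.Agent.P011.Arith Vale.Agent.P011.Even Vale.Agent.P011.T2 Vale.Agent.P011.Two

namespace Rk

/-- vectors of given length orthogonal to a frame -/
theorem exists_orth {F L : Type} [Field F] [Field L] [CharZero L] [StarRing L] [Algebra F L]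
    {d : F} (hQ : QuadL F L d) (hU : Univ2 F L) {r : ℕ} (V : Type) [AddCommGroup V] [Module L V]
    [FiniteDimensional L V] (b : HF L V) (hb : b.Nondeg) (hV : r + 2 ≤ finrank L V)
    (α : Fin r → Fˣ) (f : Fin r → V) (hf : IsFrame b α f) (β : Fˣ) :
    ∃ v, b.h v v = algebraMap F L β ∧ ∀ i, b.h v (f i) = 0 := by
  induction r generalizing V with
  | zero =>
    obtain ⟨v, hv⟩ := Fr.exists_len hQ hU b hb (by omega) β
    exact ⟨v, hv, fun i => i.elim0⟩
  | succ r ih =>
    have h0 : b.h (f 0) (f 0) ≠ 0 := by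
      rw [hf.1 0]
      exact (_root_.map_ne_zero _).mpr (α 0).ne_zero
    obtain ⟨h1, h2⟩ := Fr.compl b hb h0
    let U := LinearMap.ker (b.lin (f 0))
    have h2' : finrank L U + 1 = finrank L V := h2
    have hU' : ∀ i : Fin r, f i.succ ∈ U := fun i =>
      LinearMap.mem_ker.mpr (hf.2 _ _ (Fin.succ_ne_zero i))
    obtain ⟨v, hv, hv2⟩ := ih U (b.sub U) h1 (by omega) (fun i => α i.succ)
      (fun i => ⟨f i.succ, hU' i⟩)
      ⟨fun i => hf.1 i.succ, fun i j hij => hf.2 _ _ (fun h => hij (Fin.succ_injective _ h))⟩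
    refine ⟨v, hv, fun i => ?_⟩
    induction i using Fin.cases with
    | zero => exact LinearMap.mem_ker.mp v.2
    | succ i => exact hv2 i

variable {F L : Type} [Field F] [Field L] [CharZero L] [StarRing L] [Algebra F L] {d : F}
  {n : ℕ} {H : Matrix (Fin n) (Fin n) L} (hH : Hᴴ = H) (hHu : IsUnit H) {r : ℕ}

/-- The projection to the space spanned by a frame. -/
noncomputable def prF (hH : Hᴴ = H) (f : Fin r → Fin n → L) : Matrix (Fin n) (Fin n) L :=
  ∑ i, pr hH (f i)

/-- The involution attached to a frame. -/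
noncomputable def sy (hH : Hᴴ = H) (α : L) (f : Fin r → Fin n → L) : Matrix (Fin n) (Fin n) L :=
  α • (prF hH f + prF hH f - 1)

include hHu in
theorem adj_conj_prF {T : Matrix (Fin n) (Fin n) L} (hT : T * adj H T = 1)
    (f : Fin r → Fin n → L) : adj H T * prF hH f * T = prF hH (fun i => f i ᵥ* T) := by
  rw [prF, prF, Finset.mul_sum, Finset.sum_mul]
  exact Finset.sum_congr rfl fun i _ => adj_conj_pr hH hHu hT (f i)

include hHu in
theorem adj_conj_sy {T : Matrix (Fin n) (Fin n) L} (hT : T * adj H T = 1) (hT' : adj H T * T = 1)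
    (α : L) (f : Fin r → Fin n → L) :
    adj H T * sy hH α f * T = sy hH α (fun i => f i ᵥ* T) := by
  rw [sy, sy, ← adj_conj_prF hH hHu hT, Matrix.mul_smul, Matrix.smul_mul, mul_sub, sub_mul,
    mul_add, add_mul, mul_one, hT']

theorem vecMul_prF {α : Fin r → Fˣ} {f : Fin r → Fin n → L}
    (hf : IsFrame (rowHF H hH) α f) (i : Fin r) : f i ᵥ* prF hH f = f i := by
  rw [prF, Matrix.vecMul_sum, Finset.sum_eq_single i]
  · rw [vecMul_pr, hf.1 i, div_self ((_root_.map_ne_zero _).mpr (α i).ne_zero), one_smul]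
  · intro j _ hj
    rw [vecMul_pr, hf.2 i j (Ne.symm hj), zero_div, zero_smul]
  · intro h
    exact absurd (Finset.mem_univ i) h

theorem vecMul_prF_orth {f : Fin r → Fin n → L} {v : Fin n → L}
    (hv : ∀ i, (rowHF H hH).h v (f i) = 0) : v ᵥ* prF hH f = 0 := by
  rw [prF, Matrix.vecMul_sum]
  refine Finset.sum_eq_zero fun i _ => ?_
  rw [vecMul_pr, hv, zero_div, zero_smul]

/-- The algebra of two projections to vectors in a plane. -/
theorem two_proj {R : Type} [Ring R] {E E' P t : R} (hP : P * P = P) (hPE : P * E = 0)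
    (hEP : E * P = 0) (hPE' : P * E' = 0) (hEP' : E' * P = 0) (hE : E * E = E)
    (hE' : E' * E' = E') (h1 : E * E' * E = t * E) (h2 : E' * E * E' = t * E')
    (ht : ∀ x, t * x = x * t) :
    ((P + E + (P + E') - 1) * (P + E + (P + E') - 1) - 1) *
      ((P + E + (P + E') - 1) * (P + E + (P + E') - 1) - t) = 0 := by
  have e1 : (P + E + (P + E') - 1) * (P + E + (P + E') - 1) =
      1 - E - E' + E * E' + E' * E := by
    have : (P + E + (P + E') - 1) * (P + E + (P + E') - 1) =
        P * P + P * P + P * P + P * P + (P * E + P * E) + (P * E' + P * E') + (E * P + E * P) +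
        (E' * P + E' * P) + E * E + E * E' + E' * E + E' * E' - (P + E + P + E') -
        (P + E + P + E') + 1 := by noncomm_ring
    rw [this, hP, hPE, hEP, hPE', hEP', hE, hE']
    noncomm_ring
  obtain ⟨q, hq⟩ : ∃ q, q = E + E' - E * E' - E' * E := ⟨_, rfl⟩
  have e2 : (P + E + (P + E') - 1) * (P + E + (P + E') - 1) = 1 - q := by
    rw [e1, hq]; noncomm_ring
  have e3 : q * E = E - t * E := by
    rw [hq]
    calc (E + E' - E * E' - E' * E) * E = E * E + E' * E - E * E' * E - E' * (E * E) := by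
          noncomm_ring
      _ = _ := by rw [hE, h1]; abel
  have e4 : q * E' = E' - t * E' := by
    rw [hq]
    calc (E + E' - E * E' - E' * E) * E' = E * E' + E' * E' - E * (E' * E') - E' * E * E' := by
          noncomm_ring
      _ = _ := by rw [hE', h2]; abel
  have e5 : q * q = q - t * q := by
    calc q * q = q * E + q * E' - (q * E) * E' - (q * E') * E := by
          nth_rewrite 2 [hq]; noncomm_ring
      _ = _ := by
        rw [e3, e4, hq]
        noncomm_ring
  rw [e2]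
  calc (1 - q - 1) * (1 - q - t) = -(q - q * q - q * t) := by noncomm_ring
    _ = 0 := by rw [e5, ← ht]; abel

/-- The relation between the involutions of two frames which differ in one vector. -/
theorem sy_rel {α : Fin r → Fˣ} {f f' : Fin r → Fin n → L}
    (hM : Mv (rowHF H hH) α f f') : ∃ θ p : L, θ ≠ 0 ∧ p ≠ 0 ∧ θ * star θ = 1 + p * star p ∧
      ((prF hH f + prF hH f' - 1) * (prF hH f + prF hH f' - 1) - 1) *
      ((prF hH f + prF hH f' - 1) * (prF hH f + prF hH f' - 1) - Matrix.scalar _ (θ * star θ)) =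
        0 := by
  classical
  obtain ⟨hf, hf', j, θ, p, hj, hθ, hθ0, hp0, hθp⟩ := hM
  have hα0 : ∀ i, algebraMap F L (α i) ≠ 0 := fun i => (_root_.map_ne_zero _).mpr (α i).ne_zero
  refine ⟨θ, p, hθ0, hp0, hθp, ?_⟩
  obtain ⟨P, hP⟩ : ∃ P, P = ∑ i ∈ Finset.univ.erase j, pr hH (f i) := ⟨_, rfl⟩
  have e1 : prF hH f = P + pr hH (f j) := by
    rw [prF, hP, Finset.sum_erase_add _ _ (Finset.mem_univ j)]
  have e2 : prF hH f' = P + pr hH (f' j) := by
    rw [prF, hP, ← Finset.sum_erase_add _ _ (Finset.mem_univ j)]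
    congr 1
    refine Finset.sum_congr rfl fun i hi => ?_
    rw [hj i (Finset.ne_of_mem_erase hi)]
  have h0 : ∀ i, (rowHF H hH).h (f i) (f i) ≠ 0 := fun i => by rw [hf.1 i]; exact hα0 i
  have h0' : ∀ i, (rowHF H hH).h (f' i) (f' i) ≠ 0 := fun i => by rw [hf'.1 i]; exact hα0 i
  have hPx : ∀ x, (∀ i, i ≠ j → (rowHF H hH).h (f i) x = 0) → P * pr hH x = 0 := by
    intro x hx
    rw [hP, Finset.sum_mul]
    exact Finset.sum_eq_zero fun i hi => pr_orth hH (hx i (Finset.ne_of_mem_erase hi))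
  have hxP : ∀ x, (∀ i, i ≠ j → (rowHF H hH).h (f i) x = 0) → pr hH x * P = 0 := by
    intro x hx
    rw [hP, Finset.mul_sum]
    refine Finset.sum_eq_zero fun i hi => pr_orth hH ?_
    rw [← (rowHF H hH).star_h, hx i (Finset.ne_of_mem_erase hi), star_zero]
  have hPP : P * P = P := by
    nth_rewrite 2 [hP]
    rw [Finset.mul_sum]
    nth_rewrite 2 [hP]
    refine Finset.sum_congr rfl fun i hi => ?_
    rw [hP, Finset.sum_mul, Finset.sum_eq_single i]
    · exact pr_idem hH (h0 i)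
    · intro l _ hl
      exact pr_orth hH (hf.2 l i hl)
    · intro h
      exact absurd hi h
  have ho : ∀ i, i ≠ j → (rowHF H hH).h (f i) (f j) = 0 := fun i hi => hf.2 i j hi
  have ho' : ∀ i, i ≠ j → (rowHF H hH).h (f i) (f' j) = 0 := fun i hi => by
    rw [← hj i hi]; exact hf'.2 i j hi
  rw [e1, e2]
  have hθs : (rowHF H hH).h (f j) (f' j) * star ((rowHF H hH).h (f j) (f' j)) /
      (algebraMap F L (α j) * algebraMap F L (α j)) = θ * star θ := by
    have hs : star (algebraMap F L (α j)) = algebraMap F L (α j) := by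
      have := (rowHF H hH).star_h (f j) (f j)
      rwa [hf.1 j] at this
    rw [hθ, star_mul', hs]
    have := hα0 j
    field_simp
  have hsc : ∀ (c : L) (M : Matrix (Fin n) (Fin n) L), Matrix.scalar (Fin n) c * M = c • M := by
    intro c M
    rw [Matrix.scalar_apply, ← Matrix.smul_eq_diagonal_mul]
  refine two_proj hPP (hPx _ ho) (hxP _ ho) (hPx _ ho') (hxP _ ho') (pr_idem hH (h0 j))
    (pr_idem hH (h0' j)) ?_ ?_ ?_
  · rw [pr_pr_pr hH (h0 j) (h0' j), hf.1 j, hf'.1 j, hθs, hsc]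
  · rw [pr_pr_pr hH (h0' j) (h0 j), hf.1 j, hf'.1 j, hsc, ← hθs]
    congr 2
    rw [(rowHF H hH).star_h, ← (rowHF H hH).star_h (f j) (f' j), mul_comm,
      (rowHF H hH).star_h]
  · intro x
    exact (Matrix.scalar_commute _ (fun r' => Commute.all _ _) x).eq

/-- Unitary operators. -/
def Un (H T : Matrix (Fin n) (Fin n) L) : Prop := T * adj H T = 1 ∧ adj H T * T = 1

include hHu in
theorem Un.smul_qr {x : Fin n → L} (hx : (rowHF H hH).h x x ≠ 0) {c ζ : L} (hc : c * star c = 1)
    (hζ : ζ * star ζ = 1) : Un H (c • qr hH x ζ) := by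
  have hc' : star c * c = 1 := by rw [mul_comm]; exact hc
  constructor
  · rw [adj_smul, adj_qr hH hHu, Matrix.smul_mul, Matrix.mul_smul, qr_mul_qr hH hx, smul_smul, hζ,
      hc, one_smul, qr_one]
  · rw [adj_smul, adj_qr hH hHu, Matrix.smul_mul, Matrix.mul_smul, qr_mul_qr hH hx, smul_smul,
      mul_comm (star ζ), hζ, hc', one_smul, qr_one]

theorem pr_neg (x : Fin n → L) : pr hH (-x) = pr hH x := by
  apply mat_ext
  intro v
  rw [vecMul_pr, vecMul_pr, (rowHF H hH).neg_right, (rowHF H hH).neg_left,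
    (rowHF H hH).neg_right, neg_neg, smul_neg, ← neg_smul]
  congr 1
  rw [neg_div, neg_neg]

theorem qr_neg (x : Fin n → L) (ζ : L) : qr hH (-x) ζ = qr hH x ζ := by
  rw [qr, pr_neg, qr]

/-- One of two vectors is in general position. -/
theorem sign_choice {x y : Fin n → L} (hx : (rowHF H hH).h x x ≠ 0)
    (hxy : (rowHF H hH).h x x = (rowHF H hH).h y y) :
    ∃ y', (y' = y ∨ y' = -y) ∧ (rowHF H hH).h x x = (rowHF H hH).h y' y' ∧
      (rowHF H hH).h (x - y') (x - y') ≠ 0 := by
  by_cases h : (rowHF H hH).h (x - y) (x - y) = 0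
  · refine ⟨-y, Or.inr rfl, by rw [(rowHF H hH).neg_left, (rowHF H hH).neg_right, neg_neg, hxy],
      fun h' => ?_⟩
    simp only [(rowHF H hH).sub_left, (rowHF H hH).sub_right, (rowHF H hH).neg_left,
      (rowHF H hH).neg_right] at h h'
    have h4 : 4 * (rowHF H hH).h x x = 0 := by
      linear_combination h + h' + 2 * hxy
    exact hx ((mul_eq_zero.mp h4).resolve_left (by norm_num))
  · exact ⟨y, Or.inl rfl, hxy, h⟩

include hHu in
/-- A change of one vector of a frame is induced by a quasi-reflection which commutes with a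
conjugate of the involution of the frame. -/
theorem mv_conj (hQ : QuadL F L d) (hU : Univ2 F L) (hr : r + 2 ≤ n) {ω : L}
    (hω : ω * star ω = 1) (hω1 : ω ≠ 1) (hω2 : ω ≠ -1) {δ : Fin r → Fˣ}
    {f f' : Fin r → Fin n → L} (hM : Mv (rowHF H hH) δ f f') (α : L) :
    ∃ G C : Matrix (Fin n) (Fin n) L, Un H G ∧ Un H C ∧ IsUnit (1 + G) ∧ IsUnit (1 + C) ∧
      C * sy hH α f = sy hH α f * C ∧
      sy hH α f' = (G * C * adj H G) * sy hH α f * (G * adj H C * adj H G) := by
  classical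
  obtain ⟨hf, hf', j, θ, p, hj, hθ, hθ0, hp0, hθp⟩ := hM
  have hδ0 : ∀ i, algebraMap F L (δ i) ≠ 0 := fun i => (_root_.map_ne_zero _).mpr (δ i).ne_zero
  have hn0 : (rowHF H hH).Nondeg := rowHF_nondeg H hH
    ((Matrix.isUnit_iff_isUnit_det H).mp hHu).ne_zero
  have h0 : (rowHF H hH).h (f j) (f j) ≠ 0 := by rw [hf.1 j]; exact hδ0 j
  -- the quasi-reflection
  obtain ⟨y, hy, hyy, hye⟩ := sign_choice hH h0 (y := f' j) (by rw [hf.1 j, hf'.1 j])
  obtain ⟨ζ, hζ, hζy⟩ := exists_qr hH hyy hye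
  obtain ⟨e, he⟩ : ∃ e, e = f j - y := ⟨_, rfl⟩
  rw [← he] at hye hζy
  obtain ⟨β, hβ⟩ := hQ.fix _ ((rowHF H hH).star_h e e)
  have hβ0 : β ≠ 0 := by
    rintro rfl
    rw [map_zero] at hβ
    exact hye hβ.symm
  have hζ' : star ζ * ζ = 1 := by rw [mul_comm]; exact hζ
  have hfe : ∀ i, i ≠ j → (rowHF H hH).h (f i) e = 0 := by
    intro i hi
    have h1 : (rowHF H hH).h (f i) (f' j) = 0 := by rw [← hj i hi]; exact hf'.2 i j hi
    rw [he, (rowHF H hH).sub_right, hf.2 i j hi, zero_sub, neg_eq_zero]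
    rcases hy with rfl | rfl
    · exact h1
    · rw [(rowHF H hH).neg_right, h1, neg_zero]
  have hqf : ∀ i, pr hH (f i ᵥ* qr hH e ζ) = pr hH (f' i) := by
    intro i
    by_cases hi : i = j
    · subst hi
      rw [hζy]
      rcases hy with rfl | rfl
      · rfl
      · exact pr_neg hH _
    · rw [hj i hi, qr, Matrix.vecMul_add, Matrix.vecMul_one, Matrix.vecMul_smul, vecMul_pr,
        hfe i hi, zero_div, zero_smul, smul_zero, add_zero]
  have hq1 : qr hH e ζ * adj H (qr hH e ζ) = 1 := by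
    rw [adj_qr hH hHu, qr_mul_qr hH hye, hζ, qr_one]
  have hq2 : adj H (qr hH e ζ) * qr hH e ζ = 1 := by
    rw [adj_qr hH hHu, qr_mul_qr hH hye, hζ', qr_one]
  have hsy : sy hH α f' = qr hH e (star ζ) * sy hH α f * qr hH e ζ := by
    rw [← adj_qr hH hHu, adj_conj_sy hH hHu hq1 hq2, sy, sy]
    have : prF hH f' = prF hH (fun i => f i ᵥ* qr hH e ζ) :=
      Finset.sum_congr rfl fun i _ => (hqf i).symm
    rw [this]
  -- the vector in the orthogonal complement
  obtain ⟨e₀, he₀, he₀f⟩ := exists_orth hQ hU _ (rowHF H hH) hn0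
    (by rw [Module.finrank_fin_fun]; exact hr) δ f hf (Units.mk0 β hβ0)
  rw [Units.val_mk0, hβ] at he₀
  obtain ⟨e₁, he₁, he₁e, he₁n⟩ := sign_choice hH hye (y := e₀) he₀.symm
  have he₁f : ∀ i, (rowHF H hH).h e₁ (f i) = 0 := by
    intro i
    rcases he₁ with rfl | rfl
    · exact he₀f i
    · rw [(rowHF H hH).neg_left, he₀f, neg_zero]
  have he₁0 : (rowHF H hH).h e₁ e₁ ≠ 0 := by rw [← he₁e]; exact hye
  obtain ⟨ξ, hξ, hξe⟩ := exists_qr hH he₁e he₁n
  have hξ' : star ξ * ξ = 1 := by rw [mul_comm]; exact hξ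
  -- the scalars
  obtain ⟨c, hc, hcu⟩ := qr_unit hH he₁0 (ζ := star ζ) hω hω1 hω2
  obtain ⟨c', hc', hcu'⟩ := qr_unit hH he₁n (ζ := ξ) hω hω1 hω2
  refine ⟨c' • qr hH (e - e₁) ξ, c • qr hH e₁ (star ζ), Un.smul_qr hH hHu he₁n hc' hξ,
    Un.smul_qr hH hHu he₁0 hc (by rw [star_star]; exact hζ'), hcu', hcu, ?_, ?_⟩
  · have h1 : pr hH e₁ * prF hH f = 0 := by
      rw [prF, Finset.mul_sum]
      exact Finset.sum_eq_zero fun i _ => pr_orth hH (he₁f i)
    have h2 : prF hH f * pr hH e₁ = 0 := by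
      rw [prF, Finset.sum_mul]
      refine Finset.sum_eq_zero fun i _ => pr_orth hH ?_
      rw [← (rowHF H hH).star_h, he₁f, star_zero]
    rw [qr, sy]
    simp only [Matrix.smul_mul, Matrix.mul_smul, add_mul, mul_add, mul_sub, sub_mul, one_mul,
      mul_one, h1, h2]
    module
  · have hG : c' • qr hH (e - e₁) ξ * (c • qr hH e₁ (star ζ)) *
        adj H (c' • qr hH (e - e₁) ξ) = c • qr hH e (star ζ) := by
      have h1 : adj H (adj H (qr hH (e - e₁) ξ)) * pr hH e₁ * adj H (qr hH (e - e₁) ξ) =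
          pr hH (e₁ ᵥ* adj H (qr hH (e - e₁) ξ)) := by
        refine adj_conj_pr hH hHu ?_ _
        rw [adj_adj hH hHu, adj_qr hH hHu, qr_mul_qr hH he₁n, hξ', qr_one]
      have h2 : e₁ ᵥ* adj H (qr hH (e - e₁) ξ) = e := by
        calc e₁ ᵥ* adj H (qr hH (e - e₁) ξ) =
            (e ᵥ* qr hH (e - e₁) ξ) ᵥ* adj H (qr hH (e - e₁) ξ) := by rw [hξe]
          _ = e := by
            rw [Matrix.vecMul_vecMul, adj_qr hH hHu, qr_mul_qr hH he₁n, hξ, qr_one,
              Matrix.vecMul_one]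
      rw [h2, adj_adj hH hHu] at h1
      have h3 : qr hH (e - e₁) ξ * qr hH e₁ (star ζ) * adj H (qr hH (e - e₁) ξ) =
          qr hH e (star ζ) := by
        have h4 : qr hH (e - e₁) ξ * adj H (qr hH (e - e₁) ξ) = 1 := by
          rw [adj_qr hH hHu, qr_mul_qr hH he₁n, hξ, qr_one]
        rw [qr_def' hH e₁, mul_add, mul_one, add_mul, h4, Matrix.mul_smul, Matrix.smul_mul, h1,
          ← qr_def' hH]
      have h5 : ∀ X Y Z : Matrix (Fin n) (Fin n) L, c' • X * (c • Y) * (star c' • Z) =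
          (c * (c' * star c')) • (X * Y * Z) := by
        intro X Y Z
        simp only [Matrix.smul_mul, Matrix.mul_smul, smul_smul]
        congr 1
        ring
      rw [adj_smul, h5, h3, hc', mul_one]
    have hG' : c' • qr hH (e - e₁) ξ * adj H (c • qr hH e₁ (star ζ)) *
        adj H (c' • qr hH (e - e₁) ξ) = star c • qr hH e ζ := by
      have h1 := congrArg (adj H) hG
      have h2 : adj H (c • qr hH e (star ζ)) = star c • qr hH e ζ := by
        rw [adj_smul, adj_qr hH hHu e, star_star]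
      rw [adj_mul hHu, adj_mul hHu, adj_adj hH hHu, ← mul_assoc, h2] at h1
      exact h1
    rw [hG, hG', hsy, Matrix.smul_mul, Matrix.smul_mul, Matrix.mul_smul, smul_smul, hc,
      one_smul]

end Rk

end Vale.Agent.P011.One
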