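import Vale.Agent.P011.One.Assembly

/-!
Elements of the group close to one at finitely many places: reduction to the centralizer of a
symmetric square root.
-/

open NumberField IsDedekindDomain Filter Topology

set_option linter.unusedSectionVars false

namespace Vale.Agent.P011.One

open Vale.Agent.P011.Arith Vale.Agent.P011.Even Vale.Agent.P011.Two

variable {k K D : Type} [Field k] [NumberField k] [Field K] [StarRing K]
    [DivisionRing D] [StarRing D] [Algebra k K] [Algebra k D] [Algebra K D] [IsScalarTower k K D]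
    {d : kˣ} {s : K} {M : ℕ}

theorem LPath.imp {B : Module.Basis (Fin M) k D} {a : kˣ} {q : Pl k} {R R' : D → D → Prop}
    (hR : ∀ x y, R x y → R' x y) {σ' : D} :
    ∀ (n : ℕ) (w : D), LPath B a s q R σ' n w → LPath B a s q R' σ' n w := by
  intro n
  induction n with
  | zero =>
    rintro w ⟨ε, hε, h⟩
    exact ⟨ε, hε, fun y hy hyw => hR _ _ (h y hy hyw)⟩
  | succ n ih =>
    rintro w ⟨X, Y, hX, hY, hYw, ⟨ε, hε, h⟩, h2⟩
    exact ⟨X, Y, hX, hY, hYw, ⟨ε, hε, fun y hy z hz e1 e2 => hR _ _ (h y hy z hz e1 e2)⟩,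
      ih _ h2⟩

theorem closeAt_rs (B : Module.Basis (Fin M) k D) (d a : kˣ) {e : ℕ} (he : 0 < e)
    (S₀ : Set (HeightOneSpectrum (𝓞 k))) (σ : D) {κ : Pl k → ℝ} (hκ : ∀ q, 0 < κ q) (q : Pl k)
    (hq : ∀ φ, q = .inr φ → φ ((a * d : kˣ) : k) < 0) :
    CloseAt B a q (RS B d a e S₀ σ κ q) σ := by
  obtain ⟨η, hη, h⟩ := (closeR_lr B d a he q hq).closeAt σ
  refine ⟨min η (κ q), lt_min hη (hκ q), fun y hy z hz hyw hzw => ?_⟩
  rw [lt_min_iff] at hyw hzw
  exact ⟨h y hy z hz hyw.1 hzw.1, fun _ _ _ => ⟨hyw.2, hzw.2⟩⟩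

/-- **Reduction to the centralizer.** -/
theorem frame_s (hS : Setting k K D d s) (B : Module.Basis (Fin M) k D) {a : kˣ} {e : ℕ}
    (he : 0 < e) {σ : D} (hσ : σ ∈ Xa D a) {S₀ : Set (HeightOneSpectrum (𝓞 k))} (hS₀ : S₀.Finite)
    (hne : S₀.Nonempty)
    (hgood : ∀ v ∉ S₀, GoodAt B d s v ∧ v.valuation k (a : k) = 1 ∧ Ing B v σ) {N G : Set D}
    (hG : ∀ g ∈ G, g * star g = 1 ∧ star g * g = 1)
    (hN : ∀ g ∈ N, g * star g = 1 ∧ star g * g = 1)
    (hchain : ∀ v ∉ S₀, a * d ∉ LS (v.valuation k) → ∀ g ∈ G,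
      ∃ n, LPath B a s (.inl v) (LR d a e (.inl v)) (g * σ * star g) n σ)
    (hpair : ∀ θ : Pl k → ℝ, (∀ q, 0 < θ q) → ∃ (N' : Set D) (κ : Pl k → ℝ), N' ⊆ N ∧
      (∀ ν ∈ N', ∀ v ∈ S₀, nm B (.inl v) (ν - 1) < θ (.inl v)) ∧
      (∀ x ∈ N', ∀ y ∈ N', x * y ∈ N') ∧ (∀ q, 0 < κ q) ∧
      ∀ S : Set (HeightOneSpectrum (𝓞 k)), S.Finite → S₀ ⊆ S →
        Pair B d a S (PS (a * d) S₀ S) (RS B d a e S₀ σ κ) N')
    (θ : Pl k → ℝ) (hθ : ∀ q, 0 < θ q) :
    ∃ η : Pl k → ℝ, (∀ q, 0 < η q) ∧ ∀ g ∈ G, (∀ q ∈ SP S₀, nm B q (g - 1) < η q) →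
      ∃ ν ∈ N, ∃ e' : D, g = ν * e' ∧ e' * σ = σ * e' ∧ e' * star e' = 1 ∧ star e' * e' = 1 ∧
        ∀ v ∈ S₀, nm B (.inl v) (e' - 1) < θ (.inl v) := by
  classical
  have hD : CharZero D := charZero_of_injective_algebraMap (algebraMap k D).injective
  have hσ0 : σ ≠ 0 := (isX_of_mem hσ).ne_zero
  have hσσ : σ ≠ -σ := by
    intro h
    have h1 : σ + σ = 0 := by nth_rewrite 1 [h]; rw [neg_add_cancel]
    rw [← two_mul] at h1
    exact hσ0 ((mul_eq_zero.mp h1).resolve_left two_ne_zero)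
  -- closeness of `star ν * g`
  have hprod : ∀ q : Pl k, ∃ ε : ℝ, 0 < ε ∧ ∀ ν g : D, nm B q (ν - 1) < ε → nm B q (g - 1) < ε →
      nm B q (star ν * g - 1) < θ q := by
    intro q
    have h1 := nb_fst B q ((1 : D), (1 : D))
    have h2 := nb_snd B q ((1 : D), (1 : D))
    have h3 := (tn_star hS h1).mul h2
    simp only [star_one, mul_one] at h3
    obtain ⟨ε, hε, hε'⟩ := ev_nb B q (h3.ev_lt (hθ q))
    refine ⟨ε / 2, half_pos hε, fun ν g e1 e2 => hε' (ν, g) ?_⟩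
    change nm B q (ν - 1) + nm B q (g - 1) < ε
    linarith
  choose ε hε hprod using hprod
  obtain ⟨N', κ, hN'N, hN'near, hN'mul, hκ, hN'pair⟩ := hpair ε hε
  -- closeness of the conjugate
  have hconj : ∀ q : Pl k, ∃ η : ℝ, 0 < η ∧ ((∀ φ, q = .inr φ → φ ((a * d : kˣ) : k) < 0) →
      ∀ g ∈ G, nm B q (g - 1) < η → g * σ * star g ≠ -σ ∧
        LPath B a s q (RS B d a e S₀ σ κ q) (g * σ * star g) 0 σ) ∧
      (∀ g : D, nm B q (g - 1) < η → g * σ * star g ≠ -σ) := by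
    intro q
    have h1 := nm_pos' B q (x := σ - -σ) (sub_ne_zero.mpr hσσ)
    have hcon : ∀ t : ℝ, 0 < t → ∃ η : ℝ, 0 < η ∧ ∀ g : D, nm B q (g - 1) < η →
        nm B q (g * σ * star g - σ) < t := by
      intro t ht
      obtain ⟨η, hη, h⟩ := conj_cont hS B q 1 σ ht
      refine ⟨η, hη, fun g hg => ?_⟩
      have := h g σ hg (by rw [sub_self, nm_zero]; exact hη)
      rwa [one_mul, star_one, mul_one] at this
    obtain ⟨η₁, hη₁, hc1⟩ := hcon _ h1
    have hneg : ∀ g : D, nm B q (g - 1) < η₁ → g * σ * star g ≠ -σ := by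
      intro g hg h0
      have h2 := hc1 g hg
      rw [h0, ← nm_neg, neg_sub] at h2
      exact lt_irrefl _ h2
    by_cases hq : ∀ φ, q = .inr φ → φ ((a * d : kˣ) : k) < 0
    · obtain ⟨t, ht, hcl⟩ := exists_close (s := s) (closeAt_rs B d a he S₀ σ hκ q hq)
      obtain ⟨η₂, hη₂, hc2⟩ := hcon t ht
      refine ⟨min η₁ η₂, lt_min hη₁ hη₂, fun _ g hg hgn => ?_,
        fun g hg => hneg g (hg.trans_le (min_le_left _ _))⟩
      rw [lt_min_iff] at hgn
      exact ⟨hneg g hgn.1, hcl _ (conj_mem hσ (hG g hg).1 (hG g hg).2) (hc2 g hgn.2)⟩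
    · exact ⟨η₁, hη₁, fun h => absurd h hq, hneg⟩
  choose η₁ hη₁ hconj using hconj
  refine ⟨fun q => min (η₁ q) (ε q), fun q => lt_min (hη₁ q) (hε q), fun g hg hgn => ?_⟩
  obtain ⟨hg1, hg2⟩ := hG g hg
  obtain ⟨σ', hσ'⟩ : ∃ σ', σ' = g * σ * star g := ⟨_, rfl⟩
  have hσ'X : σ' ∈ Xa D a := hσ' ▸ conj_mem hσ hg1 hg2
  obtain ⟨v₀, hv₀⟩ := hne
  have hsum : σ + σ' ≠ 0 := by
    intro h0
    have h1 := (hconj (.inl v₀)).2 g ((hgn (.inl v₀) (by rw [inl_mem_SP]; exact hv₀)).trans_le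
      (min_le_left _ _))
    rw [← hσ'] at h1
    exact h1 (eq_neg_of_add_eq_zero_right h0)
  obtain ⟨S, hSd⟩ : ∃ S : Set (HeightOneSpectrum (𝓞 k)), S = S₀ ∪ {v | ¬ Ing B v σ'} ∪
    {v | ¬ Ing B v (σ + σ')⁻¹} := ⟨_, rfl⟩
  have hSf : S.Finite := hSd ▸ (hS₀.union (finite_not_ing B _)).union (finite_not_ing B _)
  have hSS : S₀ ⊆ S := by
    intro v hv
    rw [hSd]
    exact Or.inl (Or.inl hv)
  have hnS : ∀ v ∉ S, v ∉ S₀ ∧ Ing B v σ' ∧ Ing B v (σ + σ')⁻¹ := by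
    intro v hv
    rw [hSd] at hv
    simp only [Set.mem_union, not_or, Set.mem_ofPred_eq, not_not] at hv
    exact ⟨hv.1.1, hv.1.2, hv.2⟩
  have hPS : PS (a * d) S₀ S ⊆ SP S := by
    rintro q (hq | ⟨v, hv, rfl⟩)
    · exact Pn_subset hq
    · rw [inl_mem_SP]
      exact hSS hv
  have hreal : ∀ q ∈ PS (a * d) S₀ S, ∀ φ, q = .inr φ → φ ((a * d : kˣ) : k) < 0 := by
    rintro q (hq | ⟨v, hv, rfl⟩) φ hφ
    · rcases hq with ⟨v, -, -, h⟩ | ⟨φ', hφ', h⟩
      · rw [hφ] at h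
        exact absurd h Sum.inr_ne_inl
      · rw [hφ] at h
        obtain rfl := Sum.inr_injective h
        exact hφ'
    · exact absurd hφ Sum.inl_ne_inr
  obtain ⟨ν, hν, hνσ⟩ := conj_of_lpath hS B hN'mul hSf
    (fun v hv => ⟨(hgood v (hnS v hv).1).1, (hgood v (hnS v hv).1).2.1⟩) hPS
    (hN'pair S hSf hSS) (fun q hq => closeAt_rs B d a he S₀ σ hκ q (hreal q hq)) hσ hσ'X hsum
    (fun v hv => ⟨(hgood v (hnS v hv).1).2.2, (hnS v hv).2.1, (hnS v hv).2.2⟩) (fun q hq => by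
      rcases q with v | φ
      · by_cases hv : v ∈ S₀
        · refine ⟨0, ?_⟩
          rw [hσ']
          exact ((hconj (.inl v)).1 (fun φ h => absurd h Sum.inl_ne_inr) g hg
            ((hgn _ (by rw [inl_mem_SP]; exact hv)).trans_le (min_le_left _ _))).2
        · have hns : a * d ∉ LS (v.valuation k) := by
            rcases hq with (⟨v', -, h1, h2⟩ | ⟨φ, -, h⟩) | ⟨v', hv', h⟩
            · obtain rfl := Sum.inl_injective h2
              exact h1
            · exact absurd h Sum.inl_ne_inr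
            · exact absurd (Sum.inl_injective h ▸ hv') hv
          obtain ⟨n, hn⟩ := hchain v hv hns g hg
          rw [← hσ'] at hn
          refine ⟨n, LPath.imp (fun x y hxy => ⟨hxy, fun v' hv' h => ?_⟩) n σ hn⟩
          exact absurd (Sum.inl_injective h ▸ hv') hv
      · refine ⟨0, ?_⟩
        rw [hσ']
        exact ((hconj (.inr φ)).1 (hreal _ hq) g hg
          ((hgn _ inr_mem_SP).trans_le (min_le_left _ _))).2)
  obtain ⟨hν1, hν2⟩ := hN ν (hN'N hν)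
  refine ⟨ν, hN'N hν, star ν * g, ?_, ?_, ?_, ?_, fun v hv => ?_⟩
  · rw [← mul_assoc, hν1, one_mul]
  · have h1 : σ * star ν = star ν * σ' := by
      calc σ * star ν = star ν * (ν * σ) * star ν := by rw [← mul_assoc, hν2, one_mul]
        _ = star ν * σ' * (ν * star ν) := by rw [hνσ]; simp only [mul_assoc]
        _ = _ := by rw [hν1, mul_one]
    calc star ν * g * σ = star ν * (g * σ * star g) * g := by
          rw [mul_assoc (star ν) (g * σ * star g), mul_assoc (g * σ), hg2, mul_one, mul_assoc]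
      _ = σ * (star ν * g) := by rw [← hσ', ← h1, mul_assoc]
  · rw [star_mul, star_star]
    calc star ν * g * (star g * ν) = star ν * (g * star g) * ν := by simp only [mul_assoc]
      _ = 1 := by rw [hg1, mul_one, hν2]
  · rw [star_mul, star_star]
    calc star g * ν * (star ν * g) = star g * (ν * star ν) * g := by simp only [mul_assoc]
      _ = 1 := by rw [hν1, mul_one, hg2]
  · refine hprod (.inl v) ν g (hN'near ν hν v hv) ?_
    exact (hgn _ (by rw [inl_mem_SP]; exact hv)).trans_le (min_le_right _ _)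

end Vale.Agent.P011.One
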