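import Vale.Agent.P011.T2.MaxSub

/-!
A central division algebra over the real numbers has dimension at most four.
-/

open Module Polynomial

namespace Vale.Agent.P011.One

theorem finrank_real_le (E : Type) [CommRing E] [IsDomain E] [Algebra ℝ E]
    [FiniteDimensional ℝ E] : finrank ℝ E ≤ 2 := by
  let _ : Field E := fieldOfFiniteDimensional ℝ E
  obtain ⟨α, hα⟩ := Field.exists_primitive_element ℝ E
  have hint : IsIntegral ℝ α := Algebra.IsIntegral.isIntegral α
  have h1 : (minpoly ℝ α).natDegree ≤ 2 :=
    natDegree_le_of_degree_le (minpoly.irreducible hint).degree_le_two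
  have h2 := IntermediateField.adjoin.finrank hint
  rw [hα, IntermediateField.finrank_top'] at h2
  omega

variable {D : Type} [DivisionRing D] [Algebra ℝ D] [FiniteDimensional ℝ D]
  [Algebra.IsCentral ℝ D]

omit [Algebra.IsCentral ℝ D] in
open scoped IsMulCommutative in
theorem finrank_adjoin_le {x y : D} (h : x * y = y * x) :
    finrank ℝ (Algebra.adjoin ℝ ({x, y} : Set D)) ≤ 2 := by
  have hcomm : ∀ a ∈ ({x, y} : Set D), ∀ b ∈ ({x, y} : Set D), a * b = b * a := by
    intro a ha b hb
    rcases ha with rfl | rfl <;> rcases hb with rfl | rfl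
    · rfl
    · exact h
    · exact h.symm
    · rfl
  have _ : IsMulCommutative (Algebra.adjoin ℝ ({x, y} : Set D)) :=
    Algebra.isMulCommutative_adjoin ℝ hcomm
  exact finrank_real_le (Algebra.adjoin ℝ ({x, y} : Set D))

/-- **A central division algebra over the real numbers has dimension at most four.** -/
theorem finrank_le_four : finrank ℝ D ≤ 4 := by
  by_cases hx : ∃ x : D, x ∉ (⊥ : Subalgebra ℝ D)
  · obtain ⟨x, hx⟩ := hx
    let E := Algebra.adjoin ℝ ({x, x} : Set D)
    have hE : finrank ℝ E ≤ 2 := finrank_adjoin_le rfl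
    have hE2 : 2 ≤ finrank ℝ E := by
      by_contra hcon
      have h1 : finrank ℝ E ≤ 1 := by omega
      have h2 : E = ⊥ := by
        apply Subalgebra.eq_bot_of_finrank_one
        have : 0 < finrank ℝ E := Module.finrank_pos
        omega
      apply hx
      rw [← h2]
      exact Algebra.subset_adjoin (by simp)
    have hC : Subalgebra.centralizer ℝ (E : Set D) ≤ E := by
      intro y hy
      have hxy : x * y = y * x := (Subalgebra.mem_centralizer_iff ℝ).mp hy x
        (Algebra.subset_adjoin (by simp))
      have h1 := finrank_adjoin_le hxy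
      have h2 : E ≤ Algebra.adjoin ℝ ({x, y} : Set D) :=
        Algebra.adjoin_mono (by intro z hz; simp at hz; simp [hz])
      have h3 : E = Algebra.adjoin ℝ ({x, y} : Set D) := by
        apply Subalgebra.toSubmodule_injective
        exact Submodule.eq_of_le_of_finrank_le h2 (h1.trans hE2)
      rw [h3]
      exact Algebra.subset_adjoin (by simp)
    have h4 := T2.finrank_centralizer (K := ℝ) (D := D) E
    have h5 : finrank ℝ (Subalgebra.centralizer ℝ (E : Set D)) ≤ finrank ℝ E :=
      Submodule.finrank_mono (s := Subalgebra.toSubmodule (Subalgebra.centralizer ℝ (E : Set D)))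
        (t := Subalgebra.toSubmodule E) hC
    rw [← h4]
    nlinarith
  · push Not at hx
    have : (⊥ : Subalgebra ℝ D) = ⊤ := by
      rw [eq_top_iff]
      exact fun x _ => hx x
    have h1 : finrank ℝ (⊥ : Subalgebra ℝ D) = 1 := Subalgebra.finrank_bot
    rw [this, subalgebra_top_finrank_eq_submodule_top_finrank, finrank_top] at h1
    omega

end Vale.Agent.P011.One
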