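import Mathlib

/-!
A normal subgroup of the general linear group of degree at least two over a division ring which
contains the elementary transvections contains all commutators.
-/

open Matrix

namespace Vale.Agent.P011.One

variable {E : Type} [DivisionRing E] {r : ℕ}

/-- The elementary transvection. -/
def tvu {i j : Fin r} (hij : i ≠ j) (c : E) : (Matrix (Fin r) (Fin r) E)ˣ where
  val := 1 + Matrix.single i j c
  inv := 1 - Matrix.single i j c
  val_inv := by
    rw [mul_sub, mul_one, add_mul, one_mul, Matrix.single_mul_single_of_ne _ _ _ _ hij.symm]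
    abel
  inv_val := by
    rw [mul_add, mul_one, sub_mul, one_mul, Matrix.single_mul_single_of_ne _ _ _ _ hij.symm]
    abel

theorem tvu_val {i j : Fin r} (hij : i ≠ j) (c : E) :
    ((tvu hij c : (Matrix (Fin r) (Fin r) E)ˣ) : Matrix (Fin r) (Fin r) E) =
      1 + Matrix.single i j c := rfl

/-- The diagonal unit with one entry. -/
def dgu (i : Fin r) : Eˣ →* (Matrix (Fin r) (Fin r) E)ˣ :=
  Units.map (((Matrix.diagonalRingHom (Fin r) E : (Fin r → E) →* Matrix (Fin r) (Fin r) E)).comp
    (MonoidHom.mulSingle (fun _ : Fin r => E) i))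

theorem dgu_val (i : Fin r) (x : Eˣ) :
    ((dgu i x : (Matrix (Fin r) (Fin r) E)ˣ) : Matrix (Fin r) (Fin r) E) =
      1 + Matrix.single i i ((x : E) - 1) := by
  have h1 : ((dgu i x : (Matrix (Fin r) (Fin r) E)ˣ) : Matrix (Fin r) (Fin r) E) =
      Matrix.diagonal (Pi.mulSingle i (x : E)) := rfl
  rw [h1]
  ext a b
  by_cases hab : a = b
  · subst hab
    by_cases hai : i = a
    · subst hai
      rw [diagonal_apply_eq, Pi.mulSingle_eq_same, Matrix.add_apply, one_apply_eq, single_apply_same]
      abel
    · rw [diagonal_apply_eq, Pi.mulSingle_eq_of_ne (Ne.symm hai), Matrix.add_apply,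
        one_apply_eq, single_apply_of_ne, add_zero]
      exact fun h => hai h.1
  · rw [diagonal_apply_ne _ hab, Matrix.add_apply, one_apply_ne hab, single_apply_of_ne, add_zero]
    exact fun h => hab (h.1.symm.trans h.2)

/-- The column unipotents are products of transvections. -/
theorem exists_col (H : Subgroup (Matrix (Fin r) (Fin r) E)ˣ)
    (hH : ∀ (i j : Fin r) (hij : i ≠ j) (c : E), tvu hij c ∈ H) (i : Fin r) (c : Fin r → E)
    (s : Finset (Fin r)) (hs : i ∉ s) :
    ∃ u ∈ H, ((u : (Matrix (Fin r) (Fin r) E)ˣ) : Matrix (Fin r) (Fin r) E) =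
      1 + ∑ a ∈ s, Matrix.single a i (c a) := by
  induction s using Finset.induction_on with
  | empty => exact ⟨1, one_mem _, by simp⟩
  | insert b s hb ih =>
    rw [Finset.mem_insert, not_or] at hs
    obtain ⟨u, hu, hu'⟩ := ih hs.2
    refine ⟨u * tvu (Ne.symm hs.1) (c b), mul_mem hu (hH _ _ _ _), ?_⟩
    rw [Units.val_mul, hu', tvu_val, mul_add, mul_one, add_mul, one_mul, Finset.sum_mul,
      Finset.sum_eq_zero (f := fun x => Matrix.single x i (c x) * Matrix.single b i (c b)),
      add_zero, Finset.sum_insert hb]
    · abel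
    · intro x _
      exact Matrix.single_mul_single_of_ne _ _ _ _ hs.1 _

/-- The row unipotents are products of transvections. -/
theorem exists_row (H : Subgroup (Matrix (Fin r) (Fin r) E)ˣ)
    (hH : ∀ (i j : Fin r) (hij : i ≠ j) (c : E), tvu hij c ∈ H) (i : Fin r) (c : Fin r → E)
    (s : Finset (Fin r)) (hs : i ∉ s) :
    ∃ u ∈ H, ((u : (Matrix (Fin r) (Fin r) E)ˣ) : Matrix (Fin r) (Fin r) E) =
      1 + ∑ a ∈ s, Matrix.single i a (c a) := by
  induction s using Finset.induction_on with
  | empty => exact ⟨1, one_mem _, by simp⟩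
  | insert b s hb ih =>
    rw [Finset.mem_insert, not_or] at hs
    obtain ⟨u, hu, hu'⟩ := ih hs.2
    refine ⟨tvu hs.1 (c b) * u, mul_mem (hH _ _ _ _) hu, ?_⟩
    rw [Units.val_mul, hu', tvu_val, add_mul, one_mul, mul_add, mul_one, Finset.mul_sum,
      Finset.sum_eq_zero (f := fun x => Matrix.single i b (c b) * Matrix.single i x (c x)),
      add_zero, Finset.sum_insert hb]
    · abel
    · intro x _
      exact Matrix.single_mul_single_of_ne _ _ _ _ (Ne.symm hs.1) _

/-- The Weyl element. -/
theorem weyl {i j : Fin r} (hij : i ≠ j) (x : Eˣ) :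
    tvu hij (1 : E) * tvu hij.symm (-1 : E) * tvu hij 1 * dgu i x =
      dgu j x * (tvu hij (1 : E) * tvu hij.symm (-1 : E) * tvu hij 1) := by
  have hw : ((tvu hij (1 : E) * tvu hij.symm (-1 : E) * tvu hij 1 :
      (Matrix (Fin r) (Fin r) E)ˣ) : Matrix (Fin r) (Fin r) E) =
      1 - Matrix.single i i 1 - Matrix.single j j 1 + Matrix.single i j 1 -
        Matrix.single j i 1 := by
    rw [Units.val_mul, Units.val_mul, tvu_val, tvu_val]
    have e : Matrix.single j i (-1 : E) = -Matrix.single j i (1 : E) := by
      rw [← Matrix.single_neg]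
    rw [e]
    simp only [add_mul, mul_add, one_mul, mul_one, neg_mul, mul_neg,
      Matrix.single_mul_single_same, Matrix.single_mul_single_of_ne _ _ _ _ hij.symm, add_zero]
    abel
  apply Units.ext
  rw [Units.val_mul, Units.val_mul _ (tvu hij (1 : E) * tvu hij.symm (-1 : E) * tvu hij 1), hw,
    dgu_val, dgu_val]
  simp only [add_mul, mul_add, one_mul, mul_one, sub_mul, mul_sub,
      Matrix.single_mul_single_same, Matrix.single_mul_single_of_ne _ _ _ _ hij.symm, add_zero,
      sub_zero]
  abel

theorem col_apply (i : Fin r) (c : Fin r → E) (s : Finset (Fin r))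
    (M : Matrix (Fin r) (Fin r) E) (a b : Fin r) :
    ((1 + ∑ x ∈ s, Matrix.single x i (c x)) * M) a b =
      M a b + if a ∈ s then c a * M i b else 0 := by
  rw [add_mul, one_mul, Matrix.add_apply, Finset.sum_mul, Matrix.sum_apply]
  congr 1
  split_ifs with h
  · rw [Finset.sum_eq_single a]
    · exact Matrix.single_mul_apply_same _ _ _ _ _
    · intro x _ hx
      exact Matrix.single_mul_apply_of_ne _ _ _ _ _ (Ne.symm hx) _
    · intro h1
      exact absurd h h1
  · apply Finset.sum_eq_zero
    intro x hx
    apply Matrix.single_mul_apply_of_ne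
    rintro rfl
    exact h hx

theorem row_apply (i : Fin r) (c : Fin r → E) (s : Finset (Fin r))
    (M : Matrix (Fin r) (Fin r) E) (a b : Fin r) :
    (M * (1 + ∑ x ∈ s, Matrix.single i x (c x))) a b =
      M a b + if b ∈ s then M a i * c b else 0 := by
  rw [mul_add, mul_one, Matrix.add_apply, Finset.mul_sum, Matrix.sum_apply]
  congr 1
  split_ifs with h
  · rw [Finset.sum_eq_single b]
    · exact Matrix.mul_single_apply_same _ _ _ _ _
    · intro x _ hx
      exact Matrix.mul_single_apply_of_ne _ _ _ _ _ (Ne.symm hx) _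
    · intro h1
      exact absurd h h1
  · apply Finset.sum_eq_zero
    intro x hx
    apply Matrix.mul_single_apply_of_ne
    rintro rfl
    exact h hx

/-- Gauss elimination. -/
theorem gauss (T : Subgroup (Matrix (Fin r) (Fin r) E)ˣ)
    (hT : ∀ (i j : Fin r) (hij : i ≠ j) (c : E), tvu hij c ∈ T) (hD : ∀ i x, dgu i x ∈ T)
    (q : ℕ) : ∀ m : ℕ, m + q = r → ∀ g : (Matrix (Fin r) (Fin r) E)ˣ,
      (∀ i : Fin r, (i : ℕ) < m → ∀ j, (g : Matrix (Fin r) (Fin r) E) i j =
        (1 : Matrix (Fin r) (Fin r) E) i j ∧ (g : Matrix (Fin r) (Fin r) E) j i =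
        (1 : Matrix (Fin r) (Fin r) E) j i) → g ∈ T := by
  induction q with
  | zero =>
    intro m hm g hg
    have : g = 1 := by
      apply Units.ext
      ext i j
      exact (hg i (by omega) j).1
    rw [this]
    exact one_mem _
  | succ q ih =>
    intro m hm g hg
    have hmr : m < r := by omega
    obtain ⟨i, hi⟩ : ∃ i : Fin r, (i : ℕ) = m := ⟨⟨m, hmr⟩, rfl⟩
    -- the case of a nonzero diagonal entry
    have key : ∀ g : (Matrix (Fin r) (Fin r) E)ˣ,
      (∀ i : Fin r, (i : ℕ) < m → ∀ j, (g : Matrix (Fin r) (Fin r) E) i j =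
        (1 : Matrix (Fin r) (Fin r) E) i j ∧ (g : Matrix (Fin r) (Fin r) E) j i =
        (1 : Matrix (Fin r) (Fin r) E) j i) → (g : Matrix (Fin r) (Fin r) E) i i ≠ 0 →
        g ∈ T := by
      intro g hg hgi
      obtain ⟨x, hx⟩ : ∃ x : Eˣ, (x : E) = (g : Matrix (Fin r) (Fin r) E) i i :=
        ⟨Units.mk0 _ hgi, rfl⟩
      set M := (g : Matrix (Fin r) (Fin r) E) with hM
      obtain ⟨u, hu, hu'⟩ := exists_col T hT i (fun a => -M a i * (x⁻¹ : Eˣ)) (Finset.univ.erase i)
        (Finset.notMem_erase _ _)
      obtain ⟨w, hw, hw'⟩ := exists_row T hT i (fun a => -((x⁻¹ : Eˣ) : E) * M i a)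
        (Finset.univ.erase i) (Finset.notMem_erase _ _)
      have h1 : dgu i x⁻¹ * (u * g * w) ∈ T := by
        apply ih (m + 1) (by omega)
        have hR : ∀ a b, ((dgu i x⁻¹ * (u * g * w) : (Matrix (Fin r) (Fin r) E)ˣ) :
            Matrix (Fin r) (Fin r) E) a b = if a = i then (if b = i then 1 else 0) else
            (if b = i then 0 else M a b - M a i * (x⁻¹ : Eˣ) * M i b) := by
          intro a b
          have e1 : ((dgu i x⁻¹ : (Matrix (Fin r) (Fin r) E)ˣ) : Matrix (Fin r) (Fin r) E) =
              1 + ∑ x' ∈ {i}, Matrix.single x' i ((fun _ => ((x⁻¹ : Eˣ) : E) - 1) x') := by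
            rw [dgu_val, Finset.sum_singleton]
          rw [Units.val_mul, e1, col_apply, Units.val_mul, Units.val_mul, hu', hw', ← hM]
          simp only [row_apply, col_apply, Finset.mem_erase, Finset.mem_univ, and_true,
            Finset.mem_singleton, ne_eq, not_true_eq_false, if_false, add_zero]
          have hxx : ((x⁻¹ : Eˣ) : E) * M i i = 1 := by rw [← hx, Units.inv_mul]
          have hxx' : M i i * ((x⁻¹ : Eˣ) : E) = 1 := by rw [← hx, Units.mul_inv]
          by_cases ha : a = i
          · subst ha
            by_cases hb : b = a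
            · subst hb
              simp only [not_true_eq_false, if_false, if_true, add_zero]
              rw [sub_mul, one_mul, hxx]
              abel
            · simp only [hb, not_true_eq_false, not_false_eq_true, if_false, if_true, add_zero]
              rw [neg_mul, mul_neg, ← mul_assoc, hxx', one_mul, add_neg_cancel, mul_zero,
                add_zero]
          · by_cases hb : b = i
            · subst hb
              simp only [ha, not_true_eq_false, not_false_eq_true, if_false, if_true, add_zero]
              rw [mul_assoc, hxx, mul_one, add_neg_cancel]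
            · simp only [ha, hb, not_false_eq_true, if_false, if_true, add_zero]
              rw [mul_assoc (-M a i) _ (M i i), hxx, mul_one, add_neg_cancel, zero_mul, add_zero,
                neg_mul, neg_mul, ← sub_eq_add_neg]
        intro c hc b
        rw [hR, hR]
        by_cases hci : c = i
        · subst hci
          simp only [if_true]
          refine ⟨?_, ?_⟩
          · split_ifs with h
            · rw [h, one_apply_eq]
            · rw [one_apply_ne (Ne.symm h)]
          · split_ifs with h
            · rw [h, one_apply_eq]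
            · rw [one_apply_ne h]
        · have hcm : (c : ℕ) < m := by
            rcases Nat.lt_succ_iff_lt_or_eq.mp hc with h | h
            · exact h
            · exact absurd (Fin.ext (h.trans hi.symm)) hci
          have h1 : ∀ b, M c b = (1 : Matrix (Fin r) (Fin r) E) c b := fun b => (hg c hcm b).1
          have h2 : ∀ b, M b c = (1 : Matrix (Fin r) (Fin r) E) b c := fun b => (hg c hcm b).2
          refine ⟨?_, ?_⟩
          · rw [if_neg hci]
            split_ifs with h
            · rw [h, one_apply_ne hci]
            · rw [h1, h1, one_apply_ne hci, zero_mul, zero_mul, sub_zero]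
          · rw [if_neg hci]
            split_ifs with h
            · rw [h, one_apply_ne (Ne.symm hci)]
            · rw [h2, h2, one_apply_ne (Ne.symm hci), mul_zero, sub_zero]
      have h2 : g = (dgu i x⁻¹ * u)⁻¹ * (dgu i x⁻¹ * (u * g * w)) * w⁻¹ := by group
      rw [h2]
      exact mul_mem (mul_mem (inv_mem (mul_mem (hD _ _) hu)) h1) (inv_mem hw)
    by_cases hgi : (g : Matrix (Fin r) (Fin r) E) i i = 0
    · obtain ⟨j, hj⟩ : ∃ j, (g : Matrix (Fin r) (Fin r) E) j i ≠ 0 := by
        by_contra hcon
        push Not at hcon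
        have h1 := congrFun (congrFun (Units.inv_mul g) i) i
        rw [Matrix.mul_apply, one_apply_eq, Finset.sum_eq_zero] at h1
        · exact zero_ne_one h1
        · intro a _
          rw [hcon, mul_zero]
      have hij : i ≠ j := by
        rintro rfl
        exact hj hgi
      have h1 : tvu hij 1 * g ∈ T := by
        apply key
        · intro a ha b
          rw [Units.val_mul, tvu_val, add_mul, one_mul, Matrix.add_apply, Matrix.add_apply]
          have hai : a ≠ i := by
            rintro rfl
            omega
          refine ⟨?_, ?_⟩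
          · rw [Matrix.single_mul_apply_of_ne _ _ _ _ _ hai, add_zero]
            exact (hg a ha b).1
          · by_cases hb : b = i
            · subst hb
              rw [Matrix.single_mul_apply_same, one_mul, (hg a ha b).2, (hg a ha j).2,
                one_apply_ne (Ne.symm hai), zero_add, one_apply_ne]
              rintro rfl
              apply hj
              rw [(hg j ha b).1, one_apply_ne hai]
            · rw [Matrix.single_mul_apply_of_ne _ _ _ _ _ hb, add_zero]
              exact (hg a ha b).2
        · rw [Units.val_mul, tvu_val, add_mul, one_mul, Matrix.add_apply,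
            Matrix.single_mul_apply_same, hgi, zero_add, one_mul]
          exact hj
      have h2 : g = (tvu hij 1)⁻¹ * (tvu hij 1 * g) := by group
      rw [h2]
      exact mul_mem (inv_mem (hT _ _ _ _)) h1
    · exact key g hg hgi

/-- **A normal subgroup which contains the transvections contains all commutators.** -/
theorem comm_le_of_tvu (hr : 2 ≤ r) (H : Subgroup (Matrix (Fin r) (Fin r) E)ˣ) [hN : H.Normal]
    (hH : ∀ (i j : Fin r) (hij : i ≠ j) (c : E), tvu hij c ∈ H) :
    commutator (Matrix (Fin r) (Fin r) E)ˣ ≤ H := by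
  have h1 : ∀ (i j : Fin r) (x : Eˣ), i ≠ j →
      QuotientGroup.mk' H (dgu i x) = QuotientGroup.mk' H (dgu j x) := by
    intro i j x hij
    have h2 := congrArg (QuotientGroup.mk' H) (weyl hij x)
    have h3 : QuotientGroup.mk' H (tvu hij (1 : E) * tvu hij.symm (-1 : E) * tvu hij 1) = 1 :=
      (QuotientGroup.eq_one_iff _).mpr (mul_mem (mul_mem (hH _ _ _ _) (hH _ _ _ _)) (hH _ _ _ _))
    rwa [map_mul, map_mul _ (dgu j x), h3, one_mul, mul_one] at h2
  let i : Fin r := ⟨0, by omega⟩
  let j : Fin r := ⟨1, by omega⟩
  have hij : i ≠ j := by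
    intro h
    exact absurd (congrArg Fin.val h) (by simp [i, j])
  have hT : Subgroup.comap (QuotientGroup.mk' H) ((QuotientGroup.mk' H).comp (dgu i)).range = ⊤ := by
    rw [eq_top_iff]
    intro g _
    refine gauss _ ?_ ?_ r 0 (zero_add r) g fun a ha => absurd ha (Nat.not_lt_zero _)
    · intro a b hab c
      rw [Subgroup.mem_comap, show QuotientGroup.mk' H (tvu hab c) = 1 from
        (QuotientGroup.eq_one_iff _).mpr (hH a b hab c)]
      exact one_mem _
    · intro a x
      rw [Subgroup.mem_comap]
      by_cases ha : i = a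
      · exact ⟨x, by rw [← ha]; rfl⟩
      · exact ⟨x, h1 i a x ha⟩
  rw [commutator_def, Subgroup.commutator_le]
  intro g _ h _
  have hg : g ∈ Subgroup.comap (QuotientGroup.mk' H) ((QuotientGroup.mk' H).comp (dgu i)).range := by
    rw [hT]; trivial
  have hh : h ∈ Subgroup.comap (QuotientGroup.mk' H) ((QuotientGroup.mk' H).comp (dgu i)).range := by
    rw [hT]; trivial
  obtain ⟨x, hx⟩ := hg
  obtain ⟨y, hy⟩ := hh
  have hx' : QuotientGroup.mk' H (dgu i x) = QuotientGroup.mk' H g := hx
  have hy' : QuotientGroup.mk' H (dgu j y) = QuotientGroup.mk' H h := by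
    rw [← h1 i j y hij]; exact hy
  have hc : dgu i x * dgu j y = dgu j y * dgu i x := by
    apply Units.ext
    rw [Units.val_mul, Units.val_mul, dgu_val, dgu_val]
    simp only [add_mul, mul_add, one_mul, mul_one, Matrix.single_mul_single_of_ne _ _ _ _ hij,
      Matrix.single_mul_single_of_ne _ _ _ _ hij.symm, add_zero]
    abel
  rw [← QuotientGroup.eq_one_iff (N := H)]
  change QuotientGroup.mk' H (g * h * g⁻¹ * h⁻¹) = 1
  rw [map_mul, map_mul, map_mul, map_inv, map_inv, ← hx', ← hy', ← map_mul, hc, map_mul,
    mul_inv_cancel_right, mul_inv_cancel]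

end Vale.Agent.P011.One
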