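import Vale.Agent.P011.One.Cop

/-!
Coprimality with the conjugate on a line, from coprimality at one point.
-/

open NumberField IsDedekindDomain Polynomial

set_option linter.unusedSectionVars false

namespace Vale.Agent.P011.One

open Vale.Agent.P011.Arith Vale.Agent.P011.Even Vale.Agent.P011.Two

section mm

variable {k R R' : Type} [Field k] [CommRing R] [CommRing R'] {N : ℕ}

/-- The matrix whose determinant is the polynomial on the line. -/
def MM (φ : k →+* R) (m₁ Y₀ Y₁ U V : Matrix (Fin N) (Fin N) k) (l w T : R) :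
    Matrix (Fin N) (Fin N) R :=
  (1 - Matrix.scalar (Fin N) l * φ.mapMatrix m₁) *
      (Matrix.scalar (Fin N) T + (Matrix.scalar (Fin N) l * φ.mapMatrix Y₁ +
        (1 - Matrix.scalar (Fin N) l) * φ.mapMatrix Y₀)) *
      (1 + Matrix.scalar (Fin N) l * φ.mapMatrix m₁) +
    (1 + Matrix.scalar (Fin N) l * φ.mapMatrix m₁) *
      (φ.mapMatrix U + Matrix.scalar (Fin N) w * φ.mapMatrix V) *
      (1 - Matrix.scalar (Fin N) l * φ.mapMatrix m₁)

theorem map_scalar (ψ : R →+* R') (l : R) :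
    ψ.mapMatrix (Matrix.scalar (Fin N) l) = Matrix.scalar (Fin N) (ψ l) := by
  ext i j : 1
  by_cases hij : i = j
  · subst hij
    simp
  · simp [hij]

theorem MM_map (ψ : R →+* R') (φ : k →+* R) (m₁ Y₀ Y₁ U V : Matrix (Fin N) (Fin N) k)
    (l w T : R) : ψ.mapMatrix (MM φ m₁ Y₀ Y₁ U V l w T) =
      MM (ψ.comp φ) m₁ Y₀ Y₁ U V (ψ l) (ψ w) (ψ T) := by
  have h : ∀ M : Matrix (Fin N) (Fin N) k, ψ.mapMatrix (φ.mapMatrix M) =
      (ψ.comp φ).mapMatrix M := fun M => by
    ext i j : 1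
    rfl
  rw [MM, MM]
  simp only [map_add, map_mul, map_sub, map_one, map_scalar, h]

end mm

section line

variable {k : Type} [Field k] {N : ℕ} {c : k}

/-- The polynomial on the line. -/
noncomputable def FF (c : k) (m₁ Y₀ Y₁ U V : Matrix (Fin N) (Fin N) k) :
    (QuadraticAlgebra k c 0)[X][X] :=
  (MM (R := (QuadraticAlgebra k c 0)[X][X])
    ((C.comp C).comp (algebraMap k (QuadraticAlgebra k c 0))) m₁ Y₀ Y₁ U V (C X)
    (C (C (QuadraticAlgebra.omega : QuadraticAlgebra k c 0))) X).det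

/-- The polynomial at a point of the line. -/
noncomputable def FL (c : k) (m₁ Y₀ Y₁ U V : Matrix (Fin N) (Fin N) k) (l : k) :
    (QuadraticAlgebra k c 0)[X] :=
  (FF c m₁ Y₀ Y₁ U V).map (evalRingHom (algebraMap k (QuadraticAlgebra k c 0) l))

theorem FL_eq (m₁ Y₀ Y₁ U V : Matrix (Fin N) (Fin N) k) (l : k) :
    FL c m₁ Y₀ Y₁ U V l = (MM (R := (QuadraticAlgebra k c 0)[X])
      (C.comp (algebraMap k (QuadraticAlgebra k c 0))) m₁ Y₀ Y₁ U V
      (C (algebraMap k (QuadraticAlgebra k c 0) l))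
      (C (QuadraticAlgebra.omega : QuadraticAlgebra k c 0)) X).det := by
  rw [FL, FF, ← coe_mapRingHom]
  refine (RingHom.map_det (n := Fin N) (R := (QuadraticAlgebra k c 0)[X][X])
    (S := (QuadraticAlgebra k c 0)[X]) (mapRingHom (evalRingHom (algebraMap k (QuadraticAlgebra k c 0) l))) _).trans ?_
  refine (congrArg Matrix.det (MM_map (k := k) (N := N) (R := (QuadraticAlgebra k c 0)[X][X])
    (R' := (QuadraticAlgebra k c 0)[X])
    (mapRingHom (evalRingHom (algebraMap k (QuadraticAlgebra k c 0) l))) _ _ _ _ _ _ _ _ _)).trans ?_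
  congr 2
  · refine RingHom.ext fun x => ?_
    simp
  · simp
  · simp
  · simp

/-- The conjugate polynomial on the line. -/
noncomputable def FS (c : k) (m₁ Y₀ Y₁ U V : Matrix (Fin N) (Fin N) k) :
    (QuadraticAlgebra k c 0)[X][X] :=
  (FF c m₁ Y₀ Y₁ U V).map (mapRingHom (starRingEnd (QuadraticAlgebra k c 0)))

theorem FS_eval (m₁ Y₀ Y₁ U V : Matrix (Fin N) (Fin N) k) (l : k) :
    (FS c m₁ Y₀ Y₁ U V).map (evalRingHom (algebraMap k (QuadraticAlgebra k c 0) l)) =
      (FL c m₁ Y₀ Y₁ U V l).map (starRingEnd (QuadraticAlgebra k c 0)) := by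
  rw [FS, FL, Polynomial.map_map, Polynomial.map_map]
  congr 1
  apply Polynomial.ringHom_ext
  · intro a
    simp
  · simp only [RingHom.comp_apply, coe_mapRingHom, map_X, coe_evalRingHom, eval_X]
    exact (star_algMap l).symm

/-- The determinant of a product with a polynomial in the middle. -/
theorem qp_eq (U V : Matrix (Fin N) (Fin N) k) : qp c U V =
    (Matrix.scalar (Fin N) X + (C.comp (algebraMap k (QuadraticAlgebra k c 0))).mapMatrix U +
      Matrix.scalar (Fin N) (C QuadraticAlgebra.omega) *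
        (C.comp (algebraMap k (QuadraticAlgebra k c 0))).mapMatrix V).det := by
  rw [qp, Matrix.charpoly, Matrix.charmatrix, map_neg, sub_neg_eq_add, qm, map_add, map_mul,
    map_scalar, add_assoc]
  congr 1

theorem FL_fact {m₁ Y₀ Y₁ U V U' V' : Matrix (Fin N) (Fin N) k} {l : k}
    (hU : (1 - l • m₁) * (l • Y₁ + (1 - l) • Y₀) * (1 + l • m₁) + (1 + l • m₁) * U * (1 - l • m₁) =
      (1 - l • m₁) * U' * (1 + l • m₁))
    (hV : (1 + l • m₁) * V * (1 - l • m₁) = (1 - l • m₁) * V' * (1 + l • m₁)) :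
    FL c m₁ Y₀ Y₁ U V l = C (algebraMap k _ ((1 - l • m₁).det * (1 + l • m₁).det)) *
      qp c U' V' := by
  obtain ⟨φ, hφ⟩ : ∃ φ : k →+* (QuadraticAlgebra k c 0)[X],
    φ = C.comp (algebraMap k (QuadraticAlgebra k c 0)) := ⟨_, rfl⟩
  have e : (C (algebraMap k (QuadraticAlgebra k c 0) ((1 - l • m₁).det * (1 + l • m₁).det)) :
      (QuadraticAlgebra k c 0)[X]) = (φ.mapMatrix (1 - l • m₁)).det *
        (φ.mapMatrix (1 + l • m₁)).det := by
    rw [← RingHom.map_det, ← RingHom.map_det, ← map_mul, hφ]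
    rfl
  rw [FL_eq, qp_eq, e, ← hφ]
  obtain ⟨w, hw⟩ : ∃ w : Matrix (Fin N) (Fin N) (QuadraticAlgebra k c 0)[X],
    w = Matrix.scalar (Fin N) (C QuadraticAlgebra.omega) := ⟨_, rfl⟩
  obtain ⟨T, hT⟩ : ∃ T : Matrix (Fin N) (Fin N) (QuadraticAlgebra k c 0)[X],
    T = Matrix.scalar (Fin N) X := ⟨_, rfl⟩
  have hwc : ∀ x, w * x = x * w := by
    intro x
    rw [hw]
    exact (Matrix.scalar_commute _ (fun r => Commute.all _ r) x).eq
  have hTc : ∀ x, T * x = x * T := by
    intro x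
    rw [hT]
    exact (Matrix.scalar_commute _ (fun r => Commute.all _ r) x).eq
  have hsm : ∀ (a : k) (M : Matrix (Fin N) (Fin N) k), φ.mapMatrix (a • M) =
      Matrix.scalar (Fin N) (φ a) * φ.mapMatrix M := by
    intro a M
    rw [← map_scalar, ← map_mul]
    congr 1
    rw [Matrix.smul_eq_diagonal_mul]
    rfl
  have hl : (C (algebraMap k (QuadraticAlgebra k c 0) l) : (QuadraticAlgebra k c 0)[X]) =
      φ l := by rw [hφ]; rfl
  have e1 := congrArg φ.mapMatrix hU
  have e2 := congrArg φ.mapMatrix hV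
  have hl1 : Matrix.scalar (Fin N) (φ (1 - l)) = 1 - Matrix.scalar (Fin N) (φ l) := by
    rw [map_sub, map_sub, map_one, map_one]
  simp only [map_add, map_mul, map_sub, map_one, hsm] at e1 e2
  rw [MM, hl, ← hw, ← hT]
  simp only [map_add, map_sub, map_one, hsm]
  obtain ⟨a, ha⟩ : ∃ a, a = 1 - Matrix.scalar (Fin N) (φ l) * φ.mapMatrix m₁ := ⟨_, rfl⟩
  obtain ⟨b, hb⟩ : ∃ b, b = 1 + Matrix.scalar (Fin N) (φ l) * φ.mapMatrix m₁ := ⟨_, rfl⟩
  rw [← ha, ← hb] at e1 e2 ⊢
  obtain ⟨A, hA⟩ : ∃ A, A = Matrix.scalar (Fin N) (φ l) * φ.mapMatrix Y₁ +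
      (1 - Matrix.scalar (Fin N) (φ l)) * φ.mapMatrix Y₀ := ⟨_, rfl⟩
  rw [← hA] at e1 ⊢
  obtain ⟨u, hu⟩ : ∃ u, u = φ.mapMatrix U := ⟨_, rfl⟩
  obtain ⟨u', hu'⟩ : ∃ u, u = φ.mapMatrix U' := ⟨_, rfl⟩
  obtain ⟨v, hv⟩ : ∃ u, u = φ.mapMatrix V := ⟨_, rfl⟩
  obtain ⟨v', hv'⟩ : ∃ u, u = φ.mapMatrix V' := ⟨_, rfl⟩
  rw [← hu, ← hu'] at e1
  rw [← hv, ← hv'] at e2
  rw [← hu, ← hu', ← hv, ← hv']
  have h1 : b * (w * v) = w * (b * v) := by rw [← mul_assoc, ← hwc, mul_assoc]
  have h2 : a * (w * v') = w * (a * v') := by rw [← mul_assoc, ← hwc, mul_assoc]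
  have e3 : a * (T + A) * b + b * (u + w * v) * a = a * (T + u' + w * v') * b := by
    calc a * (T + A) * b + b * (u + w * v) * a
        = a * T * b + (a * A * b + b * u * a) + (b * (w * v)) * a := by noncomm_ring
      _ = a * T * b + a * u' * b + w * (b * v * a) := by rw [e1, h1, mul_assoc w]
      _ = a * T * b + a * u' * b + (a * (w * v')) * b := by rw [e2, h2, mul_assoc w]
      _ = _ := by noncomm_ring
  rw [e3, Matrix.det_mul, Matrix.det_mul]
  ring

/-- Coprimality at almost all points of the line. -/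
theorem line_finite (hc : ¬ IsSquare c) {m₁ Y₀ Y₁ U V : Matrix (Fin N) (Fin N) k}
    (h0 : Cop c (Y₀ + U) V) :
    ∃ L : Set k, L.Finite ∧ ∀ l ∉ L, (1 - l • m₁).det * (1 + l • m₁).det ≠ 0 →
      ∀ U' V' : Matrix (Fin N) (Fin N) k,
      (1 - l • m₁) * (l • Y₁ + (1 - l) • Y₀) * (1 + l • m₁) + (1 + l • m₁) * U * (1 - l • m₁) =
        (1 - l • m₁) * U' * (1 + l • m₁) →
      (1 + l • m₁) * V * (1 - l • m₁) = (1 - l • m₁) * V' * (1 + l • m₁) → Cop c U' V' := by
  classical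
  have _ := fact_ns hc
  obtain ⟨r, hr⟩ : ∃ r, r = resultant (FF c m₁ Y₀ Y₁ U V) (FS c m₁ Y₀ Y₁ U V) N N := ⟨_, rfl⟩
  have hre : ∀ l : k, r.eval (algebraMap k _ l) = resultant (FL c m₁ Y₀ Y₁ U V l)
      ((FL c m₁ Y₀ Y₁ U V l).map (starRingEnd (QuadraticAlgebra k c 0))) N N := by
    intro l
    rw [← FS_eval, FL, resultant_map_map, hr]
    rfl
  have hr0 : r ≠ 0 := by
    intro h
    have h1 := hre 0
    have e0 : FL c m₁ Y₀ Y₁ U V 0 = qp c (Y₀ + U) V := by
      rw [FL_fact (l := 0) (U' := Y₀ + U) (V' := V) (by simp) (by simp)]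
      simp
    rw [h, eval_zero, e0] at h1
    have h2 := resultant_ne_zero _ _ h0
    rw [natDegree_map_eq_of_injective star_injective, qp_natDegree] at h2
    exact h2 h1.symm
  refine ⟨{l | (r.roots.toFinset : Set (QuadraticAlgebra k c 0)) (algebraMap k _ l)}, ?_, ?_⟩
  · exact (Finset.finite_toSet r.roots.toFinset).preimage
      (algebraMap k (QuadraticAlgebra k c 0)).injective.injOn
  · intro l hl hdet U' V' hU hV
    have h1 : r.eval (algebraMap k _ l) ≠ 0 := by
      intro h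
      apply hl
      change _ ∈ r.roots.toFinset
      rw [Multiset.mem_toFinset, mem_roots hr0]
      exact h
    rw [hre, FL_fact hU hV] at h1
    obtain ⟨D, hD⟩ : ∃ D, D = algebraMap k (QuadraticAlgebra k c 0)
      ((1 - l • m₁).det * (1 + l • m₁).det) := ⟨_, rfl⟩
    have hD0 : D ≠ 0 := by rw [hD]; exact (_root_.map_ne_zero _).mpr hdet
    rw [← hD] at h1
    have hdeg : (C D * qp c U' V').natDegree = N := by
      rw [natDegree_C_mul hD0, qp_natDegree]
    have hdeg' : ((C D * qp c U' V').map (starRingEnd (QuadraticAlgebra k c 0))).natDegree = N := by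
      rw [natDegree_map_eq_of_injective star_injective, hdeg]
    have h2 : resultant (C D * qp c U' V')
        ((C D * qp c U' V').map (starRingEnd (QuadraticAlgebra k c 0))) ≠ 0 := by
      rw [hdeg, hdeg']
      exact h1
    rw [Ne, resultant_eq_zero_iff, not_and_or, not_not] at h2
    have hne : C D * qp c U' V' ≠ 0 :=
      mul_ne_zero (C_ne_zero.mpr hD0) (qp_monic U' V').ne_zero
    have h3 := h2.resolve_left (by simp [hne])
    rw [Polynomial.map_mul, map_C] at h3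
    exact (h3.of_mul_left_right).of_mul_right_right

/-- Conjugation does not change the polynomial. -/
theorem qp_conj {U V M M' : Matrix (Fin N) (Fin N) k} (h : M * M' = 1) (h' : M' * M = 1) :
    qp c (M * U * M') (M * V * M') = qp c U V := by
  obtain ⟨u, hu⟩ : ∃ u : (Matrix (Fin N) (Fin N) (QuadraticAlgebra k c 0))ˣ,
      (u : Matrix (Fin N) (Fin N) (QuadraticAlgebra k c 0)) = emb c M ∧
      ((u⁻¹ : (Matrix (Fin N) (Fin N) (QuadraticAlgebra k c 0))ˣ) :
        Matrix (Fin N) (Fin N) (QuadraticAlgebra k c 0)) = emb c M' :=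
    ⟨⟨emb c M, emb c M', by rw [← map_mul, h, map_one], by rw [← map_mul, h', map_one]⟩,
      rfl, rfl⟩
  have e0 := Matrix.charpoly_units_conj u (-(qm c U V))
  rw [← Matrix.coe_units_inv, hu.1, hu.2] at e0
  rw [qp, qp, ← e0]
  congr 1
  obtain ⟨w, hw⟩ : ∃ w : Matrix (Fin N) (Fin N) (QuadraticAlgebra k c 0),
    w = Matrix.scalar (Fin N) QuadraticAlgebra.omega := ⟨_, rfl⟩
  have hwc : ∀ x, w * x = x * w := by
    intro x
    rw [hw]
    exact (Matrix.scalar_commute _ (fun r => Commute.all _ r) x).eq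
  rw [qm, qm, ← hw, map_mul, map_mul, map_mul, map_mul]
  have h1 : emb c M * (w * emb c V) = w * (emb c M * emb c V) := by
    rw [← mul_assoc, ← hwc, mul_assoc]
  rw [mul_neg, neg_mul, mul_add, add_mul, h1, mul_assoc w]

theorem Cop.conj {U V M M' : Matrix (Fin N) (Fin N) k} (h : M * M' = 1) (h' : M' * M = 1)
    (hc : Cop c U V) : Cop c (M * U * M') (M * V * M') := by
  rw [Cop, qp_conj h h']
  exact hc

/-- The base point: a matrix whose square is a scalar which is not invariant under conjugation. -/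
theorem cop_base [CharZero k] (hc : ¬ IsSquare c) {U V : Matrix (Fin N) (Fin N) k} {κ₀ κ₁ : k}
    (h0 : U * U + c • (V * V) = Matrix.scalar (Fin N) κ₀)
    (h1 : U * V + V * U = Matrix.scalar (Fin N) κ₁) (hκ : κ₁ ≠ 0) : Cop c U V := by
  have _ := fact_ns hc
  obtain ⟨κ, hκd⟩ : ∃ κ : QuadraticAlgebra k c 0,
    κ = algebraMap k _ κ₀ + QuadraticAlgebra.omega * algebraMap k _ κ₁ := ⟨_, rfl⟩
  have hsq : qm c U V * qm c U V = Matrix.scalar (Fin N) κ := by
    obtain ⟨w, hw⟩ : ∃ w : Matrix (Fin N) (Fin N) (QuadraticAlgebra k c 0),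
      w = Matrix.scalar (Fin N) QuadraticAlgebra.omega := ⟨_, rfl⟩
    have hwc : ∀ x, w * x = x * w := by
      intro x
      rw [hw]
      exact (Matrix.scalar_commute _ (fun r => Commute.all _ r) x).eq
    have hww : w * w = emb c (Matrix.scalar (Fin N) c) := by
      rw [hw, ← map_mul, omega_sq, emb_scalar]
    have h2 : c • (V * V) = Matrix.scalar (Fin N) c * (V * V) := by
      rw [Matrix.smul_eq_diagonal_mul]
      rfl
    rw [hκd, map_add, map_mul, ← emb_scalar, ← emb_scalar, ← h0, ← h1, ← hw, qm, ← hw, h2]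
    simp only [map_add, map_mul]
    rw [← hww]
    obtain ⟨u, hu⟩ : ∃ u, u = emb c U := ⟨_, rfl⟩
    obtain ⟨v, hv⟩ : ∃ u, u = emb c V := ⟨_, rfl⟩
    rw [← hu, ← hv]
    have e1 : u * (w * v) = w * (u * v) := by rw [← mul_assoc, ← hwc, mul_assoc]
    have e2 : v * (w * v) = w * (v * v) := by rw [← mul_assoc, ← hwc, mul_assoc]
    calc (u + w * v) * (u + w * v) = u * u + u * (w * v) + w * (v * u) + w * (v * (w * v)) := by
          noncomm_ring
      _ = _ := by
          rw [e1, e2]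
          noncomm_ring
  have hstar : star κ = algebraMap k _ κ₀ - QuadraticAlgebra.omega * algebraMap k _ κ₁ := by
    rw [hκd, star_add, star_mul', star_algMap, star_algMap, star_omega]
    ring
  have hne : κ - star κ ≠ 0 := by
    have e : κ - star κ = algebraMap k _ (2 * κ₁) * QuadraticAlgebra.omega := by
      rw [hstar, hκd, map_mul, map_ofNat]
      ring
    rw [e]
    refine mul_ne_zero ((_root_.map_ne_zero _).mpr (mul_ne_zero two_ne_zero hκ)) ?_
    intro h
    have := congrArg QuadraticAlgebra.im h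
    simp at this
  have hdvd : qp c U V ∣ (X ^ 2 - C κ) ^ N := by
    refine ⟨(qm c U V).charpoly, ?_⟩
    have e : (-(qm c U V)).charmatrix * (qm c U V).charmatrix =
        Matrix.scalar (Fin N) (X ^ 2 - C κ) := by
      rw [Matrix.charmatrix, Matrix.charmatrix, map_neg, sub_neg_eq_add, map_sub, map_pow]
      obtain ⟨T, hT⟩ : ∃ T : Matrix (Fin N) (Fin N) (QuadraticAlgebra k c 0)[X],
        T = Matrix.scalar (Fin N) X := ⟨_, rfl⟩
      have hTc : ∀ x, T * x = x * T := by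
        intro x
        rw [hT]
        exact (Matrix.scalar_commute _ (fun r => Commute.all _ r) x).eq
      obtain ⟨Q, hQ⟩ : ∃ Q : Matrix (Fin N) (Fin N) (QuadraticAlgebra k c 0)[X],
        Q = (C : QuadraticAlgebra k c 0 →+* (QuadraticAlgebra k c 0)[X]).mapMatrix (qm c U V) :=
        ⟨_, rfl⟩
      have hQQ : Q * Q = Matrix.scalar (Fin N) (C κ) := by
        rw [hQ, ← map_mul, hsq, map_scalar]
      rw [← hT, ← hQ, ← hQQ]
      calc (T + Q) * (T - Q) = T * T + (Q * T - T * Q) - Q * Q := by noncomm_ring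
        _ = T ^ 2 - Q * Q := by rw [← hTc Q, sub_self, add_zero, sq]
    have e2 := congrArg Matrix.det e
    rw [Matrix.det_mul, Matrix.scalar_apply, Matrix.det_diagonal, Finset.prod_const,
      Finset.card_univ, Fintype.card_fin] at e2
    exact e2.symm
  have hdvd' : (qp c U V).map (starRingEnd (QuadraticAlgebra k c 0)) ∣
      (X ^ 2 - C (star κ)) ^ N := by
    have e := Polynomial.map_dvd (starRingEnd (QuadraticAlgebra k c 0)) hdvd
    rw [Polynomial.map_pow, Polynomial.map_sub, Polynomial.map_pow, map_X, map_C] at e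
    exact e
  have hco : IsCoprime (X ^ 2 - C κ) (X ^ 2 - C (star κ)) := by
    refine ⟨-C (κ - star κ)⁻¹, C (κ - star κ)⁻¹, ?_⟩
    have e : (C (κ - star κ)⁻¹ : (QuadraticAlgebra k c 0)[X]) * C (κ - star κ) = 1 := by
      rw [← C_mul, inv_mul_cancel₀ hne, C_1]
    rw [← e, C_sub]
    ring
  exact (hco.pow (m := N) (n := N)).of_isCoprime_of_dvd_left hdvd |>.of_isCoprime_of_dvd_right hdvd'

end line

section div

variable {k D : Type} [Field k] [NumberField k] [DivisionRing D] [Algebra k D] {N : ℕ}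
  {B : Module.Basis (Fin N) k D} {c : k}

theorem cop_baseD (hc : ¬ IsSquare c) {U V : D} {κ₀ κ₁ : k}
    (h0 : U * U + c • (V * V) = algebraMap k D κ₀) (h1 : U * V + V * U = algebraMap k D κ₁)
    (hκ : κ₁ ≠ 0) : Cop c (lm B U) (lm B V) := by
  refine cop_base hc (κ₀ := κ₀) (κ₁ := κ₁) ?_ ?_ hκ
  · rw [← lm_algebraMap (B := B), ← h0, map_add, map_smul, map_mul, map_mul]
  · rw [← lm_algebraMap (B := B), ← h1, map_add, map_mul, map_mul]

theorem Cop.conjD {U V g : D} (hg : g ≠ 0) (h : Cop c (lm B U) (lm B V)) :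
    Cop c (lm B (g * U * g⁻¹)) (lm B (g * V * g⁻¹)) := by
  rw [map_mul, map_mul, map_mul, map_mul]
  refine Cop.conj ?_ ?_ h
  · rw [← map_mul, mul_inv_cancel₀ hg, map_one]
  · rw [← map_mul, inv_mul_cancel₀ hg, map_one]

/-- Coprimality at almost all points of a line in the division algebra. -/
theorem line_D (hc : ¬ IsSquare c) (x₁ : D) {y₀ : D} (y₁ : D) {U V : D}
    (h0 : Cop c (lm B (y₀ + U)) (lm B V)) :
    ∃ L : Set k, L.Finite ∧ ∀ l ∉ L, 1 - l • x₁ ≠ 0 → 1 + l • x₁ ≠ 0 →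
      ∀ g : D, g = (1 - l • x₁) * (1 + l • x₁)⁻¹ →
      Cop c (lm B (g * (l • y₁ + (1 - l) • y₀) * g⁻¹ + U)) (lm B V) := by
  obtain ⟨L, hL, h⟩ := line_finite (m₁ := lm B x₁) (Y₀ := lm B y₀) (Y₁ := lm B y₁)
    (U := lm B U) (V := lm B V) hc (by rw [← map_add]; exact h0)
  refine ⟨L, hL, fun l hl h1 h2 g hg => ?_⟩
  obtain ⟨x, hx⟩ : ∃ x, x = l • x₁ := ⟨_, rfl⟩
  obtain ⟨y, hy⟩ : ∃ y, y = l • y₁ + (1 - l) • y₀ := ⟨_, rfl⟩
  have hlx : l • lm B x₁ = lm B x := by rw [hx, map_smul]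
  have hly : l • lm B y₁ + (1 - l) • lm B y₀ = lm B y := by
    rw [hy, map_add, map_smul, map_smul]
  rw [← hx] at h1 h2 hg
  rw [← hy]
  have hg0 : g ≠ 0 := by rw [hg]; exact mul_ne_zero h1 (inv_ne_zero h2)
  have hg1 : g * (1 + x) = 1 - x := by rw [hg, mul_assoc, inv_mul_cancel₀ h2, mul_one]
  have hg2 : (1 + x) * g = 1 - x := by
    have hcomm : (1 - x) * (1 + x) = (1 + x) * (1 - x) := by noncomm_ring
    rw [hg, ← mul_assoc, ← hcomm, mul_assoc, mul_inv_cancel₀ h2, mul_one]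
  have hg3 : (1 - x) * g⁻¹ = 1 + x := by
    rw [← hg2, mul_assoc, mul_inv_cancel₀ hg0, mul_one]
  have hmain := h l hl (by
      rw [hlx, ← map_one (lm B), ← map_sub, ← map_add]
      exact mul_ne_zero (det_lm_ne_zero h1) (det_lm_ne_zero h2))
    (lm B (y + g⁻¹ * U * g)) (lm B (g⁻¹ * V * g)) (by
      rw [hlx, hly, ← map_one (lm B), ← map_sub, ← map_add, ← map_mul, ← map_mul, ← map_mul,
        ← map_mul, ← map_add, ← map_mul, ← map_mul]
      congr 1
      have e : (1 - x) * (g⁻¹ * U * g) * (1 + x) = (1 + x) * U * (1 - x) := by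
        calc (1 - x) * (g⁻¹ * U * g) * (1 + x) = ((1 - x) * g⁻¹) * U * (g * (1 + x)) := by
              simp only [mul_assoc]
          _ = _ := by rw [hg3, hg1]
      rw [mul_add (1 - x), add_mul _ _ (1 + x), e])
    (by
      rw [hlx, ← map_one (lm B), ← map_sub, ← map_add, ← map_mul, ← map_mul, ← map_mul,
        ← map_mul]
      congr 1
      symm
      calc (1 - x) * (g⁻¹ * V * g) * (1 + x) = ((1 - x) * g⁻¹) * V * (g * (1 + x)) := by
            simp only [mul_assoc]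
        _ = _ := by rw [hg3, hg1])
  have h3 := Cop.conjD hg0 hmain
  have e1 : g * (y + g⁻¹ * U * g) * g⁻¹ = g * y * g⁻¹ + U := by
    calc g * (y + g⁻¹ * U * g) * g⁻¹ = g * y * g⁻¹ + (g * g⁻¹) * U * (g * g⁻¹) := by
          noncomm_ring
      _ = _ := by rw [mul_inv_cancel₀ hg0, one_mul, mul_one]
  have e2 : g * (g⁻¹ * V * g) * g⁻¹ = V := by
    calc g * (g⁻¹ * V * g) * g⁻¹ = (g * g⁻¹) * V * (g * g⁻¹) := by simp only [mul_assoc]
      _ = _ := by rw [mul_inv_cancel₀ hg0, one_mul, mul_one]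
  rwa [e1, e2] at h3

end div

end Vale.Agent.P011.One
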