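import Mathlib.GroupTheory.Index
import Mathlib.Topology.Algebra.OpenSubgroup
import Mathlib.Topology.Algebra.Group.ClosedSubgroup

/-!
Open subgroups of finite index of a dense subgroup of a topological group.
-/

open Topology

namespace Vale.Agent.P011.One

variable {G H : Type*} [Group G] [Group H] [TopologicalSpace H] [IsTopologicalGroup H]

/-- A subgroup `N` of finite index of a group `G` with a homomorphism with dense image to `H`, which
is open in the topology induced from `H`, is the preimage of the closure of its image; this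
closure is open, and it is normal if `N` is normal. -/
theorem q1_abs (δ : G →* H) (hδ : DenseRange δ) (N : Subgroup G) (hN : N.index ≠ 0)
    {U : Set H} (hU : IsOpen U) (hUN : δ ⁻¹' U = N) :
    ∃ W : Subgroup H, IsOpen (W : Set H) ∧ N = W.comap δ ∧ (N.Normal → W.Normal) := by
  classical
  let W : Subgroup H := (N.map δ).topologicalClosure
  have hW : (W : Set H) = closure (δ '' N) := by
    rw [Subgroup.topologicalClosure_coe, Subgroup.coe_map]
  have h1U : (1 : H) ∈ U := by
    have h1 : (1 : G) ∈ δ ⁻¹' U := hUN ▸ N.one_mem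
    rwa [Set.mem_preimage, map_one] at h1
  have hmem : ∀ g, δ g ∈ U ↔ g ∈ N := fun g => by
    rw [← Set.mem_preimage, hUN]
    rfl
  have hcl : IsClosed (W : Set H) := Subgroup.isClosed_topologicalClosure _
  have hsub : ∀ n ∈ N, δ n ∈ W := fun n hn => by
    rw [← SetLike.mem_coe, hW]
    exact subset_closure ⟨n, hn, rfl⟩
  -- the preimage
  have hcomap : N = W.comap δ := by
    ext g
    rw [Subgroup.mem_comap]
    refine ⟨hsub g, fun hg => ?_⟩
    rw [← SetLike.mem_coe, hW, mem_closure_iff] at hg
    obtain ⟨_, h1, n, hn, rfl⟩ := hg ((fun h : H => h⁻¹ * δ g) ⁻¹' U)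
      (hU.preimage (continuous_inv.mul continuous_const)) (by
        rw [Set.mem_preimage, inv_mul_cancel]
        exact h1U)
    rw [Set.mem_preimage, ← map_inv, ← map_mul, hmem] at h1
    have h2 := N.mul_mem hn h1
    rwa [mul_inv_cancel_left] at h2
  -- finite index
  have : N.FiniteIndex := ⟨hN⟩
  have hcover : ∀ h : H, ∃ q : G ⧸ N, h ∈ (fun x => δ q.out * x) '' (W : Set H) := by
    have h1 : IsClosed (⋃ q : G ⧸ N, (fun x => δ q.out * x) '' (W : Set H)) := by
      refine isClosed_iUnion_of_finite fun q => ?_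
      exact (Homeomorph.mulLeft (δ q.out)).isClosedMap _ hcl
    have h2 : Set.range δ ⊆ ⋃ q : G ⧸ N, (fun x => δ q.out * x) '' (W : Set H) := by
      rintro _ ⟨g, rfl⟩
      rw [Set.mem_iUnion]
      refine ⟨(g : G ⧸ N), δ (((g : G ⧸ N).out)⁻¹ * g), hsub _ ?_, ?_⟩
      · rw [← QuotientGroup.eq, QuotientGroup.out_eq']
      · change δ _ * δ _ = _
        rw [← map_mul, mul_inv_cancel_left]
    intro h
    have h3 : h ∈ ⋃ q : G ⧸ N, (fun x => δ q.out * x) '' (W : Set H) := by
      have h4 := closure_minimal h2 h1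
      rw [hδ.closure_range] at h4
      exact h4 trivial
    exact Set.mem_iUnion.mp h3
  have hfin : W.FiniteIndex := by
    have hs : Function.Surjective (fun q : G ⧸ N => ((δ q.out : H) : H ⧸ W)) := by
      intro y
      obtain ⟨h, rfl⟩ := QuotientGroup.mk_surjective y
      obtain ⟨q, x, hx, hxh⟩ := hcover h
      refine ⟨q, ?_⟩
      rw [QuotientGroup.eq]
      change δ q.out * x = h at hxh
      rw [← hxh, inv_mul_cancel_left]
      exact hx
    have : Finite (H ⧸ W) := Finite.of_surjective _ hs
    exact Subgroup.finiteIndex_of_finite_quotient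
  refine ⟨W, Subgroup.isOpen_of_isClosed_of_finiteIndex W hcl, hcomap, fun hn => ⟨?_⟩⟩
  intro w hw h
  -- normality
  have key : ∀ g : G, ∀ w ∈ W, δ g * w * (δ g)⁻¹ ∈ W := by
    intro g w hw
    have h1 : IsClosed ((fun x : H => δ g * x * (δ g)⁻¹) ⁻¹' (W : Set H)) :=
      hcl.preimage ((continuous_const.mul continuous_id).mul continuous_const)
    have h2 : δ '' N ⊆ (fun x : H => δ g * x * (δ g)⁻¹) ⁻¹' (W : Set H) := by
      rintro _ ⟨n, hn', rfl⟩
      rw [Set.mem_preimage, ← map_inv, ← map_mul, ← map_mul]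
      exact hsub _ (hn.conj_mem n hn' g)
    have h3 := closure_minimal h2 h1
    rw [← hW] at h3
    exact h3 hw
  have h1 : IsClosed ((fun x : H => x * w * x⁻¹) ⁻¹' (W : Set H)) :=
    hcl.preimage ((continuous_id.mul continuous_const).mul continuous_inv)
  have h2 : Set.range δ ⊆ (fun x : H => x * w * x⁻¹) ⁻¹' (W : Set H) := by
    rintro _ ⟨g, rfl⟩
    exact key g w hw
  have h3 := closure_minimal h2 h1
  rw [hδ.closure_range] at h3
  exact h3 trivial

end Vale.Agent.P011.One
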