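import Vale.Agent.P011.One.Adic
import Vale.Agent.P011.One.Q1Abs

/-!
The topological group of the points over the completions at the places in a set, and density of
the group of rational points.
-/

open Module NumberField IsDedekindDomain TensorProduct Topology

set_option linter.unusedSectionVars false

namespace Vale.Agent.P011.One

open Vale.Agent.P011.Arith Vale.Agent.P011.Even

variable {k D : Type} [Field k] [NumberField k] [DivisionRing D] [Algebra k D]

/-- The product topology on a product of groups of units of the completions of `D`; each group has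
the topology of a subspace of the completion of `D`. -/
noncomputable abbrev haTop (A : Set (HeightOneSpectrum (𝓞 k)))
    (Gv : ∀ v : A, Subgroup ((v : HeightOneSpectrum (𝓞 k)).adicCompletion k ⊗[k] D)ˣ) :
    TopologicalSpace (∀ v : A, Gv v) :=
  TopologicalSpace.induced
    (fun (x : ∀ v : A, Gv v) (v : A) =>
      (((x v : Gv v) : ((v : HeightOneSpectrum (𝓞 k)).adicCompletion k ⊗[k] D)ˣ) :
        (v : HeightOneSpectrum (𝓞 k)).adicCompletion k ⊗[k] D)) (prodTop A D)

section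

variable [FiniteDimensional k D] {A : Set (HeightOneSpectrum (𝓞 k))}
  {Gv : ∀ v : A, Subgroup ((v : HeightOneSpectrum (𝓞 k)).adicCompletion k ⊗[k] D)ˣ}

theorem isTopologicalGroup_ha
    (σ : ∀ v : A, (v : HeightOneSpectrum (𝓞 k)).adicCompletion k ⊗[k] D
      →ₗ[(v : HeightOneSpectrum (𝓞 k)).adicCompletion k]
        (v : HeightOneSpectrum (𝓞 k)).adicCompletion k ⊗[k] D)
    (hσ : ∀ (v : A), ∀ x ∈ Gv v,
      ((x⁻¹ : ((v : HeightOneSpectrum (𝓞 k)).adicCompletion k ⊗[k] D)ˣ) :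
        (v : HeightOneSpectrum (𝓞 k)).adicCompletion k ⊗[k] D) =
      σ v (x : (v : HeightOneSpectrum (𝓞 k)).adicCompletion k ⊗[k] D)) :
    @IsTopologicalGroup (∀ v : A, Gv v) (haTop A Gv) _ := by
  let _ : ∀ v : A, TopologicalSpace ((v : HeightOneSpectrum (𝓞 k)).adicCompletion k ⊗[k] D) :=
    fun v => moduleTopology ((v : HeightOneSpectrum (𝓞 k)).adicCompletion k) _
  have hmt : ∀ v : A, IsModuleTopology ((v : HeightOneSpectrum (𝓞 k)).adicCompletion k)
      ((v : HeightOneSpectrum (𝓞 k)).adicCompletion k ⊗[k] D) := fun v => ⟨rfl⟩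
  have htr : ∀ v : A, IsTopologicalRing
      ((v : HeightOneSpectrum (𝓞 k)).adicCompletion k ⊗[k] D) := fun v =>
    IsModuleTopology.isTopologicalRing ((v : HeightOneSpectrum (𝓞 k)).adicCompletion k) _
  let _ : TopologicalSpace (∀ v : A, Gv v) := haTop A Gv
  let ι : (∀ v : A, Gv v) → ∀ v : A, (v : HeightOneSpectrum (𝓞 k)).adicCompletion k ⊗[k] D :=
    fun x v => (((x v : Gv v) : ((v : HeightOneSpectrum (𝓞 k)).adicCompletion k ⊗[k] D)ˣ) :
        (v : HeightOneSpectrum (𝓞 k)).adicCompletion k ⊗[k] D)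
  have hι : IsInducing ι := ⟨rfl⟩
  refine { continuous_mul := ?_, continuous_inv := ?_ }
  · rw [hι.continuous_iff]
    refine continuous_pi fun v => ?_
    have h1 : Continuous fun p : (∀ v : A, Gv v) × (∀ v : A, Gv v) => ι p.1 v * ι p.2 v :=
      ((continuous_apply v).comp (hι.continuous.comp continuous_fst)).mul
        ((continuous_apply v).comp (hι.continuous.comp continuous_snd))
    exact h1
  · rw [hι.continuous_iff]
    refine continuous_pi fun v => ?_
    have h1 : Continuous fun p : (∀ v : A, Gv v) => σ v (ι p v) :=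
      (IsModuleTopology.continuous_of_linearMap (σ v)).comp
        ((continuous_apply v).comp hι.continuous)
    have h2 : (fun p : (∀ v : A, Gv v) => (ι ∘ fun x => x⁻¹) p v) = fun p => σ v (ι p v) := by
      funext p
      exact hσ v _ (p v).2
    exact h2 ▸ h1

theorem denseRange_ha {M : ℕ} (B : Basis (Fin M) k D) {G : Subgroup Dˣ}
    (δ : G →* ∀ v : A, Gv v)
    (hδ : ∀ (g : G) (v : A),
      (((δ g v : Gv v) : ((v : HeightOneSpectrum (𝓞 k)).adicCompletion k ⊗[k] D)ˣ) :
        (v : HeightOneSpectrum (𝓞 k)).adicCompletion k ⊗[k] D) = delta A ((g : Dˣ) : D) v)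
    (hd : ∀ (x : ∀ v : A, Gv v) (ε : ℝ), 0 < ε → ∃ g : G, ∀ (v : A) (i : Fin M),
      ‖(Algebra.TensorProduct.basis ((v : HeightOneSpectrum (𝓞 k)).adicCompletion k) B).repr
        (delta A ((g : Dˣ) : D) v -
          (((x v : Gv v) : ((v : HeightOneSpectrum (𝓞 k)).adicCompletion k ⊗[k] D)ˣ) :
            (v : HeightOneSpectrum (𝓞 k)).adicCompletion k ⊗[k] D)) i‖ < ε) :
    @DenseRange _ (haTop A Gv) _ δ := by
  classical
  let _ : ∀ v : A, TopologicalSpace ((v : HeightOneSpectrum (𝓞 k)).adicCompletion k ⊗[k] D) :=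
    fun v => moduleTopology ((v : HeightOneSpectrum (𝓞 k)).adicCompletion k) _
  have hmt : ∀ v : A, IsModuleTopology ((v : HeightOneSpectrum (𝓞 k)).adicCompletion k)
      ((v : HeightOneSpectrum (𝓞 k)).adicCompletion k ⊗[k] D) := fun v => ⟨rfl⟩
  have hta : ∀ v : A, ContinuousAdd
      ((v : HeightOneSpectrum (𝓞 k)).adicCompletion k ⊗[k] D) := fun v =>
    IsModuleTopology.toContinuousAdd ((v : HeightOneSpectrum (𝓞 k)).adicCompletion k) _
  let _ : TopologicalSpace (∀ v : A, Gv v) := haTop A Gv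
  let ι : (∀ v : A, Gv v) → ∀ v : A, (v : HeightOneSpectrum (𝓞 k)).adicCompletion k ⊗[k] D :=
    fun x v => (((x v : Gv v) : ((v : HeightOneSpectrum (𝓞 k)).adicCompletion k ⊗[k] D)ˣ) :
        (v : HeightOneSpectrum (𝓞 k)).adicCompletion k ⊗[k] D)
  intro x
  rw [mem_closure_iff]
  rintro _ ⟨V, hV, rfl⟩ hx
  obtain ⟨F, U, hU, hUV⟩ := isOpen_pi_iff.mp hV _ hx
  have h1 : ∀ v : A, ∃ ε : ℝ, 0 < ε ∧ (v ∈ F → ∀ y : (v : HeightOneSpectrum (𝓞 k)).adicCompletion k
      ⊗[k] D, (∀ i : Fin M,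
        ‖(Algebra.TensorProduct.basis ((v : HeightOneSpectrum (𝓞 k)).adicCompletion k) B).repr
          (y - ι x v) i‖ < ε) → y ∈ U v) := by
    intro v
    by_cases hv : v ∈ F
    · let b := Algebra.TensorProduct.basis ((v : HeightOneSpectrum (𝓞 k)).adicCompletion k) B
      have hc : Continuous fun y : Fin M → (v : HeightOneSpectrum (𝓞 k)).adicCompletion k =>
          b.equivFun.symm y :=
        IsModuleTopology.continuous_of_linearMap b.equivFun.symm.toLinearMap
      have h2 : IsOpen ((fun y : Fin M → (v : HeightOneSpectrum (𝓞 k)).adicCompletion k =>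
          b.equivFun.symm y) ⁻¹' U v) := (hU v hv).1.preimage hc
      have h3 : b.equivFun (ι x v) ∈ (fun y : Fin M →
          (v : HeightOneSpectrum (𝓞 k)).adicCompletion k => b.equivFun.symm y) ⁻¹' U v := by
        rw [Set.mem_preimage, LinearEquiv.symm_apply_apply]
        exact (hU v hv).2
      obtain ⟨ε, hε, h4⟩ := Metric.isOpen_iff.mp h2 _ h3
      refine ⟨ε, hε, fun _ y hy => ?_⟩
      have h5 : b.equivFun y ∈ Metric.ball (b.equivFun (ι x v)) ε := by
        rw [Metric.mem_ball, dist_pi_lt_iff hε]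
        intro i
        rw [dist_eq_norm]
        have h6 := hy i
        rw [map_sub, Finsupp.sub_apply] at h6
        exact h6
      have h7 := h4 h5
      rwa [Set.mem_preimage, LinearEquiv.symm_apply_apply] at h7
    · exact ⟨1, one_pos, fun h => absurd h hv⟩
  choose ε hε hεU using h1
  obtain ⟨r, hr, hrε⟩ : ∃ r : ℝ, 0 < r ∧ ∀ v ∈ F, r ≤ ε v := by
    rcases F.eq_empty_or_nonempty with h | h
    · subst h
      exact ⟨1, one_pos, fun v hv => absurd hv (Finset.notMem_empty v)⟩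
    · refine ⟨F.inf' h ε, ?_, fun v hv => Finset.inf'_le _ hv⟩
      rw [Finset.lt_inf'_iff]
      exact fun v _ => hε v
  obtain ⟨g, hg⟩ := hd x r hr
  refine ⟨δ g, ?_, ⟨g, rfl⟩⟩
  apply hUV
  intro v hv
  refine hεU v hv _ fun i => ?_
  change ‖(Algebra.TensorProduct.basis ((v : HeightOneSpectrum (𝓞 k)).adicCompletion k) B).repr
    ((((δ g v : Gv v) : ((v : HeightOneSpectrum (𝓞 k)).adicCompletion k ⊗[k] D)ˣ) :
        (v : HeightOneSpectrum (𝓞 k)).adicCompletion k ⊗[k] D) - ι x v) i‖ < ε v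
  rw [hδ]
  exact (hg v i).trans_le (hrε v hv)

/-- **The form of the conjecture.** An open subgroup of finite index of `G` is the preimage of an
open subgroup. -/
theorem q1_of_isOpen {M : ℕ} (B : Basis (Fin M) k D) {G : Subgroup Dˣ}
    (δ : G →* ∀ v : A, Gv v)
    (hδ : ∀ (g : G) (v : A),
      (((δ g v : Gv v) : ((v : HeightOneSpectrum (𝓞 k)).adicCompletion k ⊗[k] D)ˣ) :
        (v : HeightOneSpectrum (𝓞 k)).adicCompletion k ⊗[k] D) = delta A ((g : Dˣ) : D) v)
    (σ : ∀ v : A, (v : HeightOneSpectrum (𝓞 k)).adicCompletion k ⊗[k] D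
      →ₗ[(v : HeightOneSpectrum (𝓞 k)).adicCompletion k]
        (v : HeightOneSpectrum (𝓞 k)).adicCompletion k ⊗[k] D)
    (hσ : ∀ (v : A), ∀ x ∈ Gv v,
      ((x⁻¹ : ((v : HeightOneSpectrum (𝓞 k)).adicCompletion k ⊗[k] D)ˣ) :
        (v : HeightOneSpectrum (𝓞 k)).adicCompletion k ⊗[k] D) =
      σ v (x : (v : HeightOneSpectrum (𝓞 k)).adicCompletion k ⊗[k] D))
    (hd : ∀ (x : ∀ v : A, Gv v) (ε : ℝ), 0 < ε → ∃ g : G, ∀ (v : A) (i : Fin M),
      ‖(Algebra.TensorProduct.basis ((v : HeightOneSpectrum (𝓞 k)).adicCompletion k) B).repr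
        (delta A ((g : Dˣ) : D) v -
          (((x v : Gv v) : ((v : HeightOneSpectrum (𝓞 k)).adicCompletion k ⊗[k] D)ˣ) :
            (v : HeightOneSpectrum (𝓞 k)).adicCompletion k ⊗[k] D)) i‖ < ε)
    (N : Subgroup G) (hN : N.index ≠ 0) (hNo : IsOpen[adicTop A G] (N : Set G)) :
    ∃ W : Subgroup (∀ v : A, Gv v), IsOpen[haTop A Gv] (W : Set (∀ v : A, Gv v)) ∧
      N = W.comap δ ∧ (N.Normal → W.Normal) := by
  let _ : TopologicalSpace (∀ v : A, Gv v) := haTop A Gv
  have _ : IsTopologicalGroup (∀ v : A, Gv v) := isTopologicalGroup_ha σ hσ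
  obtain ⟨U, hU, hUN⟩ := hNo
  refine q1_abs δ (denseRange_ha B δ hδ hd) N hN (U := (fun (x : ∀ v : A, Gv v) (v : A) =>
      (((x v : Gv v) : ((v : HeightOneSpectrum (𝓞 k)).adicCompletion k ⊗[k] D)ˣ) :
        (v : HeightOneSpectrum (𝓞 k)).adicCompletion k ⊗[k] D)) ⁻¹' U) ⟨U, hU, rfl⟩ ?_
  rw [← hUN]
  ext g
  rw [Set.mem_preimage, Set.mem_preimage, Set.mem_preimage]
  have h1 : (fun v : A => (((δ g v : Gv v) :
      ((v : HeightOneSpectrum (𝓞 k)).adicCompletion k ⊗[k] D)ˣ) :
        (v : HeightOneSpectrum (𝓞 k)).adicCompletion k ⊗[k] D)) = delta A ((g : Dˣ) : D) :=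
    funext fun v => hδ g v
  rw [h1]

end

end Vale.Agent.P011.One
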