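import Vale.Agent.P011.Even.LocFin
import Mathlib.FieldTheory.IsAlgClosed.AlgebraicClosure

/-!
A homomorphism of algebras over the fixed field from a division algebra of degree `n` with
involution of the second kind to the `n × n` matrices over a field maps the centre to scalars.
-/

open Module NumberField TensorProduct

set_option linter.unusedSectionVars false

namespace Vale.Agent.P011.One

open Vale.Agent.P011.Even

variable {k K D : Type} [Field k] [NumberField k] [Field K] [StarRing K]
  [DivisionRing D] [StarRing D] [Algebra k K] [Algebra k D] [Algebra K D] [IsScalarTower k K D]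
  {d : kˣ} {s : K}

/-- Over an algebraically closed field. -/
theorem scal_closed (hS : Setting k K D d s) {n : ℕ} (hdeg : finrank K D = n ^ 2) {Ω : Type}
    [Field Ω] [Algebra k Ω] [IsAlgClosed Ω] (g : D →ₐ[k] Matrix (Fin n) (Fin n) Ω) :
    ∃ r : Ω, g (algebraMap K D s) = algebraMap Ω _ r := by
  classical
  have := hS.fin
  have := hS.cen
  have hKf : FiniteDimensional k K := Module.finite_of_finrank_pos (by rw [hS.rank]; norm_num)
  have hn : n ≠ 0 := by
    rintro rfl
    exact absurd hdeg (finrank_pos (R := K) (M := D)).ne'
  have _ : Nonempty (Fin n) := ⟨⟨0, Nat.pos_of_ne_zero hn⟩⟩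
  let φ : K →ₐ[k] Ω := IsAlgClosed.lift
  let _ : Algebra K Ω := φ.toRingHom.toAlgebra
  have htow : IsScalarTower k K Ω := IsScalarTower.of_algebraMap_eq fun c => (φ.commutes c).symm
  have hSs : g (algebraMap K D s) * g (algebraMap K D s) =
      algebraMap Ω _ (φ s) * algebraMap Ω _ (φ s) := by
    rw [← map_mul, ← map_mul, ← map_mul, ← map_mul, ← pow_two, hS.sq, φ.commutes,
      ← IsScalarTower.algebraMap_apply k K D, g.commutes, ← IsScalarTower.algebraMap_apply k Ω]
  -- the eigenspace
  let T : (Fin n → Ω) →ₗ[Ω] (Fin n → Ω) := Matrix.toLin' (g (algebraMap K D s))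
  let V : Submodule Ω (Fin n → Ω) := LinearMap.ker (T - algebraMap Ω _ (φ s))
  have hV : ∀ x : D, ∀ u ∈ V, Matrix.toLin' (g x) u ∈ V := by
    intro x u hu
    rw [LinearMap.mem_ker] at hu ⊢
    rw [LinearMap.sub_apply, Module.algebraMap_end_apply, sub_eq_zero] at hu ⊢
    have h1 : T (Matrix.toLin' (g x) u) = Matrix.toLin' (g x) (T u) := by
      change Matrix.toLin' _ (Matrix.toLin' _ u) = Matrix.toLin' _ (Matrix.toLin' _ u)
      rw [← Matrix.toLin'_mul_apply, ← Matrix.toLin'_mul_apply, ← map_mul, ← map_mul,
        Algebra.commutes]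
    rw [h1, hu, map_smul]
  have hVs : ∀ u ∈ V, Matrix.toLin' (g (algebraMap K D s)) u = φ s • u := by
    intro u hu
    rw [LinearMap.mem_ker, LinearMap.sub_apply, Module.algebraMap_end_apply, sub_eq_zero] at hu
    exact hu
  by_cases hb : V = ⊥
  · refine ⟨-φ s, ?_⟩
    have h1 : ∀ u, T u + φ s • u ∈ V := by
      intro u
      rw [LinearMap.mem_ker, LinearMap.sub_apply, Module.algebraMap_end_apply, map_add, map_smul,
        smul_add, smul_smul]
      have h2 : T (T u) = (φ s * φ s) • u := by
        change Matrix.toLin' _ (Matrix.toLin' _ u) = _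
        rw [← Matrix.toLin'_mul_apply, hSs, ← map_mul, Matrix.toLin'_apply,
          Matrix.algebraMap_eq_diagonal]
        ext i
        rw [Matrix.mulVec_diagonal]
        rfl
      rw [h2]
      abel
    have h3 : ∀ u, T u = (-φ s) • u := by
      intro u
      have h4 := h1 u
      rw [hb, Submodule.mem_bot] at h4
      rw [neg_smul]
      exact eq_neg_of_add_eq_zero_left h4
    apply (Matrix.toLin' (R := Ω) (m := Fin n) (n := Fin n)).injective
    refine LinearMap.ext fun u => (h3 u).trans ?_
    rw [Matrix.toLin'_apply, Matrix.algebraMap_eq_diagonal]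
    ext i
    rw [Matrix.mulVec_diagonal]
    rfl
  · refine ⟨φ s, ?_⟩
    have hnt : Nontrivial V := Submodule.nontrivial_iff_ne_bot.mpr hb
    let ρ : D →ₐ[K] Module.End Ω V :=
      { toFun := fun x => (Matrix.toLin' (g x)).restrict (hV x)
        map_one' := by
          refine LinearMap.ext fun u => Subtype.ext ?_
          rw [LinearMap.coe_restrict_apply, map_one, Matrix.toLin'_one]
          rfl
        map_mul' := fun x y => by
          refine LinearMap.ext fun u => Subtype.ext ?_
          rw [LinearMap.coe_restrict_apply, map_mul, Matrix.toLin'_mul_apply]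
          rfl
        map_zero' := by
          refine LinearMap.ext fun u => Subtype.ext ?_
          rw [LinearMap.coe_restrict_apply, map_zero, map_zero]
          rfl
        map_add' := fun x y => by
          refine LinearMap.ext fun u => Subtype.ext ?_
          rw [LinearMap.coe_restrict_apply, map_add, map_add]
          rfl
        commutes' := fun c => by
          refine LinearMap.ext fun u => Subtype.ext ?_
          rw [LinearMap.coe_restrict_apply]
          obtain ⟨a, b, hab⟩ := hS.span c
          have h1 : g (algebraMap K D c) = algebraMap k _ a + algebraMap k _ b *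
              g (algebraMap K D s) := by
            rw [hab, map_add, map_mul, ← IsScalarTower.algebraMap_apply k K D,
              ← IsScalarTower.algebraMap_apply k K D, map_add, map_mul, g.commutes, g.commutes]
          have h2 : ∀ (e : k) (w : Fin n → Ω), Matrix.toLin' (algebraMap k _ e) w =
              algebraMap k Ω e • w := by
            intro e w
            rw [Matrix.toLin'_apply, Matrix.algebraMap_eq_diagonal]
            ext i
            rw [Matrix.mulVec_diagonal]
            rfl
          have h3 : φ c = algebraMap k Ω a + algebraMap k Ω b * φ s := by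
            rw [hab, map_add, map_mul, φ.commutes, φ.commutes]
          have h4 : ((algebraMap K (Module.End Ω V) c u : V) : Fin n → Ω) =
              φ c • (u : Fin n → Ω) := by
            rw [Module.algebraMap_end_apply]
            ext i
            change c • ((u : Fin n → Ω) i) = _
            rw [Algebra.smul_def]
            rfl
          rw [h1, h4, map_add, LinearMap.add_apply, Matrix.toLin'_mul_apply, h2, h2,
            hVs _ u.2, h3, add_smul, mul_smul] }
    let Θ : Ω ⊗[K] D →ₐ[Ω] Module.End Ω V :=
      Algebra.TensorProduct.lift (Algebra.ofId Ω _) ρ fun x y =>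
        show Commute _ _ from Algebra.commutes x (ρ y)
    have hsimp : IsSimpleRing (Ω ⊗[K] D) := Vale.Agent.P011S.simple_tensor
    have hinj : Function.Injective Θ.toLinearMap := RingHom.injective Θ.toRingHom
    have h1 := LinearMap.finrank_le_finrank_of_injective hinj
    rw [Module.finrank_baseChange, hdeg, Module.finrank_linearMap] at h1
    have h2 : finrank Ω V ≤ n := by
      have h3 := Submodule.finrank_le V
      rwa [Module.finrank_fin_fun] at h3
    have h3 : finrank Ω V = n := by
      refine le_antisymm h2 ?_
      by_contra h4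
      rw [not_le] at h4
      nlinarith
    have h4 : V = ⊤ := Submodule.eq_top_of_finrank_eq (by rw [h3, Module.finrank_fin_fun])
    apply (Matrix.toLin' (R := Ω) (m := Fin n) (n := Fin n)).injective
    refine LinearMap.ext fun u => (hVs u (h4 ▸ Submodule.mem_top)).trans ?_
    rw [Matrix.toLin'_apply, Matrix.algebraMap_eq_diagonal]
    ext i
    rw [Matrix.mulVec_diagonal]
    rfl

/-- **The centre maps to scalars.** -/
theorem exists_scal (hS : Setting k K D d s) {n : ℕ} (hdeg : finrank K D = n ^ 2) {Ω : Type}
    [Field Ω] [Algebra k Ω] (g : D →ₐ[k] Matrix (Fin n) (Fin n) Ω) :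
    ∃ ι : K →ₐ[k] Ω, ∀ c : K, g (algebraMap K D c) = algebraMap Ω _ (ι c) := by
  classical
  have := hS.fin
  have hn : n ≠ 0 := by
    rintro rfl
    exact absurd hdeg (finrank_pos (R := K) (M := D)).ne'
  have hne : Nonempty (Fin n) := ⟨⟨0, Nat.pos_of_ne_zero hn⟩⟩
  let i : Ω →ₐ[k] AlgebraicClosure Ω := IsScalarTower.toAlgHom k Ω (AlgebraicClosure Ω)
  obtain ⟨r, hr⟩ := scal_closed hS hdeg (i.mapMatrix.comp g)
  have h1 : g (algebraMap K D s) = algebraMap Ω _ (g (algebraMap K D s) hne.some hne.some) := by
    ext a b
    have h2 := congrFun (congrFun hr a) b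
    have h3 := congrFun (congrFun hr hne.some) hne.some
    rw [AlgHom.comp_apply, AlgHom.mapMatrix_apply, Matrix.map_apply, Matrix.algebraMap_matrix_apply]
      at h2 h3
    rw [if_pos rfl] at h3
    rw [Matrix.algebraMap_matrix_apply]
    apply i.toRingHom.injective
    change i _ = i _
    rw [h2]
    split_ifs with h
    · exact h3.symm
    · rw [map_zero]
  have h2 : ∀ c : K, ∃ y : Ω, algebraMap Ω (Matrix (Fin n) (Fin n) Ω) y = g (algebraMap K D c) := by
    intro c
    obtain ⟨a, b, hab⟩ := hS.span c
    refine ⟨algebraMap k Ω a + algebraMap k Ω b * g (algebraMap K D s) hne.some hne.some, ?_⟩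
    rw [map_add, map_mul, ← h1, ← IsScalarTower.algebraMap_apply k Ω,
      ← IsScalarTower.algebraMap_apply k Ω, hab, map_add, map_mul, map_add, map_mul,
      ← IsScalarTower.algebraMap_apply k K D, ← IsScalarTower.algebraMap_apply k K D, g.commutes,
      g.commutes]
  let j : Ω →ₐ[k] Matrix (Fin n) (Fin n) Ω := IsScalarTower.toAlgHom k Ω _
  have hj : Function.Injective j := (algebraMap Ω (Matrix (Fin n) (Fin n) Ω)).injective
  have h3 : ∀ c : K, (g.comp (IsScalarTower.toAlgHom k K D)) c ∈ j.range := fun c => h2 c
  refine ⟨(AlgEquiv.ofInjective j hj).symm.toAlgHom.comp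
    ((g.comp (IsScalarTower.toAlgHom k K D)).codRestrict j.range h3), fun c => ?_⟩
  have h4 := (AlgEquiv.ofInjective j hj).apply_symm_apply
    ((g.comp (IsScalarTower.toAlgHom k K D)).codRestrict j.range h3 c)
  exact (congrArg Subtype.val h4).symm

end Vale.Agent.P011.One
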