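import Vale.Agent.P011.One.LocSU2

/-!
Equivalence of quasi-reflections modulo powers of commutators.
-/

open Module Matrix

set_option linter.unusedSectionVars false
open Vale.Agent.P011.T2 Vale.Agent.P011.Even

namespace Vale.Agent.P011.One.Ns

open Vale.Agent.P011.Two Vale.Agent.P011.Two.Fr

variable {F L : Type} [Field F] [Field L] [CharZero L] [StarRing L] [Algebra F L] {d : F} {n : ℕ}
  {H : Matrix (Fin n) (Fin n) L} {e : ℕ}

/-- equivalence of two anisotropic vectors -/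
def Eqv (H : Matrix (Fin n) (Fin n) L) (Γ : Subgroup (Matrix (Fin n) (Fin n) L)ˣ) (θ : L)
    (x y : Fin n → L) : Prop :=
  ∀ (hx : bh H x x ≠ 0) (hy : bh H y y ≠ 0) (hθ : θ * star θ = 1),
    reflU H hx hθ * (reflU H hy hθ)⁻¹ ∈ Γ

omit [CharZero L] in
theorem Eqv.trans {Γ : Subgroup (Matrix (Fin n) (Fin n) L)ˣ} {θ : L} {x y z : Fin n → L}
    (hy : bh H y y ≠ 0) (h1 : Eqv H Γ θ x y) (h2 : Eqv H Γ θ y z) : Eqv H Γ θ x z := by
  intro hx hz hθ
  have := Γ.mul_mem (h1 hx hy hθ) (h2 hy hz hθ)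
  rwa [mul_assoc, inv_mul_cancel_left] at this

omit [CharZero L] in
theorem Eqv.symm {Γ : Subgroup (Matrix (Fin n) (Fin n) L)ˣ} {θ : L} {x y : Fin n → L}
    (h1 : Eqv H Γ θ x y) : Eqv H Γ θ y x := by
  intro hy hx hθ
  have := Γ.inv_mem (h1 hx hy hθ)
  rwa [_root_.mul_inv_rev, inv_inv] at this

omit [CharZero L] in
theorem Eqv.refl' (Γ : Subgroup (Matrix (Fin n) (Fin n) L)ˣ) {θ : L} (x : Fin n → L) :
    Eqv H Γ θ x x := by
  intro hy hx hθ
  rw [mul_inv_cancel]
  exact Γ.one_mem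

theorem vecMul_two (a : Fin 2 → L) (z z' : Fin n → L) :
    a ᵥ* Matrix.of ![z, z'] = a 0 • z + a 1 • z' := by
  ext j
  simp [vecMul, dotProduct, Fin.sum_univ_two]

theorem bh_add_right (hH : Hᴴ = H) (x y z : Fin n → L) :
    bh H x (y + z) = bh H x y + bh H x z := by
  rw [← star_bh hH, bh_add_left, star_add, star_bh hH, star_bh hH]

theorem bh_sub_right (hH : Hᴴ = H) (x y z : Fin n → L) :
    bh H x (y - z) = bh H x y - bh H x z := by
  rw [← star_bh hH, bh_sub_left, star_sub, star_bh hH, star_bh hH]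

theorem bh_smul_right (hH : Hᴴ = H) (x y : Fin n → L) (c : L) :
    bh H x (c • y) = star c * bh H x y := by
  rw [← star_bh hH, bh_smul_left, star_mul', star_bh hH]

/-- vectors in a hyperbolic plane are equivalent -/
theorem eqv_plane (hQ : QuadL F L d) (hH : Hᴴ = H) (he : e ≠ 0) {z z' : Fin n → L}
    (h00 : bh H z z = 0) (h11 : bh H z' z' = 0) (h01 : bh H z z' = 1) (θ : L) (a a' b b' : L) :
    Eqv H (Ge H e) θ (a • z + a' • z') (b • z + b' • z') := by
  intro hx hy hθ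
  refine plane hQ hH he (fun s hs t ht => mem_Ge hs ht) h00 h11 h01
    hx hy (a := ![a, a']) (b := ![b, b']) ?_ ?_ hθ
  · rw [vecMul_two]; rfl
  · rw [vecMul_two]; rfl

/-- neighbours are equivalent -/
theorem eqv_nx (hQ : QuadL F L d) (hH : Hᴴ = H) (he : e ≠ 0) {a : Fˣ} {x y : Fin n → L}
    (h : Nx (rowHF H hH) a x y) (θ : L) : Eqv H (Ge H e) θ x y := by
  obtain ⟨h1, h2, t, p, h3, -, h5, h6⟩ := h
  rw [bh_eq H hH] at h1 h2 h3
  have ha : algebraMap F L a ≠ 0 := (_root_.map_ne_zero _).mpr a.ne_zero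
  obtain ⟨α, hα⟩ : ∃ α, α = algebraMap F L a := ⟨_, rfl⟩
  have hαs : star α = α := by rw [hα, hQ.fix']
  rw [← hα] at h1 h2 h3 ha
  have h4 : bh H y x = α * star t := by rw [← star_bh hH, h3, star_mul', hαs]
  have hps : star p ≠ 0 := star_ne_zero.mpr h5
  have h2' : (2 : L) ≠ 0 := two_ne_zero
  -- the hyperbolic pair
  let z : Fin n → L := y + (p - star t) • x
  let w : Fin n → L := y - (p + star t) • x
  have hzz : bh H z z = 0 := by
    change bh H (y + (p - star t) • x) (y + (p - star t) • x) = 0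
    rw [bh_add_left, bh_smul_left, bh_add_right hH, bh_add_right hH, bh_smul_right hH,
      bh_smul_right hH, h1, h2, h3, h4, star_sub, star_star]
    linear_combination (-α) * h6
  have hww : bh H w w = 0 := by
    change bh H (y - (p + star t) • x) (y - (p + star t) • x) = 0
    rw [bh_sub_left, bh_smul_left, bh_sub_right hH, bh_sub_right hH, bh_smul_right hH,
      bh_smul_right hH, h1, h2, h3, h4, star_add, star_star]
    linear_combination (-α) * h6
  have hzw : bh H z w = -(2 * α * (p * star p)) := by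
    change bh H (y + (p - star t) • x) (y - (p + star t) • x) = _
    rw [bh_add_left, bh_smul_left, bh_sub_right hH, bh_sub_right hH, bh_smul_right hH,
      bh_smul_right hH, h1, h2, h3, h4, star_add, star_star]
    linear_combination (-α) * h6
  obtain ⟨c, hc⟩ : ∃ c, c = -(2 * α * (p * star p)) := ⟨_, rfl⟩
  have hc0 : c ≠ 0 := by
    rw [hc]
    exact neg_ne_zero.mpr (mul_ne_zero (mul_ne_zero h2' ha) (mul_ne_zero h5 hps))
  have hcs : star c = c := by
    rw [hc, star_neg, star_mul', star_mul', star_mul', star_star, star_ofNat, hαs,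
      mul_comm (star p)]
  rw [← hc] at hzw
  let z' : Fin n → L := c⁻¹ • w
  have h11 : bh H z' z' = 0 := by
    change bh H (c⁻¹ • w) (c⁻¹ • w) = 0
    rw [bh_smul_left, bh_smul_right hH, hww, mul_zero, mul_zero]
  have h01 : bh H z z' = 1 := by
    change bh H z (c⁻¹ • w) = 1
    rw [bh_smul_right hH, hzw, star_inv₀, hcs, inv_mul_cancel₀ hc0]
  have hcw : c • z' = w := by
    change c • c⁻¹ • w = w
    rw [smul_smul, mul_inv_cancel₀ hc0, one_smul]
  have hx : x = (2 * p)⁻¹ • z + (-(2 * p)⁻¹ * c) • z' := by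
    rw [mul_smul, hcw]
    change x = (2 * p)⁻¹ • (y + (p - star t) • x) + (-(2 * p)⁻¹) • (y - (p + star t) • x)
    have h7 : (2 * p)⁻¹ * (2 * p) = 1 := inv_mul_cancel₀ (mul_ne_zero h2' h5)
    have h8 : (2 * p)⁻¹ • (y + (p - star t) • x) + (-(2 * p)⁻¹) • (y - (p + star t) • x) =
        ((2 * p)⁻¹ * (2 * p)) • x := by module
    rw [h8, h7, one_smul]
  have hy : y = (1 - (p - star t) * (2 * p)⁻¹) • z + ((p - star t) * (2 * p)⁻¹ * c) • z' := by
    have h7 : y = z - (p - star t) • x := by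
      change y = (y + (p - star t) • x) - (p - star t) • x
      rw [add_sub_cancel_right]
    calc y = z - (p - star t) • x := h7
      _ = z - (p - star t) • ((2 * p)⁻¹ • z + (-(2 * p)⁻¹ * c) • z') := by rw [← hx]
      _ = _ := by module
  have h9 := eqv_plane hQ hH he hzz h11 h01 θ (2 * p)⁻¹ (-(2 * p)⁻¹ * c)
    (1 - (p - star t) * (2 * p)⁻¹) ((p - star t) * (2 * p)⁻¹ * c)
  rwa [← hx, ← hy] at h9

/-- All anisotropic vectors are equivalent if there is a hyperbolic pair. -/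
theorem eqv_iso (hQ : QuadL F L d) (hS : SqNear F) (hH : Hᴴ = H) (he : e ≠ 0) {z z' : Fin n → L}
    (h00 : bh H z z = 0) (h11 : bh H z' z' = 0) (h01 : bh H z z' = 1) (θ : L)
    {x y : Fin n → L} (hx : bh H x x ≠ 0) (hy : bh H y y ≠ 0) : Eqv H (Ge H e) θ x y := by
  have hp : Hp (rowHF H hH) z z' := ⟨by rw [bh_eq]; exact h00, by rw [bh_eq]; exact h11,
    by rw [bh_eq]; exact h01⟩
  have key : ∀ x : Fin n → L, bh H x x ≠ 0 → ∃ a : Fˣ,
      bh H (vl (L := L) a z z' 1) (vl (L := L) a z z' 1) ≠ 0 ∧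
      Eqv H (Ge H e) θ (vl (L := L) a z z' 1) x := by
    intro x hx
    obtain ⟨a, ha⟩ := hQ.fix _ (star_bh hH x x)
    have ha0 : a ≠ 0 := by
      rintro rfl
      rw [map_zero] at ha
      exact hx ha.symm
    have hlen : ∀ u, (rowHF H hH).h u u = algebraMap F L a → bh H u u ≠ 0 := by
      intro u hu
      rw [← bh_eq H hH, hu, ha]
      exact hx
    have h1 := conn_hp hQ hS (Units.mk0 a ha0) hp (e := x) (by rw [bh_eq]; exact ha.symm)
    have h2 : (rowHF H hH).h (vl (L := L) (Units.mk0 a ha0) z z' 1)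
        (vl (L := L) (Units.mk0 a ha0) z z' 1) = algebraMap F L a :=
      vl_self hQ (Units.mk0 a ha0) hp one_ne_zero
    refine ⟨Units.mk0 a ha0, hlen _ h2, ?_⟩
    have h3 : ∀ u, Relation.ReflTransGen (Nx (rowHF H hH) (Units.mk0 a ha0))
        (vl (L := L) (Units.mk0 a ha0) z z' 1) u → (rowHF H hH).h u u = algebraMap F L a ∧
          Eqv H (Ge H e) θ (vl (L := L) (Units.mk0 a ha0) z z' 1) u := by
      intro u hu
      induction hu with
      | refl => exact ⟨h2, Eqv.refl' _ _⟩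
      | tail _ h ih => exact ⟨h.2.1, ih.2.trans (hlen _ ih.1) (eqv_nx hQ hH he h θ)⟩
    exact (h3 x h1).2
  obtain ⟨a, ha, hax⟩ := key x hx
  obtain ⟨b, hb, hby⟩ := key y hy
  exact (hax.symm.trans ha (eqv_plane hQ hH he h00 h11 h01 θ _ _ _ _)).trans hb hby

/-- Orthogonal vectors of the same length are equivalent. -/
theorem eqv_orth (hH : Hᴴ = H) {x y : Fin n → L} (hx : bh H x x ≠ 0) (hxy : bh H x y = 0)
    (hl : bh H y y = bh H x x) {η : L} (hη : η * star η = 1) : Eqv H (Ge H e) (η ^ e) x y := by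
  have hyx : bh H y x = 0 := by rw [← star_bh hH, hxy, star_zero]
  have hy : bh H y y ≠ 0 := by rw [hl]; exact hx
  have h1 : bh H (x - y) (x - y) = 2 * bh H x x := by
    rw [bh_sub_left, bh_sub_right hH, bh_sub_right hH, hxy, hyx, hl]
    ring
  have h2 : bh H (x - y) (x - y) ≠ 0 := by rw [h1]; exact mul_ne_zero two_ne_zero hx
  have hm1 : (-1 : L) * star (-1) = 1 := by rw [star_neg, star_one]; ring
  set g := reflU H h2 hm1 with hg
  have hgU : g ∈ UU H := reflU_mem hH h2 hm1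
  have hxg : x ᵥ* (g : Matrix (Fin n) (Fin n) L) = y := by
    change x ᵥ* refl H (x - y) (-1) = y
    rw [vecMul_refl, h1, bh_sub_right hH, hxy]
    have h3 : (-1 - 1) / (2 * bh H x x) * (bh H x x - 0) = (-1 : L) := by
      have : (2 : L) ≠ 0 := two_ne_zero
      field_simp
      ring
    rw [h3, neg_one_smul]
    abel
  have hc : reflU H hy hη = g⁻¹ * reflU H hx hη * g := by
    apply Units.ext
    change refl H y η = ((g⁻¹ : (Matrix (Fin n) (Fin n) L)ˣ) : Matrix (Fin n) (Fin n) L) *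
      refl H x η * g
    rw [← conj_refl hgU, hxg]
  have hcomm : Commute (reflU H hx hη) (reflU H hy hη) := by
    apply Units.ext
    change refl H x η * refl H y η = refl H y η * refl H x η
    refine Matrix.ext_of_single_vecMul fun i => ?_
    rw [← vecMul_vecMul, ← vecMul_vecMul, vecMul_refl, vecMul_refl, vecMul_refl, vecMul_refl,
      bh_add_left, bh_add_left, bh_smul_left, bh_smul_left, hxy, hyx, mul_zero, mul_zero, add_zero,
      add_zero]
    abel
  have hpow : ∀ {u : Fin n → L} (hu : bh H u u ≠ 0) (h : η ^ e * star (η ^ e) = 1),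
      reflU H hu h = (reflU H hu hη) ^ e := by
    intro u hu h
    apply Units.ext
    rw [Units.val_pow_eq_pow_val]
    change refl H u (η ^ e) = (refl H u η) ^ e
    have h5 : ∀ k : ℕ, refl H u (η ^ k) = (refl H u η) ^ k := by
      intro k
      induction k with
      | zero => rw [pow_zero, pow_zero, refl_one]
      | succ k ih => rw [pow_succ, pow_succ, ← ih, refl_mul H hu]
    exact h5 e
  intro hx' hy' hθ
  have h6 : reflU H hx' hθ * (reflU H hy' hθ)⁻¹ =
      (reflU H hx hη * g⁻¹ * (reflU H hx hη)⁻¹ * (g⁻¹)⁻¹) ^ e := by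
    rw [hpow hx' hθ, hpow hy' hθ, ← inv_pow, ← (hcomm.inv_right).mul_pow]
    congr 1
    rw [hc]
    group
  rw [h6]
  exact mem_Ge (reflU_mem hH hx hη) ((UU H).inv_mem hgU)

theorem eqv_smul (hH : Hᴴ = H) (x : Fin n → L) {c : L} (hc : c ≠ 0) (θ : L)
    (Γ : Subgroup (Matrix (Fin n) (Fin n) L)ˣ) : Eqv H Γ θ (c • x) x := by
  intro hx hy hθ
  have : reflU H hx hθ = reflU H hy hθ := by
    apply Units.ext
    exact refl_smul H hH x hc θ
  rw [this, mul_inv_cancel]
  exact Γ.one_mem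

/-- All anisotropic vectors are equivalent in the definite case. -/
theorem eqv_def (hH : Hᴴ = H) (hn : 3 ≤ n) (hdef : ∀ x : Fin n → L, x ≠ 0 → bh H x x ≠ 0)
    (hsc : ∀ x y : Fin n → L, x ≠ 0 → y ≠ 0 → ∃ c : L, c ≠ 0 ∧ bh H (c • x) (c • x) = bh H y y)
    {θ : L} (hroot : ∃ η : L, η * star η = 1 ∧ η ^ e = θ)
    {x y : Fin n → L} (hx : bh H x x ≠ 0) (hy : bh H y y ≠ 0) : Eqv H (Ge H e) θ x y := by
  obtain ⟨η, hη, rfl⟩ := hroot
  have hne : ∀ {u : Fin n → L}, bh H u u ≠ 0 → u ≠ 0 := by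
    rintro u hu rfl
    exact hu (by simp [bh])
  -- a vector orthogonal to both
  obtain ⟨w, hw0, hwx, hwy⟩ : ∃ w : Fin n → L, w ≠ 0 ∧ bh H w x = 0 ∧ bh H w y = 0 := by
    let f : (Fin n → L) →ₗ[L] (Fin 2 → L) := LinearMap.pi
      ![(rowHF H hH).lin x, (rowHF H hH).lin y]
    have h1 : LinearMap.ker f ≠ ⊥ := by
      intro h
      have h2 := LinearMap.finrank_le_finrank_of_injective (LinearMap.ker_eq_bot.mp h)
      rw [Module.finrank_fin_fun, Module.finrank_fin_fun] at h2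
      omega
    obtain ⟨w, hw, hw0⟩ := (Submodule.ne_bot_iff _).mp h1
    have h3 := LinearMap.mem_ker.mp hw
    have h4 := congrFun h3 0
    have h5 := congrFun h3 1
    refine ⟨w, hw0, ?_, ?_⟩
    · rw [← bh_eq H hH]; exact h4
    · rw [← bh_eq H hH]; exact h5
  have key : ∀ u : Fin n → L, bh H u u ≠ 0 → bh H w u = 0 → Eqv H (Ge H e) (η ^ e) u w := by
    intro u hu hwu
    obtain ⟨c, hc, hcl⟩ := hsc w u hw0 (hne hu)
    have h1 : bh H u (c • w) = 0 := by
      rw [bh_smul_right hH, ← star_bh hH, hwu, star_zero, mul_zero]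
    have h2 := eqv_orth (e := e) hH hu h1 hcl hη
    exact h2.trans (by rw [hcl]; exact hu) (eqv_smul hH w hc _ _)
  exact (key x hx hwx).trans (hdef w hw0) (key y hy hwy).symm

/-- The special unitary group of an isotropic form. -/
theorem su_iso (hQ : QuadL F L d) (hS : SqNear F) (hH : Hᴴ = H) (hd : H.det ≠ 0) (he : e ≠ 0)
    {z z' : Fin n → L} (h00 : bh H z z = 0) (h11 : bh H z' z' = 0) (h01 : bh H z z' = 1)
    {T : (Matrix (Fin n) (Fin n) L)ˣ} (hT : T ∈ UU H)
    (hT1 : (T : Matrix (Fin n) (Fin n) L).det = 1) : T ∈ Ge H e := by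
  have h10 : bh H z' z = 1 := by rw [← star_bh hH, h01, star_one]
  have h1 : bh H (z + z') (z + z') ≠ 0 := by
    rw [bh_add_left, bh_add_right hH, bh_add_right hH, h00, h11, h01, h10]
    norm_num
  exact mem_of_conn hQ hH hd (fun x y hx hy θ hθ => eqv_iso hQ hS hH he h00 h11 h01 θ hx hy
    hx hy hθ) hT hT1 h1

/-- The special unitary group of a definite form. -/
theorem su_def (hQ : QuadL F L d) (hH : Hᴴ = H) (hd : H.det ≠ 0) (hn : 3 ≤ n)
    (hdef : ∀ x : Fin n → L, x ≠ 0 → bh H x x ≠ 0)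
    (hsc : ∀ x y : Fin n → L, x ≠ 0 → y ≠ 0 → ∃ c : L, c ≠ 0 ∧ bh H (c • x) (c • x) = bh H y y)
    (hroot : ∀ θ : L, θ * star θ = 1 → ∃ η : L, η * star η = 1 ∧ η ^ e = θ)
    {T : (Matrix (Fin n) (Fin n) L)ˣ} (hT : T ∈ UU H)
    (hT1 : (T : Matrix (Fin n) (Fin n) L).det = 1) : T ∈ Ge H e := by
  have h1 : bh H (Pi.single ⟨0, by omega⟩ 1) (Pi.single ⟨0, by omega⟩ 1) ≠ 0 :=
    hdef _ (by simp)
  exact mem_of_conn hQ hH hd (fun x y hx hy θ hθ => eqv_def hH hn hdef hsc (hroot θ hθ) hx hy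
    hx hy hθ) hT hT1 h1

end Vale.Agent.P011.One.Ns
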