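import Vale.Agent.P011.One.TForm
import Vale.Agent.P011.One.LocSU3
import Vale.Agent.P011.Two.LocMk

/-!
Every element of the special unitary group of a division algebra is, at a nonsplit place, a limit
of products of powers of commutators of Cayley elements.
-/

open Module Filter Topology Matrix NumberField IsDedekindDomain
open Vale.Agent.P011.T2 (QuadL HF)
open Vale.Agent.P011.Even (CtsAt exists_diag)
open Vale.Agent.P011.Arith

set_option linter.unusedSectionVars false

namespace Vale.Agent.P011.One.Ns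

open Vale.Agent.P011.Two Vale.Agent.P011.Even

theorem exists_norm_one_unit {F L : Type} [NontriviallyNormedField F] [CharZero F] [Field L]
    [CharZero L] [StarRing L] [Algebra F L] {d : F} (hQ : QuadL F L d) {n : ℕ}
    (M : Matrix (Fin n) (Fin n) L) : ∃ ζ : L, ζ * star ζ = 1 ∧ IsUnit (1 + ζ • M) := by
  classical
  -- the polynomial `det (1 + X M)`
  let P : Polynomial L := ((1 : Matrix (Fin n) (Fin n) (Polynomial L)) +
    (Polynomial.X : Polynomial L) • M.map Polynomial.C).det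
  have hP : ∀ c : L, P.eval c = (1 + c • M).det := by
    intro c
    change (Polynomial.evalRingHom c) P = _
    rw [RingHom.map_det]
    congr 1
    ext i j
    simp [Matrix.one_apply, Matrix.add_apply, Matrix.map_apply, Matrix.smul_apply]
    split_ifs <;> simp [mul_comm]
  have hP0 : P ≠ 0 := by
    intro h
    have h1 := hP 0
    rw [h, zero_smul, add_zero, det_one, Polynomial.eval_zero] at h1
    exact zero_ne_one h1
  let bad : Set F := {r | ∃ ζ ∈ P.roots.toFinset, ζ + star ζ = algebraMap F L r}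
  have hbad : bad.Finite := by
    let g : L → F := fun ζ => if h : ∃ r, ζ + star ζ = algebraMap F L r then h.choose else 0
    refine ((P.roots.toFinset.finite_toSet).image g).subset ?_
    rintro r ⟨ζ, hζ, hr⟩
    refine ⟨ζ, hζ, ?_⟩
    have h : ∃ r, ζ + star ζ = algebraMap F L r := ⟨r, hr⟩
    change (if h : ∃ r, ζ + star ζ = algebraMap F L r then h.choose else 0) = r
    rw [dif_pos h]
    exact (algebraMap F L).injective (h.choose_spec.symm.trans hr)
  obtain ⟨η, r, -, h1, h2, -, h3⟩ := exists_eta hQ one_pos hbad 1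
  refine ⟨η 0, h1 0, ?_⟩
  rw [Matrix.isUnit_iff_isUnit_det, isUnit_iff_ne_zero, ← hP]
  intro h4
  apply h3 0
  exact ⟨η 0, by rw [Multiset.mem_toFinset, Polynomial.mem_roots hP0]; exact h4, h2 0⟩

section words

variable {D : Type} [DivisionRing D] [StarRing D] [CharZero D]

/-- The unitary element `cq`. -/
def cqU (e : ℕ) {y z : D} (hy : star y = -y) (hz : star z = -z) : unitary D := by
  refine ⟨cq e y z, ?_⟩
  have h1 : ∀ x : D, star x = -x → cy x ∈ unitary D := by
    intro x hx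
    have h2 := cy_mul_star hx
    rw [Unitary.mem_iff]
    exact ⟨mul_eq_one_comm.mp h2, h2⟩
  have h2 : ∀ x : D, x ∈ unitary D → x⁻¹ ∈ unitary D := by
    intro x hx
    have h3 : x⁻¹ = star x := inv_eq_of_mul_eq_one_right (Unitary.mem_iff.mp hx).2
    rw [h3]
    exact Unitary.star_mem hx
  exact pow_mem (mul_mem (mul_mem (mul_mem (h1 y hy) (h1 z hz)) (h2 _ (h1 y hy)))
    (h2 _ (h1 z hz))) e

/-- The group generated by these elements. -/
def GD (D : Type) [DivisionRing D] [StarRing D] (e : ℕ) : Subgroup (unitary D) :=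
  Subgroup.closure {t | ∃ y z : D, star y = -y ∧ star z = -z ∧ (t : D) = cq e y z}

theorem cq_inv (e : ℕ) (y z : D) : (cq e y z)⁻¹ = cq e z y := by
  unfold cq
  rw [← inv_pow, _root_.mul_inv_rev, _root_.mul_inv_rev, _root_.mul_inv_rev, inv_inv, inv_inv]
  simp only [mul_assoc]

theorem list_inv (e : ℕ) (l : List (D × D)) (hl : ∀ y ∈ l, star y.1 = -y.1 ∧ star y.2 = -y.2) :
    ∃ m : List (D × D), (∀ y ∈ m, star y.1 = -y.1 ∧ star y.2 = -y.2) ∧
      (m.map fun y => cq e y.1 y.2).prod = ((l.map fun y => cq e y.1 y.2).prod)⁻¹ := by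
  induction l with
  | nil => exact ⟨[], by simp, by simp⟩
  | cons y l ih =>
    obtain ⟨m, hm, hm'⟩ := ih fun z hz => hl z (List.mem_cons_of_mem _ hz)
    obtain ⟨hy1, hy2⟩ := hl y List.mem_cons_self
    refine ⟨m ++ [(y.2, y.1)], fun z hz => ?_, ?_⟩
    · rcases List.mem_append.mp hz with h | h
      · exact hm z h
      · rw [List.mem_singleton] at h
        rw [h]
        exact ⟨hy2, hy1⟩
    · have h1 : ((y :: l).map fun y => cq e y.1 y.2).prod =
          cq e y.1 y.2 * (l.map fun y => cq e y.1 y.2).prod := by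
        rw [List.map_cons, List.prod_cons]
      have h2 : ([((y.2, y.1) : D × D)].map fun y => cq e y.1 y.2).prod = cq e y.2 y.1 := by simp
      rw [List.map_append, List.prod_append, hm', h1, h2, _root_.mul_inv_rev, cq_inv]

theorem exists_list {e : ℕ} {t : unitary D} (ht : t ∈ GD D e) :
    ∃ l : List (D × D), (∀ y ∈ l, star y.1 = -y.1 ∧ star y.2 = -y.2) ∧
      (l.map fun y => cq e y.1 y.2).prod = (t : D) := by
  unfold GD at ht
  induction ht using Subgroup.closure_induction with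
  | mem x hx =>
    obtain ⟨y, z, hy, hz, h⟩ := hx
    exact ⟨[(y, z)], by simp [hy, hz], by simp [h]⟩
  | one => exact ⟨[], by simp, rfl⟩
  | mul x y _ _ hx hy =>
    obtain ⟨l, hl, hl'⟩ := hx
    obtain ⟨m, hm, hm'⟩ := hy
    refine ⟨l ++ m, fun y hy => (List.mem_append.mp hy).elim (hl y) (hm y), ?_⟩
    rw [List.map_append, List.prod_append, hl', hm']
    rfl
  | inv x _ hx =>
    obtain ⟨l, hl, hl'⟩ := hx
    obtain ⟨m, hm, hm'⟩ := list_inv e l hl
    refine ⟨m, hm, ?_⟩
    have h1 : ((x⁻¹ : unitary D) : D) = (x : D)⁻¹ := by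
      have h2 : ((x⁻¹ : unitary D) : D) * x = 1 := by
        rw [← Submonoid.coe_mul, inv_mul_cancel, Submonoid.coe_one]
      exact eq_inv_of_mul_eq_one_left h2
    rw [h1, ← hl', hm']

end words

section model

variable {k D : Type} [Field k] [NumberField k] [DivisionRing D] [StarRing D] [Algebra k D]
  {N : ℕ} (B : Basis (Fin N) k D) (p : Pl k)
  {F L : Type} [NontriviallyNormedField F] [CharZero F] [Field L] [CharZero L] [StarRing L]
  [Algebra F L] [FiniteDimensional F L] [Algebra k F] {d : F} (hQ : QuadL F L d)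
  {n : ℕ} (f : D →+* Matrix (Fin n) (Fin n) L)
  (hf : ∀ (a : k) x, f (a • x) = algebraMap k F a • f x)
  {A : Matrix (Fin n) (Fin n) L} (hA : Aᴴ = A) (hAu : IsUnit A)
  (hfA : ∀ x, f (star x) * A = A * (f x)ᴴ)
  (hspan : ∀ Y, ∃ b : Fin N → F, ∑ j, b j • f (B j) = Y)
  (hnorm : ∀ x : k, ‖algebraMap k F x‖ = plAbv p x)
  (hdense : ∀ (y : F) (ε : ℝ), 0 < ε → ∃ x : k, ‖algebraMap k F x - y‖ < ε)
  (hcard : finrank F (Matrix (Fin n) (Fin n) L) = N)

include hQ hf hA hAu hfA hspan hnorm hdense hcard in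
theorem lt_model (e : ℕ) (g : unitary D)
    (hg : ∀ T : (Matrix (Fin n) (Fin n) L)ˣ, T ∈ UU A → (T : Matrix (Fin n) (Fin n) L) = f g →
      T ∈ Ge A e) : LT B p e (g : D) := by
  classical
  have : CharZero D := charZero_of_injective_algebraMap (algebraMap k D).injective
  obtain ⟨U, hU⟩ := hAu
  let V : Matrix (Fin n) (Fin n) L :=
    ((U⁻¹ : (Matrix (Fin n) (Fin n) L)ˣ) : Matrix (Fin n) (Fin n) L)
  have hVA : V * A = 1 := by rw [← hU]; exact U.inv_mul
  have hAV : A * V = 1 := by rw [← hU]; exact U.mul_inv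
  -- the basis
  let BA : Basis (Fin N) F (Matrix (Fin n) (Fin n) L) :=
    basisOfTopLeSpanOfCardEqFinrank (fun j => f (B j)) (by
      intro Y _
      obtain ⟨b, hb⟩ := hspan Y
      rw [← hb]
      exact Submodule.sum_mem _ fun j _ => Submodule.smul_mem _ _
        (Submodule.subset_span ⟨j, rfl⟩)) (by rw [Fintype.card_fin, hcard])
  have hBA : ∀ j, BA j = f (B j) := fun j => by
    rw [coe_basisOfTopLeSpanOfCardEqFinrank]
  have hrepr : ∀ (x : D) (j : Fin N), BA.repr (f x) j = algebraMap k F (B.repr x j) := by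
    intro x j
    have h1 : f x = ∑ i, algebraMap k F (B.repr x i) • BA i := by
      conv_lhs => rw [← B.sum_repr x]
      rw [map_sum]
      exact Finset.sum_congr rfl fun i _ => by rw [hf, hBA]
    rw [h1, map_sum, Finsupp.finsetSum_apply]
    simp only [map_smul, Basis.repr_self, Finsupp.smul_apply, smul_eq_mul,
      Finsupp.single_apply, mul_ite, mul_one, mul_zero, Finset.sum_ite_eq', Finset.mem_univ,
      if_true]
  let I := invM hQ A V hA hVA hAV
  have hI : ∀ x, I.τ (f x) = f (star x) := by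
    intro x
    change A * (f x)ᴴ * V = _
    rw [← hfA, mul_assoc, hAV, mul_one]
  let gu := gU BA f I hI
  let Cl : Subgroup (UT BA I) := ((GD D e).map gu).topologicalClosure
  have hClmem : ∀ T : UT BA I, T ∈ Cl ↔ T ∈ closure (((GD D e).map gu : Subgroup _) : Set (UT BA I)) :=
    fun T => Iff.rfl
  -- Cayley elements
  have hcy : ∀ β : D, (cay β : D) = cy (asym β) := fun β => rfl
  have hR : ∀ T : UT BA I, IsUnit (1 + T.val) → T ∈ closure (Set.range fun β => gu (cay β)) := by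
    intro T hT
    rw [mem_closure_iff_nhds]
    intro O hO
    obtain ⟨b, δ, hδ, hb⟩ := app_nhds BA f I hI B hf hspan T hT hO
    choose x hx using fun j => hdense (b j) δ hδ
    refine ⟨gu (cay (∑ j, x j • B j)), hb _ fun j => ?_, ⟨_, rfl⟩⟩
    rw [B.repr_sum_self]
    exact hx j
  have hC1 : ∀ S T : UT BA I, IsUnit (1 + S.val) → IsUnit (1 + T.val) →
      (S * T * S⁻¹ * T⁻¹) ^ e ∈ Cl := by
    intro S T hS hT
    rw [hClmem]
    have hcont : Continuous (Function.uncurry fun S T : UT BA I => (S * T * S⁻¹ * T⁻¹) ^ e) := by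
      change Continuous fun x : UT BA I × UT BA I => (x.1 * x.2 * x.1⁻¹ * x.2⁻¹) ^ e
      fun_prop
    refine map_mem_closure₂ (f := fun S T : UT BA I => (S * T * S⁻¹ * T⁻¹) ^ e) hcont (hR S hS)
      (hR T hT) ?_
    rintro _ ⟨β, rfl⟩ _ ⟨γ, rfl⟩
    refine ⟨(cay β * cay γ * (cay β)⁻¹ * (cay γ)⁻¹) ^ e, ?_, ?_⟩
    · refine Subgroup.subset_closure ⟨asym β, asym γ, star_asym β, star_asym γ, ?_⟩
      have hinv : ∀ β : D, (((cay β)⁻¹ : unitary D) : D) = (cy (asym β))⁻¹ := by
        intro β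
        have h2 : (((cay β)⁻¹ : unitary D) : D) * cy (asym β) = 1 := by
          rw [← hcy, ← Submonoid.coe_mul, inv_mul_cancel, Submonoid.coe_one]
        exact eq_inv_of_mul_eq_one_left h2
      rw [SubmonoidClass.coe_pow, Submonoid.coe_mul, Submonoid.coe_mul, Submonoid.coe_mul, hinv,
        hinv, hcy, hcy]
      rfl
    · rw [map_pow, map_mul, map_mul, map_mul, map_inv, map_inv]
  -- scalars
  have hC2 : ∀ S T : UT BA I, (S * T * S⁻¹ * T⁻¹) ^ e ∈ Cl := by
    have hsc : ∀ ζ : L, ζ * star ζ = 1 → ∃ Z : UT BA I, ∀ T : UT BA I, (Z * T).val = ζ • T.val ∧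
        Z * T = T * Z := by
      intro ζ hζ
      have hζ' : star ζ * ζ = 1 := by rw [mul_comm]; exact hζ
      let z : (Matrix (Fin n) (Fin n) L)ˣ := ⟨Matrix.scalar (Fin n) ζ, Matrix.scalar (Fin n) (star ζ),
        by rw [← map_mul, hζ, map_one], by rw [← map_mul, hζ', map_one]⟩
      have hz : ∀ M : Matrix (Fin n) (Fin n) L, Matrix.scalar (Fin n) ζ * M = ζ • M := by
        intro M
        rw [Matrix.scalar_apply, ← Matrix.smul_eq_diagonal_mul]
      have hzc : ∀ M : Matrix (Fin n) (Fin n) L,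
          M * Matrix.scalar (Fin n) ζ = Matrix.scalar (Fin n) ζ * M := fun M =>
        ((Matrix.scalar_commute ζ (fun _ => mul_comm _ _) M)).eq.symm
      have hzU : z ∈ I.grp := by
        rw [mem_invM]
        change Matrix.scalar (Fin n) ζ * A * (Matrix.scalar (Fin n) ζ)ᴴ = A
        have h1 : (Matrix.scalar (Fin n) ζ)ᴴ = Matrix.scalar (Fin n) (star ζ) := by
          rw [Matrix.scalar_apply, Matrix.scalar_apply, Matrix.diagonal_conjTranspose]
          rfl
        rw [h1, ← hzc A, mul_assoc, ← map_mul, hζ, map_one, mul_one]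
      refine ⟨⟨z, hzU⟩, fun T => ⟨hz T.val, ?_⟩⟩
      apply UT.ext
      exact (hzc T.val).symm
    intro S T
    obtain ⟨ζ, hζ, hζu⟩ := exists_norm_one_unit hQ S.val
    obtain ⟨ξ, hξ, hξu⟩ := exists_norm_one_unit hQ T.val
    obtain ⟨Z, hZ⟩ := hsc ζ hζ
    obtain ⟨X, hX⟩ := hsc ξ hξ
    have h1 := hC1 (Z * S) (X * T) (by rw [(hZ S).1]; exact hζu) (by rw [(hX T).1]; exact hξu)
    have h2 : (Z * S) * (X * T) * (Z * S)⁻¹ * (X * T)⁻¹ = S * T * S⁻¹ * T⁻¹ := by
      have e1 : Z * S * (X * T) = X * Z * (S * T) := by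
        calc Z * S * (X * T) = Z * (S * X) * T := by group
          _ = Z * (X * S) * T := by rw [← (hX S).2]
          _ = (Z * X) * (S * T) := by group
          _ = _ := by rw [(hZ X).2]
      have e2 : (Z * S)⁻¹ * (X * T)⁻¹ = S⁻¹ * T⁻¹ * (X * Z)⁻¹ := by
        have e3 : X * T * (Z * S) = X * Z * (T * S) := by
          calc X * T * (Z * S) = X * (T * Z) * S := by group
            _ = X * (Z * T) * S := by rw [← (hZ T).2]
            _ = _ := by group
        calc (Z * S)⁻¹ * (X * T)⁻¹ = (X * T * (Z * S))⁻¹ := by group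
          _ = (X * Z * (T * S))⁻¹ := by rw [e3]
          _ = _ := by group
      have e4 : ∀ W : UT BA I, X * Z * W = W * (X * Z) := by
        intro W
        calc X * Z * W = X * (Z * W) := by group
          _ = X * W * Z := by rw [(hZ W).2]; group
          _ = W * X * Z := by rw [(hX W).2]
          _ = _ := by group
      calc (Z * S) * (X * T) * (Z * S)⁻¹ * (X * T)⁻¹
          = (Z * S * (X * T)) * ((Z * S)⁻¹ * (X * T)⁻¹) := by group
        _ = X * Z * (S * T) * (S⁻¹ * T⁻¹ * (X * Z)⁻¹) := by rw [e1, e2]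
        _ = (S * T) * (X * Z) * (S⁻¹ * T⁻¹ * (X * Z)⁻¹) := by rw [e4]
        _ = (S * T) * ((X * Z) * (S⁻¹ * T⁻¹)) * (X * Z)⁻¹ := by group
        _ = (S * T) * ((S⁻¹ * T⁻¹) * (X * Z)) * (X * Z)⁻¹ := by rw [e4]
        _ = _ := by group
    rwa [h2] at h1
  -- the element
  have hmem : ∀ T ∈ Ge A e, ∃ h : T ∈ I.grp, (⟨T, h⟩ : UT BA I) ∈ Cl := by
    intro T hT
    have h1 : Ge A e ≤ Cl.map I.grp.subtype := by
      unfold Ge
      rw [Subgroup.closure_le]
      rintro _ ⟨a, ha, b, hb, rfl⟩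
      have ha' : a ∈ I.grp := (mem_invM hQ hA hVA hAV).mpr ha
      have hb' : b ∈ I.grp := (mem_invM hQ hA hVA hAV).mpr hb
      exact ⟨_, hC2 ⟨a, ha'⟩ ⟨b, hb'⟩, rfl⟩
    obtain ⟨T', hT', h2⟩ := h1 hT
    exact ⟨h2 ▸ T'.2, by
      have h3 : (⟨T, h2 ▸ T'.2⟩ : UT BA I) = T' := Subtype.ext h2.symm
      rw [h3]
      exact hT'⟩
  have hgCl : gu g ∈ Cl := by
    obtain ⟨h, h'⟩ := hmem ((gu g).1 : (Matrix (Fin n) (Fin n) L)ˣ) (hg _
      ((mem_invM hQ hA hVA hAV).mp (gu g).2) rfl)
    exact h'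
  -- approximation
  intro ε hε
  obtain ⟨δ, hδ, hδε⟩ : ∃ δ : ℝ, 0 < δ ∧ N * δ < ε := by
    refine ⟨ε / (N + 1), by positivity, ?_⟩
    rw [mul_div_assoc', div_lt_iff₀ (by positivity)]
    nlinarith
  have hO : ∀ᶠ T : UT BA I in 𝓝 (gu g), ∀ j, ‖BA.repr T.val j - BA.repr (gu g).val j‖ < δ := by
    rw [Filter.eventually_all]
    intro j
    have h1 := (UT.cts BA I (gu g) j).eventually (Metric.ball_mem_nhds _ hδ)
    refine h1.mono fun T hT => ?_
    rwa [← dist_eq_norm]
  rw [hClmem, mem_closure_iff_nhds] at hgCl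
  obtain ⟨_, h1, t, ht, rfl⟩ := hgCl _ hO
  obtain ⟨l, hl, hlt⟩ := exists_list ht
  refine ⟨l, hl, ?_⟩
  rw [hlt]
  have h2 : ∀ j, plAbv p (B.repr ((g : D) - t) j) ≤ δ := by
    intro j
    have h3 := h1 j
    change ‖BA.repr (f t) j - BA.repr (f g) j‖ < δ at h3
    rw [hrepr, hrepr, ← map_sub, ← Finsupp.sub_apply, ← map_sub, hnorm] at h3
    have h4 : B.repr ((g : D) - t) j = -B.repr ((t : D) - g) j := by
      rw [← Finsupp.neg_apply, ← map_neg, neg_sub]
    rw [h4, AbsoluteValue.map_neg]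
    exact h3.le
  calc Even.nm B p ((g : D) - t) = ∑ j, plAbv p (B.repr ((g : D) - t) j) := rfl
    _ ≤ ∑ _j : Fin N, δ := Finset.sum_le_sum fun j _ => h2 j
    _ = N * δ := by rw [Finset.sum_const, Finset.card_univ, Fintype.card_fin, nsmul_eq_mul]
    _ < ε := hδε

end model

end Vale.Agent.P011.One.Ns
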