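import Vale.Agent.P011.One.AdicDefs

/-!
The local special unitary groups of rank one over a division algebra with an involution of the
second kind.
-/

open NumberField IsDedekindDomain TensorProduct Module

namespace Vale.Agent.P011.One

section star

variable {k D : Type} [Field k] [NumberField k] [DivisionRing D] [StarRing D] [Algebra k D]

/-- The involution as a linear map over a subfield of fixed elements. -/
def starLin (h : ∀ c : k, star (algebraMap k D c) = algebraMap k D c) : D →ₗ[k] D where
  toFun := star
  map_add' := star_add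
  map_smul' c x := by
    rw [Algebra.smul_def, star_mul, h, RingHom.id_apply, Algebra.smul_def, Algebra.commutes]

/-- The involution of the completion of `D` at `v`. -/
noncomputable def starAt (h : ∀ c : k, star (algebraMap k D c) = algebraMap k D c)
    (v : HeightOneSpectrum (𝓞 k)) :
    v.adicCompletion k ⊗[k] D →ₗ[v.adicCompletion k] v.adicCompletion k ⊗[k] D :=
  (starLin h).baseChange (v.adicCompletion k)

variable (h : ∀ c : k, star (algebraMap k D c) = algebraMap k D c) (v : HeightOneSpectrum (𝓞 k))

theorem starAt_tmul (a : v.adicCompletion k) (x : D) : starAt h v (a ⊗ₜ x) = a ⊗ₜ star x := rfl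

theorem starAt_mul (X Y : v.adicCompletion k ⊗[k] D) :
    starAt h v (X * Y) = starAt h v Y * starAt h v X := by
  induction X using TensorProduct.induction_on with
  | zero => rw [zero_mul, map_zero, mul_zero]
  | add X X' h h' => rw [add_mul, map_add, h, h', map_add, mul_add]
  | tmul a x =>
    induction Y using TensorProduct.induction_on with
    | zero => rw [mul_zero, map_zero, zero_mul]
    | add Y Y' h h' => rw [mul_add, map_add, h, h', map_add, add_mul]
    | tmul b y =>
      rw [Algebra.TensorProduct.tmul_mul_tmul, starAt_tmul, starAt_tmul, starAt_tmul, star_mul,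
        Algebra.TensorProduct.tmul_mul_tmul, mul_comm]

theorem starAt_starAt (X : v.adicCompletion k ⊗[k] D) : starAt h v (starAt h v X) = X := by
  induction X using TensorProduct.induction_on with
  | zero => rw [map_zero, map_zero]
  | add X X' h h' => rw [map_add, map_add, h, h']
  | tmul a x => rw [starAt_tmul, starAt_tmul, star_star]

theorem starAt_one : starAt h v 1 = 1 := by
  rw [Algebra.TensorProduct.one_def, starAt_tmul, star_one]

end star

section

variable {k K D : Type} [Field k] [NumberField k] [Field K] [DivisionRing D] [Algebra k K]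
  [Algebra k D] [Algebra K D] [IsScalarTower k K D]

/-- The extension of a splitting of `D` to the completion of `D` at `v`. -/
noncomputable def evAt (v : HeightOneSpectrum (𝓞 k)) {n : ℕ} {Ω : Type} [Field Ω]
    [Algebra (v.adicCompletion k) Ω] [Algebra K Ω] [Algebra k Ω]
    [IsScalarTower k (v.adicCompletion k) Ω] [IsScalarTower k K Ω]
    (f : D →ₐ[K] Matrix (Fin n) (Fin n) Ω) :
    v.adicCompletion k ⊗[k] D →ₐ[v.adicCompletion k] Matrix (Fin n) (Fin n) Ω :=
  Algebra.TensorProduct.lift (Algebra.ofId _ _) (f.restrictScalars k) fun x y =>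
    show Commute _ _ from Algebra.commutes x (f y)

theorem evAt_tmul (v : HeightOneSpectrum (𝓞 k)) {n : ℕ} {Ω : Type} [Field Ω]
    [Algebra (v.adicCompletion k) Ω] [Algebra K Ω] [Algebra k Ω]
    [IsScalarTower k (v.adicCompletion k) Ω] [IsScalarTower k K Ω]
    (f : D →ₐ[K] Matrix (Fin n) (Fin n) Ω) (a : v.adicCompletion k) (x : D) :
    evAt v f (a ⊗ₜ x) = a • f x := by
  refine (Algebra.TensorProduct.lift_tmul _ _ _ a x).trans ?_
  rw [Algebra.ofId_apply, ← Algebra.smul_def]
  rfl

end

section

variable {k : Type} (K : Type) {D : Type} [Field k] [NumberField k] [Field K] [DivisionRing D]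
  [Algebra k K] [Algebra k D] [Algebra K D] [IsScalarTower k K D]

/-- The element `x` of the completion of `D` at `v` has reduced norm one: its image has determinant
one under every splitting of `D` (which has degree `n` over `K`) over a field containing the
completion of `k` at `v`. -/
def NrdOneAt (n : ℕ) (v : HeightOneSpectrum (𝓞 k)) (x : v.adicCompletion k ⊗[k] D) : Prop :=
  ∀ (Ω : Type) [Field Ω] [Algebra (v.adicCompletion k) Ω] [Algebra K Ω] [Algebra k Ω]
    [IsScalarTower k (v.adicCompletion k) Ω] [IsScalarTower k K Ω]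
    (f : D →ₐ[K] Matrix (Fin n) (Fin n) Ω), (evAt v f x).det = 1

variable [StarRing D]

/-- `G(k_v)` for the special unitary group `G` of rank one: the elements `x` of the completion of
`D` at `v` with `x * star x = 1` and reduced norm one. -/
def GAt (h : ∀ c : k, star (algebraMap k D c) = algebraMap k D c) (n : ℕ)
    (v : HeightOneSpectrum (𝓞 k)) : Subgroup (v.adicCompletion k ⊗[k] D)ˣ where
  carrier := {x | (x : v.adicCompletion k ⊗[k] D) * starAt h v x = 1 ∧
    NrdOneAt K n v (x : v.adicCompletion k ⊗[k] D)}
  mul_mem' := by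
    rintro x y ⟨hx, hx'⟩ ⟨hy, hy'⟩
    refine ⟨?_, ?_⟩
    · rw [Units.val_mul, starAt_mul, mul_assoc, ← mul_assoc (y : v.adicCompletion k ⊗[k] D), hy,
        one_mul, hx]
    · intro Ω _ _ _ _ _ _ f
      rw [Units.val_mul, map_mul, Matrix.det_mul, hx' Ω f, hy' Ω f, one_mul]
  one_mem' := ⟨by rw [Units.val_one, starAt_one, one_mul], by
    intro Ω _ _ _ _ _ _ f
    rw [Units.val_one, map_one, Matrix.det_one]⟩
  inv_mem' := by
    rintro x ⟨hx, hx'⟩
    have h1 : starAt h v x = ((x⁻¹ : (v.adicCompletion k ⊗[k] D)ˣ) : v.adicCompletion k ⊗[k] D) := by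
      rw [← Units.mul_right_inj x, hx, Units.mul_inv]
    refine ⟨?_, ?_⟩
    · rw [← h1, starAt_starAt, h1, Units.inv_mul]
    · intro Ω _ _ _ _ _ _ f
      have h2 : (evAt v f (x : v.adicCompletion k ⊗[k] D)).det * (evAt v f
          ((x⁻¹ : (v.adicCompletion k ⊗[k] D)ˣ) : v.adicCompletion k ⊗[k] D)).det = 1 := by
        rw [← Matrix.det_mul, ← map_mul, Units.mul_inv, map_one, Matrix.det_one]
      rwa [hx' Ω f, one_mul] at h2

variable {K}

theorem mem_GAt {h : ∀ c : k, star (algebraMap k D c) = algebraMap k D c} {n : ℕ}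
    {v : HeightOneSpectrum (𝓞 k)} {x : (v.adicCompletion k ⊗[k] D)ˣ} : x ∈ GAt K h n v ↔
      (x : v.adicCompletion k ⊗[k] D) * starAt h v x = 1 ∧
        NrdOneAt K n v (x : v.adicCompletion k ⊗[k] D) := Iff.rfl

end

end Vale.Agent.P011.One
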