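import Vale.Agent.P011.Two.Refl
import Vale.Agent.P011.Two.Frames

/-!
Generation of the special unitary group of a hermitian form over a quadratic extension by the
powers of commutators of unitary elements.
-/

open Module Matrix
open Vale.Agent.P011.T2 Vale.Agent.P011.Even

namespace Vale.Agent.P011.One.Ns

open Vale.Agent.P011.Two Vale.Agent.P011.Two.Fr

section emb

variable {L : Type} [Field L] {m n : ℕ}

/-- The block embedding. -/
def emb (C : Matrix (Fin n) (Fin m) L) (R : Matrix (Fin m) (Fin n) L) (h : R * C = 1) :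
    Matrix (Fin m) (Fin m) L →* Matrix (Fin n) (Fin n) L where
  toFun M := 1 + C * (M - 1) * R
  map_one' := by rw [sub_self, Matrix.mul_zero, Matrix.zero_mul, add_zero]
  map_mul' M M' := by
    have h1 : C * (M - 1) * R * (C * (M' - 1) * R) = C * ((M - 1) * (M' - 1)) * R := by
      calc C * (M - 1) * R * (C * (M' - 1) * R) = C * (M - 1) * (R * C) * (M' - 1) * R := by
            simp only [Matrix.mul_assoc]
        _ = _ := by rw [h, Matrix.mul_one]; simp only [Matrix.mul_assoc]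
    have h2 : M * M' - 1 = (M - 1) + (M' - 1) + (M - 1) * (M' - 1) := by noncomm_ring
    rw [Matrix.add_mul, Matrix.mul_add, Matrix.mul_add, h1, h2, Matrix.one_mul, Matrix.one_mul,
      Matrix.mul_one, Matrix.mul_add, Matrix.mul_add, Matrix.add_mul, Matrix.add_mul]
    abel

variable [StarRing L]

/-- The unitary group of a matrix. -/
def UU (H : Matrix (Fin n) (Fin n) L) : Subgroup (Matrix (Fin n) (Fin n) L)ˣ where
  carrier := {T | (T : Matrix (Fin n) (Fin n) L) * H * (T : Matrix (Fin n) (Fin n) L)ᴴ = H}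
  mul_mem' := by
    intro S T hS hT
    have hS' : (S : Matrix (Fin n) (Fin n) L) * H * (S : Matrix (Fin n) (Fin n) L)ᴴ = H := hS
    have hT' : (T : Matrix (Fin n) (Fin n) L) * H * (T : Matrix (Fin n) (Fin n) L)ᴴ = H := hT
    change (S : Matrix (Fin n) (Fin n) L) * (T : Matrix (Fin n) (Fin n) L) * H *
      ((S : Matrix (Fin n) (Fin n) L) * (T : Matrix (Fin n) (Fin n) L))ᴴ = H
    rw [conjTranspose_mul]
    calc (S : Matrix (Fin n) (Fin n) L) * (T : Matrix (Fin n) (Fin n) L) * H *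
          ((T : Matrix (Fin n) (Fin n) L)ᴴ * (S : Matrix (Fin n) (Fin n) L)ᴴ)
        = S * ((T : Matrix (Fin n) (Fin n) L) * H * (T : Matrix (Fin n) (Fin n) L)ᴴ) *
          (S : Matrix (Fin n) (Fin n) L)ᴴ := by simp only [Matrix.mul_assoc]
      _ = H := by rw [hT', hS']
  one_mem' := by
    change (1 : Matrix (Fin n) (Fin n) L) * H * (1 : Matrix (Fin n) (Fin n) L)ᴴ = H
    rw [conjTranspose_one, Matrix.one_mul, Matrix.mul_one]
  inv_mem' := by
    intro T hT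
    have hT' : (T : Matrix (Fin n) (Fin n) L) * H * (T : Matrix (Fin n) (Fin n) L)ᴴ = H := hT
    change ((T⁻¹ : (Matrix (Fin n) (Fin n) L)ˣ) : Matrix (Fin n) (Fin n) L) * H *
      ((T⁻¹ : (Matrix (Fin n) (Fin n) L)ˣ) : Matrix (Fin n) (Fin n) L)ᴴ = H
    have h2 : (T : Matrix (Fin n) (Fin n) L)ᴴ *
        ((T⁻¹ : (Matrix (Fin n) (Fin n) L)ˣ) : Matrix (Fin n) (Fin n) L)ᴴ = 1 := by
      rw [← conjTranspose_mul, T.inv_mul, conjTranspose_one]
    calc ((T⁻¹ : (Matrix (Fin n) (Fin n) L)ˣ) : Matrix (Fin n) (Fin n) L) * H *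
          ((T⁻¹ : (Matrix (Fin n) (Fin n) L)ˣ) : Matrix (Fin n) (Fin n) L)ᴴ
        = ((T⁻¹ : (Matrix (Fin n) (Fin n) L)ˣ) : Matrix (Fin n) (Fin n) L) *
          ((T : Matrix (Fin n) (Fin n) L) * H * (T : Matrix (Fin n) (Fin n) L)ᴴ) *
          ((T⁻¹ : (Matrix (Fin n) (Fin n) L)ˣ) : Matrix (Fin n) (Fin n) L)ᴴ := by rw [hT']
      _ = (((T⁻¹ : (Matrix (Fin n) (Fin n) L)ˣ) : Matrix (Fin n) (Fin n) L) *
          (T : Matrix (Fin n) (Fin n) L)) * H * ((T : Matrix (Fin n) (Fin n) L)ᴴ *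
          ((T⁻¹ : (Matrix (Fin n) (Fin n) L)ˣ) : Matrix (Fin n) (Fin n) L)ᴴ) := by
        simp only [Matrix.mul_assoc]
      _ = H := by rw [T.inv_mul, h2, Matrix.one_mul, Matrix.mul_one]

theorem mem_UU {H : Matrix (Fin n) (Fin n) L} {T : (Matrix (Fin n) (Fin n) L)ˣ} :
    T ∈ UU H ↔ (T : Matrix (Fin n) (Fin n) L) * H * (T : Matrix (Fin n) (Fin n) L)ᴴ = H := Iff.rfl

theorem emb_unitary {H : Matrix (Fin n) (Fin n) L} (hH : Hᴴ = H)
    {C : Matrix (Fin n) (Fin m) L} {R : Matrix (Fin m) (Fin n) L} (h : R * C = 1)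
    {J : Matrix (Fin m) (Fin m) L} (hJ : C * J = H * Rᴴ) (hJs : Jᴴ = J)
    {M : Matrix (Fin m) (Fin m) L} (hM : M * J * Mᴴ = J) :
    emb C R h M * H * (emb C R h M)ᴴ = H := by
  have h1 : R * H = J * Cᴴ := by
    have := congrArg conjTranspose hJ
    rw [conjTranspose_mul, conjTranspose_mul, conjTranspose_conjTranspose, hH, hJs] at this
    exact this.symm
  have h2 : R * H * Rᴴ = J := by rw [Matrix.mul_assoc, ← hJ, ← Matrix.mul_assoc, h, Matrix.one_mul]
  obtain ⟨Q, hQ⟩ : ∃ Q, Q = M - 1 := ⟨_, rfl⟩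
  have hMQ : M = 1 + Q := by rw [hQ]; abel
  have h3 : Q * J + J * Qᴴ + Q * J * Qᴴ = 0 := by
    rw [hMQ, conjTranspose_add, conjTranspose_one] at hM
    have h4 : (1 + Q) * J * (1 + Qᴴ) = J + (Q * J + J * Qᴴ + Q * J * Qᴴ) := by noncomm_ring
    rw [h4] at hM
    exact add_eq_left.mp hM
  change (1 + C * (M - 1) * R) * H * (1 + C * (M - 1) * R)ᴴ = H
  rw [← hQ, conjTranspose_add, conjTranspose_one, conjTranspose_mul, conjTranspose_mul]
  have e1 : C * Q * R * H = C * Q * J * Cᴴ := by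
    rw [Matrix.mul_assoc (C * Q) R H, h1, ← Matrix.mul_assoc]
  have e2 : H * (Rᴴ * (Qᴴ * Cᴴ)) = C * J * Qᴴ * Cᴴ := by
    rw [← Matrix.mul_assoc, ← hJ]
    simp only [Matrix.mul_assoc]
  have e3 : C * Q * R * H * (Rᴴ * (Qᴴ * Cᴴ)) = C * Q * J * Qᴴ * Cᴴ := by
    rw [show C * Q * R * H * (Rᴴ * (Qᴴ * Cᴴ)) = C * Q * (R * H * Rᴴ) * Qᴴ * Cᴴ by
      simp only [Matrix.mul_assoc], h2]
  rw [Matrix.add_mul, Matrix.one_mul, Matrix.add_mul, Matrix.mul_add, Matrix.mul_add,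
    Matrix.mul_one, Matrix.mul_one, e2, e3, e1]
  have e4 : C * J * Qᴴ * Cᴴ + (C * Q * J * Cᴴ + C * Q * J * Qᴴ * Cᴴ) =
      C * (Q * J + J * Qᴴ + Q * J * Qᴴ) * Cᴴ := by
    simp only [Matrix.mul_add, Matrix.add_mul, Matrix.mul_assoc]
    abel
  rw [add_assoc, e4, h3, Matrix.mul_zero, Matrix.zero_mul, add_zero]

theorem emb_refl {H : Matrix (Fin n) (Fin n) L}
    {C : Matrix (Fin n) (Fin m) L} {R : Matrix (Fin m) (Fin n) L} (h : R * C = 1)
    {J : Matrix (Fin m) (Fin m) L} (hJ : C * J = H * Rᴴ) (a : Fin m → L) (θ : L) :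
    emb C R h (refl J a θ) = refl H (a ᵥ* R) θ := by
  have h2 : R * H * Rᴴ = J := by rw [Matrix.mul_assoc, ← hJ, ← Matrix.mul_assoc, h, Matrix.one_mul]
  have h3 : H *ᵥ star (a ᵥ* R) = C *ᵥ (J *ᵥ star a) := by
    rw [star_vecMul, mulVec_mulVec, mulVec_mulVec, hJ]
  have h4 : bh H (a ᵥ* R) (a ᵥ* R) = bh J a a := by
    unfold bh
    rw [star_vecMul, mulVec_mulVec, dotProduct_mulVec, vecMul_vecMul, ← Matrix.mul_assoc, h2,
      ← dotProduct_mulVec]
  change 1 + C * (refl J a θ - 1) * R = _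
  unfold Two.refl
  rw [h4, h3, add_sub_cancel_left, Matrix.mul_smul, Matrix.smul_mul, mul_vecMulVec, vecMulVec_mul]

theorem det_refl (H : Matrix (Fin n) (Fin n) L) {x : Fin n → L} (hx : bh H x x ≠ 0) (θ : L) :
    (refl H x θ).det = θ := by
  unfold Two.refl
  have h1 : ((θ - 1) / bh H x x) • vecMulVec (H *ᵥ star x) x =
      Matrix.replicateCol Unit (((θ - 1) / bh H x x) • (H *ᵥ star x)) *
        Matrix.replicateRow Unit x := by
    rw [← smul_vecMulVec]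
    exact Matrix.vecMulVec_eq Unit _ _
  rw [h1, Matrix.det_one_add_replicateCol_mul_replicateRow, dotProduct_smul]
  change 1 + (θ - 1) / bh H x x * bh H x x = θ
  rw [div_mul_cancel₀ _ hx]
  ring

end emb

section hyp2

variable {L : Type} [Field L]

/-- The hyperbolic plane. -/
def JJ (L : Type) [Field L] : Matrix (Fin 2) (Fin 2) L := !![0, 1; 1, 0]

/-- upper unipotent elements -/
def E12 (t : L) : (Matrix (Fin 2) (Fin 2) L)ˣ :=
  ⟨!![1, t; 0, 1], !![1, -t; 0, 1], by simp [Matrix.one_fin_two], by simp [Matrix.one_fin_two]⟩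

/-- lower unipotent elements -/
def E21 (t : L) : (Matrix (Fin 2) (Fin 2) L)ˣ :=
  ⟨!![1, 0; t, 1], !![1, 0; -t, 1], by simp [Matrix.one_fin_two], by simp [Matrix.one_fin_two]⟩

theorem E12_mul (s t : L) : E12 s * E12 t = E12 (s + t) := by
  apply Units.ext
  change (!![1, s; 0, 1] : Matrix (Fin 2) (Fin 2) L) * !![1, t; 0, 1] = !![1, s + t; 0, 1]
  simp [add_comm]

theorem E21_mul (s t : L) : E21 s * E21 t = E21 (s + t) := by
  apply Units.ext
  change (!![1, 0; s, 1] : Matrix (Fin 2) (Fin 2) L) * !![1, 0; t, 1] = !![1, 0; s + t, 1]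
  simp

theorem E12_zero : E12 (0 : L) = 1 := by
  apply Units.ext
  change (!![1, 0; 0, 1] : Matrix (Fin 2) (Fin 2) L) = 1
  rw [Matrix.one_fin_two]

theorem E21_zero : E21 (0 : L) = 1 := by
  apply Units.ext
  change (!![1, 0; 0, 1] : Matrix (Fin 2) (Fin 2) L) = 1
  rw [Matrix.one_fin_two]

theorem E12_pow (t : L) (e : ℕ) : E12 t ^ e = E12 (e * t) := by
  induction e with
  | zero => rw [pow_zero, Nat.cast_zero, zero_mul, E12_zero]
  | succ e ih => rw [pow_succ, ih, E12_mul, Nat.cast_succ, add_mul, one_mul]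

theorem E21_pow (t : L) (e : ℕ) : E21 t ^ e = E21 (e * t) := by
  induction e with
  | zero => rw [pow_zero, Nat.cast_zero, zero_mul, E21_zero]
  | succ e ih => rw [pow_succ, ih, E21_mul, Nat.cast_succ, add_mul, one_mul]

/-- the diagonal element -/
def D2 (a : L) (ha : a ≠ 0) : (Matrix (Fin 2) (Fin 2) L)ˣ :=
  ⟨!![a, 0; 0, a⁻¹], !![a⁻¹, 0; 0, a], by
    simp [Matrix.one_fin_two, mul_inv_cancel₀ ha, inv_mul_cancel₀ ha], by
    simp [Matrix.one_fin_two, mul_inv_cancel₀ ha, inv_mul_cancel₀ ha]⟩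

theorem D2_E12 (a : L) (ha : a ≠ 0) (t : L) :
    D2 a ha * E12 t * (D2 a ha)⁻¹ * (E12 t)⁻¹ = E12 ((a ^ 2 - 1) * t) := by
  apply Units.ext
  change (!![a, 0; 0, a⁻¹] : Matrix (Fin 2) (Fin 2) L) * !![1, t; 0, 1] * !![a⁻¹, 0; 0, a] *
    !![1, -t; 0, 1] = !![1, (a ^ 2 - 1) * t; 0, 1]
  ext i j
  fin_cases i <;> fin_cases j <;> simp <;> field_simp
  ring

theorem D2_E21 (a : L) (ha : a ≠ 0) (t : L) :
    (D2 a ha)⁻¹ * E21 t * (D2 a ha) * (E21 t)⁻¹ = E21 ((a ^ 2 - 1) * t) := by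
  apply Units.ext
  change (!![a⁻¹, 0; 0, a] : Matrix (Fin 2) (Fin 2) L) * !![1, 0; t, 1] * !![a, 0; 0, a⁻¹] *
    !![1, 0; -t, 1] = !![1, 0; (a ^ 2 - 1) * t, 1]
  ext i j
  fin_cases i <;> fin_cases j <;> simp <;> field_simp
  ring

variable [StarRing L]

theorem E12_mem {t : L} (ht : star t = -t) : E12 t ∈ UU (JJ L) := by
  change (!![1, t; 0, 1] : Matrix (Fin 2) (Fin 2) L) * !![0, 1; 1, 0] * (!![1, t; 0, 1])ᴴ =
    !![0, 1; 1, 0]
  ext i j
  fin_cases i <;> fin_cases j <;>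
    simp [Matrix.mul_apply, Fin.sum_univ_two, conjTranspose_apply, ht]

theorem E21_mem {t : L} (ht : star t = -t) : E21 t ∈ UU (JJ L) := by
  change (!![1, 0; t, 1] : Matrix (Fin 2) (Fin 2) L) * !![0, 1; 1, 0] * (!![1, 0; t, 1])ᴴ =
    !![0, 1; 1, 0]
  ext i j
  fin_cases i <;> fin_cases j <;>
    simp [Matrix.mul_apply, Fin.sum_univ_two, conjTranspose_apply, ht]

theorem D2_mem {a : L} (ha : a ≠ 0) (h : star a = a) : D2 a ha ∈ UU (JJ L) := by
  change (!![a, 0; 0, a⁻¹] : Matrix (Fin 2) (Fin 2) L) * !![0, 1; 1, 0] *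
    (!![a, 0; 0, a⁻¹])ᴴ = !![0, 1; 1, 0]
  have h' : star a⁻¹ = a⁻¹ := by rw [star_inv₀, h]
  ext i j
  fin_cases i <;> fin_cases j <;>
    simp [Matrix.mul_apply, Fin.sum_univ_two, conjTranspose_apply, h, ha]

/-- The special unitary group of the hyperbolic plane. -/
theorem hyp2 [CharZero L] {e : ℕ} (he : e ≠ 0) (Γ : Subgroup (Matrix (Fin 2) (Fin 2) L)ˣ)
    (hΓ : ∀ a ∈ UU (JJ L), ∀ b ∈ UU (JJ L), (a * b * a⁻¹ * b⁻¹) ^ e ∈ Γ)
    {θ₀ : L} (hθ₀ : θ₀ ≠ 0) (hθs : star θ₀ = -θ₀) (M : (Matrix (Fin 2) (Fin 2) L)ˣ)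
    (hM : M ∈ UU (JJ L)) (hd : (M : Matrix (Fin 2) (Fin 2) L).det = 1) : M ∈ Γ := by
  have he' : (e : L) ≠ 0 := Nat.cast_ne_zero.mpr he
  have h12 : ∀ t : L, star t = -t → E12 t ∈ Γ := by
    intro t ht
    have h1 := hΓ (D2 2 two_ne_zero) (D2_mem two_ne_zero (star_ofNat 2)) (E12 (t / (3 * e)))
      (E12_mem (by rw [star_div₀, ht, star_mul', star_ofNat, star_natCast, neg_div]))
    rw [D2_E12, E12_pow] at h1
    convert h1 using 2
    field_simp
    norm_num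
  have h21 : ∀ t : L, star t = -t → E21 t ∈ Γ := by
    intro t ht
    have h1 := hΓ (D2 2 two_ne_zero)⁻¹ ((UU (JJ L)).inv_mem (D2_mem two_ne_zero (star_ofNat 2)))
      (E21 (t / (3 * e)))
      (E21_mem (by rw [star_div₀, ht, star_mul', star_ofNat, star_natCast, neg_div]))
    rw [inv_inv, D2_E21, E21_pow] at h1
    convert h1 using 2
    field_simp
    norm_num
  -- the case of a nonzero lower left entry
  have main : ∀ M : (Matrix (Fin 2) (Fin 2) L)ˣ, M ∈ UU (JJ L) →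
      (M : Matrix (Fin 2) (Fin 2) L).det = 1 → (M : Matrix (Fin 2) (Fin 2) L) 1 0 ≠ 0 →
      M ∈ Γ := by
    intro M hM hd h10
    obtain ⟨p, hp⟩ : ∃ p, p = (M : Matrix (Fin 2) (Fin 2) L) 0 0 := ⟨_, rfl⟩
    obtain ⟨q, hq⟩ : ∃ q, q = (M : Matrix (Fin 2) (Fin 2) L) 0 1 := ⟨_, rfl⟩
    obtain ⟨r, hr⟩ : ∃ r, r = (M : Matrix (Fin 2) (Fin 2) L) 1 0 := ⟨_, rfl⟩
    obtain ⟨s, hs⟩ : ∃ s, s = (M : Matrix (Fin 2) (Fin 2) L) 1 1 := ⟨_, rfl⟩
    have hMM : (M : Matrix (Fin 2) (Fin 2) L) = !![p, q; r, s] := by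
      rw [hp, hq, hr, hs]
      exact Matrix.eta_fin_two _
    rw [← hr] at h10
    have hd' : p * s - q * r = 1 := by
      rw [hMM, Matrix.det_fin_two_of] at hd
      exact hd
    have hU : (M : Matrix (Fin 2) (Fin 2) L) * JJ L * (M : Matrix (Fin 2) (Fin 2) L)ᴴ = JJ L := hM
    rw [hMM] at hU
    have u00 := congrFun (congrFun hU 0) 0
    have u01 := congrFun (congrFun hU 0) 1
    have u10 := congrFun (congrFun hU 1) 0
    have u11 := congrFun (congrFun hU 1) 1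
    simp only [JJ, Matrix.mul_apply, Fin.sum_univ_two, conjTranspose_apply, Matrix.of_apply,
      Matrix.cons_val', Matrix.cons_val_zero, Matrix.cons_val_one, Matrix.cons_val_fin_one,
      mul_zero, mul_one, zero_add, add_zero] at u00 u01 u10 u11
    have hps : star p = p := by linear_combination (-r) * u00 + p * u10 - star p * hd'
    have hrs : star r = -r := by linear_combination (-r) * u01 + p * u11 - star r * hd'
    have hss : star s = s := by linear_combination s * u01 - q * u11 - star s * hd'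
    have e1 : M = E12 ((p - 1) / r) * E21 r * E12 ((s - 1) / r) := by
      apply Units.ext
      rw [hMM]
      change _ = (!![1, (p - 1) / r; 0, 1] : Matrix (Fin 2) (Fin 2) L) * !![1, 0; r, 1] *
        !![1, (s - 1) / r; 0, 1]
      ext i j
      fin_cases i <;> fin_cases j <;> simp <;> field_simp
      · ring
      · linear_combination -hd'
      · ring
    rw [e1]
    refine Γ.mul_mem (Γ.mul_mem (h12 _ ?_) (h21 _ hrs)) (h12 _ ?_)
    · rw [star_div₀, star_sub, star_one, hps, hrs, div_neg]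
    · rw [star_div₀, star_sub, star_one, hss, hrs, div_neg]
  by_cases h10 : (M : Matrix (Fin 2) (Fin 2) L) 1 0 ≠ 0
  · exact main M hM hd h10
  · rw [not_not] at h10
    have h1 : M * E21 θ₀ ∈ Γ := by
      refine main _ ((UU (JJ L)).mul_mem hM (E21_mem hθs)) ?_ ?_
      · change ((M : Matrix (Fin 2) (Fin 2) L) * !![1, 0; θ₀, 1]).det = 1
        rw [Matrix.det_mul, hd, Matrix.det_fin_two_of]
        ring
      · change ((M : Matrix (Fin 2) (Fin 2) L) * !![1, 0; θ₀, 1]) 1 0 ≠ 0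
        have h2 : (M : Matrix (Fin 2) (Fin 2) L) 1 1 ≠ 0 := by
          intro h
          rw [Matrix.det_fin_two, h10, h] at hd
          simp at hd
        rw [Matrix.mul_apply, Fin.sum_univ_two]
        simp [h10, h2, hθ₀]
    have h2 := Γ.mul_mem h1 (Γ.inv_mem (h21 θ₀ hθs))
    rwa [mul_inv_cancel_right] at h2

end hyp2

end Vale.Agent.P011.One.Ns
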