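import Vale.Agent.P011.One.LocSU

/-!
Generation of the special unitary group of a hermitian form over a quadratic extension by the
powers of commutators of unitary elements.
-/

open Module Matrix
open Vale.Agent.P011.T2 Vale.Agent.P011.Even

namespace Vale.Agent.P011.One.Ns

open Vale.Agent.P011.Two Vale.Agent.P011.Two.Fr

section

variable {L : Type} [Field L] [StarRing L] {n : ℕ}

theorem reflU_mem {H : Matrix (Fin n) (Fin n) L} (hH : Hᴴ = H) {x : Fin n → L}
    (hx : bh H x x ≠ 0) {θ : L} (hθ : θ * star θ = 1) : reflU H hx hθ ∈ UU H :=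
  refl_isometry hH hx hθ

theorem bh_vecMul' {H : Matrix (Fin n) (Fin n) L} {g : (Matrix (Fin n) (Fin n) L)ˣ}
    (hg : g ∈ UU H) (x y : Fin n → L) :
    bh H (x ᵥ* (g : Matrix (Fin n) (Fin n) L)) (y ᵥ* (g : Matrix (Fin n) (Fin n) L)) =
      bh H x y := bh_vecMul hg x y

/-- conjugates of quasi-reflections -/
theorem conj_refl {H : Matrix (Fin n) (Fin n) L}
    {g : (Matrix (Fin n) (Fin n) L)ˣ} (hg : g ∈ UU H) (x : Fin n → L) (θ : L) :
    refl H (x ᵥ* (g : Matrix (Fin n) (Fin n) L)) θ =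
      ((g⁻¹ : (Matrix (Fin n) (Fin n) L)ˣ) : Matrix (Fin n) (Fin n) L) * refl H x θ * g := by
  refine Matrix.ext_of_single_vecMul fun i => ?_
  have hgi := (UU H).inv_mem hg
  set y : Fin n → L := Pi.single i 1
  have h1 : bh H y (x ᵥ* (g : Matrix (Fin n) (Fin n) L)) =
      bh H (y ᵥ* ((g⁻¹ : (Matrix (Fin n) (Fin n) L)ˣ) : Matrix (Fin n) (Fin n) L)) x := by
    rw [← bh_vecMul' hgi y, vecMul_vecMul, g.mul_inv, vecMul_one]
  rw [← vecMul_vecMul, ← vecMul_vecMul, vecMul_refl, vecMul_refl, add_vecMul, smul_vecMul,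
    vecMul_vecMul, g.inv_mul, vecMul_one, bh_vecMul' hg, h1]

/-- The quasi-reflections depend only on the line. -/
theorem refl_smul (H : Matrix (Fin n) (Fin n) L) (hH : Hᴴ = H) (x : Fin n → L) {c : L}
    (hc : c ≠ 0) (θ : L) : refl H (c • x) θ = refl H x θ := by
  have hcs : star c ≠ 0 := star_ne_zero.mpr hc
  refine Matrix.ext_of_single_vecMul fun i => ?_
  have hr : ∀ y, bh H y (c • x) = star c * bh H y x := by
    intro y
    rw [← star_bh hH, bh_smul_left, star_mul', star_bh hH]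
  rw [vecMul_refl, vecMul_refl, hr, bh_smul_left, hr, smul_smul]
  congr 2
  by_cases hx : bh H x x = 0
  · rw [hx]; simp
  · field_simp

end

section main

variable {F L : Type} [Field F] [Field L] [CharZero L] [StarRing L] [Algebra F L] {d : F} {n : ℕ}
  {H : Matrix (Fin n) (Fin n) L} {e : ℕ}

omit [CharZero L] in
theorem simple_eq {T : Matrix (Fin n) (Fin n) L} {θ : L}
    (h : Simple F H T θ) : ∃ x, bh H x x ≠ 0 ∧ T = refl H x θ := by
  obtain ⟨P, α, i₀, hP, hPH, hPT⟩ := h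
  have hrow : ∀ i j, bh H (P i) (P j) = (P * H * Pᴴ) i j := by
    intro i j
    unfold bh
    rw [Matrix.mul_assoc, Matrix.mul_apply']
    congr 1
  have h0 : bh H (P i₀) (P i₀) ≠ 0 := by
    rw [hrow, hPH, diagonal_apply_eq]
    exact (_root_.map_ne_zero _).mpr (α i₀).ne_zero
  refine ⟨P i₀, h0, ?_⟩
  have h1 : P * T = P * refl H (P i₀) θ := by
    rw [hPT]
    funext i
    have h2 : ((diagonal (Function.update (1 : Fin n → L) i₀ θ) * P :
        Matrix (Fin n) (Fin n) L)) i = (Function.update (1 : Fin n → L) i₀ θ i) • P i := by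
      funext j
      rw [diagonal_mul]
      rfl
    have h3 : (P * refl H (P i₀) θ) i = (P i) ᵥ* refl H (P i₀) θ := rfl
    rw [h2, h3, vecMul_refl]
    by_cases hi : i = i₀
    · subst hi
      rw [Function.update_self, div_mul_cancel₀ _ h0, sub_smul, one_smul, add_sub_cancel]
    · have h5 : bh H (P i) (P i₀) = 0 := by rw [hrow, hPH, diagonal_apply_ne _ hi]
      rw [Function.update_of_ne hi, Pi.one_apply, one_smul, h5, mul_zero, zero_smul, add_zero]
  exact hP.mul_left_cancel h1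

/-- the subgroup contains the differences of quasi-reflections in hyperbolic planes -/
theorem plane (hQ : QuadL F L d) (hH : Hᴴ = H) (he : e ≠ 0)
    {Γ : Subgroup (Matrix (Fin n) (Fin n) L)ˣ}
    (hΓ : ∀ a ∈ UU H, ∀ b ∈ UU H, (a * b * a⁻¹ * b⁻¹) ^ e ∈ Γ)
    {z z' : Fin n → L} (h00 : bh H z z = 0) (h11 : bh H z' z' = 0) (h01 : bh H z z' = 1)
    {x y : Fin n → L} (hx : bh H x x ≠ 0) (hy : bh H y y ≠ 0) {a b : Fin 2 → L}
    (hxa : x = a ᵥ* Matrix.of ![z, z']) (hyb : y = b ᵥ* Matrix.of ![z, z']) {θ : L}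
    (hθ : θ * star θ = 1) : reflU H hx hθ * (reflU H hy hθ)⁻¹ ∈ Γ := by
  obtain ⟨θ₀, hθ₀, hθs, -⟩ := hQ.gen
  let R : Matrix (Fin 2) (Fin n) L := Matrix.of ![z, z']
  have hR : R * H * Rᴴ = JJ L := by
    have h10 : bh H z' z = 1 := by rw [← star_bh hH, h01, star_one]
    have hij : ∀ i j, (R * H * Rᴴ) i j = bh H (R i) (R j) := by
      intro i j
      unfold bh
      rw [Matrix.mul_assoc, Matrix.mul_apply']
      congr 1
    ext i j
    rw [hij]
    fin_cases i <;> fin_cases j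
    · exact h00
    · exact h01
    · exact h10
    · exact h11
  have hJJ : JJ L * JJ L = 1 := by
    rw [Matrix.one_fin_two]
    simp [JJ]
  have hJs : (JJ L)ᴴ = JJ L := by
    ext i j
    fin_cases i <;> fin_cases j <;> simp [JJ, conjTranspose_apply]
  let C : Matrix (Fin n) (Fin 2) L := H * Rᴴ * JJ L
  have hRC : R * C = 1 := by
    change R * (H * Rᴴ * JJ L) = 1
    rw [← Matrix.mul_assoc, ← Matrix.mul_assoc, hR, hJJ]
  have hCJ : C * JJ L = H * Rᴴ := by
    change H * Rᴴ * JJ L * JJ L = _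
    rw [Matrix.mul_assoc, hJJ, Matrix.mul_one]
  let E : (Matrix (Fin 2) (Fin 2) L)ˣ →* (Matrix (Fin n) (Fin n) L)ˣ := Units.map (emb C R hRC)
  have hE : ∀ M ∈ UU (JJ L), E M ∈ UU H := fun M hM => emb_unitary hH hRC hCJ hJs hM
  have hbh : ∀ c : Fin 2 → L, bh H (c ᵥ* R) (c ᵥ* R) = bh (JJ L) c c := by
    intro c
    unfold bh
    rw [star_vecMul, mulVec_mulVec, dotProduct_mulVec, vecMul_vecMul, ← Matrix.mul_assoc, hR,
      ← dotProduct_mulVec]
  have hxa' : bh (JJ L) a a ≠ 0 := by rw [← hbh, ← hxa]; exact hx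
  have hyb' : bh (JJ L) b b ≠ 0 := by rw [← hbh, ← hyb]; exact hy
  have e1 : reflU H hx hθ = E (reflU (JJ L) hxa' hθ) := by
    apply Units.ext
    change refl H x θ = emb C R hRC (refl (JJ L) a θ)
    rw [emb_refl hRC hCJ, hxa]
  have e2 : reflU H hy hθ = E (reflU (JJ L) hyb' hθ) := by
    apply Units.ext
    change refl H y θ = emb C R hRC (refl (JJ L) b θ)
    rw [emb_refl hRC hCJ, hyb]
  rw [e1, e2, ← map_inv, ← map_mul]
  change _ ∈ Γ.comap E
  refine hyp2 he (Γ.comap E) (fun s hs t ht => ?_) hθ₀ hθs _ ?_ ?_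
  · change E _ ∈ Γ
    rw [map_pow, map_mul, map_mul, map_mul, map_inv, map_inv]
    exact hΓ _ (hE s hs) _ (hE t ht)
  · exact (UU (JJ L)).mul_mem (reflU_mem hJs _ _) ((UU (JJ L)).inv_mem (reflU_mem hJs _ _))
  · have h1 : (reflU (JJ L) hyb' hθ)⁻¹ = reflU (JJ L) hyb' (θ := star θ) (by
        rw [star_star, mul_comm]; exact hθ) := by
      apply Units.ext
      rfl
    rw [h1]
    change (refl (JJ L) a θ * refl (JJ L) b (star θ)).det = 1
    rw [Matrix.det_mul, det_refl _ hxa', det_refl _ hyb', hθ]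

/-- the group generated by the powers of the commutators -/
def Ge (H : Matrix (Fin n) (Fin n) L) (e : ℕ) : Subgroup (Matrix (Fin n) (Fin n) L)ˣ :=
  Subgroup.closure {x | ∃ a ∈ UU H, ∃ b ∈ UU H, x = (a * b * a⁻¹ * b⁻¹) ^ e}

omit [CharZero L] in
theorem mem_Ge {a b : (Matrix (Fin n) (Fin n) L)ˣ} (ha : a ∈ UU H) (hb : b ∈ UU H) :
    (a * b * a⁻¹ * b⁻¹) ^ e ∈ Ge H e := by
  unfold Ge
  exact Subgroup.subset_closure ⟨a, ha, b, hb, rfl⟩

omit [CharZero L] in
theorem Ge_conj {u g : (Matrix (Fin n) (Fin n) L)ˣ} (hu : u ∈ UU H) (hg : g ∈ Ge H e) :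
    u * g * u⁻¹ ∈ Ge H e := by
  unfold Ge at hg ⊢
  induction hg using Subgroup.closure_induction with
  | mem x hx =>
    obtain ⟨a, ha, b, hb, rfl⟩ := hx
    refine Subgroup.subset_closure ⟨u * a * u⁻¹, (UU H).mul_mem ((UU H).mul_mem hu ha)
      ((UU H).inv_mem hu), u * b * u⁻¹, (UU H).mul_mem ((UU H).mul_mem hu hb)
      ((UU H).inv_mem hu), ?_⟩
    rw [← conj_pow]
    congr 1
    group
  | one => rw [mul_one, mul_inv_cancel]; exact Subgroup.one_mem _
  | mul x y _ _ hx hy =>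
    have := Subgroup.mul_mem _ hx hy
    rwa [show u * x * u⁻¹ * (u * y * u⁻¹) = u * (x * y) * u⁻¹ by group] at this
  | inv x _ hx =>
    have := Subgroup.inv_mem _ hx
    rwa [show (u * x * u⁻¹)⁻¹ = u * x⁻¹ * u⁻¹ by group] at this

/-- The special unitary group is contained in the group generated by powers of commutators if all
quasi-reflections are equivalent. -/
theorem mem_of_conn (hQ : QuadL F L d) (hH : Hᴴ = H) (hd : H.det ≠ 0)
    (hconn : ∀ (x y : Fin n → L) (hx : bh H x x ≠ 0) (hy : bh H y y ≠ 0) (θ : L)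
      (hθ : θ * star θ = 1), reflU H hx hθ * (reflU H hy hθ)⁻¹ ∈ Ge H e)
    {T : (Matrix (Fin n) (Fin n) L)ˣ} (hT : T ∈ UU H)
    (hT1 : (T : Matrix (Fin n) (Fin n) L).det = 1) {x₀ : Fin n → L} (hx₀ : bh H x₀ x₀ ≠ 0) :
    T ∈ Ge H e := by
  have hmul : ∀ (θ θ' : L) (h : θ * star θ = 1) (h' : θ' * star θ' = 1),
      (θ * θ') * star (θ * θ') = 1 := by
    intro θ θ' h h'
    rw [star_mul']
    linear_combination θ' * star θ' * h + h'
  have hinv : ∀ (θ : L) (h : θ * star θ = 1), star θ * star (star θ) = 1 := by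
    intro θ h
    rw [star_star, mul_comm]
    exact h
  let G' : Subgroup (Matrix (Fin n) (Fin n) L)ˣ :=
    { carrier := {T | ∃ g ∈ Ge H e, ∃ (θ : L) (hθ : θ * star θ = 1), T = g * reflU H hx₀ hθ}
      one_mem' := ⟨1, Subgroup.one_mem _, 1, by rw [star_one, one_mul], by
        rw [one_mul]
        apply Units.ext
        exact (refl_one H x₀).symm⟩
      mul_mem' := by
        rintro _ _ ⟨g, hg, θ, hθ, rfl⟩ ⟨g', hg', θ', hθ', rfl⟩
        refine ⟨g * (reflU H hx₀ hθ * g' * (reflU H hx₀ hθ)⁻¹),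
          Subgroup.mul_mem _ hg (Ge_conj (reflU_mem hH hx₀ hθ) hg'), θ * θ', hmul _ _ hθ hθ', ?_⟩
        have h1 : reflU H hx₀ (hmul _ _ hθ hθ') = reflU H hx₀ hθ * reflU H hx₀ hθ' := by
          apply Units.ext
          exact (refl_mul H hx₀ θ θ').symm
        rw [h1]
        group
      inv_mem' := by
        rintro _ ⟨g, hg, θ, hθ, rfl⟩
        refine ⟨(reflU H hx₀ hθ)⁻¹ * g⁻¹ * (reflU H hx₀ hθ), ?_, star θ, hinv _ hθ, ?_⟩
        · have := Ge_conj ((UU H).inv_mem (reflU_mem hH hx₀ hθ)) (Subgroup.inv_mem _ hg)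
          rwa [inv_inv] at this
        · have h1 : reflU H hx₀ (hinv _ hθ) = (reflU H hx₀ hθ)⁻¹ := by
            apply Units.ext
            rfl
          rw [h1]
          group }
  have h1 : T ∈ G' := by
    refine mem_of_simple hQ H hH hd G' ?_ T hT
    intro S θ hθ _ hS
    obtain ⟨x, hx, hSx⟩ := simple_eq hS
    have hS' : S = reflU H hx hθ := by
      apply Units.ext
      exact hSx
    exact ⟨_, hconn x x₀ hx hx₀ θ hθ, θ, hθ, by rw [hS', inv_mul_cancel_right]⟩
  obtain ⟨g, hg, θ, hθ, hgT⟩ := h1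
  have hdet : ∀ g ∈ Ge H e, (g : Matrix (Fin n) (Fin n) L).det = 1 := by
    intro g hg
    have h2 : Ge H e ≤ (Units.map (Matrix.detMonoidHom (n := Fin n) (R := L))).ker := by
      unfold Ge
      rw [Subgroup.closure_le]
      rintro _ ⟨a, -, b, -, rfl⟩
      rw [SetLike.mem_coe, MonoidHom.mem_ker, map_pow, map_mul, map_mul, map_mul, map_inv, map_inv]
      rw [mul_inv_cancel_comm, mul_inv_cancel, one_pow]
    have h3 := h2 hg
    rw [MonoidHom.mem_ker] at h3
    exact congrArg Units.val h3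
  have h2 : (T : Matrix (Fin n) (Fin n) L).det = θ := by
    rw [hgT, Units.val_mul, Matrix.det_mul, hdet g hg, one_mul]
    exact det_refl H hx₀ θ
  have h3 : θ = 1 := by rw [← h2, hT1]
  subst h3
  have h4 : reflU H hx₀ hθ = 1 := by
    apply Units.ext
    exact refl_one H x₀
  rw [hgT, h4, mul_one]
  exact hg

end main

end Vale.Agent.P011.One.Ns
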