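import Vale.Agent.P011.One.AdicDefs
import Mathlib.RingTheory.TensorProduct.Maps
import Mathlib.Topology.Algebra.Group.Basic

/-!
The groups of points of the special unitary group of rank one over the completions of `k`, and
their product `H_A`.
-/

open Module NumberField IsDedekindDomain TensorProduct Topology

namespace Vale.Agent.P011.One

variable (k D : Type) [Field k] [NumberField k] [DivisionRing D] [Algebra k D]
  (v : HeightOneSpectrum (𝓞 k))

/-- The completion `D_v = k_v ⊗ D` of `D` at a finite place `v` of `k`. -/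
def Dv : Type := v.adicCompletion k ⊗[k] D

noncomputable instance instRingDv : Ring (Dv k D v) := Algebra.TensorProduct.instRing

noncomputable instance instAlgebraDv : Algebra (v.adicCompletion k) (Dv k D v) :=
  Algebra.TensorProduct.leftAlgebra

/-- `D_v` has the natural topology of a finite-dimensional vector space over `k_v`. -/
noncomputable instance instTopDv : TopologicalSpace (Dv k D v) :=
  moduleTopology (v.adicCompletion k) (Dv k D v)

/-- The inclusion of `D` in `D_v`. -/
noncomputable def inDv : D →+* Dv k D v :=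
  (Algebra.TensorProduct.includeRight : D →ₐ[k] v.adicCompletion k ⊗[k] D).toRingHom

variable {k} {v} in
/-- The element `x` of `D_v` has reduced norm one: the determinant of the image of `x` is one under
every homomorphism of algebras over `k_v` from `D_v` to the `n × n` matrices over a field, where
`n` is the degree of `D`. -/
def NrdOne (n : ℕ) (x : Dv k D v) : Prop :=
  ∀ (Ω : Type) [Field Ω] [Algebra (v.adicCompletion k) Ω]
    (F : Dv k D v →ₐ[v.adicCompletion k] Matrix (Fin n) (Fin n) Ω), (F x).det = 1

variable {k} {v} in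
/-- The element `x` of `D_v` is unitary: `x σ(x) = 1` for the extension `σ` of the involution of
`D` to a linear map of `D_v` over `k_v`. -/
def IsUnitary [StarRing D] (x : Dv k D v) : Prop :=
  ∀ σ : Dv k D v →ₗ[v.adicCompletion k] Dv k D v,
    (∀ y : D, σ (inDv k D v y) = inDv k D v (star y)) → x * σ x = 1

section

variable {k D v}

theorem Dv_ind {P : Dv k D v → Prop} (h0 : P 0)
    (h1 : ∀ (a : v.adicCompletion k) (y : D), P (a • inDv k D v y))
    (h2 : ∀ x y, P x → P y → P (x + y)) (x : Dv k D v) : P x := by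
  refine TensorProduct.induction_on x h0 (fun a y => ?_) h2
  have h3 : a ⊗ₜ[k] y = a • ((1 : v.adicCompletion k) ⊗ₜ[k] y) := by
    rw [TensorProduct.smul_tmul', smul_eq_mul, mul_one]
  rw [h3]
  exact h1 a y

variable [StarRing D] {σ : Dv k D v →ₗ[v.adicCompletion k] Dv k D v}

theorem ext_mul (hσ : ∀ y : D, σ (inDv k D v y) = inDv k D v (star y)) (X Y : Dv k D v) :
    σ (X * Y) = σ Y * σ X := by
  induction X using Dv_ind with
  | h0 => rw [zero_mul, map_zero, mul_zero]
  | h1 a x =>
    induction Y using Dv_ind with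
    | h0 => rw [mul_zero, map_zero, zero_mul]
    | h1 b y =>
      rw [smul_mul_smul_comm, map_smul, map_smul, map_smul, smul_mul_smul_comm, ← map_mul, hσ, hσ,
        hσ, star_mul, map_mul, mul_comm a b]
    | h2 Y Y' h h' => rw [mul_add, map_add, h, h', map_add, add_mul]
  | h2 X X' h h' => rw [add_mul, map_add, h, h', map_add, mul_add]

theorem ext_ext (hσ : ∀ y : D, σ (inDv k D v y) = inDv k D v (star y)) (X : Dv k D v) :
    σ (σ X) = X := by
  induction X using Dv_ind with
  | h0 => rw [map_zero, map_zero]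
  | h1 a x => rw [map_smul, map_smul, hσ, hσ, star_star]
  | h2 X X' h h' => rw [map_add, map_add, h, h']

theorem ext_one (hσ : ∀ y : D, σ (inDv k D v y) = inDv k D v (star y)) : σ 1 = 1 := by
  have h := hσ 1
  rwa [star_one, map_one] at h

end

variable {k} [StarRing D]

/-- The group `G(k_v)` of the unitary elements of `D_v` of reduced norm one. -/
def Gv (n : ℕ) : Subgroup (Dv k D v)ˣ where
  carrier := {x | IsUnitary D (x : Dv k D v) ∧ NrdOne D n (x : Dv k D v)}
  mul_mem' := by
    rintro x y ⟨hx, hx'⟩ ⟨hy, hy'⟩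
    refine ⟨fun σ hσ => ?_, fun Ω _ _ F => ?_⟩
    · rw [Units.val_mul, ext_mul hσ, mul_assoc, ← mul_assoc (y : Dv k D v), hy σ hσ, one_mul,
        hx σ hσ]
    · rw [Units.val_mul, map_mul, Matrix.det_mul, hx' Ω F, hy' Ω F, one_mul]
  one_mem' := ⟨fun σ hσ => by rw [Units.val_one, ext_one hσ, one_mul], fun Ω _ _ F => by
    rw [Units.val_one, map_one, Matrix.det_one]⟩
  inv_mem' := by
    rintro x ⟨hx, hx'⟩
    refine ⟨fun σ hσ => ?_, fun Ω _ _ F => ?_⟩
    · have h1 : σ (x : Dv k D v) = ((x⁻¹ : (Dv k D v)ˣ) : Dv k D v) := by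
        rw [← Units.mul_right_inj x, hx σ hσ, Units.mul_inv]
      rw [← h1, ext_ext hσ, h1, Units.inv_mul]
    · have h2 : (F (x : Dv k D v)).det * (F ((x⁻¹ : (Dv k D v)ˣ) : Dv k D v)).det = 1 := by
        rw [← Matrix.det_mul, ← map_mul, Units.mul_inv, map_one, Matrix.det_one]
      rwa [hx' Ω F, one_mul] at h2

/-- The group `G(k_v)` as a type. -/
def GTop (n : ℕ) : Type := Gv D v n

noncomputable instance instGroupGTop (n : ℕ) : Group (GTop D v n) := Subgroup.toGroup (Gv D v n)

/-- `G(k_v)` has the topology of a subspace of the group of units of `D_v`. -/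
noncomputable instance instTopGTop (n : ℕ) : TopologicalSpace (GTop D v n) :=
  instTopologicalSpaceSubtype (X := (Dv k D v)ˣ)

variable {D v} in
/-- The element of `D_v` underlying an element of `G(k_v)`. -/
def GTop.val {n : ℕ} (x : GTop D v n) : Dv k D v := ((Subtype.val x : (Dv k D v)ˣ) : Dv k D v)

/-- The product `H_A` of the groups `G(k_v)`, `v` in `A`. -/
def HA (n : ℕ) (A : Set (HeightOneSpectrum (𝓞 k))) : Type := ∀ v : A, GTop D v.1 n

noncomputable instance instGroupHA (n : ℕ) (A : Set (HeightOneSpectrum (𝓞 k))) :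
    Group (HA D n A) := Pi.group

/-- `H_A` has the product topology. -/
noncomputable instance instTopHA (n : ℕ) (A : Set (HeightOneSpectrum (𝓞 k))) :
    TopologicalSpace (HA D n A) := Pi.topologicalSpace

variable {D} in
/-- The component at `v` of an element of `H_A`, as an element of `D_v`. -/
def HA.at {n : ℕ} {A : Set (HeightOneSpectrum (𝓞 k))} (x : HA D n A) (v : A) : Dv k D v.1 :=
  (x v).val

variable {D} {K Ω : Type} [Field K] [Algebra K D] [Field Ω] [Algebra K Ω] {n : ℕ}
  {f : D →ₐ[K] Matrix (Fin n) (Fin n) Ω} {A : Set (HeightOneSpectrum (𝓞 k))}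

/-- `δ` is the diagonal map of `G(k)` to `H_A`. -/
def IsDiagonal (δ : SUD f →* HA D n A) : Prop :=
  ∀ (g : SUD f) (v : A), (δ g).at v = inDv k D v.1 ((g : Dˣ) : D)

/-- The subgroup `N` of `G(k)` is the preimage under `δ` of an open subgroup `W` of `H_A`, which
is normal if `N` is normal. -/
def IsOpenPreimage (δ : SUD f →* HA D n A) (N : Subgroup (SUD f)) : Prop :=
  ∃ W : Subgroup (HA D n A), IsOpen (W : Set (HA D n A)) ∧ N = W.comap δ ∧ (N.Normal → W.Normal)

end Vale.Agent.P011.One
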