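import Vale.Agent.P011.One.HA
import Vale.Agent.P011.One.LocGroup
import Vale.Agent.P011.Even.LocFin

/-!
The diagonal map of the special unitary group of rank one to the product of the local groups.
-/

open Module NumberField IsDedekindDomain TensorProduct Topology

set_option linter.unusedSectionVars false

namespace Vale.Agent.P011.One

open Vale.Agent.P011.Arith Vale.Agent.P011.Even

variable {k K D : Type} [Field k] [NumberField k] [Field K] [DivisionRing D] [StarRing D]
  [Algebra k K] [Algebra k D] [Algebra K D] [IsScalarTower k K D] [FiniteDimensional K D]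
  [Algebra.IsCentral K D] {Ω : Type} [Field Ω] [Algebra K Ω] {n : ℕ}

theorem tmul_mem_GAt (h : ∀ c : k, star (algebraMap k D c) = algebraMap k D c)
    (hdeg : finrank K D = n ^ 2) (f : D →ₐ[K] Matrix (Fin n) (Fin n) Ω)
    (v : HeightOneSpectrum (𝓞 k)) {g : Dˣ} (hg : g ∈ SUD f) :
    Units.map (Algebra.TensorProduct.includeRight :
      D →ₐ[k] v.adicCompletion k ⊗[k] D).toRingHom.toMonoidHom g ∈
      GAt K h n v := by
  have : CharZero K := charZero_of_injective_algebraMap (algebraMap k K).injective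
  have hn : 0 < n := by
    rcases Nat.eq_zero_or_pos n with h0 | h0
    · rw [h0] at hdeg
      exact absurd hdeg (finrank_pos (R := K) (M := D)).ne'
    · exact h0
  have h1 : ((Units.map (Algebra.TensorProduct.includeRight :
      D →ₐ[k] v.adicCompletion k ⊗[k] D).toRingHom.toMonoidHom g :
        (v.adicCompletion k ⊗[k] D)ˣ) : v.adicCompletion k ⊗[k] D) = 1 ⊗ₜ[k] (g : D) := rfl
  rw [mem_GAt, h1]
  refine ⟨?_, ?_⟩
  · rw [starAt_tmul, Algebra.TensorProduct.tmul_mul_tmul, hg.1, mul_one]
    rfl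
  · intro L _ _ _ _ _ _ F
    rw [evAt_tmul, one_smul]
    have h2 := det_compare (Ω := Ω) (L := L) hn hdeg f F (g : D) (ν := 1) (by rw [hg.2, map_one])
    rw [h2, map_one]

/-- The diagonal map of the group `G(k)` to the product `H_A` of the groups `G(k_v)`, `v` in
`A`. -/
noncomputable def deltaA (h : ∀ c : k, star (algebraMap k D c) = algebraMap k D c)
    (hdeg : finrank K D = n ^ 2) (f : D →ₐ[K] Matrix (Fin n) (Fin n) Ω)
    (A : Set (HeightOneSpectrum (𝓞 k))) : SUD f →* ∀ v : A, GAt K h n v where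
  toFun g v := ⟨_, tmul_mem_GAt h hdeg f v g.2⟩
  map_one' := by
    funext v
    exact Subtype.ext (map_one _)
  map_mul' x y := by
    funext v
    exact Subtype.ext (map_mul _ _ _)

theorem deltaA_apply (h : ∀ c : k, star (algebraMap k D c) = algebraMap k D c)
    (hdeg : finrank K D = n ^ 2) (f : D →ₐ[K] Matrix (Fin n) (Fin n) Ω)
    (A : Set (HeightOneSpectrum (𝓞 k))) (g : SUD f) (v : A) :
    (((deltaA h hdeg f A g v : GAt K h n v) :
      ((v : HeightOneSpectrum (𝓞 k)).adicCompletion k ⊗[k] D)ˣ) :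
        (v : HeightOneSpectrum (𝓞 k)).adicCompletion k ⊗[k] D) = delta A ((g : Dˣ) : D) v := rfl

theorem GAt_inv {h : ∀ c : k, star (algebraMap k D c) = algebraMap k D c}
    {v : HeightOneSpectrum (𝓞 k)} {x : (v.adicCompletion k ⊗[k] D)ˣ} (hx : x ∈ GAt K h n v) :
    ((x⁻¹ : (v.adicCompletion k ⊗[k] D)ˣ) : v.adicCompletion k ⊗[k] D) =
      starAt h v (x : v.adicCompletion k ⊗[k] D) := by
  rw [← Units.mul_right_inj x, (mem_GAt.mp hx).1, Units.mul_inv]

/-- **The form of the conjecture**, from density of the rational points: an open subgroup of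
finite index is the preimage of an open subgroup of `H_A`. -/
theorem q1_form [FiniteDimensional k D] {M : ℕ} (B : Basis (Fin M) k D)
    (h : ∀ c : k, star (algebraMap k D c) = algebraMap k D c)
    (hdeg : finrank K D = n ^ 2) (f : D →ₐ[K] Matrix (Fin n) (Fin n) Ω)
    (A : Set (HeightOneSpectrum (𝓞 k)))
    (hd : ∀ (x : ∀ v : A, GAt K h n v) (ε : ℝ), 0 < ε → ∃ g : SUD f, ∀ (v : A) (i : Fin M),
      ‖(Algebra.TensorProduct.basis ((v : HeightOneSpectrum (𝓞 k)).adicCompletion k) B).repr
        (delta A ((g : Dˣ) : D) v -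
          (((x v : GAt K h n v) : ((v : HeightOneSpectrum (𝓞 k)).adicCompletion k ⊗[k] D)ˣ) :
            (v : HeightOneSpectrum (𝓞 k)).adicCompletion k ⊗[k] D)) i‖ < ε)
    (N : Subgroup (SUD f)) (hN : N.index ≠ 0)
    (hNo : IsOpen[adicTop A (SUD f)] (N : Set (SUD f))) :
    ∃ W : Subgroup (∀ v : A, GAt K h n v),
      IsOpen[haTop A fun v => GAt K h n v] (W : Set (∀ v : A, GAt K h n v)) ∧
        N = W.comap (deltaA h hdeg f A) ∧ (N.Normal → W.Normal) :=
  q1_of_isOpen B (deltaA h hdeg f A) (fun _ _ => rfl) (fun v => starAt h v)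
    (fun _ _ hx => GAt_inv hx) hd N hN hNo

end Vale.Agent.P011.One
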