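import Vale.Agent.P011.One.QDefs
import Vale.Agent.P011.One.QForm
import Vale.Agent.P011.One.HomScal

/-!
The two descriptions of the local groups, and the conjecture for the product `H_A`.
-/

open Module NumberField IsDedekindDomain TensorProduct Topology

set_option linter.unusedSectionVars false

namespace Vale.Agent.P011.One

open Vale.Agent.P011.Arith Vale.Agent.P011.Even

variable {k K D : Type} [Field k] [NumberField k] [Field K] [StarRing K] [DivisionRing D]
  [StarRing D] [Algebra k K] [Algebra k D] [Algebra K D] [IsScalarTower k K D] {d : kˣ} {s : K}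
  {Ω : Type} [Field Ω] [Algebra K Ω] {n : ℕ}

theorem ext_eq {h : ∀ c : k, star (algebraMap k D c) = algebraMap k D c}
    {v : HeightOneSpectrum (𝓞 k)} {σ : Dv k D v →ₗ[v.adicCompletion k] Dv k D v}
    (hσ : ∀ y : D, σ (inDv k D v y) = inDv k D v (star y)) (X : Dv k D v) :
    σ X = starAt h v X := by
  let τ : Dv k D v →ₗ[v.adicCompletion k] Dv k D v := starAt h v
  change σ X = τ X
  have hτ : ∀ y : D, τ (inDv k D v y) = inDv k D v (star y) := fun y => starAt_tmul h v 1 y
  induction X using Dv_ind with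
  | h0 => rw [map_zero, map_zero]
  | h1 a x => rw [map_smul, map_smul, hσ, hτ]
  | h2 X X' h h' => rw [map_add, map_add, h, h']

theorem mem_Gv_iff (hS : Setting k K D d s)
    (h : ∀ c : k, star (algebraMap k D c) = algebraMap k D c) (hdeg : finrank K D = n ^ 2)
    (v : HeightOneSpectrum (𝓞 k)) (x : (v.adicCompletion k ⊗[k] D)ˣ) :
    (show (Dv k D v)ˣ from x) ∈ Gv D v n ↔ x ∈ GAt K h n v := by
  constructor
  · rintro ⟨h1, h2⟩
    exact ⟨h1 (starAt h v) fun y => starAt_tmul h v 1 y, fun L _ _ _ _ _ _ f => h2 L (evAt v f)⟩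
  · rintro ⟨h1, h2⟩
    refine ⟨fun σ hσ => ?_, fun L _ _ F => ?_⟩
    · rw [ext_eq (h := h) hσ]
      exact h1
    let _ : Algebra k L :=
      ((algebraMap (v.adicCompletion k) L).comp (algebraMap k (v.adicCompletion k))).toAlgebra
    have ht : IsScalarTower k (v.adicCompletion k) L := IsScalarTower.of_algebraMap_eq fun _ => rfl
    let F' : v.adicCompletion k ⊗[k] D →ₐ[v.adicCompletion k] Matrix (Fin n) (Fin n) L := F
    let g : D →ₐ[k] Matrix (Fin n) (Fin n) L :=
      (F'.restrictScalars k).comp Algebra.TensorProduct.includeRight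
    obtain ⟨ι, hι⟩ := exists_scal hS hdeg g
    let _ : Algebra K L := ι.toRingHom.toAlgebra
    have ht' : IsScalarTower k K L := IsScalarTower.of_algebraMap_eq fun c => (ι.commutes c).symm
    let f : D →ₐ[K] Matrix (Fin n) (Fin n) L :=
      { g with
        commutes' := fun c => by
          refine (hι c).trans ?_
          rw [IsScalarTower.algebraMap_apply K L (Matrix (Fin n) (Fin n) L)]
          rfl }
    have h3 : evAt v f = F' := by
      apply Algebra.TensorProduct.ext'
      intro a y
      rw [evAt_tmul]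
      have h4 : a ⊗ₜ[k] y = a • ((1 : v.adicCompletion k) ⊗ₜ[k] y) := by
        rw [TensorProduct.smul_tmul', smul_eq_mul, mul_one]
      rw [h4, map_smul]
      rfl
    have h4 := h2 L f
    rw [h3] at h4
    exact h4

/-- The isomorphism of the two products. -/
def toHA (hS : Setting k K D d s) (h : ∀ c : k, star (algebraMap k D c) = algebraMap k D c)
    (hdeg : finrank K D = n ^ 2) (A : Set (HeightOneSpectrum (𝓞 k))) :
    (∀ v : A, GAt K h n (v : HeightOneSpectrum (𝓞 k))) →* HA D n A where
  toFun x := fun v => ⟨((x v : GAt K h n (v : HeightOneSpectrum (𝓞 k))) :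
    ((v : HeightOneSpectrum (𝓞 k)).adicCompletion k ⊗[k] D)ˣ),
      (mem_Gv_iff hS h hdeg v _).mpr (x v).2⟩
  map_one' := rfl
  map_mul' _ _ := rfl

def ofHA (hS : Setting k K D d s) (h : ∀ c : k, star (algebraMap k D c) = algebraMap k D c)
    (hdeg : finrank K D = n ^ 2) (A : Set (HeightOneSpectrum (𝓞 k))) :
    HA D n A →* ∀ v : A, GAt K h n (v : HeightOneSpectrum (𝓞 k)) where
  toFun x := fun v => ⟨(Subtype.val (show Gv D v.1 n from x v) : (Dv k D v.1)ˣ),
    (mem_Gv_iff hS h hdeg v _).mp (show Gv D v.1 n from x v).2⟩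
  map_one' := rfl
  map_mul' _ _ := rfl

theorem starAt_cont [FiniteDimensional k D]
    (h : ∀ c : k, star (algebraMap k D c) = algebraMap k D c) (v : HeightOneSpectrum (𝓞 k)) :
    Continuous (fun x : Dv k D v => (show Dv k D v from starAt h v x)) := by
  let σ : Dv k D v →ₗ[v.adicCompletion k] Dv k D v := starAt h v
  have h1 : IsModuleTopology (v.adicCompletion k) (Dv k D v) := ⟨rfl⟩
  have h2 : ContinuousAdd (Dv k D v) :=
    IsModuleTopology.toContinuousAdd (v.adicCompletion k) _
  exact IsModuleTopology.continuous_of_linearMap σ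

theorem continuous_toHA [FiniteDimensional k D] (hS : Setting k K D d s)
    (h : ∀ c : k, star (algebraMap k D c) = algebraMap k D c)
    (hdeg : finrank K D = n ^ 2) (A : Set (HeightOneSpectrum (𝓞 k))) :
    @Continuous _ _ (haTop A fun v => GAt K h n (v : HeightOneSpectrum (𝓞 k))) _
      (toHA hS h hdeg A) := by
  let _ : TopologicalSpace (∀ v : A, GAt K h n (v : HeightOneSpectrum (𝓞 k))) :=
    haTop A fun v => GAt K h n (v : HeightOneSpectrum (𝓞 k))
  have := hS.fin
  have := hS.cen
  have h0 : Continuous (fun (x : ∀ v : A, GAt K h n (v : HeightOneSpectrum (𝓞 k))) (v : A) =>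
      (show Dv k D (v : HeightOneSpectrum (𝓞 k)) from
        (((x v : GAt K h n (v : HeightOneSpectrum (𝓞 k))) :
          ((v : HeightOneSpectrum (𝓞 k)).adicCompletion k ⊗[k] D)ˣ) :
            (v : HeightOneSpectrum (𝓞 k)).adicCompletion k ⊗[k] D))) := continuous_induced_dom
  have h1 : ∀ v : A, Continuous fun x : ∀ v : A, GAt K h n (v : HeightOneSpectrum (𝓞 k)) =>
      (show Dv k D (v : HeightOneSpectrum (𝓞 k)) from
        (((x v : GAt K h n (v : HeightOneSpectrum (𝓞 k))) :
          ((v : HeightOneSpectrum (𝓞 k)).adicCompletion k ⊗[k] D)ˣ) :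
            (v : HeightOneSpectrum (𝓞 k)).adicCompletion k ⊗[k] D)) :=
    fun v => (continuous_apply v).comp h0
  refine continuous_pi fun v => continuous_induced_rng.mpr (Units.continuous_iff.mpr ⟨h1 v, ?_⟩)
  have h2 := (starAt_cont h (v : HeightOneSpectrum (𝓞 k))).comp (h1 v)
  have h3 : (fun x : ∀ v : A, GAt K h n (v : HeightOneSpectrum (𝓞 k)) =>
      (((Subtype.val (show Gv D v.1 n from toHA hS h hdeg A x v))⁻¹ : (Dv k D v.1)ˣ) :
        Dv k D v.1)) = _ := funext fun x => GAt_inv (x v).2
  exact h3 ▸ h2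

theorem continuous_ofHA (hS : Setting k K D d s)
    (h : ∀ c : k, star (algebraMap k D c) = algebraMap k D c)
    (hdeg : finrank K D = n ^ 2) (A : Set (HeightOneSpectrum (𝓞 k))) :
    @Continuous _ _ _ (haTop A fun v => GAt K h n (v : HeightOneSpectrum (𝓞 k)))
      (ofHA hS h hdeg A) := by
  have h0 : Continuous (fun (x : HA D n A) (v : A) => x.at v) := by
    refine continuous_pi fun v => ?_
    have h1 : Continuous fun x : HA D n A => (x v : GTop D v.1 n) :=
      @continuous_apply A (fun v : A => GTop D v.1 n) _ v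
    have h2 : Continuous fun x : GTop D v.1 n =>
        (Subtype.val (show Gv D v.1 n from x) : (Dv k D v.1)ˣ) :=
      continuous_induced_dom
    exact Units.continuous_val.comp (h2.comp h1)
  exact continuous_induced_rng.mpr h0

/-- **The form of the conjecture.** -/
theorem q1_std [FiniteDimensional k D] [FiniteDimensional K D] [Algebra.IsCentral K D]
    (hS : Setting k K D d s) {M : ℕ} (B : Basis (Fin M) k D)
    (h : ∀ c : k, star (algebraMap k D c) = algebraMap k D c)
    (hdeg : finrank K D = n ^ 2) (f : D →ₐ[K] Matrix (Fin n) (Fin n) Ω)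
    (A : Set (HeightOneSpectrum (𝓞 k)))
    (hd : ∀ (x : ∀ v : A, GAt K h n (v : HeightOneSpectrum (𝓞 k))) (ε : ℝ), 0 < ε →
      ∃ g : SUD f, ∀ (v : A) (i : Fin M),
      ‖(Algebra.TensorProduct.basis ((v : HeightOneSpectrum (𝓞 k)).adicCompletion k) B).repr
        (delta A ((g : Dˣ) : D) v -
          (((x v : GAt K h n v) : ((v : HeightOneSpectrum (𝓞 k)).adicCompletion k ⊗[k] D)ˣ) :
            (v : HeightOneSpectrum (𝓞 k)).adicCompletion k ⊗[k] D)) i‖ < ε) :
    ∃ δ : SUD f →* HA D n A, IsDiagonal δ ∧ DenseRange δ ∧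
      ∀ N : Subgroup (SUD f), N.index ≠ 0 → IsOpen[adicTop A (SUD f)] (N : Set (SUD f)) →
        IsOpenPreimage δ N := by
  refine ⟨(toHA hS h hdeg A).comp (deltaA h hdeg f A), fun _ _ => rfl, ?_, fun N hN hNo => ?_⟩
  · let _ : TopologicalSpace (∀ v : A, GAt K h n (v : HeightOneSpectrum (𝓞 k))) :=
      haTop A fun v => GAt K h n (v : HeightOneSpectrum (𝓞 k))
    have h1 : DenseRange (deltaA h hdeg f A) := denseRange_ha B (deltaA h hdeg f A)
      (fun _ _ => rfl) hd
    have h2 : Function.Surjective (toHA hS h hdeg A) := fun x => ⟨ofHA hS h hdeg A x, rfl⟩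
    exact h2.denseRange.comp h1 (continuous_toHA hS h hdeg A)
  · obtain ⟨W, hW, hNW, hnorm⟩ := q1_form B h hdeg f A hd N hN hNo
    refine ⟨W.comap (ofHA hS h hdeg A), ?_, hNW, fun hN => (hnorm hN).comap _⟩
    exact @IsOpen.preimage _ _ _ (haTop A fun v => GAt K h n (v : HeightOneSpectrum (𝓞 k)))
      _ (continuous_ofHA hS h hdeg A) _ hW

end Vale.Agent.P011.One
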