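import Vale.Agent.P011.Two.FrameTrans

/-!
Operators of rank one and quasi-reflections in a hermitian space of row vectors.
-/

open Matrix

set_option linter.unusedSectionVars false

namespace Vale.Agent.P011.One

open Vale.Agent.P011.Arith Vale.Agent.P011.Even Vale.Agent.P011.T2 Vale.Agent.P011.Two

namespace Rk

variable {L : Type} [Field L] [StarRing L] {n : ℕ} {H : Matrix (Fin n) (Fin n) L} (hH : Hᴴ = H)

/-- The operator `v ↦ h(v, x) y`. -/
def rk (H : Matrix (Fin n) (Fin n) L) (x y : Fin n → L) : Matrix (Fin n) (Fin n) L :=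
  Matrix.of fun i j => (∑ l, H i l * star (x l)) * y j

theorem vecMul_rk (v x y : Fin n → L) : v ᵥ* rk H x y = (rowHF H hH).h v x • y := by
  ext j
  rw [Matrix.vecMul, dotProduct, Pi.smul_apply, smul_eq_mul]
  change ∑ i, v i * ((∑ l, H i l * star (x l)) * y j) = (∑ i, ∑ l, v i * H i l * star (x l)) * y j
  rw [Finset.sum_mul]
  refine Finset.sum_congr rfl fun i _ => ?_
  rw [← mul_assoc, Finset.mul_sum]
  simp only [mul_assoc]

theorem mat_ext {S T : Matrix (Fin n) (Fin n) L} (h : ∀ v : Fin n → L, v ᵥ* S = v ᵥ* T) : S = T := by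
  ext i j
  have h1 := congrFun (h (Pi.single i 1)) j
  rwa [Matrix.single_one_vecMul, Matrix.single_one_vecMul] at h1

include hH in
theorem rk_mul_rk (x y x' y' : Fin n → L) :
    rk H x y * rk H x' y' = (rowHF H hH).h y x' • rk H x y' := by
  apply mat_ext
  intro v
  rw [← Matrix.vecMul_vecMul, vecMul_rk hH, vecMul_rk hH, Matrix.vecMul_smul, vecMul_rk hH,
    (rowHF H hH).smul_left, smul_smul, mul_comm]

/-- The adjoint operator. -/
noncomputable def adj (H : Matrix (Fin n) (Fin n) L) (T : Matrix (Fin n) (Fin n) L) :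
    Matrix (Fin n) (Fin n) L := H * Tᴴ * H⁻¹

variable (hHu : IsUnit H)

include hHu in
theorem hinv : H * H⁻¹ = 1 ∧ H⁻¹ * H = 1 := by
  have hd : IsUnit H.det := (Matrix.isUnit_iff_isUnit_det H).mp hHu
  exact ⟨Matrix.mul_nonsing_inv _ hd, Matrix.nonsing_inv_mul _ hd⟩

include hHu in
theorem adj_mul (S T : Matrix (Fin n) (Fin n) L) : adj H (S * T) = adj H T * adj H S := by
  obtain ⟨-, h2⟩ := hinv hHu
  unfold adj
  rw [Matrix.conjTranspose_mul]
  calc H * (Tᴴ * Sᴴ) * H⁻¹ = H * Tᴴ * 1 * Sᴴ * H⁻¹ := by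
        rw [Matrix.mul_one]; simp only [Matrix.mul_assoc]
    _ = _ := by rw [← h2]; simp only [Matrix.mul_assoc]

theorem adj_add (S T : Matrix (Fin n) (Fin n) L) : adj H (S + T) = adj H S + adj H T := by
  unfold adj
  rw [Matrix.conjTranspose_add, Matrix.mul_add, Matrix.add_mul]

theorem adj_smul (c : L) (T : Matrix (Fin n) (Fin n) L) : adj H (c • T) = star c • adj H T := by
  unfold adj
  rw [Matrix.conjTranspose_smul, Matrix.mul_smul, Matrix.smul_mul]

include hHu in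
theorem adj_one : adj H 1 = 1 := by
  unfold adj
  rw [Matrix.conjTranspose_one, Matrix.mul_one, (hinv hHu).1]

include hH hHu in
theorem adj_adj (T : Matrix (Fin n) (Fin n) L) : adj H (adj H T) = T := by
  obtain ⟨h1, h2⟩ := hinv hHu
  unfold adj
  rw [Matrix.conjTranspose_mul, Matrix.conjTranspose_mul, Matrix.conjTranspose_nonsing_inv, hH,
    Matrix.conjTranspose_conjTranspose]
  calc H * (H⁻¹ * (T * H)) * H⁻¹ = (H * H⁻¹) * T * (H * H⁻¹) := by simp only [Matrix.mul_assoc]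
    _ = T := by rw [h1, Matrix.one_mul, Matrix.mul_one]

/-- Values of the form in terms of matrices. -/
theorem h_eq (v w : Fin n → L) : (rowHF H hH).h v w = (v ᵥ* H) ⬝ᵥ star w := by
  change ∑ i, ∑ j, v i * H i j * star (w j) = ∑ j, (∑ i, v i * H i j) * star (w j)
  rw [Finset.sum_comm]
  refine Finset.sum_congr rfl fun j _ => ?_
  rw [Finset.sum_mul]

theorem h_vecMul (v w : Fin n → L) (T : Matrix (Fin n) (Fin n) L) :
    (rowHF H hH).h v (w ᵥ* T) = (v ᵥ* (H * Tᴴ)) ⬝ᵥ star w := by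
  rw [h_eq, Matrix.star_vecMul, Matrix.dotProduct_mulVec, Matrix.vecMul_vecMul]

include hHu in
theorem h_adj (v w : Fin n → L) (T : Matrix (Fin n) (Fin n) L) :
    (rowHF H hH).h (v ᵥ* adj H T) w = (rowHF H hH).h v (w ᵥ* T) := by
  rw [h_vecMul, h_eq, Matrix.vecMul_vecMul]
  congr 2
  unfold adj
  rw [Matrix.mul_assoc, (hinv hHu).2, Matrix.mul_one]

include hHu in
theorem h_adj' (v w : Fin n → L) (T : Matrix (Fin n) (Fin n) L) :
    (rowHF H hH).h (v ᵥ* T) w = (rowHF H hH).h v (w ᵥ* adj H T) := by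
  rw [← (rowHF H hH).star_h, ← h_adj hH hHu w v T, (rowHF H hH).star_h]

include hH hHu in
theorem adj_conj_rk (T : Matrix (Fin n) (Fin n) L) (x y : Fin n → L) :
    adj H T * rk H x y * T = rk H (x ᵥ* T) (y ᵥ* T) := by
  apply mat_ext
  intro v
  rw [← Matrix.vecMul_vecMul, ← Matrix.vecMul_vecMul, vecMul_rk hH, vecMul_rk hH,
    Matrix.smul_vecMul, h_adj hH hHu]

include hH hHu in
theorem adj_rk (x y : Fin n → L) : adj H (rk H x y) = rk H y x := by
  have hd : H.det ≠ 0 := ((Matrix.isUnit_iff_isUnit_det H).mp hHu).ne_zero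
  apply mat_ext
  intro v
  rw [vecMul_rk hH]
  have h1 : v ᵥ* adj H (rk H x y) - (rowHF H hH).h v y • x = 0 := by
    apply rowHF_nondeg H hH hd
    intro w
    rw [(rowHF H hH).sub_left, h_adj hH hHu, vecMul_rk hH, (rowHF H hH).smul_right,
      (rowHF H hH).smul_left, (rowHF H hH).star_h, sub_self]
  exact sub_eq_zero.mp h1

/-- The projection to a vector. -/
noncomputable def pr (hH : Hᴴ = H) (x : Fin n → L) : Matrix (Fin n) (Fin n) L :=
  ((rowHF H hH).h x x)⁻¹ • rk H x x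

theorem vecMul_pr (v x : Fin n → L) :
    v ᵥ* pr hH x = ((rowHF H hH).h v x / (rowHF H hH).h x x) • x := by
  rw [pr, Matrix.vecMul_smul, vecMul_rk hH, smul_smul, div_eq_inv_mul]

theorem pr_mul_pr (x y : Fin n → L) : pr hH x * pr hH y =
    (((rowHF H hH).h x x)⁻¹ * ((rowHF H hH).h y y)⁻¹ * (rowHF H hH).h x y) • rk H x y := by
  rw [pr, pr, Matrix.smul_mul, Matrix.mul_smul, rk_mul_rk hH, smul_smul, smul_smul]

theorem pr_idem {x : Fin n → L} (hx : (rowHF H hH).h x x ≠ 0) : pr hH x * pr hH x = pr hH x := by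
  rw [pr_mul_pr, mul_assoc, inv_mul_cancel₀ hx, mul_one, pr]

theorem pr_orth {x y : Fin n → L} (h : (rowHF H hH).h x y = 0) : pr hH x * pr hH y = 0 := by
  rw [pr_mul_pr, h, mul_zero, zero_smul]

theorem pr_pr_pr {x y : Fin n → L} (hx : (rowHF H hH).h x x ≠ 0)
    (hy : (rowHF H hH).h y y ≠ 0) : pr hH x * pr hH y * pr hH x =
    (((rowHF H hH).h x y * star ((rowHF H hH).h x y)) / ((rowHF H hH).h x x *
      (rowHF H hH).h y y)) • pr hH x := by
  rw [pr_mul_pr, pr, Matrix.smul_mul, Matrix.mul_smul, rk_mul_rk hH, smul_smul, smul_smul,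
    smul_smul, (rowHF H hH).star_h]
  congr 1
  field_simp

theorem pr_smul {x : Fin n → L} {c : L} (hc : c ≠ 0) (hx : (rowHF H hH).h x x ≠ 0) :
    pr hH (c • x) = pr hH x := by
  apply mat_ext
  intro v
  rw [vecMul_pr, vecMul_pr, (rowHF H hH).smul_right, (rowHF H hH).smul_left,
    (rowHF H hH).smul_right, smul_smul]
  congr 1
  have : star c ≠ 0 := star_ne_zero.mpr hc
  field_simp

include hHu in
theorem adj_pr (x : Fin n → L) : adj H (pr hH x) = pr hH x := by
  rw [pr, adj_smul, adj_rk hH hHu, star_inv₀, (rowHF H hH).star_h]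

include hHu in
/-- Conjugation of a projection by a unitary operator. -/
theorem adj_conj_pr {T : Matrix (Fin n) (Fin n) L} (hT : T * adj H T = 1) (x : Fin n → L) :
    adj H T * pr hH x * T = pr hH (x ᵥ* T) := by
  have h1 : (rowHF H hH).h (x ᵥ* T) (x ᵥ* T) = (rowHF H hH).h x x := by
    rw [← h_adj hH hHu, Matrix.vecMul_vecMul, hT, Matrix.vecMul_one]
  rw [pr, pr, Matrix.mul_smul, Matrix.smul_mul, adj_conj_rk hH hHu, h1]

/-- The quasi-reflection. -/
noncomputable def qr (hH : Hᴴ = H) (x : Fin n → L) (ζ : L) : Matrix (Fin n) (Fin n) L :=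
  1 + (ζ - 1) • pr hH x

theorem qr_def' (x : Fin n → L) (ζ : L) : qr hH x ζ = 1 + (ζ - 1) • pr hH x := rfl

include hHu in
theorem adj_qr (x : Fin n → L) (ζ : L) : adj H (qr hH x ζ) = qr hH x (star ζ) := by
  rw [qr, qr, adj_add, adj_one hHu, adj_smul, adj_pr hH hHu, star_sub, star_one]

theorem qr_mul_qr {x : Fin n → L} (hx : (rowHF H hH).h x x ≠ 0) (ζ ζ' : L) :
    qr hH x ζ * qr hH x ζ' = qr hH x (ζ * ζ') := by
  rw [qr, qr, qr, mul_add, mul_one, add_mul, one_mul, Matrix.smul_mul, Matrix.mul_smul,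
    pr_idem hH hx, smul_smul]
  have : (1 + (ζ - 1) • pr hH x + ((ζ' - 1) • pr hH x + ((ζ - 1) * (ζ' - 1)) • pr hH x)) =
    1 + ((ζ - 1) + (ζ' - 1) + (ζ - 1) * (ζ' - 1)) • pr hH x := by module
  rw [this]
  congr 2
  ring

theorem qr_one (x : Fin n → L) : qr hH x 1 = 1 := by
  rw [qr, sub_self, zero_smul, add_zero]

/-- Quasi-reflections become Cayley transforms after multiplication by a scalar. -/
theorem qr_unit [CharZero L] {x : Fin n → L} (hx : (rowHF H hH).h x x ≠ 0) {ζ ω : L}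
    (hω : ω * star ω = 1) (hω1 : ω ≠ 1) (hω2 : ω ≠ -1) :
    ∃ c : L, c * star c = 1 ∧ IsUnit (1 + c • qr hH x ζ) := by
  obtain ⟨c, hc, hc1, hc2⟩ : ∃ c : L, c * star c = 1 ∧ 1 + c ≠ 0 ∧ 1 + c * ζ ≠ 0 := by
    by_cases h : 1 + ζ = 0
    · refine ⟨ω, hω, fun h1 => hω2 (by linear_combination h1), fun h1 => hω1 ?_⟩
      have h2 : ζ = -1 := by linear_combination h
      rw [h2] at h1
      linear_combination -h1
    · exact ⟨1, by rw [star_one, mul_one], by norm_num, by rwa [one_mul]⟩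
  refine ⟨c, hc, ?_⟩
  have h1 : 1 + c • qr hH x ζ = (1 + c) • (1 : Matrix (Fin n) (Fin n) L) +
      (c * (ζ - 1)) • pr hH x := by
    rw [qr]; module
  obtain ⟨p, hp⟩ : ∃ p, p = pr hH x := ⟨_, rfl⟩
  have hpp : p * p = p := by rw [hp]; exact pr_idem hH hx
  rw [h1, ← hp]
  refine ⟨⟨_, (1 + c)⁻¹ • (1 - p) + (1 + c * ζ)⁻¹ • p, ?_, ?_⟩, rfl⟩
  · simp only [mul_add, add_mul, mul_sub, Matrix.smul_mul, Matrix.mul_smul, Matrix.mul_one,
      Matrix.one_mul, hpp]
    have e : ((1 + c)⁻¹ • (1 + c) • (1 : Matrix (Fin n) (Fin n) L) = 1) := by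
      rw [smul_smul, inv_mul_cancel₀ hc1, one_smul]
    match_scalars <;> field_simp
    ring
  · simp only [mul_add, add_mul, sub_mul, mul_sub, Matrix.smul_mul, Matrix.mul_smul,
      Matrix.mul_one, Matrix.one_mul, hpp]
    match_scalars <;> field_simp
    ring

/-- The quasi-reflection which maps `x` to `y`. -/
theorem exists_qr {x y : Fin n → L} (hxy : (rowHF H hH).h x x = (rowHF H hH).h y y)
    (he : (rowHF H hH).h (x - y) (x - y) ≠ 0) :
    ∃ ζ : L, ζ * star ζ = 1 ∧ x ᵥ* qr hH (x - y) ζ = y := by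
  obtain ⟨c, hc⟩ : ∃ c, c = (rowHF H hH).h x (x - y) := ⟨_, rfl⟩
  have h1 : (rowHF H hH).h (x - y) (x - y) = c + star c := by
    rw [hc, (rowHF H hH).star_h]
    simp only [(rowHF H hH).sub_left, (rowHF H hH).sub_right, ← hxy]
    ring
  have hc0 : c ≠ 0 := by
    rintro rfl
    apply he
    rw [h1, star_zero, add_zero]
  have hcs : star c ≠ 0 := star_ne_zero.mpr hc0
  refine ⟨-(star c) / c, ?_, ?_⟩
  · rw [star_div₀, star_neg, star_star]
    field_simp
  · rw [qr, Matrix.vecMul_add, Matrix.vecMul_one, Matrix.vecMul_smul, vecMul_pr, ← hc, h1,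
      smul_smul]
    have h2 : c + star c ≠ 0 := by rw [← h1]; exact he
    have h3 : (-(star c) / c - 1) * (c / (c + star c)) = -1 := by field_simp; ring
    rw [h3, neg_one_smul]
    abel

end Rk

end Vale.Agent.P011.One
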