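import Vale.Agent.P011.One.TopGen
import Vale.Agent.P011.Even.LocFin
import Vale.Agent.P011.W.SukAll

/-!
Elements of reduced norm one in a unitary group at a place which splits: approximation by words in
powers of commutators, abstract part.
-/

open Filter Topology Module TensorProduct NumberField

set_option linter.unusedSectionVars false

namespace Vale.Agent.P011.One

open Vale.Agent.P011.Arith Vale.Agent.P011.Even Vale.Agent.P011.Two

section units

/-- In a finite dimensional algebra over an infinite field, some multiple of a unit can be added to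
one. -/
theorem exists_shift {F A : Type} [Field F] [CharZero F] [Ring A] [Algebra F A]
    [FiniteDimensional F A] (a : Aˣ) :
    ∃ t : Aˣ, (∀ x : Aˣ, t * x = x * t) ∧ IsUnit (1 + ((t * a : Aˣ) : A)) := by
  classical
  have hint : IsIntegral F (-(a : A)) := Algebra.IsIntegral.isIntegral _
  have hp : minpoly F (-(a : A)) ≠ 0 := minpoly.ne_zero hint
  obtain ⟨z, hz⟩ : ∃ z : F, z ∉ insert (0 : F) (minpoly F (-(a : A))).roots.toFinset :=
    Infinite.exists_notMem_finset _
  rw [Finset.mem_insert, not_or, Multiset.mem_toFinset, Polynomial.mem_roots hp] at hz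
  obtain ⟨hz0, hz⟩ := hz
  have h1 : z ∉ spectrum F (-(a : A)) := by
    intro h
    apply hz
    have h2 := spectrum.subset_polynomial_aeval (-(a : A)) (minpoly F (-(a : A)))
      ⟨z, h, rfl⟩
    rw [minpoly.aeval] at h2
    rw [Polynomial.IsRoot.def]
    by_contra h3
    apply h2
    rw [spectrum.mem_resolventSet_iff, sub_zero]
    exact (isUnit_iff_ne_zero.mpr h3).map (algebraMap F A)
  rw [spectrum.notMem_iff, sub_neg_eq_add] at h1
  let w : Aˣ := Units.map (algebraMap F A : F →* A) (Units.mk0 z hz0)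
  have hw : ∀ x : Aˣ, w * x = x * w := fun x => Units.ext (Algebra.commutes _ _)
  refine ⟨w⁻¹, fun x => ?_, ?_⟩
  · rw [inv_mul_eq_iff_eq_mul, ← mul_assoc, hw x, mul_assoc, mul_inv_cancel, mul_one]
  · have h2 : 1 + ((w⁻¹ * a : Aˣ) : A) = ((w⁻¹ : Aˣ) : A) * (algebraMap F A z + a) := by
      rw [mul_add, Units.val_mul]
      congr 1
      exact (Units.inv_mul w).symm
    rw [h2]
    exact (Units.isUnit _).mul h1

end units

section comm

variable {K D Ω : Type} [Field K] [CharZero K] [FiniteDimensional ℚ K] [StarRing K]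
  [DivisionRing D] [CharZero D] [StarRing D] [FiniteDimensional ℚ D] [Algebra K D]
  [FiniteDimensional K D] [StarModule K D] [Algebra.IsCentral K D] [Field Ω] [Algebra K Ω]

/-- Unitary elements of reduced norm one are products of commutators in the division algebra. -/
theorem mem_commutator {n : ℕ} (hD : finrank K D = n ^ 2) (hne : ∃ z : K, star z ≠ z)
    (f : D →ₐ[K] Matrix (Fin n) (Fin n) Ω) {g : Dˣ} (hg : (g : D) * star (g : D) = 1)
    (hd : (f g).det = 1) : g ∈ commutator Dˣ := by
  classical
  obtain ⟨h, hh0, hh⟩ : ∃ h : D, h ≠ 0 ∧ h = (g : D) * star h := by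
    by_cases h1 : 1 + (g : D) = 0
    · obtain ⟨z, hz⟩ := hne
      have h2 : (g : D) = -1 := (neg_eq_of_add_eq_zero_right h1).symm
      refine ⟨algebraMap K D (z - star z), ?_, ?_⟩
      · rw [Ne, map_eq_zero, sub_eq_zero]
        exact fun h => hz h.symm
      · rw [h2, ← algebraMap_star_comm, star_sub, star_star, neg_one_mul, ← map_neg, neg_sub]
    · refine ⟨1 + g, h1, ?_⟩
      rw [star_add, star_one, mul_add, mul_one, hg, add_comm]
  have hs0 : star h ≠ 0 := star_ne_zero.mpr hh0
  let F0 : D → Abelianization Dˣ := fun z => if hz : z = 0 then 1 else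
    Abelianization.of (Units.mk0 z hz) *
      (Abelianization.of (Units.mk0 (star z) (star_ne_zero.mpr hz)))⁻¹
  have hF : ∀ (z : D) (hz : z ≠ 0), F0 z = Abelianization.of (Units.mk0 z hz) *
      (Abelianization.of (Units.mk0 (star z) (star_ne_zero.mpr hz)))⁻¹ := fun z hz => dif_neg hz
  have h1 : F0 h = 1 := by
    refine W.suk_all (K := K) F0 ?_ ?_ hD hne f hh0 ?_
    · intro a b ha hb
      rw [hF a ha, hF b hb, hF _ (mul_ne_zero ha hb)]
      have e1 : Units.mk0 (a * b) (mul_ne_zero ha hb) = Units.mk0 a ha * Units.mk0 b hb :=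
        Units.ext rfl
      have e2 : Units.mk0 (star (a * b)) (star_ne_zero.mpr (mul_ne_zero ha hb)) =
          Units.mk0 (star b) (star_ne_zero.mpr hb) * Units.mk0 (star a) (star_ne_zero.mpr ha) :=
        Units.ext (star_mul a b)
      rw [e1, e2, map_mul, map_mul, mul_inv_rev, mul_mul_mul_comm]
    · intro x hx hx'
      rw [hF x hx]
      have e1 : Units.mk0 (star x) (star_ne_zero.mpr hx) = Units.mk0 x hx := Units.ext hx'
      rw [e1, mul_inv_cancel]
    · have h2 : (f h).det = (f g).det * (f (star h)).det := by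
        rw [← Matrix.det_mul, ← map_mul, ← hh]
      rw [h2, hd, one_mul]
  rw [hF h hh0] at h1
  have h2 : Units.mk0 h hh0 = g * Units.mk0 (star h) hs0 := Units.ext hh
  rw [h2, map_mul, mul_inv_cancel_right] at h1
  rw [← Abelianization.ker_of, MonoidHom.mem_ker]
  exact h1

end comm

section bound

attribute [local instance] Matrix.linftyOpNormedRing Matrix.linftyOpNormedAlgebra

theorem complete_mat {F : Type} [NormedField F] [CompleteSpace F] (M : ℕ) :
    @CompleteSpace (Matrix (Fin M) (Fin M) F)
      (@PseudoMetricSpace.toUniformSpace _ (@SeminormedRing.toPseudoMetricSpace _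
        (@NormedRing.toSeminormedRing _ (Matrix.linftyOpNormedRing)))) :=
  (inferInstance : CompleteSpace (Fin M → Fin M → F))

variable {k K D F : Type} [Field k] [NumberField k] [Field K] [StarRing K] [DivisionRing D]
  [StarRing D] [Algebra k K] [Algebra k D] [Algebra K D] [IsScalarTower k K D] {d : kˣ} {s : K}
  [NormedField F] [CompleteSpace F] [Algebra K F]

theorem entry_le {M : ℕ} (A : Matrix (Fin M) (Fin M) F) (i j : Fin M) : ‖A i j‖ ≤ ‖A‖ := by
  rw [← coe_nnnorm, ← coe_nnnorm, NNReal.coe_le_coe, Matrix.linfty_opNNNorm_def]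
  refine (Finset.single_le_sum (f := fun j => ‖A i j‖₊) (fun _ _ => zero_le)
    (Finset.mem_univ j)).trans ?_
  exact Finset.le_sup (f := fun i => ∑ j : Fin M, ‖A i j‖₊) (Finset.mem_univ i)

/-- The regular representation over the local field. -/
noncomputable def kap {M : ℕ} (b : Basis (Fin M) K D) : D →+* Matrix (Fin M) (Fin M) F :=
  ((Algebra.leftMulMatrix (Algebra.TensorProduct.basis F b) :
    F ⊗[K] D →ₐ[F] Matrix (Fin M) (Fin M) F) : F ⊗[K] D →+* Matrix (Fin M) (Fin M) F).comp
    ((Algebra.TensorProduct.includeRight : D →ₐ[K] F ⊗[K] D) : D →+* F ⊗[K] D)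

theorem kap_smul {M : ℕ} (b : Basis (Fin M) K D) (c : K) (x : D) :
    (kap b (c • x) : Matrix (Fin M) (Fin M) F) = algebraMap K F c • kap b x := by
  have h1 : (1 : F) ⊗ₜ[K] (c • x) = algebraMap K F c • ((1 : F) ⊗ₜ[K] x) := by
    rw [← TensorProduct.smul_tmul, Algebra.smul_def, mul_one, TensorProduct.smul_tmul',
      smul_eq_mul, mul_one]
  change Algebra.leftMulMatrix (Algebra.TensorProduct.basis F b) ((1 : F) ⊗ₜ[K] (c • x)) =
    algebraMap K F c • Algebra.leftMulMatrix (Algebra.TensorProduct.basis F b) ((1 : F) ⊗ₜ[K] x)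
  rw [h1, map_smul]

/-- The coordinates are bounded by the regular representation. -/
theorem repr_le {M : ℕ} (b : Basis (Fin M) K D) : ∃ C : ℝ, 0 < C ∧ ∀ (x : D) (i : Fin M),
    ‖algebraMap K F (b.repr x i)‖ ≤ C * ‖(kap b x : Matrix (Fin M) (Fin M) F)‖ := by
  refine ⟨1 + ∑ j, ‖algebraMap K F (b.repr 1 j)‖, ?_, ?_⟩
  · have : 0 ≤ ∑ j, ‖algebraMap K F (b.repr 1 j)‖ := Finset.sum_nonneg fun _ _ => norm_nonneg _
    linarith
  · intro x i
    have h1 := Algebra.leftMulMatrix_mulVec_repr (Algebra.TensorProduct.basis F b)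
      ((1 : F) ⊗ₜ[K] x) ((1 : F) ⊗ₜ[K] (1 : D))
    have h2 : algebraMap K F (b.repr x i) =
        ∑ j, (kap b x : Matrix (Fin M) (Fin M) F) i j * algebraMap K F (b.repr 1 j) := by
      have h3 := congrFun h1 i
      rw [Algebra.TensorProduct.tmul_mul_tmul, mul_one, mul_one,
        Algebra.TensorProduct.basis_repr_tmul, Algebra.TensorProduct.basis_repr_tmul, one_smul,
        one_smul] at h3
      exact h3.symm
    rw [h2]
    calc ‖∑ j, (kap b x : Matrix (Fin M) (Fin M) F) i j * algebraMap K F (b.repr 1 j)‖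
        ≤ ∑ j, ‖(kap b x : Matrix (Fin M) (Fin M) F) i j * algebraMap K F (b.repr 1 j)‖ :=
          norm_sum_le _ _
      _ ≤ ∑ j, ‖(kap b x : Matrix (Fin M) (Fin M) F)‖ * ‖algebraMap K F (b.repr 1 j)‖ := by
          refine Finset.sum_le_sum fun j _ => ?_
          rw [norm_mul]
          exact mul_le_mul_of_nonneg_right (entry_le _ _ _) (norm_nonneg _)
      _ ≤ _ := by
          rw [← Finset.mul_sum, mul_comm]
          refine mul_le_mul_of_nonneg_right ?_ (norm_nonneg _)
          linarith

/-- Linear functionals are bounded by the regular representation. -/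
theorem lin_le {M : ℕ} (b : Basis (Fin M) K D) (L : D →ₗ[K] K) : ∃ C : ℝ, 0 < C ∧ ∀ x : D,
    ‖algebraMap K F (L x)‖ ≤ C * ‖(kap b x : Matrix (Fin M) (Fin M) F)‖ := by
  obtain ⟨C, hC, h⟩ := repr_le (F := F) b
  refine ⟨1 + C * ∑ j, ‖algebraMap K F (L (b j))‖, ?_, fun x => ?_⟩
  · have : 0 ≤ ∑ j, ‖algebraMap K F (L (b j))‖ := Finset.sum_nonneg fun _ _ => norm_nonneg _
    nlinarith [mul_nonneg hC.le this]
  · have h1 : algebraMap K F (L x) =
        ∑ j, algebraMap K F (b.repr x j) * algebraMap K F (L (b j)) := by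
      conv_lhs => rw [← b.sum_repr x]
      rw [map_sum, map_sum]
      refine Finset.sum_congr rfl fun j _ => ?_
      rw [map_smul, smul_eq_mul, map_mul]
    rw [h1]
    calc ‖∑ j, algebraMap K F (b.repr x j) * algebraMap K F (L (b j))‖
        ≤ ∑ j, ‖algebraMap K F (b.repr x j) * algebraMap K F (L (b j))‖ := norm_sum_le _ _
      _ ≤ ∑ j, (C * ‖(kap b x : Matrix (Fin M) (Fin M) F)‖) * ‖algebraMap K F (L (b j))‖ := by
          refine Finset.sum_le_sum fun j _ => ?_
          rw [norm_mul]
          exact mul_le_mul_of_nonneg_right (h x j) (norm_nonneg _)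
      _ ≤ _ := by
          rw [← Finset.mul_sum]
          nlinarith [norm_nonneg (kap b x : Matrix (Fin M) (Fin M) F)]

/-- The `K`-linear functional attached to a `k`-linear one. -/
noncomputable def lifK (hS : Setting k K D d s) (l : D →ₗ[k] k) : D →ₗ[K] K where
  toFun x := 2⁻¹ * (algebraMap k K (l x) + s⁻¹ * algebraMap k K (l (s • x)))
  map_add' x y := by
    rw [smul_add, map_add, map_add, map_add, map_add]
    ring
  map_smul' c x := by
    obtain ⟨a, b, rfl⟩ := hS.span c
    have e1 : (algebraMap k K a + algebraMap k K b * s) • x = a • x + b • (s • x) := by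
      rw [add_smul, mul_smul, algebraMap_smul, algebraMap_smul]
    have e2 : s • (a • x + b • (s • x)) = a • (s • x) + (b * d) • x := by
      rw [smul_add, smul_comm s a, smul_comm s b, smul_smul s s, ← sq, hS.sq, algebraMap_smul,
        mul_smul]
    have hs := hS.s_ne
    rw [e1, e2, map_add l, map_add l, l.map_smul, l.map_smul, l.map_smul, l.map_smul,
      RingHom.id_apply]
    simp only [smul_eq_mul, map_add, map_mul]
    have h3 : algebraMap k K (d : k) = s * s := by rw [← hS.sq, sq]
    rw [h3]
    field_simp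
    ring

theorem lifK_add (hS : Setting k K D d s) (l : D →ₗ[k] k) (x : D) :
    algebraMap k K (l x) = lifK hS l x + star (lifK hS l x) := by
  have : CharZero K := charZero_of_injective_algebraMap (algebraMap k K).injective
  have h1 : ∀ c : k, star (algebraMap k K c) = algebraMap k K c := fun c => (hS.fix _).mpr ⟨c, rfl⟩
  change algebraMap k K (l x) = 2⁻¹ * (algebraMap k K (l x) + s⁻¹ * algebraMap k K (l (s • x))) +
    star (2⁻¹ * (algebraMap k K (l x) + s⁻¹ * algebraMap k K (l (s • x))))
  rw [star_mul', star_add, star_mul', star_inv₀, star_inv₀, star_ofNat, h1, h1, hS.star_s]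
  have hs := hS.s_ne
  field_simp
  ring

/-- The functional composed with the involution on both sides. -/
noncomputable def strK (hS : Setting k K D d s) (L : D →ₗ[K] K) : D →ₗ[K] K where
  toFun y := star (L (star y))
  map_add' x y := by rw [star_add, map_add, star_add]
  map_smul' c x := by
    rw [hS.star_smul, map_smul, smul_eq_mul, star_mul', star_star, RingHom.id_apply, smul_eq_mul]

/-- Elements for which the regular representations of the element and of its conjugate are small
have small coordinates. -/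
theorem nm_small (hS : Setting k K D d s) {M : ℕ} (b : Basis (Fin M) K D) {N : ℕ}
    (B : Basis (Fin N) k D) (p : Pl k)
    (h3 : ∀ ε : ℝ, 0 < ε → ∃ δ : ℝ, 0 < δ ∧ ∀ c : k, ‖algebraMap K F (algebraMap k K c)‖ < δ →
      plAbv p c < ε) (ε : ℝ) (hε : 0 < ε) : ∃ δ : ℝ, 0 < δ ∧ ∀ x : D,
      ‖(kap b x : Matrix (Fin M) (Fin M) F)‖ < δ →
      ‖(kap b (star x) : Matrix (Fin M) (Fin M) F)‖ < δ → nm B p x < ε := by
  obtain ⟨δ, hδ, hδ'⟩ := h3 (ε / (N + 1)) (by positivity)
  have h4 : ∀ i : Fin N, ∃ C : ℝ, 0 < C ∧ ∀ x : D, ‖algebraMap K F (algebraMap k K (B.repr x i))‖ ≤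
      C * (‖(kap b x : Matrix (Fin M) (Fin M) F)‖ +
        ‖(kap b (star x) : Matrix (Fin M) (Fin M) F)‖) := by
    intro i
    obtain ⟨C, hC, hC'⟩ := lin_le (F := F) b (lifK hS (B.coord i))
    obtain ⟨C₁, hC₁, hC₁'⟩ := lin_le (F := F) b (strK hS (lifK hS (B.coord i)))
    refine ⟨C + C₁, by positivity, fun x => ?_⟩
    have h5 : algebraMap k K (B.repr x i) = lifK hS (B.coord i) x +
        strK hS (lifK hS (B.coord i)) (star x) := by
      have h6 := lifK_add hS (B.coord i) x
      rw [Basis.coord_apply] at h6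
      rw [h6]
      congr 1
      change _ = star (lifK hS (B.coord i) (star (star x)))
      rw [star_star]
    rw [h5, map_add]
    have h7 := hC' x
    have h8 := hC₁' (star x)
    have h9 := norm_nonneg (kap b x : Matrix (Fin M) (Fin M) F)
    have h10 := norm_nonneg (kap b (star x) : Matrix (Fin M) (Fin M) F)
    refine (norm_add_le _ _).trans ?_
    nlinarith [mul_nonneg hC.le h10, mul_nonneg hC₁.le h9]
  choose C hC hC' using h4
  have hsum : 0 ≤ ∑ i, C i := Finset.sum_nonneg fun i _ => (hC i).le
  refine ⟨δ / (2 * (1 + ∑ i, C i)), by positivity, fun x hx hx' => ?_⟩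
  have h5 : ∀ i, plAbv p (B.repr x i) < ε / (N + 1) := by
    intro i
    apply hδ'
    refine (hC' i x).trans_lt ?_
    have h6 : C i ≤ ∑ i, C i := Finset.single_le_sum (f := C) (fun j _ => (hC j).le)
      (Finset.mem_univ i)
    have h7 : ‖(kap b x : Matrix (Fin M) (Fin M) F)‖ +
        ‖(kap b (star x) : Matrix (Fin M) (Fin M) F)‖ < δ / (1 + ∑ i, C i) := by
      have : δ / (1 + ∑ i, C i) = δ / (2 * (1 + ∑ i, C i)) + δ / (2 * (1 + ∑ i, C i)) := by
        field_simp
        ring
      rw [this]
      exact add_lt_add hx hx'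
    have h8 : (1 + ∑ i, C i) * (δ / (1 + ∑ i, C i)) = δ := by field_simp
    have h9 := norm_nonneg (kap b x : Matrix (Fin M) (Fin M) F)
    have h10 := norm_nonneg (kap b (star x) : Matrix (Fin M) (Fin M) F)
    calc C i * (‖(kap b x : Matrix (Fin M) (Fin M) F)‖ +
        ‖(kap b (star x) : Matrix (Fin M) (Fin M) F)‖) ≤ (1 + ∑ i, C i) *
          (‖(kap b x : Matrix (Fin M) (Fin M) F)‖ +
          ‖(kap b (star x) : Matrix (Fin M) (Fin M) F)‖) :=
          mul_le_mul_of_nonneg_right (by linarith) (by positivity)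
      _ < (1 + ∑ i, C i) * (δ / (1 + ∑ i, C i)) := by
          refine mul_lt_mul_of_pos_left h7 (by positivity)
      _ = δ := h8
  have h11 : nm B p x ≤ N * (ε / (N + 1)) := by
    have : nm B p x ≤ ∑ _i : Fin N, ε / (N + 1) := Finset.sum_le_sum fun i _ => (h5 i).le
    rwa [Finset.sum_const, Finset.card_univ, Fintype.card_fin, nsmul_eq_mul] at this
  refine h11.trans_lt ?_
  rw [mul_div_assoc', div_lt_iff₀ (by positivity)]
  nlinarith

/-- The images of the skew elements are dense. -/
theorem skew_dense (hS : Setting k K D d s) {M : ℕ} (b : Basis (Fin M) K D)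
    (hden : DenseRange fun c : k => algebraMap K F (algebraMap k K c)) (a : F ⊗[K] D) :
    Algebra.leftMulMatrix (Algebra.TensorProduct.basis F b) a ∈
      closure ((kap b : D →+* Matrix (Fin M) (Fin M) F) '' {y | star y = -y}) := by
  have hchar : CharZero K := charZero_of_injective_algebraMap (algebraMap k K).injective
  have hcharF : CharZero F := charZero_of_injective_algebraMap (algebraMap K F).injective
  have h2 : (2 : F) ≠ 0 := two_ne_zero
  set C := closure ((kap b : D →+* Matrix (Fin M) (Fin M) F) '' {y | star y = -y}) with hC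
  have hθ : algebraMap K F s ≠ 0 := (map_ne_zero _).mpr hS.s_ne
  have hfix : ∀ c : k, star (algebraMap k K c) = algebraMap k K c :=
    fun c => (hS.fix _).mpr ⟨c, rfl⟩
  have step1 : ∀ x : D, (kap b x : Matrix (Fin M) (Fin M) F) ∈ C := by
    intro x
    obtain ⟨w, hw, hlim⟩ := mem_closure_iff_seq_limit.mp
      (hden.closure_range ▸ Set.mem_univ ((algebraMap K F s)⁻¹))
    choose u hu using hw
    have hw' : ∀ j, algebraMap K F (algebraMap k K (u j)) = w j := hu
    obtain ⟨c, hc⟩ : ∃ c : ℕ → K, ∀ j, c j = 2⁻¹ * (1 + algebraMap k K (u j) * s) :=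
      ⟨_, fun _ => rfl⟩
    have hc1 : ∀ j, algebraMap K F (c j) = 2⁻¹ * (1 + w j * algebraMap K F s) := by
      intro j
      rw [hc, map_mul, map_inv₀, map_ofNat, map_add, map_one, map_mul, hw']
    have hc2 : ∀ j, algebraMap K F (star (c j)) = 2⁻¹ * (1 - w j * algebraMap K F s) := by
      intro j
      rw [hc, star_mul', star_inv₀, star_ofNat, star_add, star_one, star_mul', hfix, hS.star_s,
        mul_neg, map_mul, map_inv₀, map_ofNat, map_add, map_one, map_neg, map_mul, hw',
        ← sub_eq_add_neg]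
    have l1 : Tendsto (fun j => algebraMap K F (c j)) atTop (𝓝 1) := by
      have := (tendsto_const_nhds (x := (1 : F)) (f := atTop (α := ℕ))).add
        (hlim.mul_const (algebraMap K F s))
      rw [inv_mul_cancel₀ hθ] at this
      have h3 := this.const_mul (2⁻¹ : F)
      rw [one_add_one_eq_two, inv_mul_cancel₀ h2] at h3
      exact h3.congr fun j => (hc1 j).symm
    have l2 : Tendsto (fun j => algebraMap K F (star (c j))) atTop (𝓝 0) := by
      have := (tendsto_const_nhds (x := (1 : F)) (f := atTop (α := ℕ))).sub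
        (hlim.mul_const (algebraMap K F s))
      rw [inv_mul_cancel₀ hθ, sub_self] at this
      have h3 := this.const_mul (2⁻¹ : F)
      rw [mul_zero] at h3
      exact h3.congr fun j => (hc2 j).symm
    have hl : Tendsto (fun j => (kap b (c j • x - star (c j • x)) : Matrix (Fin M) (Fin M) F))
        atTop (𝓝 (kap b x)) := by
      have h3 := (l1.smul_const (kap b x : Matrix (Fin M) (Fin M) F)).sub
        (l2.smul_const (kap b (star x) : Matrix (Fin M) (Fin M) F))
      rw [one_smul, zero_smul, sub_zero] at h3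
      refine h3.congr fun j => ?_
      rw [map_sub, hS.star_smul, kap_smul, kap_smul]
    refine mem_closure_of_tendsto hl (Eventually.of_forall fun j => ⟨_, ?_, rfl⟩)
    rw [Set.mem_ofPred_eq, star_sub, star_star, neg_sub]
  obtain ⟨f, hf⟩ : ∃ f : Fin M → F, f = (Algebra.TensorProduct.basis F b).repr a := ⟨_, rfl⟩
  have hρ : Algebra.leftMulMatrix (Algebra.TensorProduct.basis F b) a =
      ∑ i, f i • (kap b (b i) : Matrix (Fin M) (Fin M) F) := by
    conv_lhs => rw [← (Algebra.TensorProduct.basis F b).sum_repr a]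
    rw [map_sum]
    refine Finset.sum_congr rfl fun i _ => ?_
    rw [map_smul, hf, Algebra.TensorProduct.basis_apply]
    rfl
  rw [hρ]
  have hd2 : DenseRange (fun (c : Fin M → k) (i : Fin M) =>
      algebraMap K F (algebraMap k K (c i))) := DenseRange.piMap fun _ => hden
  have hcont : Continuous fun f : Fin M → F =>
      ∑ i, f i • (kap b (b i) : Matrix (Fin M) (Fin M) F) := by
    refine continuous_finsetSum _ fun i _ => ?_
    exact (continuous_apply i).smul continuous_const
  refine hd2.induction_on (p := fun f => ∑ i, f i • (kap b (b i) : Matrix (Fin M) (Fin M) F) ∈ C) f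
    (isClosed_closure.preimage hcont) fun c => ?_
  have h5 : ∑ i, algebraMap K F (algebraMap k K (c i)) •
      (kap b (b i) : Matrix (Fin M) (Fin M) F) = kap b (∑ i, algebraMap k K (c i) • b i) := by
    rw [map_sum]
    exact Finset.sum_congr rfl fun i _ => (kap_smul b _ _).symm
  rw [h5]
  exact step1 _

/-- **Approximation by words at a place which splits, when the algebra is a matrix algebra of degree
at least two there.** -/
theorem lt_split [NumberField K] [StarModule K D] [Algebra.IsCentral K D] [FiniteDimensional K D]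
    (hS : Setting k K D d s) {n : ℕ}
    (hdeg : finrank K D = n ^ 2) {Ω : Type} [Field Ω] [Algebra K Ω]
    (f : D →ₐ[K] Matrix (Fin n) (Fin n) Ω) {N : ℕ} (B : Basis (Fin N) k D) (p : Pl k)
    (hden : DenseRange fun c : k => algebraMap K F (algebraMap k K c))
    (h3 : ∀ ε : ℝ, 0 < ε → ∃ δ : ℝ, 0 < δ ∧ ∀ c : k, ‖algebraMap K F (algebraMap k K c)‖ < δ →
      plAbv p c < ε) {r : ℕ} (hr : 2 ≤ r) {E : Type} [DivisionRing E] [Algebra F E]
    (ψ : F ⊗[K] D ≃ₐ[F] Matrix (Fin r) (Fin r) E) {e : ℕ} (he : e ≠ 0) {g : D}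
    (hg : g * star g = 1) (hd : (f g).det = 1) : LT B p e g := by
  have hcharD : CharZero D := charZero_of_injective_algebraMap (algebraMap K D).injective
  have hcharF : CharZero F := charZero_of_injective_algebraMap (algebraMap K F).injective
  have hcharE : CharZero E := charZero_of_injective_algebraMap (algebraMap F E).injective
  have hfinQ : FiniteDimensional ℚ D := FiniteDimensional.trans ℚ K D
  have hne : ∃ z : K, star z ≠ z := by
    refine ⟨s, fun h => ?_⟩
    rw [hS.star_s] at h
    exact hS.s_ne (self_eq_neg.mp h.symm)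
  have hg0 : g ≠ 0 := left_ne_zero_of_mul_eq_one hg
  have hgs : star g * g = 1 := by
    have : star g = g⁻¹ := (inv_eq_of_mul_eq_one_right hg).symm
    rw [this, inv_mul_cancel₀ hg0]
  have hcomm : Units.mk0 g hg0 ∈ commutator Dˣ := mem_commutator hdeg hne f hg hd
  let b : Basis (Fin (finrank K D)) K D := Module.finBasis K D
  have hcs := complete_mat (F := F) (finrank K D)
  have key := comm_mem (e := e) (kap b : D →+* Matrix _ _ F)
    ((Algebra.leftMulMatrix (Algebra.TensorProduct.basis F b) :
      F ⊗[K] D →ₐ[F] Matrix _ _ F) : F ⊗[K] D →+* Matrix _ _ F)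
    (fun a => skew_dense hS b hden a) ?_ (fun a => exists_shift (F := F) a) ?_
    ((Algebra.TensorProduct.includeRight : D →ₐ[K] F ⊗[K] D) : D →+* F ⊗[K] D)
    (fun _ => rfl) hcomm
  · exact lt_of_mem (B := B) (p := p) _ (nm_small hS b B p h3) (g := Units.mk0 g hg0) hgs key
  · have : IsUnit (algebraMap F (F ⊗[K] D) 2) := (isUnit_iff_ne_zero.mpr two_ne_zero).map _
    rwa [map_ofNat] at this
  · exact pc_of_equiv (Units.mapEquiv (ψ : F ⊗[K] D ≃* Matrix (Fin r) (Fin r) E))
      (comm_le_pc hr he)

end bound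

end Vale.Agent.P011.One
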