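import Vale.Agent.P011.One.SplitAbs
import Vale.Agent.P011.One.Frob

/-!
Approximation by words in powers of commutators at the places of the ground field which split.
-/

open Filter Topology Module TensorProduct NumberField IsDedekindDomain Polynomial

set_option linter.unusedSectionVars false

namespace Vale.Agent.P011.One

open Vale.Agent.P011.Arith Vale.Agent.P011.Even Vale.Agent.P011.Two

section lift

variable {k K D : Type} [Field k] [NumberField k] [Field K] [StarRing K] [DivisionRing D]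
  [StarRing D] [Algebra k K] [Algebra k D] [Algebra K D] [IsScalarTower k K D] {d : kˣ} {s : K}

/-- An embedding of the quadratic extension in a field which contains the square root. -/
theorem exists_lift (hS : Setting k K D d s) {F : Type} [Field F] [Algebra k F] {θ : F}
    (hθ : θ ^ 2 = algebraMap k F (d : k)) : ∃ φ : K →ₐ[k] F, φ s = θ := by
  have hirr : Irreducible (X ^ 2 - C (d : k) : k[X]) := by
    rw [Polynomial.irreducible_iff_roots_eq_zero_of_degree_le_three]
    · rw [Multiset.eq_zero_iff_forall_notMem]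
      intro z hz
      have hz' := (mem_roots'.mp hz).2
      rw [IsRoot.def, eval_sub, eval_pow, eval_X, eval_C, sub_eq_zero] at hz'
      exact hS.ns ⟨z, by rw [← hz', sq]⟩
    · rw [natDegree_X_pow_sub_C]
    · rw [natDegree_X_pow_sub_C]; norm_num
  have := Fact.mk hirr
  let i : AdjoinRoot (X ^ 2 - C (d : k) : k[X]) →ₐ[k] K := AdjoinRoot.liftAlgHom _
    (Algebra.ofId k K) s (by
      rw [eval₂_sub, eval₂_pow, eval₂_X, eval₂_C]
      change s ^ 2 - algebraMap k K (d : k) = 0
      rw [hS.sq, sub_self])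
  have hroot : i (AdjoinRoot.root _) = s := AdjoinRoot.liftAlgHom_root _ _ _ _
  have hi : Function.Bijective i := by
    refine ⟨i.toRingHom.injective, fun x => ?_⟩
    obtain ⟨a, b, rfl⟩ := hS.span x
    refine ⟨algebraMap k _ a + algebraMap k _ b * AdjoinRoot.root _, ?_⟩
    rw [map_add, map_mul, i.commutes, i.commutes]
    rw [hroot]
  let j : AdjoinRoot (X ^ 2 - C (d : k) : k[X]) →ₐ[k] F := AdjoinRoot.liftAlgHom _
    (Algebra.ofId k F) θ (by
      rw [eval₂_sub, eval₂_pow, eval₂_X, eval₂_C]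
      change θ ^ 2 - algebraMap k F (d : k) = 0
      rw [hθ, sub_self])
  let ψ := AlgEquiv.ofBijective i hi
  refine ⟨j.comp (ψ.symm : K →ₐ[k] AdjoinRoot (X ^ 2 - C (d : k) : k[X])), ?_⟩
  have h1 : ψ.symm s = AdjoinRoot.root _ := by
    rw [AlgEquiv.symm_apply_eq]
    exact hroot.symm
  change j (ψ.symm s) = θ
  rw [h1]
  exact AdjoinRoot.liftAlgHom_root _ _ _ _

end lift

section places

variable {k K D : Type} [Field k] [NumberField k] [Field K] [NumberField K] [StarRing K]
  [DivisionRing D] [StarRing D] [Algebra k K] [Algebra k D] [Algebra K D] [IsScalarTower k K D]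
  [StarModule K D] [Algebra.IsCentral K D] [FiniteDimensional K D]
  {d : kˣ} {s : K}

/-- The finite places of `k` at which `K` splits and `D` remains a division algebra. -/
def Tdiv (k K D : Type) [Field k] [NumberField k] [Field K] [DivisionRing D] [Algebra k K]
    [Algebra K D] : Set (Pl k) :=
  {p | ∃ v : HeightOneSpectrum (𝓞 k), p = Sum.inl v ∧ ∃ φ : K →ₐ[k] v.adicCompletion k,
    letI := (φ : K →+* v.adicCompletion k).toAlgebra
    ∀ x : v.adicCompletion k ⊗[K] D, x ≠ 0 → IsUnit x}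

theorem two_le_of_not_unit {A E : Type} [Ring A] [DivisionRing E] {r : ℕ} [NeZero r]
    (ψ : A ≃+* Matrix (Fin r) (Fin r) E) (h : ∃ x : A, x ≠ 0 ∧ ¬ IsUnit x) : 2 ≤ r := by
  by_contra hr
  have hr1 : r = 1 := by
    have := NeZero.ne r
    omega
  subst hr1
  obtain ⟨x, hx, hxu⟩ := h
  apply hxu
  have h0 : ψ x ≠ 0 := (map_ne_zero_iff ψ ψ.injective).mpr hx
  have h1 : ψ x 0 0 ≠ 0 := by
    intro h
    apply h0
    ext i j
    rw [Subsingleton.elim i 0, Subsingleton.elim j 0, h]
    rfl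
  have h2 : IsUnit (ψ x) := by
    refine ⟨⟨ψ x, Matrix.of fun _ _ => (ψ x 0 0)⁻¹, ?_, ?_⟩, rfl⟩
    · ext i j
      rw [Subsingleton.elim i 0, Subsingleton.elim j 0, Matrix.mul_apply]
      simp [h1]
    · ext i j
      rw [Subsingleton.elim i 0, Subsingleton.elim j 0, Matrix.mul_apply]
      simp [h1]
  have h3 := h2.map ψ.symm
  rwa [ψ.symm_apply_apply] at h3

/-- **Finite places which split.** -/
theorem lt_split_fin (hS : Setting k K D d s) {n : ℕ} (hdeg : finrank K D = n ^ 2) {Ω : Type}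
    [Field Ω] [Algebra K Ω] (f : D →ₐ[K] Matrix (Fin n) (Fin n) Ω) {N : ℕ}
    (B : Basis (Fin N) k D) (v : HeightOneSpectrum (𝓞 k)) (hv : d ∈ LS (v.valuation k))
    (hT : (Sum.inl v : Pl k) ∉ Tdiv k K D) {e : ℕ} (he : e ≠ 0) {g : D}
    (hg : g * star g = 1) (hd : (f g).det = 1) : LT B (Sum.inl v) e g := by
  obtain ⟨θ, hθ⟩ := (isSquare_iff v d).mpr hv
  obtain ⟨φ, -⟩ := exists_lift hS (F := v.adicCompletion k) (θ := θ) (by rw [hθ, sq])
  let _ : Algebra K (v.adicCompletion k) := (φ : K →+* v.adicCompletion k).toAlgebra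
  have hφ : ∀ c : k, algebraMap K (v.adicCompletion k) (algebraMap k K c) =
      algebraMap k (v.adicCompletion k) c := fun c => φ.commutes c
  obtain ⟨r, hr0, E, _, _, _, _, ψ, -⟩ := P011S.exists_wed (E := v.adicCompletion k) hdeg
  have hnu : ∃ x : v.adicCompletion k ⊗[K] D, x ≠ 0 ∧ ¬ IsUnit x := by
    by_contra hcon
    push Not at hcon
    exact hT ⟨v, rfl, φ, hcon⟩
  have hr := two_le_of_not_unit (ψ : v.adicCompletion k ⊗[K] D ≃+* Matrix (Fin r) (Fin r) E) hnu
  refine lt_split hS hdeg f B (Sum.inl v) ?_ ?_ hr ψ he hg hd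
  · rw [funext hφ]
    exact HeightOneSpectrum.denseRange_algebraMap k v
  · intro ε hε
    refine ⟨ε, hε, fun c hc => ?_⟩
    have h1 : plAbv (Sum.inl v) c = ‖algebraMap k (v.adicCompletion k) c‖ := by
      rw [norm_eq, valued_alg]
      rfl
    rw [h1, ← hφ]
    exact hc

/-- **Real places which split.** -/
theorem lt_split_real (hS : Setting k K D d s) {n : ℕ} (hn : 2 < n) (hdeg : finrank K D = n ^ 2)
    {Ω : Type} [Field Ω] [Algebra K Ω] (f : D →ₐ[K] Matrix (Fin n) (Fin n) Ω) {N : ℕ}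
    (B : Basis (Fin N) k D) (τ : k →+* ℝ) (hτ : 0 < τ d) {e : ℕ} (he : e ≠ 0) {g : D}
    (hg : g * star g = 1) (hd : (f g).det = 1) : LT B (Sum.inr τ) e g := by
  let _ : Algebra k ℝ := τ.toAlgebra
  obtain ⟨φ, -⟩ := exists_lift hS (F := ℝ) (θ := √(τ d)) (Real.sq_sqrt hτ.le)
  let _ : Algebra K ℝ := (φ : K →+* ℝ).toAlgebra
  have hφ : ∀ c : k, algebraMap K ℝ (algebraMap k K c) = τ c := fun c => φ.commutes c
  obtain ⟨r, hr0, E, _, _, _, _, ψ, hψ⟩ := P011S.exists_wed (E := ℝ) hdeg
  have hr : 2 ≤ r := by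
    by_contra hr
    have hr1 : r = 1 := by
      have := NeZero.ne r
      omega
    subst hr1
    have h4 : finrank ℝ E ≤ 4 := finrank_le_four
    nlinarith
  refine lt_split hS hdeg f B (Sum.inr τ) ?_ ?_ hr ψ he hg hd
  · rw [funext hφ]
    refine Dense.mono ?_ (Rat.denseRange_cast (𝕜 := ℝ))
    rintro _ ⟨q, rfl⟩
    exact ⟨(q : k), map_ratCast τ q⟩
  · intro ε hε
    refine ⟨ε, hε, fun c hc => ?_⟩
    rw [plAbv_inr, ← Real.norm_eq_abs, ← hφ]
    exact hc

/-- **All places which split and at which the algebra is not a division algebra.** -/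
theorem lt_split_all (hS : Setting k K D d s) {n : ℕ} (hn : 2 < n) (hdeg : finrank K D = n ^ 2)
    {Ω : Type} [Field Ω] [Algebra K Ω] (f : D →ₐ[K] Matrix (Fin n) (Fin n) Ω) {N : ℕ}
    (B : Basis (Fin N) k D) {p : Pl k} (hp : d ∈ LSp p) (hT : p ∉ Tdiv k K D) {e : ℕ} (he : e ≠ 0)
    {g : D} (hg : g * star g = 1) (hd : (f g).det = 1) : LT B p e g := by
  rcases p with v | τ
  · exact lt_split_fin hS hdeg f B v hp hT he hg hd
  · exact lt_split_real hS hn hdeg f B τ hp he hg hd

end places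

end Vale.Agent.P011.One
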