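import Vale.Agent.P011.One.Cayley

/-!
One step in the space of the symmetric elements of square `a`: integrality and the choice of the
scalar.
-/

open NumberField IsDedekindDomain Filter Topology

set_option linter.unusedSectionVars false

namespace Vale.Agent.P011.One

open Vale.Agent.P011.Arith Vale.Agent.P011.Even Vale.Agent.P011.Two

variable {k K D : Type} [Field k] [NumberField k] [Field K] [StarRing K]
    [DivisionRing D] [StarRing D] [Algebra k K] [Algebra k D] [Algebra K D] [IsScalarTower k K D]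
    {d : kˣ} {s : K} {N : ℕ} {B : Module.Basis (Fin N) k D} {v : HeightOneSpectrum (𝓞 k)}

/-- The symmetric elements of square `a`. -/
structure IsX (a : kˣ) (p : D) : Prop where
  star : star p = p
  sq : p * p = algebraMap k D (a : k)

/-- The integrality properties of a step. -/
structure Stp (B : Module.Basis (Fin N) k D) (v : HeightOneSpectrum (𝓞 k)) (p p' h : D) : Prop where
  ih : Ing B v h
  ih' : Ing B v (star h)
  i1 : Ing B v (p + h * p * star h)⁻¹
  i2 : Ing B v (h * p * star h + p')⁻¹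

theorem two_inv_ing (hG : GoodAt B d s v) {x : D} (hx : Ing B v x⁻¹) : Ing B v (2 * x)⁻¹ := by
  have e : (2 * x)⁻¹ = (2⁻¹ : k) • x⁻¹ := by
    have h2 : (2 : D) = algebraMap k D 2 := by rw [map_ofNat]
    rw [mul_inv_rev, h2, ← map_inv₀, Algebra.smul_def, Algebra.commutes]
  rw [e]
  refine hx.smul ?_
  rw [map_inv₀, hG.two, inv_one]

theorem stp_of_inv [CharZero D] (hG : GoodAt B d s v) {x p p' : D} (hx : star x = -x) (hI : Ing B v x)
    (h0 : Ing B v (1 - x * x)⁻¹) (h1 : Ing B v (p - x * p * x)⁻¹)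
    (h2 : Ing B v (p + p' + x * (p' - p) - (p' - p) * x - x * (p + p') * x)⁻¹) :
    Stp B v p p' (cay x) := by
  have hm := hG.mul
  have ha : Ing B v (1 + x) := hG.one.add hI
  have hs : Ing B v (1 - x) := Ing.sub hG.one hI
  have e1 : (1 + x)⁻¹ = (1 - x) * (1 - x * x)⁻¹ := by
    have e : 1 - x * x = (1 + x) * (1 - x) := by noncomm_ring
    rw [e, mul_inv_rev, mul_inv_cancel_left₀ (skew_sub_ne hx)]
  have e2 : (1 - x)⁻¹ = (1 + x) * (1 - x * x)⁻¹ := by
    have e : 1 - x * x = (1 - x) * (1 + x) := by noncomm_ring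
    rw [e, mul_inv_rev, mul_inv_cancel_left₀ (skew_add_ne hx)]
  have ia : Ing B v (1 + x)⁻¹ := by rw [e1]; exact Ing.mul hm hs h0
  have is : Ing B v (1 - x)⁻¹ := by rw [e2]; exact Ing.mul hm ha h0
  refine ⟨Ing.mul hm hs ia, ?_, ?_, ?_⟩
  · rw [cay_star hx]
    exact Ing.mul hm ha is
  · rw [inv_of_mul (skew_add_ne hx) (skew_sub_ne hx) (id_one hx p)]
    exact Ing.mul hm (Ing.mul hm hs (two_inv_ing hG h1)) ha
  · rw [inv_of_mul (skew_add_ne hx) (skew_sub_ne hx) (id_two hx p p')]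
    exact Ing.mul hm (Ing.mul hm hs h2) ha

theorem stp_of_small [CharZero D] (hG : GoodAt B d s v) {x p p' : D} (hx : star x = -x) (hx0 : x ≠ 0)
    (hsm : Sm B v x⁻¹) (hp : p ≠ 0) (hpp : p + p' ≠ 0) (ip : Ing B v p) (ip' : Ing B v p')
    (ipi : Ing B v p⁻¹) (ippi : Ing B v (p + p')⁻¹) : Stp B v p p' (cay x) := by
  have hm := hG.mul
  obtain ⟨y, hy⟩ : ∃ y : D, y = x⁻¹ := ⟨_, rfl⟩
  have hya : y + 1 = y * (1 + x) := by rw [hy, mul_add, mul_one, inv_mul_cancel₀ hx0]
  have hys : y - 1 = y * (1 - x) := by rw [hy, mul_sub, mul_one, inv_mul_cancel₀ hx0]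
  have hy0 : y ≠ 0 := hy ▸ inv_ne_zero hx0
  have hya0 : y + 1 ≠ 0 := hya ▸ mul_ne_zero hy0 (skew_add_ne hx)
  have hys0 : y - 1 ≠ 0 := hys ▸ mul_ne_zero hy0 (skew_sub_ne hx)
  rw [← hy] at hsm
  have ia : Ing B v (y + 1) := hsm.ing.add hG.one
  have is : Ing B v (y - 1) := Ing.sub hsm.ing hG.one
  have ia' : Ing B v (y + 1)⁻¹ := by
    rw [add_comm]
    exact Sm.inv_one_add hm hG.one hsm
  have is' : Ing B v (y - 1)⁻¹ := by
    rw [← neg_sub, inv_neg]
    exact (Sm.inv_one_sub hm hG.one hsm).neg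
  have e1 : cay x = (y + 1)⁻¹ * (y - 1) := by
    rw [hya, hys, mul_inv_rev, cay, cay_comm, mul_assoc, inv_mul_cancel_left₀ hy0]
  have e2 : star (cay x) = (y - 1)⁻¹ * (y + 1) := by
    rw [hya, hys, mul_inv_rev, cay_star hx, cay_comm', mul_assoc, inv_mul_cancel_left₀ hy0]
  refine ⟨?_, ?_, ?_, ?_⟩
  · rw [e1]
    exact Ing.mul hm ia' is
  · rw [e2]
    exact Ing.mul hm is' ia
  · have h1 := id_one' hx hx0 p
    rw [← hy] at h1
    rw [inv_of_mul hya0 hys0 h1]
    refine Ing.mul hm (Ing.mul hm is (two_inv_ing hG ?_)) ia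
    exact inv_sub_small hm hG.one hp ipi (Sm.mul hm (Sm.mul hm hsm ip) hsm.ing)
  · have h1 := id_two' hx hx0 p p'
    rw [← hy] at h1
    rw [inv_of_mul hya0 hys0 h1]
    refine Ing.mul hm (Ing.mul hm is ?_) ia
    refine inv_sub_small hm hG.one hpp ippi ?_
    refine Sm.sub (Sm.add ?_ ?_) ?_
    · exact Sm.mul hm (Sm.mul hm hsm (ip.add ip')) hsm.ing
    · exact Sm.mul' hm (Ing.sub ip' ip) hsm
    · exact Sm.mul hm hsm (Ing.sub ip' ip)

section delta

theorem dlt_sq (hS : Setting k K D d s) :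
    algebraMap K D s * algebraMap K D s = algebraMap k D (d : k) := by
  rw [← map_mul, ← sq, hS.sq, ← IsScalarTower.algebraMap_apply]

theorem dlt_ne (hS : Setting k K D d s) : algebraMap K D s ≠ 0 := by
  intro h
  have h1 := dlt_sq hS
  rw [h, mul_zero] at h1
  exact d.ne_zero ((map_eq_zero _).mp h1.symm)

theorem dlt_inv (hS : Setting k K D d s) :
    (algebraMap K D s)⁻¹ = ((d : k)⁻¹) • algebraMap K D s := by
  apply inv_eq_of_mul_eq_one_right
  rw [mul_smul_comm, dlt_sq hS, Algebra.algebraMap_eq_smul_one, smul_smul, inv_mul_cancel₀ d.ne_zero,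
    one_smul]

theorem dlt_skew (hS : Setting k K D d s) {X : D} (hX : star X = X) :
    star (algebraMap K D s * X) = -(algebraMap K D s * X) := by
  rw [star_mul, star_S hS, hX, mul_neg, Algebra.commutes]

theorem inv_ing {a : kˣ} (ha : v.valuation k (a : k) = 1) {p : D}
    (hp : IsX a p) (ip : Ing B v p) : Ing B v p⁻¹ := by
  have e : p⁻¹ = ((a : k)⁻¹) • p := by
    apply inv_eq_of_mul_eq_one_right
    rw [mul_smul_comm, hp.sq, Algebra.algebraMap_eq_smul_one, smul_smul, inv_mul_cancel₀ a.ne_zero,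
      one_smul]
  rw [e]
  refine ip.smul ?_
  rw [map_inv₀, ha, inv_one]

theorem IsX.ne_zero {a : kˣ} {p : D} (hp : IsX a p) : p ≠ 0 := by
  intro h
  have h1 := hp.sq
  rw [h, mul_zero] at h1
  exact a.ne_zero ((map_eq_zero _).mp h1.symm)

/-- The element `δ (X + z)` has a small inverse if `z` is large. -/
theorem sm_of_large (hS : Setting k K D d s) (hG : GoodAt B d s v) {X : D} {z : k}
    (hz : 1 < v.valuation k z) (h : Sm B v (z⁻¹ • X)) :
    algebraMap K D s * (X + algebraMap k D z) ≠ 0 ∧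
    Sm B v (algebraMap K D s * (X + algebraMap k D z))⁻¹ := by
  have hz0 : z ≠ 0 := by
    rintro rfl
    rw [map_zero] at hz
    exact absurd hz (by simp)
  have e : X + algebraMap k D z = z • (1 + z⁻¹ • X) := by
    rw [smul_add, smul_smul, mul_inv_cancel₀ hz0, one_smul, ← Algebra.algebraMap_eq_smul_one,
      add_comm]
  have e2 : (algebraMap K D s * (X + algebraMap k D z))⁻¹ =
      z⁻¹ • ((1 + z⁻¹ • X)⁻¹ * (algebraMap K D s)⁻¹) := by
    obtain ⟨w, hw⟩ : ∃ w : D, w = 1 + z⁻¹ • X := ⟨_, rfl⟩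
    rw [e, ← hw, mul_smul_comm, Algebra.smul_def, mul_inv_rev, mul_inv_rev,
      ← map_inv₀ (algebraMap k D) z, ← Algebra.commutes z⁻¹, Algebra.smul_def]
  have hx0 : algebraMap K D s * (X + algebraMap k D z) ≠ 0 := by
    intro h0
    have h5 := (mul_eq_zero.mp h0).resolve_left (dlt_ne hS)
    rw [e] at h5
    have h6 := (smul_eq_zero.mp h5).resolve_left hz0
    have h8 : Sm B v (1 : D) := by
      rw [eq_neg_of_add_eq_zero_left h6]
      exact h.neg
    obtain ⟨l⟩ : Nonempty (Fin N) := by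
      by_contra hN
      rw [not_nonempty_iff] at hN
      apply one_ne_zero (α := D)
      rw [← B.sum_repr (1 : D)]
      exact Finset.sum_eq_zero fun i _ => (hN.false i).elim
    have h10 : Sm B v (B l) := by
      have := Sm.mul hG.mul h8 (Ing.basis (B := B) (v := v) l)
      rwa [one_mul] at this
    have h11 := h10 l
    rw [B.repr_self, Finsupp.single_eq_same, map_one] at h11
    exact lt_irrefl _ h11
  refine ⟨hx0, ?_⟩
  rw [e2]
  refine Sm.smul ?_ (Ing.mul hG.mul (Sm.inv_one_add hG.mul hG.one h) ?_)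
  · rw [map_inv₀]
    exact inv_lt_one_of_one_lt₀ hz
  · rw [dlt_inv hS]
    refine hG.ss.smul ?_
    rw [map_inv₀, hG.dd, inv_one]

end delta

/-- The three elements of the step are invertible for all values of the parameter, and their
inverses are integral outside a finite set. -/
def Inv3 (B : Module.Basis (Fin N) k D) (d : kˣ) (s : K) (a : kˣ) (p p' X : D) : Prop :=
  (∀ z : k, ∀ x : D, x = algebraMap K D s * (X + algebraMap k D z) →
    p - x * p * x ≠ 0 ∧ p + p' + x * (p' - p) - (p' - p) * x - x * (p + p') * x ≠ 0) ∧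
  ∃ T : Set (HeightOneSpectrum (𝓞 k)), T.Finite ∧ ∀ v ∉ T, GoodAt B d s v →
    a * d ∉ LS (v.valuation k) → ∀ z : k, v.valuation k z ≤ 1 → ∀ x : D,
      x = algebraMap K D s * (X + algebraMap k D z) →
      Ing B v (1 - x * x)⁻¹ ∧ Ing B v (p - x * p * x)⁻¹ ∧
      Ing B v (p + p' + x * (p' - p) - (p' - p) * x - x * (p + p') * x)⁻¹

/-- The choice of the scalar. -/
theorem exists_scalar (hS : Setting k K D d s) {a : kˣ} {S : Set (HeightOneSpectrum (𝓞 k))}
    (hSf : S.Finite) (hgood : ∀ v ∉ S, GoodAt B d s v ∧ v.valuation k (a : k) = 1) {p p' X : D}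
    (hp : IsX a p) (hpp : p + p' ≠ 0)
    (hI : ∀ v ∉ S, a * d ∉ LS (v.valuation k) → Ing B v p ∧ Ing B v p' ∧ Ing B v (p + p')⁻¹)
    (hX : star X = X) (h3 : Inv3 B d s a p p' X) (δ : Pl k → ℝ) (hδ : ∀ q, 0 < δ q) :
    ∃ z : k, (∀ q ∈ SP S, plAbv q z < δ q) ∧ ∃ h : D,
      h = cay (algebraMap K D s * (X + algebraMap k D z)) ∧
      p + h * p * star h ≠ 0 ∧ h * p * star h + p' ≠ 0 ∧
      ∀ v ∉ S, a * d ∉ LS (v.valuation k) → Stp B v p p' h := by
  classical
  have hD : CharZero D := charZero_of_injective_algebraMap (algebraMap k D).injective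
  obtain ⟨hne, T, hT, hTI⟩ := h3
  obtain ⟨U, hU⟩ : ∃ U : Set (HeightOneSpectrum (𝓞 k)), U = T ∪ {v | ¬ Ing B v X} := ⟨_, rfl⟩
  have hUf : U.Finite := hU ▸ hT.union (finite_not_ing B X)
  have hQ : (SP (S ∪ U)).Finite := SP_finite (hSf.union hUf)
  obtain ⟨M, hM⟩ : ∃ M : Pl k → ℝ, ∀ q, M q = 1 + nm B q X := ⟨_, fun _ => rfl⟩
  choose b hb using fun q : Pl k => exists_abv_gt q (M q)
  obtain ⟨z, hz⟩ := approx (SP (S ∪ U)) hQ (fun q => if q ∈ SP S then 0 else b q)
    (fun q => if q ∈ SP S then δ q else plAbv q (b q) - M q) (fun q => by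
      split_ifs
      · exact hδ q
      · have := hb q
        linarith)
  have hz1 : ∀ q ∈ SP S, plAbv q z < δ q := by
    intro q hq
    have hq' : q ∈ SP (S ∪ U) := by
      rcases hq with ⟨v, hv, rfl⟩ | ⟨φ, rfl⟩
      · exact Or.inl ⟨v, Or.inl hv, rfl⟩
      · exact Or.inr ⟨φ, rfl⟩
    have h1 := hz q hq'
    rwa [if_pos hq, if_pos hq, sub_zero] at h1
  have hz2 : ∀ v ∈ U, v ∉ S → M (.inl v) < plAbv (.inl v : Pl k) z := by
    intro v hv hvS
    have hq : (Sum.inl v : Pl k) ∉ SP S := by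
      rw [inl_mem_SP]
      exact hvS
    have h1 := hz (.inl v) (by rw [inl_mem_SP]; exact Or.inr hv)
    rw [if_neg hq, if_neg hq] at h1
    have h2 : plAbv (.inl v : Pl k) (b (.inl v)) ≤
        plAbv (.inl v : Pl k) z + plAbv (.inl v : Pl k) (z - b (.inl v)) := by
      have := (plAbv (.inl v : Pl k)).add_le z (-(z - b (.inl v)))
      rw [AbsoluteValue.map_neg] at this
      have e : z + -(z - b (.inl v)) = b (.inl v) := by ring
      rwa [e] at this
    linarith
  obtain ⟨x, hx⟩ : ∃ x : D, x = algebraMap K D s * (X + algebraMap k D z) := ⟨_, rfl⟩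
  have hxs : star x = -x := by
    rw [hx]
    exact dlt_skew hS (by rw [star_add, hX, star_alg hS])
  obtain ⟨hn1, hn2⟩ := hne z x hx
  refine ⟨z, hz1, cay x, by rw [hx], ?_, ?_, fun v hv hns => ?_⟩
  · intro h0
    have h1 := id_one hxs p
    rw [h0, mul_zero, zero_mul] at h1
    exact mul_ne_zero two_ne_zero hn1 h1.symm
  · intro h0
    have h1 := id_two hxs p p'
    rw [h0, mul_zero, zero_mul] at h1
    exact hn2 h1.symm
  · obtain ⟨hG, ha⟩ := hgood v hv
    obtain ⟨ip, ip', ippi⟩ := hI v hv hns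
    by_cases hvU : v ∈ U
    · -- large
      have h1 := hz2 v hvU hv
      rw [hM] at h1
      have h2 := nm_nonneg B (.inl v : Pl k) X
      have h3 : 1 < v.valuation k z := by
        have h4 : plAbv (.inl v : Pl k) 1 < plAbv (.inl v : Pl k) z := by
          rw [map_one]; linarith
        rwa [plAbv_lt, map_one] at h4
      have hsm : Sm B v (z⁻¹ • X) := by
        intro l
        have h7 := nm_lt_coord B (.inl v) (show nm B (.inl v) X < plAbv (.inl v : Pl k) z by
          linarith) l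
        rw [plAbv_lt] at h7
        have hvz : 0 < v.valuation k z := zero_lt_one.trans h3
        rw [map_smul, Finsupp.smul_apply, smul_eq_mul, map_mul, map_inv₀, mul_comm,
          ← div_eq_mul_inv]
        exact (div_lt_one₀ hvz).mpr h7
      obtain ⟨hx0, hxi⟩ := sm_of_large hS hG h3 hsm
      rw [← hx] at hx0 hxi
      exact stp_of_small hG hxs hx0 hxi hp.ne_zero hpp ip ip' (inv_ing ha hp ip) ippi
    · rw [hU, Set.mem_union, not_or] at hvU
      have iX : Ing B v X := not_not.mp hvU.2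
      by_cases hvz : v.valuation k z ≤ 1
      · obtain ⟨j0, j1, j2⟩ := hTI v hvU.1 hG hns z hvz x hx
        refine stp_of_inv hG hxs ?_ j0 j1 j2
        rw [hx]
        refine Ing.mul hG.mul hG.ss (iX.add ?_)
        rw [Algebra.algebraMap_eq_smul_one]
        exact hG.one.smul hvz
      · rw [not_le] at hvz
        have hsm : Sm B v (z⁻¹ • X) := Sm.smul (by
          rw [map_inv₀]
          exact inv_lt_one_of_one_lt₀ hvz) iX
        obtain ⟨hx0, hxi⟩ := sm_of_large hS hG hvz hsm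
        rw [← hx] at hx0 hxi
        exact stp_of_small hG hxs hx0 hxi hp.ne_zero hpp ip ip' (inv_ing ha hp ip) ippi

end Vale.Agent.P011.One
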