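import Vale.Agent.P011.One.StepInt
import Vale.Agent.P011.One.Close

/-!
One step in the space of the symmetric elements of square `a`: approximation of local steps by a
global step with integrality outside a finite set.
-/

open NumberField IsDedekindDomain Filter Topology

set_option linter.unusedSectionVars false

namespace Vale.Agent.P011.One

open Vale.Agent.P011.Arith Vale.Agent.P011.Even Vale.Agent.P011.Two

variable {k K D : Type} [Field k] [NumberField k] [Field K] [StarRing K]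
    [DivisionRing D] [StarRing D] [Algebra k K] [Algebra k D] [Algebra K D] [IsScalarTower k K D]
    {d : kˣ} {s : K} {N : ℕ} {B : Module.Basis (Fin N) k D}

theorem IsX.mem {a : kˣ} {p : D} (h : IsX a p) : p ∈ Xa D a := ⟨h.star, h.sq⟩

theorem isX_of_mem {a : kˣ} {p : D} (h : p ∈ Xa D a) : IsX a p := ⟨h.1, h.2⟩

section cont

theorem Tn.cay {X : Type} {l : Filter X} {q : Pl k} {f : X → D} {w : D} (hf : Tn B q l f w)
    (hw : 1 + w ≠ 0) : Tn B q l (fun x => cay (f x)) (cay w) :=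
  ((Tn.const 1).sub hf).mul (((Tn.const 1).add hf).inv hw)

theorem Tn.hel {X : Type} {l : Filter X} {q : Pl k} {f g : X → D} {x y : D} (hf : Tn B q l f x)
    (hg : Tn B q l g y) (h1 : 1 + x ≠ 0) (h2 : 1 - x ≠ 0) (h3 : 1 + algebraMap K D s * y ≠ 0) :
    Tn B q l (fun u => hel s (f u) (g u)) (hel s x y) := by
  have hc := Tn.cay hf h1
  have hc0 : One.cay x ≠ 0 := mul_ne_zero h2 (inv_ne_zero h1)
  exact (hc.mul (Tn.cay ((Tn.const _).mul hg) h3)).mul (hc.inv hc0)

theorem hel_cont (hS : Setting k K D d s) (B : Module.Basis (Fin N) k D) (q : Pl k) {x y : D}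
    (hx : star x = -x) (hy : star y = y) {η : ℝ} (hη : 0 < η) :
    ∃ ε : ℝ, 0 < ε ∧ ∀ x' y' : D, nm B q (x' - x) < ε → nm B q (y' - y) < ε →
      nm B q (hel s x' y' - hel s x y) < η := by
  have _ : CharZero D := charZero_of_injective_algebraMap (algebraMap k D).injective
  have h := Tn.hel (s := s) (nb_fst B q (x, y)) (nb_snd B q (x, y)) (skew_add_ne hx)
    (skew_sub_ne hx) (skew_add_ne (dlt_skew hS hy))
  obtain ⟨θ, hθ, hθ'⟩ := ev_nb B q (h.ev_lt hη)
  refine ⟨θ / 2, half_pos hθ, fun x' y' h1 h2 => hθ' (x', y') ?_⟩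
  change nm B q (x' - x) + nm B q (y' - y) < θ
  linarith

end cont

section proj

theorem half_add (x : D) : (2⁻¹ : k) • (x + x) = x := by
  rw [← two_smul k x, smul_smul, inv_mul_cancel₀ two_ne_zero, one_smul]

/-- The projection to the skew elements. -/
noncomputable def pSkew (hS : Setting k K D d s) : D →ₗ[k] D :=
  (2⁻¹ : k) • (LinearMap.id - sig hS)

theorem pSkew_apply (hS : Setting k K D d s) (x : D) :
    pSkew hS x = (2⁻¹ : k) • (x - star x) := rfl

theorem star_ksmul (hS : Setting k K D d s) (c : k) (x : D) : star (c • x) = c • star x :=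
  (sig hS).map_smul c x

theorem pSkew_skew (hS : Setting k K D d s) (x : D) : star (pSkew hS x) = -pSkew hS x := by
  rw [pSkew_apply, star_ksmul hS, star_sub, star_star, ← smul_neg, neg_sub]

theorem pSkew_eq (hS : Setting k K D d s) {x : D} (hx : star x = -x) : pSkew hS x = x := by
  rw [pSkew_apply, hx, sub_neg_eq_add, half_add]

/-- The projection to the symmetric elements commuting with `p`. -/
noncomputable def pCom (hS : Setting k K D d s) (a : kˣ) (p : D) : D →ₗ[k] D :=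
  ((2⁻¹ : k) • (LinearMap.id + ((a : k)⁻¹) • (LinearMap.mulLeft k p ∘ₗ LinearMap.mulRight k p))) ∘ₗ
    ((2⁻¹ : k) • (LinearMap.id + sig hS))

theorem pCom_apply (hS : Setting k K D d s) (a : kˣ) (p x : D) :
    pCom hS a p x = (2⁻¹ : k) • ((2⁻¹ : k) • (x + star x) +
      ((a : k)⁻¹) • (p * (((2⁻¹ : k) • (x + star x)) * p))) := rfl

theorem pCom_star (hS : Setting k K D d s) {a : kˣ} {p : D} (hp : p ∈ Xa D a) (x : D) :
    star (pCom hS a p x) = pCom hS a p x := by
  rw [pCom_apply, star_ksmul hS, star_add, star_ksmul hS, star_ksmul hS, star_mul, star_mul,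
    star_ksmul hS, star_add, star_star, hp.1, add_comm (star x) x, mul_assoc]

theorem pCom_comm (hS : Setting k K D d s) {a : kˣ} {p : D} (hp : p ∈ Xa D a) (x : D) :
    pCom hS a p x * p = p * pCom hS a p x := by
  obtain ⟨w, hw⟩ : ∃ w : D, w = (2⁻¹ : k) • (x + star x) := ⟨_, rfl⟩
  rw [pCom_apply, ← hw, smul_mul_assoc, mul_smul_comm]
  congr 1
  rw [add_mul, mul_add, smul_mul_assoc, mul_smul_comm]
  have h1 : p * (w * p) * p = (a : k) • (p * w) := by
    rw [mul_assoc, mul_assoc, hp.2, ← Algebra.commutes, ← mul_assoc, ← Algebra.commutes, mul_assoc,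
      Algebra.smul_def]
  have h2 : p * (p * (w * p)) = (a : k) • (w * p) := by
    rw [← mul_assoc, hp.2, Algebra.smul_def]
  rw [h1, h2, smul_smul, smul_smul, inv_mul_cancel₀ a.ne_zero, one_smul, one_smul, add_comm]

theorem pCom_eq (hS : Setting k K D d s) {a : kˣ} {p : D} (hp : p ∈ Xa D a) {x : D}
    (hx : star x = x) (hxp : x * p = p * x) : pCom hS a p x = x := by
  rw [pCom_apply, hx, half_add, hxp, ← mul_assoc, hp.2, Algebra.smul_def ((a : k)⁻¹), ← mul_assoc,
    ← map_mul, inv_mul_cancel₀ a.ne_zero, map_one, one_mul, half_add]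

/-- Approximation in the image of a projection. -/
theorem approx_proj (B : Module.Basis (Fin N) k D) (L : D →ₗ[k] D) {P : Set (Pl k)} (hP : P.Finite)
    (Z : Pl k → D) (hZ : ∀ q ∈ P, L (Z q) = Z q) (ε : Pl k → ℝ) (hε : ∀ q, 0 < ε q) :
    ∃ x : D, ∀ q ∈ P, nm B q (L x - Z q) < ε q := by
  choose C hC hCm using fun q => nm_linear B q L
  obtain ⟨x, hx⟩ := approxD B P hP Z (fun q => ε q / C q) (fun q => div_pos (hε q) (hC q))
  refine ⟨x, fun q hq => ?_⟩
  have h1 := hx q hq
  have h2 := hCm q (x - Z q)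
  rw [map_sub, hZ q hq] at h2
  rw [lt_div_iff₀ (hC q)] at h1
  linarith

theorem exists_small {P : Set (Pl k)} (hP : P.Finite) (c : Pl k → ℝ) (hc : ∀ q, 0 < c q) :
    ∃ μ : k, μ ≠ 0 ∧ ∀ q ∈ P, plAbv q μ < c q := by
  rcases P.eq_empty_or_nonempty with rfl | ⟨q₀, hq₀⟩
  · exact ⟨1, one_ne_zero, fun q hq => absurd hq (Set.notMem_empty q)⟩
  · choose r hr0 hr1 using fun q : Pl k => exists_abv_lt q (half_pos (hc q))
    obtain ⟨μ, hμ⟩ := approx P hP r (fun q => plAbv q (r q)) (fun q => (plAbv q).pos (hr0 q))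
    refine ⟨μ, ?_, fun q hq => ?_⟩
    · rintro rfl
      have h1 := hμ q₀ hq₀
      rw [zero_sub, AbsoluteValue.map_neg] at h1
      exact lt_irrefl _ h1
    · have h1 := hμ q hq
      have h2 := (plAbv q).add_le (μ - r q) (r q)
      rw [sub_add_cancel] at h2
      have h3 := hr1 q
      linarith

/-- A scalar close to one outside a finite set. -/
theorem exists_near_one {P : Set (Pl k)} (hP : P.Finite) (c : Pl k → ℝ) (hc : ∀ q, 0 < c q)
    {F : Set k} (hF : F.Finite) : ∃ lam : k, lam ∉ F ∧ ∀ q ∈ P, plAbv q (lam - 1) < c q := by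
  classical
  obtain ⟨μ, hμ0, hμ⟩ := exists_small hP (fun q => c q / (hF.toFinset.card + 2))
    (fun q => div_pos (hc q) (by positivity))
  obtain ⟨j, hj, hjF⟩ : ∃ j : ℕ, j < hF.toFinset.card + 1 ∧ 1 + (j : k) * μ ∉ F := by
    by_contra hcon
    push Not at hcon
    have h1 : ((Finset.range (hF.toFinset.card + 1)).image fun j : ℕ => 1 + (j : k) * μ) ⊆
        hF.toFinset := by
      intro x hx
      obtain ⟨j, hj, rfl⟩ := Finset.mem_image.mp hx
      rw [Set.Finite.mem_toFinset]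
      exact hcon j (Finset.mem_range.mp hj)
    have h2 := Finset.card_le_card h1
    rw [Finset.card_image_of_injective, Finset.card_range] at h2
    · omega
    · intro i j hij
      have h3 : (i : k) * μ = j * μ := add_left_cancel hij
      exact Nat.cast_injective (mul_right_cancel₀ hμ0 h3)
  refine ⟨1 + j * μ, hjF, fun q hq => ?_⟩
  rw [add_sub_cancel_left, map_mul]
  have h1 := hμ q hq
  rw [lt_div_iff₀ (by positivity)] at h1
  have h2 := plAbv_nat_le q j
  have h3 : (j : ℝ) ≤ hF.toFinset.card + 2 := by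
    have : (j : ℝ) < hF.toFinset.card + 1 := by exact_mod_cast hj
    linarith
  have h4 := (plAbv q).nonneg μ
  calc plAbv q (j : k) * plAbv q μ ≤ (hF.toFinset.card + 2) * plAbv q μ :=
        mul_le_mul_of_nonneg_right (h2.trans h3) h4
    _ < c q := by rw [mul_comm]; exact h1

end proj

/-- Local steps may be transported to nearby points. -/
theorem adapt (hS : Setting k K D d s) (B : Module.Basis (Fin N) k D) (q : Pl k) {a : kˣ} {w x y : D}
    (hw : w ∈ Xa D a) (hx : star x = -x) (hy : star y = y) (hyw : y * w = w * y) {η : ℝ}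
    (hη : 0 < η) : ∃ ε : ℝ, 0 < ε ∧ ∀ p : D, p ∈ Xa D a → nm B q (p - w) < ε →
      ∃ y' : D, star y' = y' ∧ y' * p = p * y' ∧ nm B q (hel s x y' - hel s x y) < η := by
  have _ : CharZero D := charZero_of_injective_algebraMap (algebraMap k D).injective
  have hc : Tn B q (nb B q (w, 0)) (fun u : D × D => pCom hS a u.1 y) (pCom hS a w y) := by
    have h1 : Tn B q (nb B q (w, 0)) (fun u : D × D => u.1) w := nb_fst B q (w, 0)
    simp only [pCom_apply]
    have hsc : ∀ {f : D × D → D} {b : D} (c : k), Tn B q (nb B q (w, 0)) f b →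
        Tn B q (nb B q (w, 0)) (fun x => c • f x) (c • b) :=
      fun c h => h.linear (LinearMap.lsmul k D c)
    exact hsc _ ((Tn.const _).add (hsc _ (h1.mul ((Tn.const _).mul h1))))
  rw [pCom_eq hS hw hy hyw] at hc
  have h := Tn.hel (s := s) (Tn.const (B := B) (p := q) (l := nb B q (w, 0)) x) hc (skew_add_ne hx)
    (skew_sub_ne hx) (skew_add_ne (dlt_skew hS hy))
  obtain ⟨θ, hθ, hθ'⟩ := ev_nb B q (h.ev_lt hη)
  refine ⟨θ, hθ, fun p hp h2 => ⟨pCom hS a p y, pCom_star hS hp y, pCom_comm hS hp y,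
    hθ' (p, 0) ?_⟩⟩
  change nm B q (p - w) + nm B q (0 - 0) < θ
  rw [sub_zero, nm_zero, add_zero]
  exact h2

/-- **One step**, with the genericity as a hypothesis. -/
theorem base_one_of (hS : Setting k K D d s) (B : Module.Basis (Fin N) k D) {a : kˣ}
    {S : Set (HeightOneSpectrum (𝓞 k))} (hSf : S.Finite)
    (hgood : ∀ v ∉ S, GoodAt B d s v ∧ v.valuation k (a : k) = 1) {p p' : D} (hp : p ∈ Xa D a)
    (hpp : p + p' ≠ 0)
    (hI : ∀ v ∉ S, a * d ∉ LS (v.valuation k) → Ing B v p ∧ Ing B v p' ∧ Ing B v (p + p')⁻¹)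
    (hgen : ∀ x₁ y₁ : D, star x₁ = -x₁ → star y₁ = y₁ → y₁ * p = p * y₁ → ∃ F : Set k, F.Finite ∧
      ∀ lam ∉ F, Inv3 B d s a p p'
        (cay (lam • x₁) * (lam • y₁ + (1 - lam) • p) * (cay (lam • x₁))⁻¹))
    (X Y : Pl k → D) (hX : ∀ q ∈ SP S, star (X q) = -X q)
    (hY : ∀ q ∈ SP S, star (Y q) = Y q ∧ Y q * p = p * Y q) (η : Pl k → ℝ) (hη : ∀ q, 0 < η q) :
    ∃ h : D, h * star h = 1 ∧ star h * h = 1 ∧
      (∀ q ∈ SP S, nm B q (h - hel s (X q) (Y q)) < η q) ∧
      p + h * p * star h ≠ 0 ∧ h * p * star h + p' ≠ 0 ∧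
      ∀ v ∉ S, a * d ∉ LS (v.valuation k) → Stp B v p p' h := by
  classical
  have hD : CharZero D := charZero_of_injective_algebraMap (algebraMap k D).injective
  have hP : (SP S).Finite := SP_finite hSf
  have hcont : ∀ q, ∃ ε : ℝ, 0 < ε ∧ (q ∈ SP S → ∀ x' y' : D, nm B q (x' - X q) < ε →
      nm B q (y' - Y q) < ε → nm B q (hel s x' y' - hel s (X q) (Y q)) < η q) := by
    intro q
    by_cases hq : q ∈ SP S
    · obtain ⟨ε, h1, h2⟩ := hel_cont hS B q (hX q hq) (hY q hq).1 (hη q)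
      exact ⟨ε, h1, fun _ => h2⟩
    · exact ⟨1, one_pos, fun h => absurd h hq⟩
  choose ε hε hcont using hcont
  obtain ⟨x₀, hx₀⟩ := approx_proj B (pSkew hS) hP X (fun q hq => pSkew_eq hS (hX q hq))
    (fun q => ε q / 4) (fun q => by have := hε q; positivity)
  obtain ⟨y₀, hy₀⟩ := approx_proj B (pCom hS a p) hP Y
    (fun q hq => pCom_eq hS hp (hY q hq).1 (hY q hq).2)
    (fun q => ε q / 4) (fun q => by have := hε q; positivity)
  obtain ⟨x₁, hx₁⟩ : ∃ x₁, x₁ = pSkew hS x₀ := ⟨_, rfl⟩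
  obtain ⟨y₁, hy₁⟩ : ∃ y₁, y₁ = pCom hS a p y₀ := ⟨_, rfl⟩
  rw [← hx₁] at hx₀
  rw [← hy₁] at hy₀
  have hx₁s : star x₁ = -x₁ := hx₁ ▸ pSkew_skew hS x₀
  have hy₁s : star y₁ = y₁ := hy₁ ▸ pCom_star hS hp y₀
  have hy₁p : y₁ * p = p * y₁ := hy₁ ▸ pCom_comm hS hp y₀
  obtain ⟨F, hF, hFI⟩ := hgen x₁ y₁ hx₁s hy₁s hy₁p
  obtain ⟨lam, hlam, hlam1⟩ := exists_near_one hP
    (fun q => ε q / (4 * (nm B q x₁ + nm B q y₁ + nm B q p + 1))) (fun q => by
      have := hε q
      have := nm_nonneg B q x₁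
      have := nm_nonneg B q y₁
      have := nm_nonneg B q p
      positivity) hF
  have h3 := hFI lam hlam
  obtain ⟨x, hx⟩ : ∃ x : D, x = lam • x₁ := ⟨_, rfl⟩
  obtain ⟨y, hy⟩ : ∃ y : D, y = lam • y₁ + (1 - lam) • p := ⟨_, rfl⟩
  rw [← hx, ← hy] at h3
  have hxs : star x = -x := by rw [hx, star_ksmul hS, hx₁s, smul_neg]
  have hys : star y = y := by
    rw [hy, star_add, star_ksmul hS, star_ksmul hS, hy₁s, hp.1]
  have hc0 : cay x ≠ 0 := cay_ne hxs
  have hZs : star (cay x * y * (cay x)⁻¹) = cay x * y * (cay x)⁻¹ := by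
    have h4 : star (cay x)⁻¹ = cay x := by rw [cay_inv hxs, star_star]
    rw [star_mul, star_mul, h4, hys, ← cay_inv hxs, ← mul_assoc]
  obtain ⟨z, hz, h, hh, hn1, hn2, hint⟩ := exists_scalar hS hSf hgood (isX_of_mem hp) hpp hI hZs h3
    (fun q => ε q / (4 * (nm B q (1 : D) + 1))) (fun q => by
      have := hε q
      have := nm_nonneg B q (1 : D)
      positivity)
  have hh' : h = hel s x (y + algebraMap k D z) := by
    have e : algebraMap K D s * (cay x * y * (cay x)⁻¹ + algebraMap k D z) =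
        cay x * (algebraMap K D s * (y + algebraMap k D z)) * (cay x)⁻¹ := by
      have h1 : algebraMap k D z = cay x * algebraMap k D z * (cay x)⁻¹ := by
        rw [← Algebra.commutes, mul_assoc, mul_inv_cancel₀ hc0, mul_one]
      have h2 : ∀ u : D, algebraMap K D s * u = u * algebraMap K D s := Algebra.commutes s
      calc algebraMap K D s * (cay x * y * (cay x)⁻¹ + algebraMap k D z)
          = algebraMap K D s * (cay x * y * (cay x)⁻¹ + cay x * algebraMap k D z * (cay x)⁻¹) := by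
            rw [← h1]
        _ = (algebraMap K D s * cay x) * (y + algebraMap k D z) * (cay x)⁻¹ := by noncomm_ring
        _ = _ := by rw [h2 (cay x)]; simp only [mul_assoc]
    rw [hh, e, cay_conj hc0]
    rfl
  have hws : star (algebraMap K D s * (cay x * y * (cay x)⁻¹ + algebraMap k D z)) =
      -(algebraMap K D s * (cay x * y * (cay x)⁻¹ + algebraMap k D z)) :=
    dlt_skew hS (by rw [star_add, hZs, star_alg hS])
  refine ⟨h, hh ▸ cay_mul_star hws, hh ▸ cay_star_mul hws, fun q hq => ?_, hn1, hn2, hint⟩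
  rw [hh']
  have hε' := hε q
  have e1 := hx₀ q hq
  have e2 := hy₀ q hq
  have e3 := hlam1 q hq
  have e4 := hz q hq
  have f1 := nm_nonneg B q x₁
  have f2 := nm_nonneg B q y₁
  have f3 := nm_nonneg B q p
  have f4 := nm_nonneg B q (1 : D)
  have f5 := (plAbv q).nonneg (lam - 1)
  have f6 := (plAbv q).nonneg z
  rw [lt_div_iff₀ (by positivity)] at e3 e4
  have e5 : plAbv q (1 - lam) = plAbv q (lam - 1) := by
    rw [← neg_sub, AbsoluteValue.map_neg]
  refine hcont q hq _ _ ?_ ?_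
  · have e : x - X q = (lam - 1) • x₁ + (x₁ - X q) := by
      rw [hx, sub_smul, one_smul]
      abel
    rw [e]
    refine (nm_add_le B q _ _).trans_lt ?_
    rw [nm_smul]
    nlinarith
  · have e : y + algebraMap k D z - Y q = ((lam - 1) • y₁ + (y₁ - Y q)) + ((1 - lam) • p + z • 1) := by
      rw [hy, sub_smul lam 1 y₁, one_smul, Algebra.algebraMap_eq_smul_one]
      abel
    rw [e]
    have g1 := nm_add_le B q ((lam - 1) • y₁) (y₁ - Y q)
    have g2 := nm_add_le B q ((1 - lam) • p) (z • (1 : D))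
    have g3 := nm_add_le B q ((lam - 1) • y₁ + (y₁ - Y q)) ((1 - lam) • p + z • 1)
    rw [nm_smul] at g1
    rw [nm_smul, nm_smul, e5] at g2
    nlinarith

end Vale.Agent.P011.One
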