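import Vale.Agent.P011.Two.Cont

/-!
A set of elements which contains all elements close to one at finitely many places contains
all elements close to one at the places where powers of commutators of Cayley elements do not
approximate everything.
-/

open Module NumberField IsDedekindDomain Filter Topology

set_option linter.unusedSectionVars false

namespace Vale.Agent.P011.One

open Vale.Agent.P011.Arith Vale.Agent.P011.Even Vale.Agent.P011.Two

section defs

variable {D : Type} [DivisionRing D]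

/-- The Cayley transform. -/
def cy (x : D) : D := (1 - x) * (1 + x)⁻¹

/-- The power of the commutator of two Cayley elements. -/
def cq (e : ℕ) (y z : D) : D := (cy y * cy z * (cy y)⁻¹ * (cy z)⁻¹) ^ e

theorem cy_zero : cy (0 : D) = 1 := by
  rw [cy, sub_zero, add_zero, inv_one, mul_one]

theorem cq_zero (e : ℕ) : cq e (0 : D) 0 = 1 := by
  rw [cq, cy_zero, inv_one, mul_one, mul_one, mul_one, one_pow]

variable [StarRing D] [CharZero D]

theorem one_pm_ne {x : D} (hx : star x = -x) : 1 + x ≠ 0 ∧ 1 - x ≠ 0 := by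
  have h2 : (2 : D) ≠ 0 := two_ne_zero
  constructor
  · intro h
    have h1 : x = -1 := (neg_eq_of_add_eq_zero_right h).symm
    rw [h1, star_neg, star_one, neg_neg] at hx
    apply h2
    rw [← one_add_one_eq_two]
    nth_rewrite 1 [← hx]
    exact neg_add_cancel 1
  · intro h
    have h1 : x = 1 := (sub_eq_zero.mp h).symm
    rw [h1, star_one] at hx
    apply h2
    rw [← one_add_one_eq_two]
    nth_rewrite 1 [hx]
    exact neg_add_cancel 1

theorem cy_ne {x : D} (hx : star x = -x) : cy x ≠ 0 :=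
  mul_ne_zero (one_pm_ne hx).2 (inv_ne_zero (one_pm_ne hx).1)

theorem cq_ne (e : ℕ) {y z : D} (hy : star y = -y) (hz : star z = -z) : cq e y z ≠ 0 :=
  pow_ne_zero _ (mul_ne_zero (mul_ne_zero (mul_ne_zero (cy_ne hy) (cy_ne hz))
    (inv_ne_zero (cy_ne hy))) (inv_ne_zero (cy_ne hz)))

theorem cy_mul_star {x : D} (hx : star x = -x) : cy x * star (cy x) = 1 := by
  have h1 := (one_pm_ne hx).1
  have h2 := (one_pm_ne hx).2
  have hs : star (cy x) = (1 - x)⁻¹ * (1 + x) := by
    rw [cy, star_mul, star_inv₀, star_add, star_sub, star_one, hx, sub_neg_eq_add,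
      ← sub_eq_add_neg]
  have hc : (1 + x)⁻¹ * (1 - x)⁻¹ = (1 - x)⁻¹ * (1 + x)⁻¹ := by
    rw [← mul_inv_rev, ← mul_inv_rev]
    congr 1
    noncomm_ring
  rw [hs, cy]
  calc (1 - x) * (1 + x)⁻¹ * ((1 - x)⁻¹ * (1 + x))
      = (1 - x) * ((1 + x)⁻¹ * (1 - x)⁻¹) * (1 + x) := by simp only [mul_assoc]
    _ = (1 - x) * ((1 - x)⁻¹ * (1 + x)⁻¹) * (1 + x) := by rw [hc]
    _ = ((1 - x) * (1 - x)⁻¹) * ((1 + x)⁻¹ * (1 + x)) := by simp only [mul_assoc]
    _ = 1 := by rw [inv_mul_cancel₀ h1, mul_inv_cancel₀ h2, mul_one]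

end defs

variable {k D : Type} [Field k] [NumberField k] [DivisionRing D] [StarRing D] [Algebra k D]
  {N : ℕ} (B : Module.Basis (Fin N) k D)

/-- The element is a limit of products of powers of commutators of Cayley elements. -/
def LT (p : Pl k) (e : ℕ) (g : D) : Prop :=
  ∀ ε : ℝ, 0 < ε → ∃ L : List (D × D), (∀ y ∈ L, star y.1 = -y.1 ∧ star y.2 = -y.2) ∧
    nm B p (g - (L.map fun y => cq e y.1 y.2).prod) < ε

/-- The set contains all elements close to one at the places of `S`. -/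
def PF (G M : Set D) (S : Set (Pl k)) : Prop :=
  ∃ η : Pl k → ℝ, (∀ p, 0 < η p) ∧ ∀ g ∈ G, (∀ p ∈ S, nm B p (g - 1) < η p) → g ∈ M

variable {B} {p : Pl k} {X : Type} {l : Filter X}

theorem tn_pow {f : X → D} {a : D} (hf : Tn B p l f a) (e : ℕ) :
    Tn B p l (fun x => f x ^ e) (a ^ e) := by
  induction e with
  | zero => simpa only [pow_zero] using Tn.const 1
  | succ e ih => simpa only [pow_succ] using ih.mul hf

variable [CharZero D]

theorem tn_cy {f : X → D} {a : D} (hf : Tn B p l f a) (ha : star a = -a) :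
    Tn B p l (fun x => cy (f x)) (cy a) :=
  ((Tn.const 1).sub hf).mul (((Tn.const 1).add hf).inv (one_pm_ne ha).1)

theorem tn_cq {f g : X → D} {a b : D} (hf : Tn B p l f a) (hg : Tn B p l g b)
    (ha : star a = -a) (hb : star b = -b) (e : ℕ) :
    Tn B p l (fun x => cq e (f x) (g x)) (cq e a b) :=
  tn_pow ((((tn_cy hf ha).mul (tn_cy hg hb)).mul ((tn_cy hf ha).inv (cy_ne ha))).mul
    ((tn_cy hg hb).inv (cy_ne hb))) e

/-- Approximation by skew elements. -/
theorem exists_seq (hst : ∀ (c : k) (x : D), star (c • x) = c • star x) {P : Set (Pl k)}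
    (hP : P.Finite) {v : Pl k} (hv : v ∉ P) {y : D} (hy : star y = -y) :
    ∃ f : ℕ → D, (∀ j, star (f j) = -f j) ∧ Tn B v atTop f y ∧ ∀ p ∈ P, Tn B p atTop f 0 := by
  classical
  have h2 : (2 : k) ≠ 0 := two_ne_zero
  let L : D →ₗ[k] D :=
    { toFun := fun x => (2 : k)⁻¹ • (x - star x)
      map_add' := fun x z => by rw [← smul_add, star_add]; congr 1; abel
      map_smul' := fun c x => by
        rw [hst, RingHom.id_apply, ← smul_sub, smul_comm] }
  have hL : ∀ x, L x = (2 : k)⁻¹ • (x - star x) := fun _ => rfl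
  have hLs : ∀ x, star (L x) = -L x := by
    intro x
    rw [hL, hst, star_sub, star_star, ← smul_neg, neg_sub]
  have hLy : L y = y := by
    rw [hL, hy, sub_neg_eq_add, ← two_smul k y, smul_smul, inv_mul_cancel₀ h2, one_smul]
  have h1 : ∀ j : ℕ, ∃ x : D, ∀ p ∈ insert v P,
      nm B p (x - if p = v then y else 0) < 1 / ((j : ℝ) + 1) := fun j =>
    approxD B (insert v P) (hP.insert v) _ (fun _ => 1 / ((j : ℝ) + 1)) fun _ => by positivity
  choose x hx using h1
  have h0 : Tendsto (fun j : ℕ => 1 / ((j : ℝ) + 1)) atTop (𝓝 0) :=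
    tendsto_one_div_add_atTop_nhds_zero_nat
  have h3 : Tn B v atTop x y := by
    refine squeeze_zero (fun _ => nm_nonneg B v _) (fun j => ?_) h0
    have := hx j v (Set.mem_insert _ _)
    rw [if_pos rfl] at this
    exact this.le
  have h4 : ∀ p ∈ P, Tn B p atTop x 0 := by
    intro p hp
    refine squeeze_zero (fun _ => nm_nonneg B p _) (fun j => ?_) h0
    have := hx j p (Set.mem_insert_of_mem _ hp)
    rw [if_neg (fun h : p = v => hv (h ▸ hp))] at this
    exact this.le
  refine ⟨fun j => L (x j), fun j => hLs _, ?_, fun p hp => ?_⟩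
  · have := h3.linear L
    rwa [hLy] at this
  · have := (h4 p hp).linear L
    rwa [map_zero] at this

/-- Approximation of words. -/
theorem exists_word (hst : ∀ (c : k) (x : D), star (c • x) = c • star x) {e : ℕ} {M : Set D}
    (h1M : (1 : D) ∈ M) (hM : ∀ a ∈ M, ∀ b ∈ M, a * b ∈ M)
    (hcq : ∀ y z : D, star y = -y → star z = -z → cq e y z ∈ M) {P : Set (Pl k)}
    (hP : P.Finite) {v : Pl k} (hv : v ∉ P) (L : List (D × D))
    (hL : ∀ y ∈ L, star y.1 = -y.1 ∧ star y.2 = -y.2) :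
    ∃ u : ℕ → D, (∀ j, u j ∈ M) ∧ Tn B v atTop u (L.map fun y => cq e y.1 y.2).prod ∧
      ∀ p ∈ P, Tn B p atTop u 1 := by
  induction L with
  | nil => exact ⟨fun _ => 1, fun _ => h1M, Tn.const 1, fun _ _ => Tn.const 1⟩
  | cons y L ih =>
    obtain ⟨u, hu, huv, huP⟩ := ih fun z hz => hL z (List.mem_cons_of_mem _ hz)
    obtain ⟨hy1, hy2⟩ := hL y List.mem_cons_self
    obtain ⟨f, hf, hfv, hfP⟩ := exists_seq (B := B) hst hP hv hy1
    obtain ⟨g, hg, hgv, hgP⟩ := exists_seq (B := B) hst hP hv hy2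
    refine ⟨fun j => cq e (f j) (g j) * u j, fun j => hM _ (hcq _ _ (hf j) (hg j)) _ (hu j), ?_,
      fun p hp => ?_⟩
    · rw [List.map_cons, List.prod_cons]
      exact (tn_cq hfv hgv hy1 hy2 e).mul huv
    · have h0 : star (0 : D) = -0 := by rw [star_zero, neg_zero]
      have := (tn_cq (hfP p hp) (hgP p hp) h0 h0 e).mul (huP p hp)
      rwa [cq_zero, one_mul] at this

/-- One place less. -/
theorem frame_step (hst : ∀ (c : k) (x : D), star (c • x) = c • star x) {e : ℕ} {G M : Set D}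
    (h0G : (0 : D) ∉ G) (hGM : ∀ g ∈ G, ∀ u ∈ M, g * u⁻¹ ∈ G) (h0M : (0 : D) ∉ M)
    (h1M : (1 : D) ∈ M) (hM : ∀ a ∈ M, ∀ b ∈ M, a * b ∈ M)
    (hcq : ∀ y z : D, star y = -y → star z = -z → cq e y z ∈ M) {P : Set (Pl k)}
    (hP : P.Finite) {v : Pl k} (hv : v ∉ P) (hLT : ∀ g ∈ G, LT B v e g) {η : Pl k → ℝ}
    (hη : ∀ p, 0 < η p)
    (h : ∀ g ∈ G, (∀ p ∈ insert v P, nm B p (g - 1) < η p) → g ∈ M) :
    ∀ g ∈ G, (∀ p ∈ P, nm B p (g - 1) < η p) → g ∈ M := by
  intro g hg hgP
  have hg0 : g ≠ 0 := fun h => h0G (h ▸ hg)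
  -- a word close to `g`
  have h1 : ∀ j : ℕ, ∃ L : List (D × D), (∀ y ∈ L, star y.1 = -y.1 ∧ star y.2 = -y.2) ∧
      nm B v (g - (L.map fun y => cq e y.1 y.2).prod) < 1 / ((j : ℝ) + 1) := fun j =>
    hLT g hg _ (by positivity)
  choose L hL hLg using h1
  have h0 : Tendsto (fun j : ℕ => 1 / ((j : ℝ) + 1)) atTop (𝓝 0) :=
    tendsto_one_div_add_atTop_nhds_zero_nat
  have h2 : Tn B v atTop (fun j => ((L j).map fun y => cq e y.1 y.2).prod) g := by
    refine squeeze_zero (fun _ => nm_nonneg B v _) (fun j => ?_) h0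
    have := hLg j
    rw [← nm_neg, neg_sub] at this
    exact this.le
  have h3 : Tn B v atTop (fun j => g * ((L j).map fun y => cq e y.1 y.2).prod⁻¹) 1 := by
    have := (Tn.const g).mul (h2.inv hg0)
    rwa [mul_inv_cancel₀ hg0] at this
  obtain ⟨i, hi⟩ := (h3.ev_lt (hη v)).exists
  obtain ⟨w, hw⟩ : ∃ w, w = ((L i).map fun y => cq e y.1 y.2).prod := ⟨_, rfl⟩
  rw [← hw] at hi
  have hw0 : w ≠ 0 := by
    rw [hw]
    apply List.prod_ne_zero
    intro h0
    obtain ⟨y, hy, hy0⟩ := List.mem_map.mp h0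
    exact cq_ne e (hL i y hy).1 (hL i y hy).2 hy0
  obtain ⟨u, hu, huv, huP⟩ := exists_word (B := B) hst h1M hM hcq hP hv (L i) (hL i)
  rw [← hw] at huv
  have h4 : ∀ᶠ j in atTop, nm B v (g * (u j)⁻¹ - 1) < η v := by
    have h5 := (((Tn.const g).mul (huv.inv hw0)).sub (Tn.const 1)).ev_small hi
    exact h5
  have h5 : ∀ p ∈ P, ∀ᶠ j in atTop, nm B p (g * (u j)⁻¹ - 1) < η p := by
    intro p hp
    have h6 := ((Tn.const g).mul ((huP p hp).inv one_ne_zero)).sub (Tn.const 1)
    rw [inv_one, mul_one] at h6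
    exact h6.ev_small (hgP p hp)
  obtain ⟨j, hj, hjP⟩ := (h4.and ((eventually_all_finite hP).mpr h5)).exists
  have h6 : g * (u j)⁻¹ ∈ M := by
    refine h _ (hGM g hg _ (hu j)) fun p hp => ?_
    rcases Set.mem_insert_iff.mp hp with rfl | hp
    · exact hj
    · exact hjP p hp
  have h7 : u j ≠ 0 := fun h => h0M (h ▸ hu j)
  have h8 := hM _ h6 _ (hu j)
  rwa [inv_mul_cancel_right₀ h7] at h8

/-- **From finitely many places to the places of `T`.** -/
theorem tform (hst : ∀ (c : k) (x : D), star (c • x) = c • star x) {e : ℕ} {G M : Set D}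
    (h0G : (0 : D) ∉ G) (hGM : ∀ g ∈ G, ∀ u ∈ M, g * u⁻¹ ∈ G) (h0M : (0 : D) ∉ M)
    (h1M : (1 : D) ∈ M) (hM : ∀ a ∈ M, ∀ b ∈ M, a * b ∈ M)
    (hcq : ∀ y z : D, star y = -y → star z = -z → cq e y z ∈ M) {S T : Set (Pl k)}
    (hS : S.Finite) (hLT : ∀ p ∈ S, p ∉ T → ∀ g ∈ G, LT B p e g) (h : PF B G M S) :
    PF B G M T := by
  classical
  obtain ⟨η, hη, h⟩ := h
  refine ⟨η, hη, ?_⟩
  have key : ∀ X : Set (Pl k), X.Finite → X ⊆ S → (∀ p ∈ X, p ∉ T) →
      (∀ g ∈ G, (∀ p ∈ (S ∩ T) ∪ X, nm B p (g - 1) < η p) → g ∈ M) →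
      ∀ g ∈ G, (∀ p ∈ S ∩ T, nm B p (g - 1) < η p) → g ∈ M := by
    intro X hX
    induction X, hX using Set.Finite.induction_on with
    | empty =>
      intro _ _ h g hg hg1
      exact h g hg fun p hp => hg1 p (by simpa using hp)
    | @insert a X ha hX ih =>
      intro hXS hXT h
      refine ih (fun p hp => hXS (Set.mem_insert_of_mem _ hp))
        (fun p hp => hXT p (Set.mem_insert_of_mem _ hp)) ?_
      have haT : a ∉ T := hXT a (Set.mem_insert _ _)
      have haS : a ∈ S := hXS (Set.mem_insert _ _)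
      refine frame_step hst h0G hGM h0M h1M hM hcq ((hS.inter_of_left T).union hX) (v := a) ?_
        (hLT a haS haT) hη ?_
      · rintro (h1 | h1)
        · exact haT h1.2
        · exact ha h1
      · intro g hg hg1
        refine h g hg fun p hp => hg1 p ?_
        rcases hp with hp | hp
        · exact Set.mem_insert_of_mem _ (Or.inl hp)
        · rcases Set.mem_insert_iff.mp hp with rfl | hp
          · exact Set.mem_insert _ _
          · exact Set.mem_insert_of_mem _ (Or.inr hp)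
  intro g hg hgT
  refine key (S \ T) (hS.subset Set.sdiff_subset) Set.sdiff_subset (fun p hp => hp.2) ?_ g hg
    fun p hp => hgT p hp.2
  intro g hg hg1
  refine h g hg fun p hp => hg1 p ?_
  by_cases hpT : p ∈ T
  · exact Or.inl ⟨hp, hpT⟩
  · exact Or.inr ⟨hp, hpT⟩

end Vale.Agent.P011.One
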