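import Vale.Agent.P011.One.GLGen
import Vale.Agent.P011.One.TForm

/-!
Powers of commutators of Cayley elements in a complete normed ring.
-/

open Filter Topology

set_option linter.unusedSectionVars false

namespace Vale.Agent.P011.One

open Vale.Agent.P011.Arith Vale.Agent.P011.Even Vale.Agent.P011.Two

section group

/-- The group generated by the powers of commutators. -/
def pc (e : ℕ) (G : Type) [Group G] : Subgroup G :=
  Subgroup.closure {x | ∃ a b : G, x = (a * b * a⁻¹ * b⁻¹) ^ e}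

theorem mem_pc {e : ℕ} {G : Type} [Group G] (a b : G) : (a * b * a⁻¹ * b⁻¹) ^ e ∈ pc e G :=
  Subgroup.subset_closure ⟨a, b, rfl⟩

instance pc_normal (e : ℕ) (G : Type) [Group G] : (pc e G).Normal := by
  constructor
  intro n hn g
  induction hn using Subgroup.closure_induction with
  | mem x hx =>
    obtain ⟨a, b, rfl⟩ := hx
    have : g * (a * b * a⁻¹ * b⁻¹) ^ e * g⁻¹ =
        ((g * a * g⁻¹) * (g * b * g⁻¹) * (g * a * g⁻¹)⁻¹ * (g * b * g⁻¹)⁻¹) ^ e := by
      rw [← conj_pow]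
      congr 1
      group
    rw [this]
    exact mem_pc _ _
  | one => rw [mul_one, mul_inv_cancel]; exact one_mem _
  | mul x y _ _ hx hy =>
    have : g * (x * y) * g⁻¹ = (g * x * g⁻¹) * (g * y * g⁻¹) := by group
    rw [this]
    exact mul_mem hx hy
  | inv x _ hx =>
    have : g * x⁻¹ * g⁻¹ = (g * x * g⁻¹)⁻¹ := by group
    rw [this]
    exact inv_mem hx

theorem pc_of_equiv {e : ℕ} {G G' : Type} [Group G] [Group G'] (f : G ≃* G')
    (h : commutator G' ≤ pc e G') : commutator G ≤ pc e G := by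
  intro g hg
  have h1 : f g ∈ commutator G' := by
    have h2 : commutator G ≤ (commutator G').comap f.toMonoidHom := by
      rw [commutator_def, Subgroup.commutator_le]
      intro a _ b _
      rw [Subgroup.mem_comap, map_commutatorElement]
      exact Subgroup.commutator_mem_commutator (Subgroup.mem_top _) (Subgroup.mem_top _)
    exact h2 hg
  have h3 : pc e G' ≤ (pc e G).comap f.symm.toMonoidHom := by
    rw [pc, Subgroup.closure_le]
    rintro x ⟨a, b, rfl⟩
    rw [SetLike.mem_coe, Subgroup.mem_comap]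
    have : f.symm.toMonoidHom ((a * b * a⁻¹ * b⁻¹) ^ e) =
        (f.symm a * f.symm b * (f.symm a)⁻¹ * (f.symm b)⁻¹) ^ e := by
      simp
    rw [this]
    exact mem_pc _ _
  have h4 := h3 (h h1)
  rw [Subgroup.mem_comap] at h4
  simpa using h4

end group

/-- In the general linear group the powers of commutators generate a group which contains all
commutators. -/
theorem comm_le_pc {E : Type} [DivisionRing E] [CharZero E] {r : ℕ} (hr : 2 ≤ r) {e : ℕ}
    (he : e ≠ 0) :
    commutator (Matrix (Fin r) (Fin r) E)ˣ ≤ pc e (Matrix (Fin r) (Fin r) E)ˣ := by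
  apply comm_le_of_tvu hr
  intro i j hij c
  have h2 : (2 : E) ≠ 0 := two_ne_zero
  have he' : (e : E) ≠ 0 := Nat.cast_ne_zero.mpr he
  have h1 : ∀ c : E, tvu hij c = dgu i (Units.mk0 2 h2) * tvu hij c *
      (dgu i (Units.mk0 2 h2))⁻¹ * (tvu hij c)⁻¹ := by
    intro c
    have h3 : tvu hij c * (tvu hij c * dgu i (Units.mk0 2 h2)) =
        dgu i (Units.mk0 2 h2) * tvu hij c := by
      apply Units.ext
      rw [Units.val_mul, Units.val_mul, Units.val_mul, tvu_val, dgu_val, Units.val_mk0,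
        show (2 : E) - 1 = 1 by norm_num]
      simp only [add_mul, mul_add, one_mul, mul_one, Matrix.single_mul_single_same,
        Matrix.single_mul_single_of_ne _ _ _ _ hij.symm, add_zero]
      abel
    rw [← h3]
    group
  have h3 : ∀ m : ℕ, (tvu hij (c / e)) ^ m = tvu hij (m * (c / e)) := by
    intro m
    induction m with
    | zero =>
      apply Units.ext
      rw [pow_zero, Units.val_one, tvu_val, Nat.cast_zero, zero_mul, Matrix.single_zero, add_zero]
    | succ m ih =>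
      rw [pow_succ, ih]
      apply Units.ext
      rw [Units.val_mul, tvu_val, tvu_val, tvu_val, Nat.cast_succ, add_mul (m : E), one_mul,
        Matrix.single_add]
      simp only [add_mul, mul_add, one_mul, mul_one,
        Matrix.single_mul_single_of_ne _ _ _ _ hij.symm, add_zero]
      abel
  have h4 : tvu hij c = (tvu hij (c / e)) ^ e := by
    rw [h3, mul_div_assoc', Nat.cast_comm, mul_div_assoc, div_self he', mul_one]
  rw [h4, h1]
  exact mem_pc _ _

section top

variable {D : Type} [DivisionRing D] [StarRing D] [CharZero D]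
  {R : Type} [NormedRing R] [CompleteSpace R] {A : Type} [Ring A]

/-- The group of the images of words in powers of commutators of Cayley elements. -/
def Pg (κ : D →+* R) (e : ℕ) : Subgroup Rˣ :=
  Subgroup.closure {u | ∃ y z : D, star y = -y ∧ star z = -z ∧ (u : R) = κ (cq e y z)}

theorem cq_inv (e : ℕ) (y z : D) : (cq e y z)⁻¹ = cq e z y := by
  rw [cq, cq, ← inv_pow]
  congr 1
  simp only [mul_inv_rev, inv_inv, mul_assoc]

theorem word_ne {e : ℕ} {L : List (D × D)} (hL : ∀ y ∈ L, star y.1 = -y.1 ∧ star y.2 = -y.2) :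
    (L.map fun y => cq e y.1 y.2).prod ≠ 0 := by
  apply List.prod_ne_zero
  intro h0
  obtain ⟨y, hy, hy0⟩ := List.mem_map.mp h0
  exact cq_ne e (hL y hy).1 (hL y hy).2 hy0

theorem cq_star {e : ℕ} {y z : D} (hy : star y = -y) (hz : star z = -z) :
    cq e y z * star (cq e y z) = 1 := by
  have key : ∀ a b : D, a * star a = 1 → b * star b = 1 → (a * b) * star (a * b) = 1 := by
    intro a b ha hb
    rw [star_mul, mul_assoc, ← mul_assoc b, hb, one_mul, ha]
  have key2 : ∀ a : D, a * star a = 1 → a⁻¹ * star a⁻¹ = 1 := by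
    intro a ha
    have h0 : a ≠ 0 := left_ne_zero_of_mul_eq_one ha
    have h1 : star a = a⁻¹ := (inv_eq_of_mul_eq_one_right ha).symm
    rw [star_inv₀, h1, inv_inv, inv_mul_cancel₀ h0]
  have key3 : ∀ (m : ℕ) (a : D), a * star a = 1 → a ^ m * star (a ^ m) = 1 := by
    intro m a ha
    induction m with
    | zero => simp
    | succ m ih => rw [pow_succ]; exact key _ _ ih ha
  exact key3 _ _ (key _ _ (key _ _ (key _ _ (cy_mul_star hy) (cy_mul_star hz))
    (key2 _ (cy_mul_star hy))) (key2 _ (cy_mul_star hz)))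

theorem word_star {e : ℕ} {L : List (D × D)}
    (hL : ∀ y ∈ L, star y.1 = -y.1 ∧ star y.2 = -y.2) :
    (L.map fun y => cq e y.1 y.2).prod * star (L.map fun y => cq e y.1 y.2).prod = 1 := by
  induction L with
  | nil => simp
  | cons a L ih =>
    rw [List.map_cons, List.prod_cons, star_mul, mul_assoc, ← mul_assoc _ _ (star _),
      ih fun y hy => hL y (List.mem_cons_of_mem _ hy), one_mul]
    exact cq_star (hL a List.mem_cons_self).1 (hL a List.mem_cons_self).2

/-- The elements of the group are images of words. -/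
theorem mem_Pg {κ : D →+* R} {e : ℕ} {u : Rˣ} (hu : u ∈ Pg κ e) :
    ∃ L : List (D × D), (∀ y ∈ L, star y.1 = -y.1 ∧ star y.2 = -y.2) ∧
      (u : R) = κ (L.map fun y => cq e y.1 y.2).prod := by
  induction hu using Subgroup.closure_induction with
  | mem x hx =>
    obtain ⟨y, z, hy, hz, h⟩ := hx
    refine ⟨[(y, z)], ?_, ?_⟩
    · intro w hw
      rw [List.mem_singleton] at hw
      subst hw
      exact ⟨hy, hz⟩
    · simpa using h
  | one => exact ⟨[], by simp, by simp⟩
  | mul x y _ _ hx hy =>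
    obtain ⟨L, hL, h1⟩ := hx
    obtain ⟨M, hM, h2⟩ := hy
    refine ⟨L ++ M, ?_, ?_⟩
    · intro w hw
      rcases List.mem_append.mp hw with h | h
      · exact hL w h
      · exact hM w h
    · rw [Units.val_mul, h1, h2, ← map_mul, List.map_append, List.prod_append]
  | inv x _ hx =>
    obtain ⟨L, hL, h1⟩ := hx
    refine ⟨(L.map Prod.swap).reverse, ?_, ?_⟩
    · intro w hw
      rw [List.mem_reverse, List.mem_map] at hw
      obtain ⟨w', hw', rfl⟩ := hw
      exact ⟨(hL w' hw').2, (hL w' hw').1⟩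
    · have h2 : (((L.map Prod.swap).reverse).map fun y => cq e y.1 y.2).prod =
          ((L.map fun y => cq e y.1 y.2).prod)⁻¹ := by
        clear h1 hL
        induction L with
        | nil => simp
        | cons a L ih =>
          simp only [List.map_cons, List.reverse_cons, List.map_append, List.prod_append,
            List.map_nil, List.prod_cons, List.prod_nil, mul_one, ih, mul_inv_rev, Prod.fst_swap,
            Prod.snd_swap, cq_inv]
      rw [h2]
      have h3 : (L.map fun y => cq e y.1 y.2).prod ≠ 0 := word_ne hL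
      have h4 : (x : R) * κ ((L.map fun y => cq e y.1 y.2).prod)⁻¹ = 1 := by
        rw [h1, ← map_mul, mul_inv_cancel₀ h3, map_one]
      exact Units.inv_eq_of_mul_eq_one_right h4

/-- Units are limits of images of Cayley elements. -/
theorem exists_cay (κ : D →+* R) (ρ : A →+* R)
    (hd : ∀ a : A, ρ a ∈ closure (κ '' {y | star y = -y})) (h2 : IsUnit (2 : A)) (a : Aˣ)
    (ha : IsUnit (1 + (a : A))) : ∃ (Y : ℕ → D) (u : ℕ → Rˣ), (∀ j, star (Y j) = -Y j) ∧
      (∀ j, (u j : R) = κ (cy (Y j))) ∧ Tendsto u atTop (𝓝 (Units.map (ρ : A →* R) a)) := by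
  obtain ⟨p, hp⟩ := ha
  obtain ⟨t, ht⟩ := h2
  have htc : ∀ x : A, (t : A) * x = x * t := by
    intro x
    rw [ht, two_mul, mul_two]
  -- the parameter
  obtain ⟨y, hy⟩ : ∃ y : A, y = (1 - a) * ((p⁻¹ : Aˣ) : A) := ⟨_, rfl⟩
  have hy1 : 1 + y = ((t * p⁻¹ : Aˣ) : A) := by
    rw [Units.val_mul, ht, hy]
    have : (1 : A) = (p : A) * ((p⁻¹ : Aˣ) : A) := (Units.mul_inv p).symm
    nth_rewrite 1 [this]
    rw [← add_mul, hp]
    congr 1
    rw [← one_add_one_eq_two]
    abel
  have hy2 : 1 - y = ((t * (a * p⁻¹) : Aˣ) : A) := by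
    rw [Units.val_mul, Units.val_mul, ht, hy]
    have : (1 : A) = (p : A) * ((p⁻¹ : Aˣ) : A) := (Units.mul_inv p).symm
    nth_rewrite 1 [this]
    rw [← sub_mul, hp, ← mul_assoc]
    congr 1
    rw [two_mul]
    abel
  have hya : t * (a * p⁻¹) * (t * p⁻¹)⁻¹ = a := by
    have h3 : t * (a * p⁻¹) = (a * p⁻¹) * t := Units.ext (htc _)
    rw [h3]
    have h4 : t * p⁻¹ = p⁻¹ * t := Units.ext (htc _)
    rw [h4]
    group
  obtain ⟨x, hx, hlim⟩ := mem_closure_iff_seq_limit.mp (hd y)
  choose Y hY hYx using hx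
  have hm : ∀ j, (1 + Y j ≠ 0) ∧ (1 - Y j ≠ 0) := fun j => one_pm_ne (hY j)
  let up : ℕ → Rˣ := fun j => Units.map (κ : D →* R) (Units.mk0 _ (hm j).1)
  let um : ℕ → Rˣ := fun j => Units.map (κ : D →* R) (Units.mk0 _ (hm j).2)
  have e1 : ∀ j, (up j : R) = 1 + x j := fun j => by
    rw [← hYx, ← map_one κ, ← map_add]; rfl
  have e2 : ∀ j, (um j : R) = 1 - x j := fun j => by
    rw [← hYx, ← map_one κ, ← map_sub]; rfl
  have l1 : Tendsto up atTop (𝓝 (Units.map (ρ : A →* R) (t * p⁻¹))) := by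
    rw [Units.isOpenEmbedding_val.isEmbedding.tendsto_nhds_iff]
    have e3 : ((Units.map (ρ : A →* R) (t * p⁻¹) : Rˣ) : R) = 1 + ρ y := by
      rw [Units.coe_map, ← hy1, MonoidHom.coe_coe, map_add, map_one]
    rw [e3]
    exact (tendsto_const_nhds.add hlim).congr fun j => (e1 j).symm
  have l2 : Tendsto um atTop (𝓝 (Units.map (ρ : A →* R) (t * (a * p⁻¹)))) := by
    rw [Units.isOpenEmbedding_val.isEmbedding.tendsto_nhds_iff]
    have e3 : ((Units.map (ρ : A →* R) (t * (a * p⁻¹)) : Rˣ) : R) = 1 - ρ y := by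
      rw [Units.coe_map, ← hy2, MonoidHom.coe_coe, map_sub, map_one]
    rw [e3]
    exact (tendsto_const_nhds.sub hlim).congr fun j => (e2 j).symm
  refine ⟨Y, fun j => um j * (up j)⁻¹, hY, fun j => ?_, ?_⟩
  · rw [Units.val_mul, cy, map_mul]
    rfl
  · have := l2.mul l1.inv
    rwa [← map_inv, ← map_mul, hya] at this

/-- The closed group generated by powers of commutators of Cayley elements. -/
def Gm (κ : D →+* R) (e : ℕ) : Subgroup Rˣ := (Pg κ e).topologicalClosure

theorem pow_mem (κ : D →+* R) (ρ : A →+* R)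
    (hd : ∀ a : A, ρ a ∈ closure (κ '' {y | star y = -y})) (h2 : IsUnit (2 : A))
    (ht : ∀ a : Aˣ, ∃ t : Aˣ, (∀ x : Aˣ, t * x = x * t) ∧ IsUnit (1 + ((t * a : Aˣ) : A)))
    (e : ℕ) (a b : Aˣ) : Units.map (ρ : A →* R) ((a * b * a⁻¹ * b⁻¹) ^ e) ∈ Gm κ e := by
  obtain ⟨t, ht1, ht2⟩ := ht a
  obtain ⟨t', ht1', ht2'⟩ := ht b
  have h1 : a * b * a⁻¹ * b⁻¹ = (t * a) * (t' * b) * (t * a)⁻¹ * (t' * b)⁻¹ := by
    have c1 : t * a * (t' * b) * (t * a)⁻¹ = a * (t' * b) * a⁻¹ := by
      rw [ht1 a, mul_inv_rev, mul_assoc a t, ht1 (t' * b)]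
      group
    have c2 : a * (t' * b) * a⁻¹ = t' * (a * b * a⁻¹) := by
      rw [← mul_assoc a t' b, ← ht1' a]
      group
    rw [c1, c2, ht1' b, mul_inv_rev, ht1' (a * b * a⁻¹)]
    group
  obtain ⟨Y, u, hY, hu, hlu⟩ := exists_cay κ ρ hd h2 (t * a) ht2
  obtain ⟨Z, w, hZ, hw, hlw⟩ := exists_cay κ ρ hd h2 (t' * b) ht2'
  have hlim : Tendsto (fun j => (u j * w j * (u j)⁻¹ * (w j)⁻¹) ^ e) atTop
      (𝓝 (Units.map (ρ : A →* R) ((a * b * a⁻¹ * b⁻¹) ^ e))) := by
    rw [h1, map_pow, map_mul, map_mul, map_mul, map_inv, map_inv]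
    exact (((hlu.mul hlw).mul hlu.inv).mul hlw.inv).pow e
  refine mem_closure_of_tendsto hlim (Eventually.of_forall fun j => ?_)
  apply Subgroup.subset_closure
  refine ⟨Y j, Z j, hY j, hZ j, ?_⟩
  have hiu : (((u j)⁻¹ : Rˣ) : R) = κ (cy (Y j))⁻¹ := by
    apply Units.inv_eq_of_mul_eq_one_right
    rw [hu, ← map_mul, mul_inv_cancel₀ (cy_ne (hY j)), map_one]
  have hiw : (((w j)⁻¹ : Rˣ) : R) = κ (cy (Z j))⁻¹ := by
    apply Units.inv_eq_of_mul_eq_one_right
    rw [hw, ← map_mul, mul_inv_cancel₀ (cy_ne (hZ j)), map_one]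
  rw [Units.val_pow_eq_pow_val, Units.val_mul, Units.val_mul, Units.val_mul, hu, hw, hiu, hiw, cq,
    map_pow, map_mul, map_mul, map_mul]

/-- **The commutator subgroup of the division algebra lies in the closed group.** -/
theorem comm_mem (κ : D →+* R) (ρ : A →+* R)
    (hd : ∀ a : A, ρ a ∈ closure (κ '' {y | star y = -y})) (h2 : IsUnit (2 : A))
    (ht : ∀ a : Aˣ, ∃ t : Aˣ, (∀ x : Aˣ, t * x = x * t) ∧ IsUnit (1 + ((t * a : Aˣ) : A)))
    {e : ℕ} (hA : commutator Aˣ ≤ pc e Aˣ) (ι : D →+* A) (hι : ∀ x, ρ (ι x) = κ x) {g : Dˣ}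
    (hg : g ∈ commutator Dˣ) : Units.map (κ : D →* R) g ∈ Gm κ e := by
  have h1 : pc e Aˣ ≤ (Gm κ e).comap (Units.map (ρ : A →* R)) := by
    rw [pc, Subgroup.closure_le]
    rintro x ⟨a, b, rfl⟩
    exact pow_mem κ ρ hd h2 ht e a b
  have h3 : Units.map (ι : D →* A) g ∈ commutator Aˣ := by
    have h2 : commutator Dˣ ≤ (commutator Aˣ).comap (Units.map (ι : D →* A)) := by
      rw [commutator_def, Subgroup.commutator_le]
      intro a _ b _
      rw [Subgroup.mem_comap, map_commutatorElement]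
      exact Subgroup.commutator_mem_commutator (Subgroup.mem_top _) (Subgroup.mem_top _)
    exact h2 hg
  have h4 := h1 (hA h3)
  rw [Subgroup.mem_comap] at h4
  have h5 : Units.map (ρ : A →* R) (Units.map (ι : D →* A) g) = Units.map (κ : D →* R) g :=
    Units.ext (hι _)
  rwa [h5] at h4

/-- The elements of the closed group are limits of words. -/
theorem lt_of_mem {k : Type} [Field k] [NumberField k] [Algebra k D] {N : ℕ}
    {B : Module.Basis (Fin N) k D} {p : Pl k} (κ : D →+* R)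
    (hc : ∀ ε : ℝ, 0 < ε → ∃ δ : ℝ, 0 < δ ∧ ∀ x : D, ‖κ x‖ < δ → ‖κ (star x)‖ < δ →
      nm B p x < ε) {e : ℕ} {g : Dˣ} (hgs : star (g : D) * g = 1)
    (hg : Units.map (κ : D →* R) g ∈ Gm κ e) : LT B p e (g : D) := by
  intro ε hε
  obtain ⟨δ, hδ, h⟩ := hc ε hε
  have hU : {u : Rˣ | ‖κ (g : D) - (u : R)‖ < δ ∧ ‖κ (star (g : D)) - ((u⁻¹ : Rˣ) : R)‖ < δ} ∈
      𝓝 (Units.map (κ : D →* R) g) := by
    have ho : IsOpen {u : Rˣ | ‖κ (g : D) - (u : R)‖ < δ ∧
        ‖κ (star (g : D)) - ((u⁻¹ : Rˣ) : R)‖ < δ} := by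
      apply IsOpen.inter
      · exact isOpen_lt (continuous_const.sub Units.continuous_val).norm continuous_const
      · exact isOpen_lt (continuous_const.sub
          (Units.continuous_val.comp continuous_inv)).norm continuous_const
    refine ho.mem_nhds ⟨?_, ?_⟩
    · change ‖κ (g : D) - κ (g : D)‖ < δ
      rw [sub_self, norm_zero]; exact hδ
    · have : ((Units.map (κ : D →* R) g)⁻¹ : Rˣ) = Units.map (κ : D →* R) g⁻¹ := (map_inv _ _).symm
      rw [this]
      change ‖κ (star (g : D)) - κ ((g⁻¹ : Dˣ) : D)‖ < δ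
      have h3 : star (g : D) = ((g⁻¹ : Dˣ) : D) := by
        rw [← mul_one (star (g : D)), ← Units.mul_inv g, ← mul_assoc, hgs, one_mul]
      rw [h3, sub_self, norm_zero]; exact hδ
  obtain ⟨u, hu1, hu2⟩ := (mem_closure_iff_nhds.mp hg) _ hU
  obtain ⟨L, hL, huL⟩ := mem_Pg hu2
  refine ⟨L, hL, h _ ?_ ?_⟩
  · rw [map_sub, ← huL]
    exact hu1.1
  · have h4 : κ (star (L.map fun y => cq e y.1 y.2).prod) = ((u⁻¹ : Rˣ) : R) := by
      symm
      apply Units.inv_eq_of_mul_eq_one_right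
      rw [huL, ← map_mul, word_star hL, map_one]
    rw [star_sub, map_sub, h4]
    exact hu1.2

end top

end Vale.Agent.P011.One
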