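import Mathlib

/-!
A conjugate of a square root of a scalar by a transvection: the identities.
-/

set_option linter.unusedSimpArgs false
set_option linter.unusedTactic false
set_option linter.unreachableTactic false

namespace Vale.Agent.P011.One

section

variable {F R : Type} [Field F] [CharZero F] [Ring R] [Algebra F R]

/-- The commuting square root. -/
def tT (a μ : F) (J e : R) : R :=
  J + e * J - J * e + μ⁻¹ • (J * e * J) - ((a + μ ^ 2) / (2 * μ)) • e

/-- The idempotent. -/
def tP (μ : F) (J e : R) : R := μ⁻¹ • (e * J + J * e)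

variable {a μ : F} {J e : R} (hμ : μ ≠ 0) (hJ : J * J = a • (1 : R)) (he : e * e = 0)
  (heJ : e * J * e = μ • e)

include hμ hJ he heJ

omit [CharZero F] in
theorem tP_sq : tP μ J e * tP μ J e = tP μ J e := by
  have J2 : ∀ z, J * (J * z) = a • z := fun z => by rw [← mul_assoc, hJ, smul_mul_assoc, one_mul]
  have e2 : ∀ z, e * (e * z) = 0 := fun z => by rw [← mul_assoc, he, zero_mul]
  have eJ1 : e * (J * e) = μ • e := by rw [← mul_assoc, heJ]
  have eJ2 : ∀ z, e * (J * (e * z)) = μ • (e * z) := fun z => by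
    rw [← mul_assoc J, ← mul_assoc e, eJ1, ← smul_mul_assoc]
  simp only [tP, smul_mul_assoc, mul_smul_comm, smul_smul, mul_add, add_mul, mul_assoc, J2, e2,
    eJ1, eJ2, hJ, he, smul_add, smul_zero, mul_zero, mul_one, add_zero, sub_zero]
  match_scalars <;> field_simp

theorem tT_comm : tP μ J e * tT a μ J e = tT a μ J e * tP μ J e := by
  have J2 : ∀ z, J * (J * z) = a • z := fun z => by rw [← mul_assoc, hJ, smul_mul_assoc, one_mul]
  have e2 : ∀ z, e * (e * z) = 0 := fun z => by rw [← mul_assoc, he, zero_mul]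
  have eJ1 : e * (J * e) = μ • e := by rw [← mul_assoc, heJ]
  have eJ2 : ∀ z, e * (J * (e * z)) = μ • (e * z) := fun z => by
    rw [← mul_assoc J, ← mul_assoc e, eJ1, ← smul_mul_assoc]
  have h2 : (2 : F) ≠ 0 := two_ne_zero
  simp only [tP, tT, smul_mul_assoc, mul_smul_comm, smul_smul, mul_add, add_mul, mul_sub, sub_mul,
    mul_assoc, J2, e2, eJ1, eJ2, hJ, he, smul_add, smul_sub, smul_zero, mul_zero, mul_one, add_zero, sub_zero]
  match_scalars <;> field_simp <;> ring

theorem tT_sq : tT a μ J e * tT a μ J e = a • (1 : R) := by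
  have J2 : ∀ z, J * (J * z) = a • z := fun z => by rw [← mul_assoc, hJ, smul_mul_assoc, one_mul]
  have e2 : ∀ z, e * (e * z) = 0 := fun z => by rw [← mul_assoc, he, zero_mul]
  have eJ1 : e * (J * e) = μ • e := by rw [← mul_assoc, heJ]
  have eJ2 : ∀ z, e * (J * (e * z)) = μ • (e * z) := fun z => by
    rw [← mul_assoc J, ← mul_assoc e, eJ1, ← smul_mul_assoc]
  have h2 : (2 : F) ≠ 0 := two_ne_zero
  simp only [tP, tT, smul_mul_assoc, mul_smul_comm, smul_smul, mul_add, add_mul, mul_sub, sub_mul,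
    mul_assoc, J2, e2, eJ1, eJ2, hJ, he, smul_add, smul_sub, smul_zero, mul_zero, mul_one, add_zero, sub_zero]
  match_scalars <;> field_simp <;> ring

theorem eTe : e * tT a μ J e * e = (2 * μ) • e := by
  have J2 : ∀ z, J * (J * z) = a • z := fun z => by rw [← mul_assoc, hJ, smul_mul_assoc, one_mul]
  have e2 : ∀ z, e * (e * z) = 0 := fun z => by rw [← mul_assoc, he, zero_mul]
  have eJ1 : e * (J * e) = μ • e := by rw [← mul_assoc, heJ]
  have eJ2 : ∀ z, e * (J * (e * z)) = μ • (e * z) := fun z => by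
    rw [← mul_assoc J, ← mul_assoc e, eJ1, ← smul_mul_assoc]
  have h2 : (2 : F) ≠ 0 := two_ne_zero
  simp only [tP, tT, smul_mul_assoc, mul_smul_comm, smul_smul, mul_add, add_mul, mul_sub, sub_mul,
    mul_assoc, J2, e2, eJ1, eJ2, hJ, he, smul_add, smul_sub, smul_zero, mul_zero, mul_one, add_zero, sub_zero]
  match_scalars <;> field_simp <;> ring

/-- The conjugation to `J`. -/
theorem tG_conj : tT a μ J e * (1 + μ⁻¹ • ((tT a μ J e - J) * e)) =
    (1 + μ⁻¹ • ((tT a μ J e - J) * e)) * J := by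
  have J2 : ∀ z, J * (J * z) = a • z := fun z => by rw [← mul_assoc, hJ, smul_mul_assoc, one_mul]
  have e2 : ∀ z, e * (e * z) = 0 := fun z => by rw [← mul_assoc, he, zero_mul]
  have eJ1 : e * (J * e) = μ • e := by rw [← mul_assoc, heJ]
  have eJ2 : ∀ z, e * (J * (e * z)) = μ • (e * z) := fun z => by
    rw [← mul_assoc J, ← mul_assoc e, eJ1, ← smul_mul_assoc]
  have h2 : (2 : F) ≠ 0 := two_ne_zero
  simp only [tP, tT, smul_mul_assoc, mul_smul_comm, smul_smul, mul_add, add_mul, mul_sub, sub_mul,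
    mul_assoc, J2, e2, eJ1, eJ2, hJ, he, smul_add, smul_sub, smul_zero, mul_zero, mul_one, one_mul, add_zero, sub_zero]
  match_scalars <;> field_simp <;> ring

/-- The transvection and the element `h` have the same effect. -/
theorem tH_conj (w : F) (hw : w = (μ ^ 2 - 3 * a) / (2 * μ)) :
    (1 - tP μ J e + tP μ J e * (tT a μ J e + w • 1)) * J =
      ((1 + e) * J * (1 - e)) * (1 - tP μ J e + tP μ J e * (tT a μ J e + w • 1)) := by
  have J2 : ∀ z, J * (J * z) = a • z := fun z => by rw [← mul_assoc, hJ, smul_mul_assoc, one_mul]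
  have e2 : ∀ z, e * (e * z) = 0 := fun z => by rw [← mul_assoc, he, zero_mul]
  have eJ1 : e * (J * e) = μ • e := by rw [← mul_assoc, heJ]
  have eJ2 : ∀ z, e * (J * (e * z)) = μ • (e * z) := fun z => by
    rw [← mul_assoc J, ← mul_assoc e, eJ1, ← smul_mul_assoc]
  have h2 : (2 : F) ≠ 0 := two_ne_zero
  subst hw
  simp only [tP, tT, smul_mul_assoc, mul_smul_comm, smul_smul, mul_add, add_mul, mul_sub, sub_mul,
    mul_assoc, J2, e2, eJ1, eJ2, hJ, he, smul_add, smul_sub, smul_zero, mul_zero, mul_one, one_mul, add_zero, sub_zero]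
  match_scalars <;> field_simp <;> ring

/-- The invariant of the pair. -/
theorem tC_eq : (J + (1 + e) * J * (1 - e)) * (J + (1 + e) * J * (1 - e)) =
    (4 * a) • (1 : R) - (μ ^ 2) • tP μ J e := by
  have J2 : ∀ z, J * (J * z) = a • z := fun z => by rw [← mul_assoc, hJ, smul_mul_assoc, one_mul]
  have e2 : ∀ z, e * (e * z) = 0 := fun z => by rw [← mul_assoc, he, zero_mul]
  have eJ1 : e * (J * e) = μ • e := by rw [← mul_assoc, heJ]
  have eJ2 : ∀ z, e * (J * (e * z)) = μ • (e * z) := fun z => by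
    rw [← mul_assoc J, ← mul_assoc e, eJ1, ← smul_mul_assoc]
  have h2 : (2 : F) ≠ 0 := two_ne_zero
  simp only [tP, tT, smul_mul_assoc, mul_smul_comm, smul_smul, mul_add, add_mul, mul_sub, sub_mul,
    mul_assoc, J2, e2, eJ1, eJ2, hJ, he, smul_add, smul_sub, smul_zero, mul_zero, mul_one, one_mul, add_zero, sub_zero]
  match_scalars <;> field_simp <;> ring

end

end Vale.Agent.P011.One
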