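import Vale.Agent.P011.One.TwoModel
import Vale.Agent.P011.W.Red1

/-!
Local chains of symmetric square roots of `a` at a split place at which the algebra is a matrix
algebra.
-/

open NumberField IsDedekindDomain TensorProduct Module Matrix Relation

set_option linter.unusedSectionVars false

namespace Vale.Agent.P011.One

open Vale.Agent.P011.Arith Vale.Agent.P011.Even Vale.Agent.P011.Two
open Vale.Agent.P011.W (Spl HasNrd hasNrd_iff hasNrd_of_det)

theorem exists_scale {F : Type} [Field F] [CharZero F] {n : ℕ} (P : Matrix (Fin n) (Fin n) F) :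
    ∃ c : F, c ≠ 0 ∧ IsUnit (1 + c • P) := by
  have h1 : P.charpoly * Polynomial.X ≠ 0 := mul_ne_zero P.charpoly_monic.ne_zero
    Polynomial.X_ne_zero
  obtain ⟨t, ht⟩ := Polynomial.exists_eval_ne_zero_of_natDegree_lt_card _ h1
    (Cardinal.natCast_lt_aleph0.trans_le (Cardinal.infinite_iff.mp inferInstance))
  rw [Polynomial.eval_mul, Polynomial.eval_X, Matrix.eval_charpoly] at ht
  have ht0 : t ≠ 0 := right_ne_zero_of_mul ht
  refine ⟨-t⁻¹, neg_ne_zero.mpr (inv_ne_zero ht0), ?_⟩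
  have h2 : Matrix.scalar (Fin n) t - P = t • (1 + (-t⁻¹) • P) := by
    rw [smul_add, smul_smul, mul_neg, mul_inv_cancel₀ ht0, neg_one_smul, ← sub_eq_add_neg]
    congr 1
    ext i j
    simp [Matrix.scalar_apply, Matrix.diagonal_apply, Matrix.one_apply]
  rw [h2, Matrix.det_smul] at ht
  rw [Matrix.isUnit_iff_isUnit_det]
  exact (right_ne_zero_of_mul (left_ne_zero_of_mul ht)).isUnit

section

variable {k K D : Type} [Field k] [NumberField k] [Field K] [StarRing K]
  [DivisionRing D] [StarRing D] [Algebra k K] [Algebra k D] [Algebra K D] [IsScalarTower k K D]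
  {d : kˣ} {s : K} {v : HeightOneSpectrum (𝓞 k)} {n : ℕ}
  {φ : K →+* v.adicCompletion k} {f : D →+* Matrix (Fin n) (Fin n) (v.adicCompletion k)}

theorem SplAt.isUnit (hS : Setting k K D d s) (h : SplAt K D n v φ f) (hn : 0 < n)
    (hdeg : finrank K D = n ^ 2) {x : v.adicCompletion k ⊗[k] D} (h1 : IsUnit (h.pr x))
    (h2 : IsUnit (h.pr (sg hS v x))) : IsUnit x := by
  obtain ⟨⟨A, A', hA, hA'⟩, hx⟩ := h1
  obtain ⟨⟨B, B', hB, hB'⟩, hy⟩ := h2
  change A = _ at hx
  change B = _ at hy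
  obtain ⟨z, hz1, hz2⟩ := h.exists_mk hS hn hdeg A' B'
  refine ⟨⟨x, z, ?_, ?_⟩, rfl⟩
  · refine h.ext hS hn hdeg ?_ ?_
    · rw [map_mul, map_one, hz1, ← hx, hA]
    · rw [sg_mul, sg_one, map_mul, map_one, hz2, ← hy, hB']
  · refine h.ext hS hn hdeg ?_ ?_
    · rw [map_mul, map_one, hz1, ← hx, hA']
    · rw [sg_mul, sg_one, map_mul, map_one, hz2, ← hy, hB]

/-- Steps between matrices give local steps. -/
theorem SplAt.lstep (hS : Setting k K D d s) (h : SplAt K D n v φ f) (hn : 0 < n)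
    (hdeg : finrank K D = n ^ 2) {a : kˣ} (ha : ¬ IsSquare (algebraMap k (v.adicCompletion k) a))
    {W W' : v.adicCompletion k ⊗[k] D} (hW : h.pr (sg hS v W) = h.pr W)
    (hW' : h.pr (sg hS v W') = h.pr W')
    (hst : MStep (algebraMap k (v.adicCompletion k) a) (h.pr W) (h.pr W')) :
    LStep1 hS a v W W' := by
  obtain ⟨⟨G, G', C, C', g1, g2, c1, c2, hCJ, hJ'⟩, μ, hμ, hrel⟩ := hst
  set J := h.pr W with hJ
  obtain ⟨α, hα0, hα⟩ := exists_scale G
  obtain ⟨β, hβ0, hβ⟩ := exists_scale C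
  obtain ⟨x, hx1, hx2⟩ := h.exists_mk hS hn hdeg (α • G) (α⁻¹ • G')
  obtain ⟨y, hy1, hy2⟩ := h.exists_mk hS hn hdeg (β • C) (β⁻¹ • C')
  have hC'J : J * C' = C' * J := by
    calc J * C' = C' * C * (J * C') := by rw [c2, one_mul]
      _ = C' * (C * J) * C' := by noncomm_ring
      _ = C' * J * (C * C') := by rw [hCJ]; noncomm_ring
      _ = C' * J := by rw [c1, mul_one]
  have u1 : ∀ (c : v.adicCompletion k) (P P' : Matrix (Fin n) (Fin n) (v.adicCompletion k)),
      c ≠ 0 → P * P' = 1 → (c • P) * (c⁻¹ • P') = 1 := fun c P P' hc hP => by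
    rw [smul_mul_assoc, mul_smul_comm, smul_smul, mul_inv_cancel₀ hc, one_smul, hP]
  have u2 : ∀ (c : v.adicCompletion k) (P P' : Matrix (Fin n) (Fin n) (v.adicCompletion k)),
      c ≠ 0 → P' * P = 1 → (c⁻¹ • P') * (c • P) = 1 := fun c P P' hc hP => by
    rw [smul_mul_assoc, mul_smul_comm, smul_smul, inv_mul_cancel₀ hc, one_smul, hP]
  have u3 : ∀ (c : v.adicCompletion k) (P P' : Matrix (Fin n) (Fin n) (v.adicCompletion k)),
      c ≠ 0 → P * P' = 1 → P' * P = 1 → IsUnit (1 + c • P) → IsUnit (1 + c⁻¹ • P') := by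
    intro c P P' hc hP hP' hu
    have e1 : 1 + c⁻¹ • P' = (c⁻¹ • P') * (1 + c • P) := by
      rw [mul_add, mul_one, u2 c P P' hc hP', add_comm]
    rw [e1]
    exact IsUnit.mul ⟨⟨c⁻¹ • P', c • P, u2 c P P' hc hP', u1 c P P' hc hP⟩, rfl⟩ hu
  have hF0 : algebraMap k (v.adicCompletion k) (a : k) ≠ 0 := (map_ne_zero _).mpr a.ne_zero
  set A := algebraMap k (v.adicCompletion k) (a : k) with hA
  have h4 : (4 : v.adicCompletion k) * A ≠ 0 := mul_ne_zero (by norm_num) hF0
  refine ⟨⟨x, y, ?_, ?_, ?_, ?_, ?_, ?_, ?_, ?_⟩, ?_⟩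
  · refine h.ext hS hn hdeg ?_ ?_
    · rw [map_mul, map_one, hx1, hx2, u1 _ _ _ hα0 g1]
    · rw [sg_mul, sg_sg, sg_one, map_mul, map_one, hx1, hx2, u1 _ _ _ hα0 g1]
  · refine h.ext hS hn hdeg ?_ ?_
    · rw [map_mul, map_one, hx1, hx2, u2 _ _ _ hα0 g2]
    · rw [sg_mul, sg_sg, sg_one, map_mul, map_one, hx1, hx2, u2 _ _ _ hα0 g2]
  · refine h.ext hS hn hdeg ?_ ?_
    · rw [map_mul, map_one, hy1, hy2, u1 _ _ _ hβ0 c1]
    · rw [sg_mul, sg_sg, sg_one, map_mul, map_one, hy1, hy2, u1 _ _ _ hβ0 c1]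
  · refine h.ext hS hn hdeg ?_ ?_
    · rw [map_mul, map_one, hy1, hy2, u2 _ _ _ hβ0 c2]
    · rw [sg_mul, sg_sg, sg_one, map_mul, map_one, hy1, hy2, u2 _ _ _ hβ0 c2]
  · refine h.isUnit hS hn hdeg ?_ ?_
    · rw [map_add, map_one, hx1]
      exact hα
    · rw [map_add, map_add, sg_one, map_one, hx2]
      exact u3 _ _ _ hα0 g1 g2 hα
  · refine h.isUnit hS hn hdeg ?_ ?_
    · rw [map_add, map_one, hy1]
      exact hβ
    · rw [map_add, map_add, sg_one, map_one, hy2]
      exact u3 _ _ _ hβ0 c1 c2 hβ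
  · refine h.ext hS hn hdeg ?_ ?_
    · rw [map_mul, map_mul, hy1, ← hJ, smul_mul_assoc, mul_smul_comm, hCJ]
    · rw [sg_mul, sg_mul, map_mul, map_mul, hy2, hW, smul_mul_assoc, mul_smul_comm, hC'J]
  · have e1 : (α • G * β • C * α⁻¹ • G') * J * (α • G * β⁻¹ • C' * α⁻¹ • G') =
        (G * C * G') * J * (G * C' * G') := by
      simp only [smul_mul_assoc, mul_smul_comm, smul_smul]
      rw [show α⁻¹ * (β⁻¹ * α) * (α⁻¹ * (β * α)) = 1 by field_simp, one_smul]
    refine h.ext hS hn hdeg ?_ ?_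
    · simp only [map_mul, hx1, hx2, hy1, hy2]
      rw [← hJ, e1, hJ']
    · rw [hW', hJ']
      simp only [sg_mul, sg_sg, map_mul, hx1, hx2, hy1, hy2]
      rw [hW, ← e1]
      noncomm_ring
  · have hα1 : 1 - μ ^ 2 / (4 * A) ≠ 0 := by
      intro h0
      apply ha
      refine ⟨μ / 2, ?_⟩
      have h1 : 4 * A = μ ^ 2 := by
        field_simp at h0
        linear_combination h0
      linear_combination h1 / 4
    have hα2 : μ ^ 2 / (4 * A) ≠ 0 := div_ne_zero (pow_ne_zero 2 hμ) h4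
    have hs2 : (φ s) ^ 2 = algebraMap k (v.adicCompletion k) (d : k) := by
      rw [← map_pow, hS.sq, h.base]
    have hd0 : algebraMap k (v.adicCompletion k) (d : k) ≠ 0 := (map_ne_zero _).mpr d.ne_zero
    have hs0 : φ s ≠ 0 := by
      intro h0
      rw [h0, zero_pow two_ne_zero] at hs2
      exact hd0 hs2.symm
    refine ⟨Units.mk0 _ hα1, Units.mk0 _ hα2, ?_, ?_, ?_, ?_⟩
    · refine ⟨1, μ / (2 * A * φ s), ?_⟩
      rw [Units.val_mk0, iu_val, Units.val_mul, map_mul, ← hs2, ← hA]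
      field_simp
      ring
    · rw [Units.val_mk0, Units.val_mk0]
      ring
    · refine ⟨0, μ / (2 * A * φ s), ?_⟩
      rw [Units.val_neg, Units.val_mk0, iu_val, Units.val_mul, map_mul, ← hs2, ← hA]
      field_simp
      ring
    · rw [Units.val_mk0]
      have e0 : ccT v a W W' = (4 * A)⁻¹ • ((W + W') * (W + W')) := by
        rw [ccT]
        have e1 : (1 : v.adicCompletion k) ⊗ₜ[k] algebraMap k D (4 * a : k)⁻¹ =
            (4 * A)⁻¹ • (1 : v.adicCompletion k ⊗[k] D) := by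
          have h5 : algebraMap k (v.adicCompletion k) ((4 * a : k)⁻¹) = (4 * A)⁻¹ := by
            rw [map_inv₀, map_mul, map_ofNat]
          rw [← h5, Algebra.TensorProduct.one_def, TensorProduct.smul_tmul', smul_eq_mul, mul_one,
            Algebra.algebraMap_eq_smul_one, Algebra.algebraMap_eq_smul_one,
            TensorProduct.smul_tmul]
        rw [e1, mul_smul_comm, mul_one]
      have e2 : ∀ c : v.adicCompletion k, algebraMap (v.adicCompletion k)
          (v.adicCompletion k ⊗[k] D) c = c • 1 := fun c => Algebra.algebraMap_eq_smul_one c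
      have e4 : ∀ Q : Matrix (Fin n) (Fin n) (v.adicCompletion k),
          (Q - (4 * A) • 1) * (Q - (4 * A - μ ^ 2) • 1) = 0 →
          ((4 * A)⁻¹ • Q - 1) * ((4 * A)⁻¹ • Q - (1 - μ ^ 2 / (4 * A)) • 1) = 0 ∧
          ((4 * A)⁻¹ • Q - (1 - μ ^ 2 / (4 * A)) • 1) * ((4 * A)⁻¹ • Q - 1) = 0 := by
        intro Q hQ
        have f1 : (4 * A)⁻¹ • Q - 1 = (4 * A)⁻¹ • (Q - (4 * A) • 1) := by
          rw [smul_sub, smul_smul, inv_mul_cancel₀ h4, one_smul]
        have f2 : (4 * A)⁻¹ • Q - (1 - μ ^ 2 / (4 * A)) • 1 =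
            (4 * A)⁻¹ • (Q - (4 * A - μ ^ 2) • 1) := by
          rw [smul_sub, smul_smul]
          congr 2
          field_simp
        have hQ' : (Q - (4 * A - μ ^ 2) • 1) * (Q - (4 * A) • 1) = 0 := by
          rw [← hQ]
          simp only [mul_sub, sub_mul, smul_mul_assoc, mul_smul_comm, one_mul, mul_one, smul_sub,
            smul_smul]
          rw [mul_comm (μ ^ 2)]
          abel
        rw [f1, f2, smul_mul_assoc, mul_smul_comm, hQ, smul_mul_assoc, mul_smul_comm, hQ']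
        simp
      rw [e2, e0]
      refine h.ext hS hn hdeg ?_ ?_
      · simp only [map_mul, map_sub, map_smul, map_add, map_one, map_zero]
        rw [← hJ]
        exact (e4 _ hrel).1
      · simp only [sg_mul, map_mul, map_sub, map_smul, map_add, map_one, map_zero, sg_one]
        rw [hW, hW']
        exact (e4 _ hrel).2

/-- Local chains at a split place at which the algebra is a matrix algebra. -/
theorem SplAt.chain (hS : Setting k K D d s) (h : SplAt K D n v φ f) (hn : 0 < n)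
    (hdeg : finrank K D = n ^ 2) {a : kˣ} (ha : a ∉ LS (v.valuation k)) {σ g : D}
    (hσ : σ ∈ Xa D a) (hg : g * star g = 1) (hgn : (f g).det = 1) :
    ReflTransGen (LStep1 hS a v) (1 ⊗ₜ σ) (1 ⊗ₜ (g * σ * star g)) := by
  have ha' : ¬ IsSquare (algebraMap k (v.adicCompletion k) a) := fun h0 =>
    ha ((isSquare_iff v a).mp h0)
  have hg' : star g * g = 1 := by
    have hg0 : g ≠ 0 := by
      rintro rfl
      rw [zero_mul] at hg
      exact zero_ne_one hg
    have h1 : star g = g⁻¹ := eq_inv_of_mul_eq_one_right hg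
    rw [h1, inv_mul_cancel₀ hg0]
  choose mk hmk1 hmk2 using fun J => h.exists_mk hS hn hdeg J J
  have huniq : ∀ W, h.pr (sg hS v W) = h.pr W → mk (h.pr W) = W := fun W hW =>
    h.ext hS hn hdeg (hmk1 _) (by rw [hmk2, hW])
  have hJ : f σ * f σ = (algebraMap k (v.adicCompletion k) a) • 1 := by
    rw [← map_mul, hσ.2, ← Algebra.algebraMap_eq_smul_one]
    exact h.hom.commutes _
  have key := good_sl ha' ⟨f g, hgn⟩ (f σ) hJ
  have hinv : (((⟨f g, hgn⟩ : SpecialLinearGroup (Fin n) (v.adicCompletion k))⁻¹ :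
      SpecialLinearGroup (Fin n) (v.adicCompletion k)) :
      Matrix (Fin n) (Fin n) (v.adicCompletion k)) = f (star g) := by
    have h1 := sl_inv_mul (⟨f g, hgn⟩ : SpecialLinearGroup (Fin n) (v.adicCompletion k))
    have h2 : f g * f (star g) = 1 := by rw [← map_mul, hg, map_one]
    calc _ = (((⟨f g, hgn⟩ : SpecialLinearGroup (Fin n) (v.adicCompletion k))⁻¹ :
      SpecialLinearGroup (Fin n) (v.adicCompletion k)) :
      Matrix (Fin n) (Fin n) (v.adicCompletion k)) * (f g * f (star g)) := by rw [h2, mul_one]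
      _ = 1 * f (star g) := by
        rw [← mul_assoc]
        congr 1
      _ = f (star g) := one_mul _
  rw [hinv] at key
  have key1 : ∀ J J' : Matrix (Fin n) (Fin n) (v.adicCompletion k),
      MStep (algebraMap k (v.adicCompletion k) a) J J' → LStep1 hS a v (mk J) (mk J') := by
    intro J J' hJJ
    refine h.lstep hS hn hdeg ha' ?_ ?_ ?_
    · rw [hmk1, hmk2]
    · rw [hmk1, hmk2]
    · rw [hmk1, hmk1]
      exact hJJ
  have key2 := ReflTransGen.lift (p := LStep1 hS a v) mk key1 _ _ key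
  have h1 : mk (f σ) = 1 ⊗ₜ σ := by
    rw [← huniq (1 ⊗ₜ σ) (by rw [sg_tmul, hσ.1]), h.pr_tmul, one_smul]
  have h2 : mk (f g * f σ * f (star g)) = 1 ⊗ₜ (g * σ * star g) := by
    rw [← huniq (1 ⊗ₜ (g * σ * star g)) (by
      rw [sg_tmul, star_mul, star_mul, star_star, hσ.1, mul_assoc]), h.pr_tmul, one_smul,
      map_mul, map_mul]
  rw [← h1, ← h2]
  exact key2

end

end Vale.Agent.P011.One
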