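import Vale.Agent.P011.One.TwoAlg

/-!
Steps between square roots of a scalar in a matrix algebra: all elements of determinant one are
reached.
-/

set_option linter.unusedSimpArgs false

namespace Vale.Agent.P011.One

open Matrix Relation

section

variable {F R : Type} [Field F] [CharZero F] [Ring R] [Algebra F R]

/-- A step between two square roots of `a` in a ring. -/
structure MStep (a : F) (J J' : R) : Prop where
  conj : ∃ G G' C C' : R, G * G' = 1 ∧ G' * G = 1 ∧ C * C' = 1 ∧ C' * C = 1 ∧ C * J = J * C ∧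
    J' = (G * C * G') * J * (G * C' * G')
  rel : ∃ μ : F, μ ≠ 0 ∧ ((J + J') * (J + J') - (4 * a) • (1 : R)) *
    ((J + J') * (J + J') - (4 * a - μ ^ 2) • (1 : R)) = 0

omit [CharZero F] in
theorem MStep.map {a : F} {J J' P P' : R} (h : MStep a J J') (hP : P * P' = 1)
    (hP' : P' * P = 1) : MStep a (P * J * P') (P * J' * P') := by
  have c1 : ∀ x y : R, (P * x * P') * (P * y * P') = P * (x * y) * P' := fun x y => by
    calc (P * x * P') * (P * y * P') = P * x * (P' * P) * y * P' := by noncomm_ring
      _ = _ := by rw [hP', mul_one, mul_assoc P x y]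
  obtain ⟨G, G', C, C', h1, h2, h3, h4, h5, h6⟩ := h.conj
  refine ⟨⟨P * G * P', P * G' * P', P * C * P', P * C' * P', ?_, ?_, ?_, ?_, ?_, ?_⟩, ?_⟩
  · rw [c1, h1, mul_one, hP]
  · rw [c1, h2, mul_one, hP]
  · rw [c1, h3, mul_one, hP]
  · rw [c1, h4, mul_one, hP]
  · rw [c1, c1, h5]
  · rw [c1, c1, c1, c1, c1, c1, h6]
  · obtain ⟨μ, hμ, hr⟩ := h.rel
    refine ⟨μ, hμ, ?_⟩
    have e1 : P * J * P' + P * J' * P' = P * (J + J') * P' := by rw [mul_add, add_mul]
    have e2 : ∀ c : F, c • (1 : R) = P * (c • (1 : R)) * P' := fun c => by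
      rw [mul_smul_comm, mul_one, smul_mul_assoc, hP]
    rw [e1, c1, e2 (4 * a), e2 (4 * a - μ ^ 2), ← sub_mul, ← mul_sub, ← sub_mul, ← mul_sub,
      c1, hr, mul_zero, zero_mul]

/-- The effect of a transvection is a step. -/
theorem mstep_one {a μ : F} {J e : R} (hμ : μ ≠ 0) (hJ : J * J = a • (1 : R)) (he : e * e = 0)
    (heJ : e * J * e = μ • e) (hw : a - ((μ ^ 2 - 3 * a) / (2 * μ)) ^ 2 ≠ 0) :
    MStep a J ((1 + e) * J * (1 - e)) := by
  have h2 : (2 : F) ≠ 0 := two_ne_zero
  set w : F := (μ ^ 2 - 3 * a) / (2 * μ) with hwd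
  set T : R := tT a μ J e with hT
  set p : R := tP μ J e with hp
  have hpp : p * p = p := tP_sq hμ hJ he heJ
  have hpT : p * T = T * p := tT_comm hμ hJ he heJ
  have hTT : T * T = a • (1 : R) := tT_sq hμ hJ he heJ
  have heT : e * T * e = (2 * μ) • e := eTe hμ hJ he heJ
  -- the idempotent
  set f : R := μ⁻¹ • ((T - J) * e) with hf
  have hff : f * f = f := by
    rw [hf, smul_mul_assoc, mul_smul_comm, smul_smul]
    have : (T - J) * e * ((T - J) * e) = (T - J) * (e * T * e - e * J * e) := by noncomm_ring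
    rw [this, heT, heJ, ← sub_smul, mul_smul_comm, smul_smul]
    congr 1
    field_simp
    ring
  clear_value f
  set G : R := 1 + f with hG
  set G' : R := 1 - (2 : F)⁻¹ • f with hG'
  have hGG' : G * G' = 1 := by
    rw [hG, hG', add_mul, mul_sub, mul_sub, mul_one, one_mul, mul_one, mul_smul_comm, hff]
    match_scalars <;> field_simp <;> norm_num
  have hG'G : G' * G = 1 := by
    rw [hG, hG', mul_add, sub_mul, sub_mul, one_mul, mul_one, one_mul, smul_mul_assoc, hff]
    match_scalars <;> field_simp <;> norm_num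
  have hTG : T * G = G * J := by
    rw [hG, hf]
    exact tG_conj hμ hJ he heJ
  have hG'T : G' * T = J * G' := by
    calc G' * T = G' * T * (G * G') := by rw [hGG', mul_one]
      _ = G' * (T * G) * G' := by noncomm_ring
      _ = G' * G * J * G' := by rw [hTG]; noncomm_ring
      _ = J * G' := by rw [hG'G, one_mul]
  -- the element h
  set h : R := 1 - p + p * (T + w • 1) with hh
  set h' : R := 1 - p + (a - w ^ 2)⁻¹ • (p * (T - w • 1)) with hh'
  have e1 : (T + w • 1) * (T - w • 1) = (a - w ^ 2) • (1 : R) := by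
    rw [mul_sub, add_mul, add_mul, hTT]
    simp only [smul_mul_assoc, mul_smul_comm, one_mul, mul_one, smul_smul]
    match_scalars <;> ring
  have e2 : (T - w • 1) * (T + w • 1) = (a - w ^ 2) • (1 : R) := by
    rw [mul_add, sub_mul, sub_mul, hTT]
    simp only [smul_mul_assoc, mul_smul_comm, one_mul, mul_one, smul_smul]
    match_scalars <;> ring
  have e3 : ∀ c : F, (T + c • 1) * p = p * (T + c • 1) := fun c => by
    rw [mul_add, add_mul, hpT, mul_smul_comm, smul_mul_assoc, one_mul, mul_one]
  have e4 : ∀ c : F, (T - c • 1) * p = p * (T - c • 1) := fun c => by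
    rw [mul_sub, sub_mul, hpT, mul_smul_comm, smul_mul_assoc, one_mul, mul_one]
  have q1 : (1 - p) * p = 0 := by rw [sub_mul, one_mul, hpp, sub_self]
  have q2 : p * (1 - p) = 0 := by rw [mul_sub, mul_one, hpp, sub_self]
  have q3 : (1 - p) * (1 - p) = 1 - p := by rw [mul_sub, mul_one, q1, sub_zero]
  have hhh' : h * h' = 1 := by
    rw [hh, hh', add_mul, mul_add, mul_add, q3]
    rw [mul_smul_comm, ← mul_assoc (1 - p) p, q1, zero_mul, smul_zero, add_zero]
    rw [show p * (T + w • 1) * (1 - p) = 0 by rw [← e3, mul_assoc, q2, mul_zero], zero_add]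
    rw [mul_smul_comm, show p * (T + w • 1) * (p * (T - w • 1)) =
      p * ((T + w • 1) * p) * (T - w • 1) by noncomm_ring, e3, ← mul_assoc, hpp, mul_assoc, e1,
      mul_smul_comm, mul_one, smul_smul, inv_mul_cancel₀ hw, one_smul, sub_add_cancel]
  have hh'h : h' * h = 1 := by
    rw [hh, hh', add_mul, mul_add (1 - p), q3, mul_add (_ • _)]
    rw [← mul_assoc (1 - p) p, q1, zero_mul, add_zero]
    rw [smul_mul_assoc, show p * (T - w • 1) * (1 - p) = 0 by
      rw [← e4, mul_assoc, q2, mul_zero], smul_zero, zero_add]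
    rw [smul_mul_assoc, show p * (T - w • 1) * (p * (T + w • 1)) =
      p * ((T - w • 1) * p) * (T + w • 1) by noncomm_ring, e4, ← mul_assoc, hpp, mul_assoc, e2,
      mul_smul_comm, mul_one, smul_smul, inv_mul_cancel₀ hw, one_smul, sub_add_cancel]
  have hTh : T * h = h * T := by
    rw [hh, mul_add, mul_sub, mul_one, ← hpT, ← mul_assoc T p, ← hpT]
    simp only [add_mul, sub_mul, one_mul, mul_assoc, mul_add, mul_smul_comm, smul_mul_assoc,
      mul_one]
  have hTh' : T * h' = h' * T := by
    calc T * h' = h' * h * T * h' := by rw [hh'h, one_mul]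
      _ = h' * (T * h) * h' := by rw [hTh]; noncomm_ring
      _ = h' * T * (h * h') := by noncomm_ring
      _ = h' * T := by rw [hhh', mul_one]
  have hJ' : (1 + e) * J * (1 - e) = h * J * h' := by
    have h3 : h * J = ((1 + e) * J * (1 - e)) * h := tH_conj hμ hJ he heJ w hwd
    rw [h3, mul_assoc _ h h', hhh', mul_one]
  have k1 : G * (G' * h * G) * G' = h := by
    calc G * (G' * h * G) * G' = (G * G') * h * (G * G') := by noncomm_ring
      _ = h := by rw [hGG', one_mul, mul_one]
  have k2 : G * (G' * h' * G) * G' = h' := by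
    calc G * (G' * h' * G) * G' = (G * G') * h' * (G * G') := by noncomm_ring
      _ = h' := by rw [hGG', one_mul, mul_one]
  refine ⟨⟨G, G', G' * h * G, G' * h' * G, hGG', hG'G, ?_, ?_, ?_, ?_⟩, μ, hμ, ?_⟩
  · calc (G' * h * G) * (G' * h' * G) = G' * h * (G * G') * h' * G := by noncomm_ring
      _ = G' * (h * h') * G := by rw [hGG']; noncomm_ring
      _ = 1 := by rw [hhh', mul_one, hG'G]
  · calc (G' * h' * G) * (G' * h * G) = G' * h' * (G * G') * h * G := by noncomm_ring
      _ = G' * (h' * h) * G := by rw [hGG']; noncomm_ring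
      _ = 1 := by rw [hh'h, mul_one, hG'G]
  · calc (G' * h * G) * J = G' * h * (G * J) := by noncomm_ring
      _ = G' * (h * T) * G := by rw [← hTG]; noncomm_ring
      _ = (G' * T) * h * G := by rw [← hTh]; noncomm_ring
      _ = J * (G' * h * G) := by rw [hG'T]; noncomm_ring
  · rw [k1, k2, hJ']
  · have hc : (J + (1 + e) * J * (1 - e)) * (J + (1 + e) * J * (1 - e)) =
        (4 * a) • (1 : R) - (μ ^ 2) • p := tC_eq hμ hJ he heJ
    rw [hc, sub_smul]
    have s1 : (4 * a) • (1 : R) - (μ ^ 2) • p - (4 * a) • (1 : R) = -((μ ^ 2) • p) := by abel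
    have s2 : (4 * a) • (1 : R) - (μ ^ 2) • p - ((4 * a) • (1 : R) - (μ ^ 2) • (1 : R)) =
        (μ ^ 2) • (1 - p) := by rw [smul_sub]; abel
    rw [s1, s2, neg_mul, smul_mul_assoc, mul_smul_comm, q2, smul_zero, smul_zero, neg_zero]

omit [CharZero F] in
/-- The square roots of `a` are stable under conjugation. -/
theorem conj_sq {a : F} {J P P' : R} (hJ : J * J = a • (1 : R)) (hP : P * P' = 1)
    (hP' : P' * P = 1) : (P * J * P') * (P * J * P') = a • (1 : R) := by
  calc (P * J * P') * (P * J * P') = P * J * (P' * P) * J * P' := by noncomm_ring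
    _ = P * (J * J) * P' := by rw [hP']; noncomm_ring
    _ = a • (1 : R) := by rw [hJ, mul_smul_comm, mul_one, smul_mul_assoc, hP]

/-- The elements reached from every square root of `a`. -/
def MGood (a : F) (P P' : R) : Prop :=
  ∀ J : R, J * J = a • (1 : R) → ReflTransGen (MStep a) J (P * J * P')

omit [CharZero F] in
theorem MGood.mul {a : F} {P P' Q Q' : R} (h : MGood a P P') (h' : MGood a Q Q')
    (hQ : Q * Q' = 1) (hQ' : Q' * Q = 1) : MGood a (P * Q) (Q' * P') := by
  intro J hJ
  have h1 := h' J hJ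
  have h2 := h (Q * J * Q') (by
    calc (Q * J * Q') * (Q * J * Q') = Q * J * (Q' * Q) * J * Q' := by noncomm_ring
      _ = Q * (J * J) * Q' := by rw [hQ']; noncomm_ring
      _ = a • (1 : R) := by rw [hJ, mul_smul_comm, mul_one, smul_mul_assoc, hQ])
  have h3 : P * (Q * J * Q') * P' = (P * Q) * J * (Q' * P') := by noncomm_ring
  rw [← h3]
  exact h1.trans h2

end

section

variable {F n : Type} [Field F] [CharZero F] [Fintype n] [DecidableEq n]

omit [CharZero F] in
theorem good_w {a : F} (ha : ¬ IsSquare a) (w : F) : a - w ^ 2 ≠ 0 := fun h =>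
  ha ⟨w, by rw [sub_eq_zero] at h; rw [h]; ring⟩

/-- The elementary matrices are good: first case. -/
theorem good_single {a : F} (ha : ¬ IsSquare a) {J : Matrix n n F}
    (hJ : J * J = a • (1 : Matrix n n F)) {x l : n → F} (hxl : l ⬝ᵥ x = 0)
    (hμ : l ⬝ᵥ (J *ᵥ x) ≠ 0) :
    MStep a J ((1 + vecMulVec x l) * J * (1 - vecMulVec x l)) := by
  refine mstep_one hμ hJ ?_ ?_ (good_w ha _)
  · rw [vecMulVec_mul_vecMulVec, hxl]
    ext i j
    simp [vecMulVec_apply]
  · rw [mul_assoc, mul_vecMulVec, vecMulVec_mul_vecMulVec]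
    ext i j
    simp [vecMulVec_apply]
    ring

omit [CharZero F] [DecidableEq n] in
theorem vmv_mul_zero {x l m : n → F} (h : l ⬝ᵥ x = 0) :
    vecMulVec x l * vecMulVec x m = 0 := by
  rw [vecMulVec_mul_vecMulVec, h]
  ext i j
  simp [vecMulVec_apply]

omit [CharZero F] in
theorem tv_mul {x l : n → F} (h : l ⬝ᵥ x = 0) :
    (1 + vecMulVec x l) * (1 - vecMulVec x l) = 1 ∧
      (1 - vecMulVec x l) * (1 + vecMulVec x l) = 1 := by
  have h0 := vmv_mul_zero (m := l) h
  constructor
  · rw [mul_sub, mul_one, add_mul, one_mul, h0]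
    abel
  · rw [mul_add, mul_one, sub_mul, one_mul, h0]
    abel

/-- The transvections of a coordinate vector are good. -/
theorem good_transv {a : F} (ha : ¬ IsSquare a) {i j : n} (hij : i ≠ j) (c : F) :
    MGood a (transvection i j c) (transvection i j (-c)) := by
  intro J hJ
  set x : n → F := Pi.single i 1 with hx
  set l : n → F := Pi.single j c with hl
  have hxl : l ⬝ᵥ x = 0 := by simp [hx, hl, hij]
  have ht : ∀ b : F, transvection i j b = 1 + vecMulVec x (Pi.single j b) := fun b => by
    rw [transvection, hx]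
    congr 1
    ext p q
    simp only [single_apply, vecMulVec_apply, Pi.single_apply, ite_and, eq_comm (a := p),
      eq_comm (a := q), ite_mul, one_mul, zero_mul]
  have ht1 : transvection i j c = 1 + vecMulVec x l := ht c
  have ht2 : transvection i j (-c) = 1 - vecMulVec x l := by
    rw [ht, Pi.single_neg, vecMulVec_neg, sub_eq_add_neg]
  rw [ht1, ht2]
  by_cases hc : l ⬝ᵥ (J *ᵥ x) = 0
  · -- choose another linear form
    obtain ⟨m, hm, hJm⟩ : ∃ m : n → F, m ⬝ᵥ x = 0 ∧ m ⬝ᵥ (J *ᵥ x) ≠ 0 := by
      by_contra hcon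
      push Not at hcon
      have h1 : J *ᵥ x = ((J *ᵥ x) i) • x := by
        ext p
        by_cases hp : p = i
        · subst hp
          simp [hx]
        · have h2 := hcon (Pi.single p 1) (by simp [hx, hp])
          rw [single_dotProduct, one_mul] at h2
          rw [h2]
          simp [hx, hp]
      have h2 : J *ᵥ (J *ᵥ x) = a • x := by
        rw [mulVec_mulVec, hJ, smul_mulVec, one_mulVec]
      rw [h1, mulVec_smul, h1] at h2
      have h3 := congrFun h2 i
      simp only [Pi.smul_apply, smul_eq_mul, hx, Pi.single_eq_same, mul_one] at h3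
      exact ha ⟨_, h3.symm⟩
    have e0 : (1 + vecMulVec x (l + m)) * (1 - vecMulVec x m) = 1 + vecMulVec x l := by
      rw [vecMulVec_add, mul_sub, mul_one, add_mul, add_mul, one_mul, vmv_mul_zero hxl,
        vmv_mul_zero hm]
      abel
    have e1 : (1 + vecMulVec x m) * (1 - vecMulVec x (l + m)) = 1 - vecMulVec x l := by
      rw [vecMulVec_add, mul_sub, mul_one, add_mul, one_mul, mul_add, vmv_mul_zero hm,
        vmv_mul_zero hm]
      abel
    have hm' : (-m) ⬝ᵥ x = 0 := by rw [neg_dotProduct, hm, neg_zero]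
    have s1 := good_single ha hJ (x := x) (l := -m) hm' (by
      rw [neg_dotProduct]
      exact neg_ne_zero.2 hJm)
    rw [vecMulVec_neg, ← sub_eq_add_neg, sub_neg_eq_add] at s1
    set J₁ := (1 - vecMulVec x m) * J * (1 + vecMulVec x m) with hJ₁
    have hJ₁s : J₁ * J₁ = a • (1 : Matrix n n F) := conj_sq hJ (tv_mul hm).2 (tv_mul hm).1
    have hJx : J₁ *ᵥ x = J *ᵥ x - (m ⬝ᵥ (J *ᵥ x)) • x := by
      rw [hJ₁, mul_assoc, ← mulVec_mulVec, ← mulVec_mulVec, add_mulVec, one_mulVec, sub_mulVec,
        one_mulVec]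
      have h1 : vecMulVec x m *ᵥ x = 0 := by
        rw [vecMulVec_mulVec, hm]
        simp
      rw [h1, add_zero, vecMulVec_mulVec]
      ext p
      simp [mul_comm]
    have s2 := good_single ha hJ₁s (x := x) (l := l + m) (by rw [add_dotProduct, hxl, hm, add_zero])
      (by
        rw [hJx, dotProduct_sub, add_dotProduct, hc, zero_add, dotProduct_smul, add_dotProduct,
          hxl, hm, add_zero, smul_zero, sub_zero]
        exact hJm)
    refine (ReflTransGen.single s1).tail ?_
    convert s2 using 1
    rw [hJ₁]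
    calc (1 + vecMulVec x l) * J * (1 - vecMulVec x l) =
        ((1 + vecMulVec x (l + m)) * (1 - vecMulVec x m)) * J *
          ((1 + vecMulVec x m) * (1 - vecMulVec x (l + m))) := by rw [e0, e1]
      _ = _ := by simp only [mul_assoc]
  · exact ReflTransGen.single (good_single ha hJ hxl hc)

omit [CharZero F] in
/-- A diagonal matrix as a product of transvections. -/
theorem diag2n_mat {i j : n} (hij : i ≠ j) {c : F} (hc : c ≠ 0) :
    diagonal (fun k ↦ if k = i then c else if k = j then c⁻¹ else 1) =
      (1 + single i j c) * (1 + single j i (-c⁻¹)) * (1 + single i j c) *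
      ((1 + single i j (-1)) * (1 + single j i 1) * (1 + single i j (-1))) := by
  have hji := hij.symm
  have w : ∀ b c : F, (1 + single i j b) * (1 + single j i c) * (1 + single i j b) =
      1 + single i i (b * c) + single j j (c * b) + single i j (b + b * c * b + b) +
        single j i c := fun b c => by
    simp only [mul_add, add_mul, mul_one, one_mul, single_mul_single_same,
      single_mul_single_of_ne _ _ _ _ hji, single_add]
    abel
  have f1 : c * -c⁻¹ = -1 := by rw [mul_neg, mul_inv_cancel₀ hc]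
  have f2 : -c⁻¹ * c = -1 := by rw [neg_mul, inv_mul_cancel₀ hc]
  have w1 : c + -1 * c + c = c := by ring
  have w2 : (-1 : F) + -1 * 1 * -1 + -1 = -1 := by ring
  rw [w, w, f1, f2, w1, w2, mul_one, one_mul]
  simp only [mul_add, add_mul, mul_one, one_mul, single_mul_single_same,
      single_mul_single_of_ne _ _ _ _ hji, single_mul_single_of_ne _ _ _ _ hij, add_zero, zero_add]
  ext p q
  simp only [diagonal_apply, Matrix.add_apply, one_apply, single_apply]
  by_cases hpi : p = i
  · by_cases hqi : q = i
    · subst hpi hqi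
      simp [hij, hji]
    · by_cases hqj : q = j
      · subst hpi hqj
        simp [hij, hji]
      · subst hpi
        simp [hij, hji, hqi, hqj, Ne.symm hqi, Ne.symm hqj]
  · by_cases hpj : p = j
    · by_cases hqi : q = i
      · subst hpj hqi
        simp [hij, hji, hc]
      · by_cases hqj : q = j
        · subst hpj hqj
          simp [hij, hji, hc]
        · subst hpj
          simp [hij, hji, hqi, hqj, Ne.symm hqi, Ne.symm hqj]
    · by_cases hpq : p = q
      · subst hpq
        simp [hij, hji, hpi, hpj, Ne.symm hpi, Ne.symm hpj]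
      · simp [hij, hji, hpi, hpj, hpq, Ne.symm hpi, Ne.symm hpj]

omit [CharZero F] in
theorem sl_mul_inv (A : SpecialLinearGroup n F) :
    (A : Matrix n n F) * ((A⁻¹ : SpecialLinearGroup n F) : Matrix n n F) = 1 :=
  congrArg (fun B : SpecialLinearGroup n F => (B : Matrix n n F)) (mul_inv_cancel A)

omit [CharZero F] in
theorem sl_inv_mul (A : SpecialLinearGroup n F) :
    ((A⁻¹ : SpecialLinearGroup n F) : Matrix n n F) * (A : Matrix n n F) = 1 :=
  congrArg (fun B : SpecialLinearGroup n F => (B : Matrix n n F)) (inv_mul_cancel A)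

/-- All matrices of determinant one are good. -/
theorem good_sl {a : F} (ha : ¬ IsSquare a) (M : SpecialLinearGroup n F) :
    MGood a (M : Matrix n n F) ((M⁻¹ : SpecialLinearGroup n F) : Matrix n n F) := by
  rcases subsingleton_or_nontrivial n with hn | hn
  · intro J hJ
    have h1 : (M : Matrix n n F) * J * ((M⁻¹ : SpecialLinearGroup n F) : Matrix n n F) = J := by
      have h2 : (M : Matrix n n F) * J = J * M := by
        ext p q
        simp only [mul_apply]
        refine Finset.sum_congr rfl fun x _ => ?_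
        rw [Subsingleton.elim p x, Subsingleton.elim q x, mul_comm]
      rw [h2, mul_assoc, sl_mul_inv, mul_one]
    rw [h1]
  · have ht : ∀ (i j : n) (hij : i ≠ j) (c : F),
        MGood a (SpecialLinearGroup.transvection hij c : Matrix n n F)
        (((SpecialLinearGroup.transvection hij c)⁻¹ : SpecialLinearGroup n F) : Matrix n n F) := by
      intro i j hij c
      rw [SpecialLinearGroup.transvection_inv]
      exact good_transv ha hij c
    have hm : ∀ A B : SpecialLinearGroup n F,
        MGood a (A : Matrix n n F) ((A⁻¹ : SpecialLinearGroup n F) : Matrix n n F) →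
        MGood a (B : Matrix n n F) ((B⁻¹ : SpecialLinearGroup n F) : Matrix n n F) →
        MGood a ((A * B : SpecialLinearGroup n F) : Matrix n n F)
          (((A * B)⁻¹ : SpecialLinearGroup n F) : Matrix n n F) := by
      intro A B hA hB
      rw [_root_.mul_inv_rev]
      exact hA.mul hB (sl_mul_inv B) (sl_inv_mul B)
    refine SpecialLinearGroup.diagonal_transvection_induction' (fun M : SpecialLinearGroup n F =>
      MGood a (M : Matrix n n F) ((M⁻¹ : SpecialLinearGroup n F) : Matrix n n F)) M ?_ ht hm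
    intro i j hij c hc
    have he : SpecialLinearGroup.diag2n hij c hc = SpecialLinearGroup.transvection hij c *
      SpecialLinearGroup.transvection hij.symm (-c⁻¹) * SpecialLinearGroup.transvection hij c *
      (SpecialLinearGroup.transvection hij (-1) * SpecialLinearGroup.transvection hij.symm 1 *
      SpecialLinearGroup.transvection hij (-1)) := by
      refine Subtype.ext ?_
      exact diag2n_mat hij hc
    simp only [he]
    exact hm _ _ (hm _ _ (hm _ _ (ht _ _ _ _) (ht _ _ _ _)) (ht _ _ _ _))
      (hm _ _ (hm _ _ (ht _ _ _ _) (ht _ _ _ _)) (ht _ _ _ _))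

end

end Vale.Agent.P011.One
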