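import Vale.Agent.P011.One.TwoMat
import Vale.Agent.P011.One.LocDefs
import Vale.Agent.P011.W.RedC

/-!
The model of the completed algebra at a split place at which the algebra is a matrix algebra.
-/

open NumberField IsDedekindDomain TensorProduct Module Matrix

set_option linter.unusedSectionVars false

namespace Vale.Agent.P011.One

open Vale.Agent.P011.Arith Vale.Agent.P011.Even Vale.Agent.P011.Two
open Vale.Agent.P011.W (Spl)

/-- The images of a basis in a splitting are linearly independent. -/
theorem split_linInd {K D F : Type} [Field K] [DivisionRing D] [Algebra K D]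
    [FiniteDimensional K D] [Algebra.IsCentral K D] [Field F] {n : ℕ}
    (hn : 0 < n) (f : D →+* Matrix (Fin n) (Fin n) F) {ι : Type} [Fintype ι]
    (b : Basis ι K D) : LinearIndependent F fun i => f (b i) := by
  classical
  rw [Fintype.linearIndependent_iff]
  intro c hc t
  obtain ⟨a, ha⟩ := Vale.Agent.P011.T2.sandwich_surj b ((b.coord t).smulRight (1 : D))
  have h1 : ∑ j, f (a j) * (∑ i, c i • f (b i)) * f (b j) = c t • 1 := by
    calc ∑ j, f (a j) * (∑ i, c i • f (b i)) * f (b j) =
        ∑ j, ∑ i, c i • f (a j * b i * b j) := by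
          refine Finset.sum_congr rfl fun j _ => ?_
          rw [Finset.mul_sum, Finset.sum_mul]
          refine Finset.sum_congr rfl fun i _ => ?_
          rw [mul_smul_comm, smul_mul_assoc, map_mul, map_mul]
      _ = ∑ i, c i • f (∑ j, a j * b i * b j) := by
          rw [Finset.sum_comm]
          refine Finset.sum_congr rfl fun i _ => ?_
          rw [map_sum, Finset.smul_sum]
      _ = ∑ i, c i • (if i = t then (1 : Matrix (Fin n) (Fin n) F) else 0) := by
          refine Finset.sum_congr rfl fun i _ => ?_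
          rw [← ha (b i)]
          congr 1
          rw [LinearMap.smulRight_apply, Basis.coord_apply, Basis.repr_self]
          by_cases hit : i = t
          · rw [if_pos hit, hit, Finsupp.single_eq_same, one_smul, map_one]
          · rw [if_neg hit, Finsupp.single_eq_of_ne (Ne.symm hit), zero_smul, map_zero]
      _ = c t • 1 := by
          rw [Finset.sum_eq_single t]
          · rw [if_pos rfl]
          · intro i _ hi
            rw [if_neg hi, smul_zero]
          · intro h
            exact absurd (Finset.mem_univ t) h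
  rw [hc] at h1
  simp only [mul_zero, zero_mul, Finset.sum_const_zero] at h1
  have h2 := congrFun (congrFun h1 ⟨0, hn⟩) ⟨0, hn⟩
  simpa using h2.symm

section

variable {k K D : Type} [Field k] [NumberField k] [Field K] [StarRing K]
  [DivisionRing D] [StarRing D] [Algebra k K] [Algebra k D] [Algebra K D] [IsScalarTower k K D]
  {d : kˣ} {s : K} {v : HeightOneSpectrum (𝓞 k)} {n : ℕ}

/-- A splitting at a split place. -/
structure SplAt (K D : Type) [Field K] [DivisionRing D] [Algebra k K] [Algebra K D] (n : ℕ)
    (v : HeightOneSpectrum (𝓞 k)) (φ : K →+* v.adicCompletion k)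
    (f : D →+* Matrix (Fin n) (Fin n) (v.adicCompletion k)) : Prop where
  base : ∀ c : k, φ (algebraMap k K c) = algebraMap k (v.adicCompletion k) c
  map : ∀ c : K, f (algebraMap K D c) = Matrix.scalar (Fin n) (φ c)

/-- The splitting as an algebra homomorphism. -/
noncomputable def SplAt.hom {φ : K →+* v.adicCompletion k}
    {f : D →+* Matrix (Fin n) (Fin n) (v.adicCompletion k)} (h : SplAt K D n v φ f) :
    D →ₐ[k] Matrix (Fin n) (Fin n) (v.adicCompletion k) :=
  { f with
    commutes' := fun c => by
      change f (algebraMap k D c) = _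
      rw [IsScalarTower.algebraMap_apply k K D, h.map, h.base]
      rfl }

/-- The first projection of the model. -/
noncomputable def SplAt.pr {φ : K →+* v.adicCompletion k}
    {f : D →+* Matrix (Fin n) (Fin n) (v.adicCompletion k)} (h : SplAt K D n v φ f) :
    v.adicCompletion k ⊗[k] D →ₐ[v.adicCompletion k]
      Matrix (Fin n) (Fin n) (v.adicCompletion k) :=
  Algebra.TensorProduct.lift (Algebra.ofId _ _) h.hom fun x y =>
    show Commute _ _ from Algebra.commutes x (h.hom y)

theorem SplAt.pr_tmul {φ : K →+* v.adicCompletion k}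
    {f : D →+* Matrix (Fin n) (Fin n) (v.adicCompletion k)} (h : SplAt K D n v φ f)
    (c : v.adicCompletion k) (x : D) : h.pr (c ⊗ₜ x) = c • f x := by
  refine (Algebra.TensorProduct.lift_tmul _ _ _ c x).trans ?_
  rw [Algebra.ofId_apply, ← Algebra.smul_def]
  rfl

theorem SplAt.pr_surj [FiniteDimensional K D] [Algebra.IsCentral K D]
    {φ : K →+* v.adicCompletion k}
    {f : D →+* Matrix (Fin n) (Fin n) (v.adicCompletion k)} (h : SplAt K D n v φ f) (hn : 0 < n)
    (hdeg : finrank K D = n ^ 2) : Function.Surjective h.pr := by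
  let b := finBasis K D
  have h1 := split_linInd hn f b
  have h2 : Submodule.span (v.adicCompletion k) (Set.range fun i => f (b i)) = ⊤ := by
    refine h1.span_eq_top_of_card_eq_finrank' ?_
    rw [Fintype.card_fin, hdeg, finrank_matrix, Fintype.card_fin, finrank_self, mul_one, pow_two]
  have h3 : (⊤ : Submodule (v.adicCompletion k) (Matrix (Fin n) (Fin n) (v.adicCompletion k))) ≤
      LinearMap.range h.pr.toLinearMap := by
    rw [← h2, Submodule.span_le]
    rintro _ ⟨i, rfl⟩
    exact ⟨1 ⊗ₜ b i, by
      change h.pr (1 ⊗ₜ b i) = _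
      rw [h.pr_tmul, one_smul]⟩
  intro y
  obtain ⟨x, hx⟩ := h3 (Submodule.mem_top (x := y))
  exact ⟨x, hx⟩

/-- The model. -/
noncomputable def SplAt.mod (hS : Setting k K D d s) {φ : K →+* v.adicCompletion k}
    {f : D →+* Matrix (Fin n) (Fin n) (v.adicCompletion k)} (h : SplAt K D n v φ f) :
    v.adicCompletion k ⊗[k] D →ₗ[v.adicCompletion k]
      Matrix (Fin n) (Fin n) (v.adicCompletion k) × Matrix (Fin n) (Fin n) (v.adicCompletion k) :=
  h.pr.toLinearMap.prod (h.pr.toLinearMap.comp (sg hS v))

theorem SplAt.mod_apply (hS : Setting k K D d s) {φ : K →+* v.adicCompletion k}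
    {f : D →+* Matrix (Fin n) (Fin n) (v.adicCompletion k)} (h : SplAt K D n v φ f)
    (x : v.adicCompletion k ⊗[k] D) : h.mod hS x = (h.pr x, h.pr (sg hS v x)) := rfl

theorem SplAt.mod_surj (hS : Setting k K D d s) {φ : K →+* v.adicCompletion k}
    {f : D →+* Matrix (Fin n) (Fin n) (v.adicCompletion k)} (h : SplAt K D n v φ f) (hn : 0 < n)
    (hdeg : finrank K D = n ^ 2) : Function.Surjective (h.mod hS) := by
  have := hS.fin
  have := hS.cen
  set δ : v.adicCompletion k := φ s with hδ
  have hs0 : s ≠ 0 := by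
    intro h0
    have h1 := hS.sq
    rw [h0, zero_pow two_ne_zero] at h1
    exact (d.ne_zero) ((algebraMap k K).injective (by rw [← h1, map_zero]))
  have hδ0 : δ ≠ 0 := (map_ne_zero φ).mpr hs0
  have h20 : (2 : v.adicCompletion k) ≠ 0 := two_ne_zero
  set S : v.adicCompletion k ⊗[k] D := 1 ⊗ₜ algebraMap K D s with hSd
  have hprS : h.pr S = δ • 1 := by
    rw [hSd, h.pr_tmul, one_smul, h.map, hδ]
    ext i j
    simp [Matrix.scalar_apply, Matrix.diagonal_apply, Matrix.one_apply]
  have hsgS : sg hS v S = -S := by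
    rw [hSd, sg_tmul]
    have h1 : star (algebraMap K D s) = -algebraMap K D s := by
      have h2 := hS.star_smul s 1
      rw [star_one, hS.star_s, neg_smul, ← Algebra.algebraMap_eq_smul_one] at h2
      exact h2
    rw [h1, TensorProduct.tmul_neg]
  rintro ⟨A, B⟩
  obtain ⟨x, hx⟩ := h.pr_surj hn hdeg A
  obtain ⟨y, hy⟩ := h.pr_surj hn hdeg B
  have hprSy : ∀ z : v.adicCompletion k ⊗[k] D, h.pr (δ • z + S * z) = (2 * δ) • h.pr z := by
    intro z
    rw [map_add, map_smul, map_mul, hprS, smul_mul_assoc, one_mul, ← add_smul, two_mul]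
  have hprSz : ∀ z : v.adicCompletion k ⊗[k] D, h.pr (δ • z - S * z) = 0 := by
    intro z
    rw [map_sub, map_smul, map_mul, hprS, smul_mul_assoc, one_mul, sub_self]
  have hcS : ∀ z : v.adicCompletion k ⊗[k] D, S * z = z * S := by
    intro z
    induction z using TensorProduct.induction_on with
    | zero => rw [mul_zero, zero_mul]
    | add z z' h h' => rw [mul_add, add_mul, h, h']
    | tmul c z =>
      rw [hSd, Algebra.TensorProduct.tmul_mul_tmul, Algebra.TensorProduct.tmul_mul_tmul, one_mul,
        mul_one, Algebra.commutes]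
  refine ⟨(2 * δ)⁻¹ • (δ • x + S * x + (δ • sg hS v y - S * sg hS v y)), ?_⟩
  rw [SplAt.mod_apply, Prod.mk.injEq]
  have h2δ : 2 * δ ≠ 0 := mul_ne_zero h20 hδ0
  constructor
  · rw [map_smul, map_add, hprSy, hprSz, add_zero, smul_smul, inv_mul_cancel₀ h2δ, one_smul, hx]
  · have e1 : ∀ z, sg hS v (S * z) = -(S * sg hS v z) := fun z => by
      rw [sg_mul, hsgS, mul_neg, ← hcS]
    have e2 : sg hS v (δ • x + S * x + (δ • sg hS v y - S * sg hS v y)) =
        (δ • sg hS v x - S * sg hS v x) + (δ • y + S * y) := by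
      rw [map_add, map_add, map_sub, map_smul, map_smul, e1, e1, sg_sg, sub_neg_eq_add,
        ← sub_eq_add_neg]
    rw [map_smul, map_smul, e2, map_add, hprSz, zero_add, hprSy, smul_smul,
      inv_mul_cancel₀ h2δ, one_smul, hy]

theorem SplAt.mod_inj (hS : Setting k K D d s) {φ : K →+* v.adicCompletion k}
    {f : D →+* Matrix (Fin n) (Fin n) (v.adicCompletion k)} (h : SplAt K D n v φ f) (hn : 0 < n)
    (hdeg : finrank K D = n ^ 2) : Function.Injective (h.mod hS) := by
  have := hS.fin
  have : FiniteDimensional k K := FiniteDimensional.of_finrank_pos (by rw [hS.rank]; norm_num)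
  have : FiniteDimensional k D := FiniteDimensional.trans k K D
  refine (LinearMap.injective_iff_surjective_of_finrank_eq_finrank ?_).mpr (h.mod_surj hS hn hdeg)
  rw [Module.finrank_baseChange, ← Module.finrank_mul_finrank k K D, hS.rank, hdeg,
    Module.finrank_prod, finrank_matrix, Fintype.card_fin, finrank_self]
  ring

/-- Elements of the model. -/
theorem SplAt.exists_mk (hS : Setting k K D d s) {φ : K →+* v.adicCompletion k}
    {f : D →+* Matrix (Fin n) (Fin n) (v.adicCompletion k)} (h : SplAt K D n v φ f) (hn : 0 < n)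
    (hdeg : finrank K D = n ^ 2) (A B : Matrix (Fin n) (Fin n) (v.adicCompletion k)) :
    ∃ x, h.pr x = A ∧ h.pr (sg hS v x) = B := by
  obtain ⟨x, hx⟩ := h.mod_surj hS hn hdeg (A, B)
  rw [SplAt.mod_apply, Prod.mk.injEq] at hx
  exact ⟨x, hx⟩

theorem SplAt.ext (hS : Setting k K D d s) {φ : K →+* v.adicCompletion k}
    {f : D →+* Matrix (Fin n) (Fin n) (v.adicCompletion k)} (h : SplAt K D n v φ f) (hn : 0 < n)
    (hdeg : finrank K D = n ^ 2) {x y : v.adicCompletion k ⊗[k] D} (h1 : h.pr x = h.pr y)
    (h2 : h.pr (sg hS v x) = h.pr (sg hS v y)) : x = y := by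
  apply h.mod_inj hS hn hdeg
  rw [SplAt.mod_apply, SplAt.mod_apply, h1, h2]

end

end Vale.Agent.P011.One
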