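import Vale.Agent.P011.One.AFrame

/-!
The form of the elements of norm one commuting with a symmetric square root in a division algebra
of degree four.
-/

open NumberField IsDedekindDomain Polynomial Module

set_option linter.unusedSectionVars false

namespace Vale.Agent.P011.One

open Vale.Agent.P011.Arith Vale.Agent.P011.Even Vale.Agent.P011.Two Vale.Agent.P011.MPQ

section near

variable {k D : Type} [Field k] [NumberField k] [DivisionRing D] [Algebra k D] {M : ℕ}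
  (B : Module.Basis (Fin M) k D) {F : Type} [Field F] [NumberField F] [Algebra k F]

/-- Linear maps to an extension field are continuous. -/
theorem near_lin (Λ : D →ₗ[k] F) (v : HeightOneSpectrum (𝓞 k))
    {ε : HeightOneSpectrum (𝓞 F) → Z0} (hε : ∀ w, ε w ≠ 0) :
    ∃ η : ℝ, 0 < η ∧ ∀ x : D, nm B (.inl v) x < η → ∀ w : HeightOneSpectrum (𝓞 F),
      w.asIdeal.comap (algebraMap (𝓞 k) (𝓞 F)) = v.asIdeal → w.valuation F (Λ x) < ε w := by
  classical
  obtain ⟨π, hπ⟩ := exists_exp v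
  have hπ1 : v.valuation k π < 1 := by
    rw [hπ]
    exact WithZero.exp_lt_exp.mpr (by norm_num)
  have hπ0 : π ≠ 0 := by
    rintro rfl
    rw [map_zero] at hπ
    exact WithZero.exp_ne_zero hπ.symm
  have hW := above_finite (E := F) v
  have key : ∀ (w : HeightOneSpectrum (𝓞 F)) (i : Fin M), ∃ n : ℕ,
      w.asIdeal.comap (algebraMap (𝓞 k) (𝓞 F)) = v.asIdeal → ∀ m, n ≤ m →
      w.valuation F (algebraMap k F (π ^ m)) * w.valuation F (Λ (B i)) < ε w := by
    intro w i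
    by_cases hw : w.asIdeal.comap (algebraMap (𝓞 k) (𝓞 F)) = v.asIdeal
    · have h1 : w.valuation F (algebraMap k F π) < 1 := (val_lt_one_iff hw π).mpr hπ1
      by_cases h2 : w.valuation F (Λ (B i)) = 0
      · exact ⟨0, fun _ m _ => by rw [h2, mul_zero]; exact zero_lt_iff.mpr (hε w)⟩
      · obtain ⟨n, hn⟩ := exists_pow_lt₀ h1 (Units.mk0 (ε w / w.valuation F (Λ (B i)))
          (div_ne_zero (hε w) h2))
        refine ⟨n, fun _ m hm => ?_⟩
        rw [Units.val_mk0, lt_div_iff₀ (zero_lt_iff.mpr h2)] at hn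
        refine lt_of_le_of_lt (mul_le_mul_left ?_ _) hn
        rw [map_pow, map_pow]
        exact pow_le_pow_right_of_le_one' h1.le hm
    · exact ⟨0, fun h => absurd h hw⟩
  choose n hn using key
  obtain ⟨m, hm⟩ : ∃ m, ∀ w ∈ hW.toFinset, ∀ i, n w i ≤ m := by
    refine ⟨∑ w ∈ hW.toFinset, ∑ i, n w i, fun w hw i => ?_⟩
    refine (Finset.single_le_sum (f := fun i => n w i) (fun _ _ => Nat.zero_le _)
      (Finset.mem_univ i)).trans ?_
    exact Finset.single_le_sum (f := fun w => ∑ i, n w i) (fun _ _ => Nat.zero_le _) hw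
  refine ⟨plAbv (.inl v) (π ^ m), (plAbv (.inl v)).pos (pow_ne_zero _ hπ0), fun x hx w hw => ?_⟩
  have h1 : Λ x = ∑ i, algebraMap k F (B.repr x i) * Λ (B i) := by
    conv_lhs => rw [← B.sum_repr x]
    rw [map_sum]
    exact Finset.sum_congr rfl fun i _ => by rw [map_smul, Algebra.smul_def]
  rw [h1]
  refine Valuation.map_sum_lt _ (hε w) fun i _ => ?_
  have h2 := (plAbv_lt v _ _).mp (nm_lt_coord B _ hx i)
  rw [map_mul]
  refine lt_of_le_of_lt (mul_le_mul_left ?_ _)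
    (hn w i hw m (hm w (by rw [Set.Finite.mem_toFinset]; exact hw) i))
  exact ((val_lt_val_iff hw _ _).mpr h2).le

/-- Linear forms are continuous. -/
theorem near_form (Λ : D →ₗ[k] k) (v : HeightOneSpectrum (𝓞 k)) {ε : Z0} (hε : ε ≠ 0) :
    ∃ η : ℝ, 0 < η ∧ ∀ x : D, nm B (.inl v) x < η → v.valuation k (Λ x) < ε := by
  obtain ⟨η, hη, h⟩ := near_lin B Λ v (ε := fun _ => ε) fun _ => hε
  refine ⟨η, hη, fun x hx => h x hx v ?_⟩
  ext x
  exact Iff.rfl

end near

section unit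

variable {k K D : Type} [Field k] [NumberField k] [Field K] [StarRing K]
    [DivisionRing D] [StarRing D] [Algebra k K] [Algebra k D] [Algebra K D] [IsScalarTower k K D]
    {d : kˣ} {s : K} {F : Type} [Field F] [NumberField F] [Algebra k F]

theorem qv8_inj (hS : Setting k K D d s) {ι : F →ₐ[k] D} {α β : Fˣ} {i j : D}
    (h : QFr ι α β i j) : Function.Injective (qv8 ι (algebraMap K D s) i j) := by
  rw [← LinearMap.ker_eq_bot, LinearMap.ker_eq_bot']
  rintro x hx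
  have h1 : qv ι i j (⟨x.1.1.1, x.1.1.2, x.1.2.1, x.1.2.2⟩ : Qt α β) + algebraMap K D s *
      qv ι i j (⟨x.2.1.1, x.2.1.2, x.2.2.1, x.2.2.2⟩ : Qt α β) = 0 := hx
  obtain ⟨h2, h3⟩ := frame_inj hS h h1
  have e1 := congrArg QuaternionAlgebra.re h2
  have e2 := congrArg QuaternionAlgebra.imI h2
  have e3 := congrArg QuaternionAlgebra.imJ h2
  have e4 := congrArg QuaternionAlgebra.imK h2
  have e5 := congrArg QuaternionAlgebra.re h3
  have e6 := congrArg QuaternionAlgebra.imI h3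
  have e7 := congrArg QuaternionAlgebra.imJ h3
  have e8 := congrArg QuaternionAlgebra.imK h3
  exact Prod.ext (Prod.ext (Prod.ext e1 e2) (Prod.ext e3 e4))
    (Prod.ext (Prod.ext e5 e6) (Prod.ext e7 e8))

/-- Linear coordinates. -/
theorem exists_coords8 (hS : Setting k K D d s) {ι : F →ₐ[k] D} {α β : Fˣ} {i j : D}
    (h : QFr ι α β i j) : ∃ Λ : D →ₗ[k] (((F × F) × (F × F)) × ((F × F) × (F × F))),
      ∀ q₀ q₁ : Qt α β, Λ (qv ι i j q₀ + algebraMap K D s * qv ι i j q₁) =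
        (((q₀.re, q₀.imI), (q₀.imJ, q₀.imK)), ((q₁.re, q₁.imI), (q₁.imJ, q₁.imK))) := by
  obtain ⟨Λ, hΛ⟩ := LinearMap.exists_leftInverse_of_injective _
    (LinearMap.ker_eq_bot.mpr (qv8_inj hS h))
  refine ⟨Λ, fun q₀ q₁ => ?_⟩
  exact congrArg (fun g => g (((q₀.re, q₀.imI), (q₀.imJ, q₀.imK)),
    ((q₁.re, q₁.imI), (q₁.imJ, q₁.imK)))) hΛ

/-- Linear coordinates in the quadratic extension. -/
theorem exists_coords2 {T : F} (hTk : ∀ c : k, algebraMap k F c ≠ T) :
    ∃ c₀ c₁ : F →ₗ[k] k, ∀ u v : k, c₀ (algebraMap k F u + algebraMap k F v * T) = u ∧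
      c₁ (algebraMap k F u + algebraMap k F v * T) = v := by
  obtain ⟨Λ, hΛ⟩ := LinearMap.exists_leftInverse_of_injective _
    (LinearMap.ker_eq_bot.mpr (lt2_inj hTk))
  refine ⟨LinearMap.fst k k k ∘ₗ Λ, LinearMap.snd k k k ∘ₗ Λ, fun u v => ?_⟩
  have h1 : Λ (algebraMap k F u + algebraMap k F v * T) = (u, v) :=
    congrArg (fun g => g (u, v)) hΛ
  exact ⟨congrArg Prod.fst h1, congrArg Prod.snd h1⟩

omit [NumberField F] [Algebra k F] in
theorem mul_star_self_uf {α β : Fˣ} (q : Qt α β) : q * star q = algebraMap F (Qt α β) (nrd q) := by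
  ext
  · simp only [QuaternionAlgebra.re_mul, QuaternionAlgebra.re_star, QuaternionAlgebra.imI_star,
      QuaternionAlgebra.imJ_star, QuaternionAlgebra.imK_star, nrd,
      QuaternionAlgebra.algebraMap_eq]
    ring
  · simp only [QuaternionAlgebra.imI_mul, QuaternionAlgebra.re_star, QuaternionAlgebra.imI_star,
      QuaternionAlgebra.imJ_star, QuaternionAlgebra.imK_star, nrd,
      QuaternionAlgebra.algebraMap_eq]
    ring
  · simp only [QuaternionAlgebra.imJ_mul, QuaternionAlgebra.re_star, QuaternionAlgebra.imI_star,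
      QuaternionAlgebra.imJ_star, QuaternionAlgebra.imK_star, nrd,
      QuaternionAlgebra.algebraMap_eq]
    ring
  · simp only [QuaternionAlgebra.imK_mul, QuaternionAlgebra.re_star, QuaternionAlgebra.imI_star,
      QuaternionAlgebra.imJ_star, QuaternionAlgebra.imK_star, nrd,
      QuaternionAlgebra.algebraMap_eq]
    ring

/-- The factorisation of the elements of norm one whose first coordinate is not zero. -/
theorem unit_form_aux (hS : Setting k K D d s) {ι : F →ₐ[k] D} {α β : Fˣ} {i j : D}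
    (h : QFr ι α β i j) {q₀ q₁ : Qt α β} {e : D}
    (he : e = qv ι i j q₀ + algebraMap K D s * qv ι i j q₁) (h1 : star e * e = 1)
    (hq₀ : q₀ ≠ 0) :
    ∃ ρ : F, q₁ = algebraMap F (Qt α β) ρ * q₀ ∧ nrd q₀ * (1 - algebraMap k F d * ρ ^ 2) = 1 ∧
      e = qv ι i j q₀ * (1 + algebraMap K D s * ι ρ) := by
  obtain ⟨φ, hφ⟩ := exists_qhom h
  have hφ' : ∀ q, qv ι i j q = φ q := fun q => (hφ q).symm
  obtain ⟨δ, hδ⟩ : ∃ δ : D, δ = algebraMap K D s := ⟨_, rfl⟩
  have hδc : ∀ z : D, δ * z = z * δ := fun z => by rw [hδ]; exact Algebra.commutes _ _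
  have hδs : star δ = -δ := by rw [hδ]; exact star_S hS
  have hιφ : ∀ x : F, φ (algebraMap F (Qt α β) x) = ι x := by
    intro x
    rw [hφ]
    simp [QuaternionAlgebra.algebraMap_eq]
  have hδδ : δ * δ = φ (algebraMap F (Qt α β) (algebraMap k F d)) := by
    rw [hιφ, AlgHom.commutes, hδ, ← map_mul, ← pow_two, hS.sq, ← IsScalarTower.algebraMap_apply]
  rw [hφ', hφ', ← hδ] at he
  have e1 : star e * e = φ (star q₀ * q₀ - algebraMap F (Qt α β) (algebraMap k F d) *
      (star q₁ * q₁)) + δ * φ (star q₀ * q₁ - star q₁ * q₀) := by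
    have h2 : star e = φ (star q₀) - δ * φ (star q₁) := by
      rw [he, star_add, star_mul, star_qhom h hφ, star_qhom h hφ, hδs, mul_neg, ← hδc,
        sub_eq_add_neg]
    rw [h2, he, map_sub, map_sub, map_mul φ (algebraMap F (Qt α β) (algebraMap k F d)), ← hδδ,
      map_mul, map_mul, map_mul, map_mul, sub_mul, mul_add, mul_add, mul_sub]
    have e2 : φ (star q₀) * (δ * φ q₁) = δ * (φ (star q₀) * φ q₁) := by
      rw [← mul_assoc, ← hδc, mul_assoc]
    have e3 : δ * φ (star q₁) * (δ * φ q₁) = δ * δ * (φ (star q₁) * φ q₁) := by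
      rw [mul_assoc δ (φ (star q₁)), ← mul_assoc (φ (star q₁)) δ, ← hδc (φ (star q₁)),
        mul_assoc δ (φ (star q₁)), ← mul_assoc δ δ]
    rw [e2, e3, mul_assoc δ (φ (star q₁))]
    abel
  have e4 : qv ι i j (star q₀ * q₀ - algebraMap F (Qt α β) (algebraMap k F d) *
      (star q₁ * q₁) - 1) + algebraMap K D s * qv ι i j (star q₀ * q₁ - star q₁ * q₀) = 0 := by
    rw [hφ', hφ', map_sub φ _ 1, map_one, ← hδ, sub_add_eq_add_sub, ← e1, h1, sub_self]
  obtain ⟨e5, e6⟩ := frame_inj hS h e4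
  have e7 : nrd q₀ - algebraMap k F d * nrd q₁ = 1 := by
    rw [star_mul_self_qt, star_mul_self_qt, ← map_mul, ← map_sub, sub_eq_zero] at e5
    have := congrArg QuaternionAlgebra.re e5
    simpa only [QuaternionAlgebra.algebraMap_eq, QuaternionAlgebra.re_one] using this
  obtain ⟨r, hr⟩ : ∃ r, r = star q₀ * q₁ := ⟨_, rfl⟩
  have hrr : star r = r := by
    rw [hr, star_mul, star_star]
    exact (sub_eq_zero.mp e6).symm
  have hr' : r = algebraMap F (Qt α β) r.re := by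
    have f1 := congrArg QuaternionAlgebra.imI hrr
    have f2 := congrArg QuaternionAlgebra.imJ hrr
    have f3 := congrArg QuaternionAlgebra.imK hrr
    rw [QuaternionAlgebra.imI_star, neg_eq_iff_add_eq_zero, ← two_mul] at f1
    rw [QuaternionAlgebra.imJ_star, neg_eq_iff_add_eq_zero, ← two_mul] at f2
    rw [QuaternionAlgebra.imK_star, neg_eq_iff_add_eq_zero, ← two_mul] at f3
    ext
    · rfl
    · exact (mul_eq_zero.mp f1).resolve_left two_ne_zero
    · exact (mul_eq_zero.mp f2).resolve_left two_ne_zero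
    · exact (mul_eq_zero.mp f3).resolve_left two_ne_zero
  have hn : nrd q₀ ≠ 0 := fun h0 => hq₀ (h.aniso _ h0)
  have hρ : q₁ = algebraMap F (Qt α β) (r.re / nrd q₀) * q₀ := by
    have f1 : algebraMap F (Qt α β) (nrd q₀) * q₁ = algebraMap F (Qt α β) r.re * q₀ := by
      rw [← mul_star_self_uf, mul_assoc, ← hr, Algebra.commutes, ← hr']
    have f2 : algebraMap F (Qt α β) (nrd q₀)⁻¹ * (algebraMap F (Qt α β) (nrd q₀) * q₁) = q₁ := by
      rw [← mul_assoc, ← map_mul, inv_mul_cancel₀ hn, map_one, one_mul]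
    rw [← f2, f1, ← mul_assoc, ← map_mul, div_eq_inv_mul]
  obtain ⟨ρ, hρ'⟩ : ∃ ρ, ρ = r.re / nrd q₀ := ⟨_, rfl⟩
  rw [← hρ'] at hρ
  refine ⟨ρ, hρ, ?_, ?_⟩
  · have f1 : nrd q₁ = ρ ^ 2 * nrd q₀ := by
      rw [hρ, nrd_mul]
      congr 1
      simp only [nrd, QuaternionAlgebra.algebraMap_eq]
      ring
    rw [f1] at e7
    linear_combination e7
  · rw [he, hρ, map_mul, hιφ, ← hδ, hφ', mul_add, mul_one, ← mul_assoc, ← mul_assoc, hδc,
      mul_assoc (ι ρ), hδc, mul_assoc (φ q₀), hδc (ι ρ), ← mul_assoc, ← mul_assoc]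
    congr 2
    rw [← hιφ, ← map_mul, ← map_mul, Algebra.commutes]

/-- The reduced norm. -/
noncomputable def dm {n : ℕ} {Ω : Type} [Field Ω] [Algebra K Ω]
    (f : D →ₐ[K] Matrix (Fin n) (Fin n) Ω) : D →* Ω :=
  Matrix.detMonoidHom.comp (f : D →* Matrix (Fin n) (Fin n) Ω)

theorem dm_apply {n : ℕ} {Ω : Type} [Field Ω] [Algebra K Ω]
    (f : D →ₐ[K] Matrix (Fin n) (Fin n) Ω) (x : D) : dm f x = (f x).det := rfl

theorem dm_ne_zero {n : ℕ} {Ω : Type} [Field Ω] [Algebra K Ω]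
    (f : D →ₐ[K] Matrix (Fin n) (Fin n) Ω) {x : D} (hx : x ≠ 0) : dm f x ≠ 0 := by
  intro h
  have h1 := map_mul (dm f) x x⁻¹
  rw [mul_inv_cancel₀ hx, map_one, h, zero_mul] at h1
  exact one_ne_zero h1

theorem dm_alg {n : ℕ} {Ω : Type} [Field Ω] [Algebra K Ω]
    (f : D →ₐ[K] Matrix (Fin n) (Fin n) Ω) (c : K) :
    dm f (algebraMap K D c) = algebraMap K Ω c ^ n := by
  rw [dm_apply, AlgHom.commutes, Matrix.algebraMap_eq_diagonal, Matrix.det_diagonal]
  simp

theorem dm_conj {n : ℕ} {Ω : Type} [Field Ω] [Algebra K Ω]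
    (f : D →ₐ[K] Matrix (Fin n) (Fin n) Ω) {x y z : D} (hz : z ≠ 0) (h : z * x = y * z) :
    dm f x = dm f y := by
  have h1 := congrArg (dm f) h
  rw [map_mul, map_mul, mul_comm] at h1
  exact mul_right_cancel₀ (dm_ne_zero f hz) h1

/-- The square of the reduced norm of a quaternion. -/
theorem dm_sq {n : ℕ} {Ω : Type} [Field Ω] [Algebra K Ω]
    (f : D →ₐ[K] Matrix (Fin n) (Fin n) Ω) {ι : F →ₐ[k] D} {α β : Fˣ} {i j : D}
    (h : QFr ι α β i j) {q : Qt α β} (hq : q ≠ 0) :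
    dm f (qv ι i j q) ^ 2 = dm f (ι (nrd q)) := by
  obtain ⟨φ, hφ⟩ := exists_qhom h
  have hφ' : ∀ q, qv ι i j q = φ q := fun q => (hφ q).symm
  have hn : nrd q ≠ 0 := fun h0 => hq (h.aniso _ h0)
  have hιφ : ∀ x : F, φ (algebraMap F (Qt α β) x) = ι x := by
    intro x
    rw [hφ]
    simp [QuaternionAlgebra.algebraMap_eq]
  obtain ⟨u, hu⟩ : ∃ u, u = q * q * algebraMap F (Qt α β) (nrd q)⁻¹ := ⟨_, rfl⟩
  have hun : nrd u = 1 := by
    have h1 : nrd (algebraMap F (Qt α β) (nrd q)⁻¹) = ((nrd q)⁻¹) ^ 2 := by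
      simp only [nrd, QuaternionAlgebra.algebraMap_eq]
      ring
    rw [hu, nrd_mul, nrd_mul, h1, ← pow_two, ← mul_pow, mul_inv_cancel₀ hn, one_pow]
  have hu1 : dm f (φ u) = 1 := by
    refine QElt.map_eq_one (dm f) (ι := ι) (α := α) (β := β) (i := i) (j := j)
      (p₀ := u.re) (p₁ := u.imI) (p₂ := u.imJ) (p₃ := u.imK) ⟨h, ?_, ?_⟩
    · exact hun
    · exact hφ u
  have h2 : φ q * φ q = φ u * ι (nrd q) := by
    rw [hu, map_mul, map_mul, hιφ, mul_assoc, ← map_mul ι, inv_mul_cancel₀ hn, map_one, mul_one]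
  rw [hφ', pow_two, ← map_mul, h2, map_mul, hu1, one_mul]

/-- An element anticommuting with a symmetric square root. -/
theorem exists_anti (hS : Setting k K D d s) {a : kˣ} (ha : ¬ IsSquare (a : k)) {t : D}
    (ht : t ∈ Xa D a) : ∃ z : D, z ≠ 0 ∧ z * t = -(t * z) := by
  have := hS.fin
  have := hS.cen
  obtain ⟨w, hw⟩ : ∃ w, w * t ≠ t * w := by
    by_contra h
    push Not at h
    obtain ⟨c, hc⟩ := T2.mem_base (K := K) (x := t) fun y => (h y).symm
    exact Xa_ne hS ha ht c hc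
  refine ⟨w * t - t * w, sub_ne_zero.mpr hw, ?_⟩
  have h1 : w * t * t = t * t * w := by
    rw [mul_assoc, ht.2, ← Algebra.commutes]
  rw [sub_mul, mul_sub, h1, mul_assoc t w t, ← mul_assoc t t, neg_sub]

/-- The elements of norm one commuting with `t`, close to one at one place. -/
theorem unit_form (hS : Setting k K D d s) {a : kˣ} (ha : ¬ IsSquare (a : k)) {t : D}
    (ht : t ∈ Xa D a) {ι : F →ₐ[k] D} {T : F} {α β : Fˣ} {i j : D} (hT : ι T = t)
    (hcoord : ∀ x : F, ∃ u v : k, x = algebraMap k F u + algebraMap k F v * T)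
    (h : QFr ι α β i j)
    (hspan : ∀ x, x * t = t * x → ∃ q₀ q₁ : Qt α β, x = qv ι i j q₀ +
      algebraMap K D s * qv ι i j q₁)
    {n : ℕ} (hn : n = 4) {Ω : Type} [Field Ω] [Algebra K Ω]
    (f : D →ₐ[K] Matrix (Fin n) (Fin n) Ω)
    {M : ℕ} (B : Module.Basis (Fin M) k D) (v₀ : HeightOneSpectrum (𝓞 k)) :
    ∃ η : ℝ, 0 < η ∧ ∀ e : D, e * t = t * e → star e * e = 1 → (f e).det = 1 →
      nm B (.inl v₀) (e - 1) < η → ∃ (κ : k) (q : Qt α β), q ≠ 0 ∧
        e = qv ι i j q * (1 + algebraMap k D κ * (algebraMap K D s * t)) ∧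
        nrd q * (1 - algebraMap k F (a * d * κ ^ 2)) = 1 := by
  have hTT : T ^ 2 = algebraMap k F a := by
    apply ι.toRingHom.injective
    change ι (T ^ 2) = ι (algebraMap k F a)
    rw [map_pow, hT, pow_two, ht.2, AlgHom.commutes]
  have hTk : ∀ c : k, algebraMap k F c ≠ T := by
    intro c hc
    apply ha
    refine ⟨c, (algebraMap k F).injective ?_⟩
    rw [← hTT, ← hc, pow_two, map_mul]
  obtain ⟨Λ, hΛ⟩ := exists_coords8 hS h
  obtain ⟨c₀, c₁, hc⟩ := exists_coords2 hTk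
  obtain ⟨δ, hδ⟩ : ∃ δ : D, δ = algebraMap K D s := ⟨_, rfl⟩
  have hδc : ∀ z : D, δ * z = z * δ := fun z => by rw [hδ]; exact Algebra.commutes _ _
  have hδδ : δ * δ = algebraMap k D d := by
    rw [hδ, ← map_mul, ← pow_two, hS.sq, ← IsScalarTower.algebraMap_apply]
  -- the real parts
  let r₀ : D →ₗ[k] F := LinearMap.fst k F F ∘ₗ LinearMap.fst k (F × F) (F × F) ∘ₗ
    LinearMap.fst k _ _ ∘ₗ Λ
  let r₁ : D →ₗ[k] F := LinearMap.fst k F F ∘ₗ LinearMap.fst k (F × F) (F × F) ∘ₗ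
    LinearMap.snd k _ _ ∘ₗ Λ
  have hr₀ : ∀ q₀ q₁ : Qt α β, r₀ (qv ι i j q₀ + algebraMap K D s * qv ι i j q₁) = q₀.re :=
    fun q₀ q₁ => congrArg (fun z => z.1.1.1) (hΛ q₀ q₁)
  have hr₁ : ∀ q₀ q₁ : Qt α β, r₁ (qv ι i j q₀ + algebraMap K D s * qv ι i j q₁) = q₁.re :=
    fun q₀ q₁ => congrArg (fun z => z.2.1.1) (hΛ q₀ q₁)
  have hone : (1 : D) = qv ι i j (1 : Qt α β) + algebraMap K D s * qv ι i j (0 : Qt α β) := by
    simp [qv]
  have hr₀1 : r₀ 1 = 1 := by
    rw [hone, hr₀]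
    exact QuaternionAlgebra.re_one
  have hr₁1 : r₁ 1 = 0 := by
    rw [hone, hr₁]
    exact QuaternionAlgebra.re_zero
  -- the bounds
  obtain ⟨b, hb0, hb⟩ : ∃ b : Z0, b ≠ 0 ∧ b ≤ 1 ∧ b * v₀.valuation k (a : k) < 1 ∧
      b * v₀.valuation k (4 * d : k) < 1 ∧ b * v₀.valuation k (d : k) < 1 ∧
      b * v₀.valuation k (a * d : k) < 1 := by
    obtain ⟨π, hπ⟩ := exists_exp v₀
    have hπ1 : v₀.valuation k π < 1 := by
      rw [hπ]
      exact WithZero.exp_lt_exp.mpr (by norm_num)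
    have key : ∀ c : k, c ≠ 0 → ∃ n : ℕ, ∀ m, n ≤ m →
        v₀.valuation k π ^ m * v₀.valuation k c < 1 := by
      intro c hc
      have hc' : v₀.valuation k c ≠ 0 := (Valuation.ne_zero_iff _).mpr hc
      obtain ⟨n, hn⟩ := exists_pow_lt₀ hπ1 (Units.mk0 (1 / v₀.valuation k c)
        (div_ne_zero one_ne_zero hc'))
      refine ⟨n, fun m hm => ?_⟩
      rw [Units.val_mk0, lt_div_iff₀ (zero_lt_iff.mpr hc')] at hn
      exact lt_of_le_of_lt (mul_le_mul_left (pow_le_pow_right_of_le_one' hπ1.le hm) _) hn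
    obtain ⟨n₁, h₁⟩ := key a a.ne_zero
    obtain ⟨n₂, h₂⟩ := key (4 * d) (mul_ne_zero (by norm_num) d.ne_zero)
    obtain ⟨n₃, h₃⟩ := key d d.ne_zero
    obtain ⟨n₄, h₄⟩ := key (a * d) (mul_ne_zero a.ne_zero d.ne_zero)
    refine ⟨v₀.valuation k π ^ (n₁ + n₂ + n₃ + n₄), pow_ne_zero _ ?_, pow_le_one₀ zero_le hπ1.le,
      h₁ _ (by omega), h₂ _ (by omega), h₃ _ (by omega), h₄ _ (by omega)⟩
    rw [hπ]
    exact WithZero.exp_ne_zero
  obtain ⟨hb1, hba, hb4d, hbd, hbad⟩ := hb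
  have hbb : b * b ≠ 0 := mul_ne_zero hb0 hb0
  obtain ⟨η₁, hη₁, H₁⟩ := near_form B (c₀ ∘ₗ r₀) v₀ hbb
  obtain ⟨η₂, hη₂, H₂⟩ := near_form B (c₁ ∘ₗ r₀) v₀ hbb
  obtain ⟨η₃, hη₃, H₃⟩ := near_form B (c₀ ∘ₗ r₁) v₀ hbb
  obtain ⟨η₄, hη₄, H₄⟩ := near_form B (c₁ ∘ₗ r₁) v₀ hbb
  refine ⟨min (min η₁ η₂) (min η₃ η₄), lt_min (lt_min hη₁ hη₂) (lt_min hη₃ hη₄),
    fun e het he1 hedet hnear => ?_⟩
  rw [lt_min_iff, lt_min_iff, lt_min_iff] at hnear
  obtain ⟨q₀, q₁, he⟩ := hspan e het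
  obtain ⟨h₀, hh₀⟩ : ∃ h₀, h₀ = c₀ (r₀ (e - 1)) := ⟨_, rfl⟩
  obtain ⟨h₁, hh₁⟩ : ∃ h₁, h₁ = c₁ (r₀ (e - 1)) := ⟨_, rfl⟩
  obtain ⟨g₀, hg₀⟩ : ∃ g₀, g₀ = c₀ (r₁ (e - 1)) := ⟨_, rfl⟩
  obtain ⟨g₁, hg₁⟩ : ∃ g₁, g₁ = c₁ (r₁ (e - 1)) := ⟨_, rfl⟩
  have vh₀ : v₀.valuation k h₀ < b * b := by rw [hh₀]; exact H₁ _ hnear.1.1
  have vh₁ : v₀.valuation k h₁ < b * b := by rw [hh₁]; exact H₂ _ hnear.1.2
  have vg₀ : v₀.valuation k g₀ < b * b := by rw [hg₀]; exact H₃ _ hnear.2.1
  have vg₁ : v₀.valuation k g₁ < b * b := by rw [hg₁]; exact H₄ _ hnear.2.2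
  have hcc : ∀ x : F, x = algebraMap k F (c₀ x) + algebraMap k F (c₁ x) * T := by
    intro x
    obtain ⟨u, v, rfl⟩ := hcoord x
    rw [(hc u v).1, (hc u v).2]
  have hq₀re : q₀.re = 1 + (algebraMap k F h₀ + algebraMap k F h₁ * T) := by
    rw [hh₀, hh₁, ← hcc, map_sub, hr₀1, he, hr₀]
    ring
  have hq₁re : q₁.re = algebraMap k F g₀ + algebraMap k F g₁ * T := by
    rw [hg₀, hg₁, ← hcc, map_sub, hr₁1, he, hr₁, sub_zero]
  have huniq : ∀ u v u' v' : k, algebraMap k F u + algebraMap k F v * T =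
      algebraMap k F u' + algebraMap k F v' * T → u = u' ∧ v = v' := by
    intro u v u' v' h1
    have h2 := congrArg c₀ h1
    have h3 := congrArg c₁ h1
    rw [(hc u v).1, (hc u' v').1] at h2
    rw [(hc u v).2, (hc u' v').2] at h3
    exact ⟨h2, h3⟩
  have hbb1 : b * b ≤ 1 := mul_le_one₀ hb1 zero_le hb1
  have hbbb : b * b ≤ b := mul_le_of_le_one_left zero_le hb1
  have v1 : v₀.valuation k (1 + h₀) = 1 :=
    (Valuation.map_one_add_of_lt _ (lt_of_lt_of_le vh₀ hbb1))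
  have hq₀0 : q₀ ≠ 0 := by
    intro h0
    have h1 := hq₀re
    rw [h0] at h1
    have h2 : algebraMap k F (1 + h₀) + algebraMap k F h₁ * T =
        algebraMap k F 0 + algebraMap k F 0 * T := by
      rw [map_add, map_one, map_zero, zero_mul, add_zero, add_assoc]
      exact h1.symm
    have h3 := (huniq _ _ _ _ h2).1
    rw [h3, map_zero] at v1
    exact zero_ne_one v1
  obtain ⟨ρ, hρ, hnρ, heρ⟩ := unit_form_aux hS h he he1 hq₀0
  obtain ⟨u, v, huv⟩ := hcoord ρ
  -- `u` and `v` are small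
  have hTT' : T * T = algebraMap k F a := by rw [← pow_two, hTT]
  have hre : q₁.re = ρ * q₀.re := by
    rw [hρ]
    simp [QuaternionAlgebra.algebraMap_eq]
  have heq : algebraMap k F (u * (1 + h₀) + a * v * h₁) +
      algebraMap k F (u * h₁ + v * (1 + h₀)) * T =
      algebraMap k F g₀ + algebraMap k F g₁ * T := by
    rw [← hq₁re, hre, huv, hq₀re]
    simp only [map_add, map_mul, map_one]
    rw [← hTT']
    ring
  obtain ⟨E1, E2⟩ := huniq _ _ _ _ heq
  obtain ⟨Δ, hΔ⟩ : ∃ Δ, Δ = (1 + h₀) ^ 2 - a * h₁ ^ 2 := ⟨_, rfl⟩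
  have vah : v₀.valuation k (a * h₁) < b := by
    rw [map_mul]
    calc v₀.valuation k (a : k) * v₀.valuation k h₁ ≤ v₀.valuation k (a : k) * (b * b) :=
          mul_le_mul_right vh₁.le _
      _ = b * v₀.valuation k (a : k) * b := by rw [← mul_assoc, mul_comm _ b, ← mul_assoc]
      _ < 1 * b := mul_lt_mul_of_pos_right hba (zero_lt_iff.mpr hb0)
      _ = b := one_mul b
  have vΔ : v₀.valuation k Δ = 1 := by
    rw [hΔ, sub_eq_add_neg, Valuation.map_add_eq_of_lt_left, map_pow, v1, one_pow]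
    rw [Valuation.map_neg, map_pow, v1, one_pow, pow_two, ← mul_assoc, map_mul]
    exact mul_lt_one_of_lt_of_le (vah.trans_le hb1) (vh₁.le.trans hbb1)
  have vu : v₀.valuation k u < b := by
    have h1 : u * Δ = g₀ * (1 + h₀) - a * h₁ * g₁ := by
      rw [hΔ]; linear_combination (1 + h₀) * E1 - a * h₁ * E2
    have h2 : v₀.valuation k u = v₀.valuation k (g₀ * (1 + h₀) - a * h₁ * g₁) := by
      rw [← h1, map_mul, vΔ, mul_one]
    rw [h2]
    refine lt_of_le_of_lt (Valuation.map_sub _ _ _) (max_lt ?_ ?_)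
    · rw [map_mul, v1, mul_one]
      exact vg₀.trans_le hbbb
    · rw [map_mul]
      exact lt_of_le_of_lt (mul_le_of_le_one_right zero_le (vg₁.le.trans hbb1)) vah
  have vv : v₀.valuation k v < b := by
    have h1 : v * Δ = g₁ * (1 + h₀) - h₁ * g₀ := by
      rw [hΔ]; linear_combination (1 + h₀) * E2 - h₁ * E1
    have h2 : v₀.valuation k v = v₀.valuation k (g₁ * (1 + h₀) - h₁ * g₀) := by
      rw [← h1, map_mul, vΔ, mul_one]
    rw [h2]
    refine lt_of_le_of_lt (Valuation.map_sub _ _ _) (max_lt ?_ ?_)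
    · rw [map_mul, v1, mul_one]
      exact vg₁.trans_le hbbb
    · rw [map_mul]
      exact lt_of_le_of_lt (mul_le_of_le_one_left zero_le (vh₁.le.trans hbb1)) (vg₀.trans_le hbbb)
  -- the reduced norm
  have hd0 : s ≠ 0 := by
    intro h0
    have := hS.sq
    rw [h0, zero_pow two_ne_zero, eq_comm, map_eq_zero] at this
    exact d.ne_zero this
  obtain ⟨x, hx⟩ : ∃ x, x = s * algebraMap k K u := ⟨_, rfl⟩
  obtain ⟨y, hy⟩ : ∃ y, y = s * algebraMap k K v := ⟨_, rfl⟩
  have hιρ : algebraMap K D s * ι ρ = algebraMap K D x + algebraMap K D y * t := by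
    rw [huv, map_add, map_mul, AlgHom.commutes, AlgHom.commutes, hT, hx, hy, map_mul, map_mul,
      ← IsScalarTower.algebraMap_apply, ← IsScalarTower.algebraMap_apply, mul_add, mul_assoc]
  have httK := Xa_sq (K := K) ht
  have hquad : ∀ c y : K, (algebraMap K D c + algebraMap K D y * t) *
      (algebraMap K D c - algebraMap K D y * t) =
      algebraMap K D (c ^ 2 - y ^ 2 * algebraMap k K a) := by
    intro c y
    have e1 : t * algebraMap K D c = algebraMap K D c * t := (Algebra.commutes _ _).symm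
    have e2 : t * algebraMap K D y = algebraMap K D y * t := (Algebra.commutes _ _).symm
    have e3 : algebraMap K D c * (algebraMap K D y * t) =
        algebraMap K D y * (algebraMap K D c * t) := by
      rw [← mul_assoc, ← mul_assoc, ← map_mul, ← map_mul, mul_comm]
    rw [map_sub, map_mul, map_pow, map_pow, ← httK, add_mul, mul_sub, mul_sub,
      mul_assoc (algebraMap K D y) t, mul_assoc (algebraMap K D y) t, e1,
      ← mul_assoc t (algebraMap K D y), e2, e3]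
    simp only [pow_two, mul_assoc]
    abel
  obtain ⟨z, hz0, hz⟩ := exists_anti hS ha ht
  have hconj : ∀ c y : K, dm f (algebraMap K D c + algebraMap K D y * t) =
      dm f (algebraMap K D c - algebraMap K D y * t) := by
    intro c y
    refine dm_conj f hz0 ?_
    rw [mul_add, sub_mul, ← Algebra.commutes, ← mul_assoc, ← Algebra.commutes y z, mul_assoc, hz,
      mul_neg, ← sub_eq_add_neg, mul_assoc]
  have hdq := dm_sq f h hq₀0
  have hnξ : ι (nrd q₀) * ((1 + algebraMap K D s * ι ρ) * (1 - algebraMap K D s * ι ρ)) = 1 := by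
    have e1 : (1 + algebraMap K D s * ι ρ) * (1 - algebraMap K D s * ι ρ) =
        ι (1 - algebraMap k F d * ρ ^ 2) := by
      have e2 : algebraMap K D s * ι ρ * (algebraMap K D s * ι ρ) =
          ι (algebraMap k F d * ρ ^ 2) := by
        rw [mul_assoc, ← mul_assoc (ι ρ), ← Algebra.commutes s (ι ρ), mul_assoc (algebraMap K D s),
          ← mul_assoc, ← hδ, hδδ, map_mul, AlgHom.commutes, pow_two, map_mul]
      rw [map_sub, map_one, ← e2]
      noncomm_ring
    rw [e1, ← map_mul, hnρ, map_one]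
  obtain ⟨m, hm⟩ : ∃ m, m = dm f (ι (nrd q₀)) := ⟨_, rfl⟩
  obtain ⟨μ, hμ⟩ : ∃ μ, μ = dm f (1 + algebraMap K D s * ι ρ) := ⟨_, rfl⟩
  obtain ⟨μ', hμ'⟩ : ∃ μ', μ' = dm f (1 - algebraMap K D s * ι ρ) := ⟨_, rfl⟩
  have h1 : m * (μ * μ') = 1 := by
    rw [hm, hμ, hμ', ← map_mul, ← map_mul, hnξ, map_one]
  have h2 : m * μ ^ 2 = 1 := by
    have e1 : dm f e = 1 := hedet
    rw [heρ, map_mul] at e1
    rw [hm, ← hdq, hμ, ← mul_pow, e1, one_pow]
  have hm0 : m ≠ 0 := by
    rintro rfl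
    rw [zero_mul] at h1
    exact zero_ne_one h1
  have hμ0 : μ ≠ 0 := by
    rintro rfl
    rw [zero_mul, mul_zero] at h1
    exact zero_ne_one h1
  have h3 : μ = μ' := by
    have e1 : m * (μ * μ) = m * (μ * μ') := by rw [h1, ← pow_two, h2]
    exact mul_left_cancel₀ hμ0 (mul_left_cancel₀ hm0 e1)
  have hX : μ ^ 2 = algebraMap K Ω ((1 + x) ^ 2 - y ^ 2 * algebraMap k K a) ^ n := by
    have e1 : 1 + algebraMap K D s * ι ρ = algebraMap K D (1 + x) + algebraMap K D y * t := by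
      rw [hιρ, map_add, map_one, add_assoc]
    rw [hμ, pow_two, ← dm_alg f, ← hquad, map_mul, ← hconj, e1]
  have hX' : μ' ^ 2 = algebraMap K Ω ((1 - x) ^ 2 - y ^ 2 * algebraMap k K a) ^ n := by
    have e1 : 1 - algebraMap K D s * ι ρ = algebraMap K D (1 - x) - algebraMap K D y * t := by
      rw [hιρ, map_sub, map_one]
      abel
    rw [hμ', pow_two, ← dm_alg f, ← hquad, map_mul, hconj, e1]
  rw [h3, hX', ← map_pow, ← map_pow] at hX
  have hXX := (algebraMap K Ω).injective hX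
  rw [hn] at hXX
  have hcz : CharZero K := charZero_of_injective_algebraMap (algebraMap k K).injective
  have hx2 : x ^ 2 = algebraMap k K (d * u ^ 2) := by
    rw [hx, mul_pow, hS.sq, map_mul, map_pow]
  have hy2 : y ^ 2 = algebraMap k K (d * v ^ 2) := by
    rw [hy, mul_pow, hS.sq, map_mul, map_pow]
  obtain ⟨P, hP⟩ : ∃ P : k, P = 1 + (d * u ^ 2 - a * d * v ^ 2) := ⟨_, rfl⟩
  have hPK : algebraMap k K P = 1 + x ^ 2 - y ^ 2 * algebraMap k K a := by
    rw [hx2, hy2, hP]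
    simp only [map_add, map_sub, map_mul, map_pow, map_one]
    ring
  have hprod : 16 * x * algebraMap k K P * algebraMap k K (P ^ 2 + 4 * d * u ^ 2) = 0 := by
    have e1 : algebraMap k K (P ^ 2 + 4 * d * u ^ 2) = algebraMap k K P ^ 2 + 4 * x ^ 2 := by
      rw [hx2]
      simp only [map_add, map_mul, map_pow, map_ofNat]
      ring
    rw [e1, hPK]
    linear_combination -hXX
  have vdu : v₀.valuation k (d * u ^ 2) < 1 := by
    rw [pow_two, ← mul_assoc, map_mul, map_mul]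
    calc v₀.valuation k (d : k) * v₀.valuation k u * v₀.valuation k u
        ≤ v₀.valuation k (d : k) * b * 1 := by
          gcongr
          exact vu.le.trans hb1
      _ = b * v₀.valuation k (d : k) := by rw [mul_one, mul_comm]
      _ < 1 := hbd
  have vadv : v₀.valuation k (a * d * v ^ 2) < 1 := by
    rw [pow_two, ← mul_assoc, map_mul, map_mul]
    calc v₀.valuation k (a * d : k) * v₀.valuation k v * v₀.valuation k v
        ≤ v₀.valuation k (a * d : k) * b * 1 := by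
          gcongr
          exact vv.le.trans hb1
      _ = b * v₀.valuation k (a * d : k) := by rw [mul_one, mul_comm]
      _ < 1 := hbad
  have vP : v₀.valuation k P = 1 := by
    rw [hP]
    exact Valuation.map_one_add_of_lt _
      (lt_of_le_of_lt (Valuation.map_sub _ _ _) (max_lt vdu vadv))
  have hP0 : P ≠ 0 := by
    intro h0
    rw [h0, map_zero] at vP
    exact zero_ne_one vP
  have hP4 : P ^ 2 + 4 * d * u ^ 2 ≠ 0 := by
    intro h0
    have e1 : v₀.valuation k (4 * d * u ^ 2) < 1 := by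
      rw [pow_two, ← mul_assoc, map_mul, map_mul]
      calc v₀.valuation k (4 * d : k) * v₀.valuation k u * v₀.valuation k u
          ≤ v₀.valuation k (4 * d : k) * b * 1 := by
            gcongr
            exact vu.le.trans hb1
        _ = b * v₀.valuation k (4 * d : k) := by rw [mul_one, mul_comm]
        _ < 1 := hb4d
    have e2 : v₀.valuation k (P ^ 2) = v₀.valuation k (4 * d * u ^ 2) := by
      rw [eq_neg_of_add_eq_zero_left h0, Valuation.map_neg]
    rw [map_pow, vP, one_pow] at e2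
    exact (e2.symm ▸ e1).false
  have hu0 : u = 0 := by
    rw [mul_eq_zero, mul_eq_zero, mul_eq_zero, map_eq_zero, map_eq_zero] at hprod
    rcases hprod with ((h4 | h4) | h4) | h4
    · exact absurd h4 (by norm_num)
    · rw [hx, mul_eq_zero, or_iff_right hd0, map_eq_zero] at h4
      exact h4
    · exact absurd h4 hP0
    · exact absurd h4 hP4
  refine ⟨v, q₀, hq₀0, ?_, ?_⟩
  · rw [heρ, huv, hu0, map_zero, zero_add, map_mul, AlgHom.commutes, hT, ← mul_assoc,
      ← mul_assoc, Algebra.commutes s]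
  · rw [huv, hu0, map_zero, zero_add, mul_pow, hTT] at hnρ
    rw [← hnρ]
    congr 2
    simp only [map_mul, map_pow]
    ring

/-- The coordinates of the factors are close to those of one. -/
theorem unit_near (hS : Setting k K D d s) {a : kˣ} {t : D} (ht : t ∈ Xa D a) {ι : F →ₐ[k] D}
    {T : F} {α β : Fˣ} {i j : D} (hT : ι T = t) (h : QFr ι α β i j)
    {M : ℕ} (B : Module.Basis (Fin M) k D) (v : HeightOneSpectrum (𝓞 k)) {ε : Z0} (hε : ε ≠ 0) :
    ∃ η : ℝ, 0 < η ∧ ∀ (e : D) (κ : k) (q : Qt α β),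
      e = qv ι i j q * (1 + algebraMap k D κ * (algebraMap K D s * t)) →
      nm B (.inl v) (e - 1) < η → v.valuation k κ < ε ∧ ∀ w : HeightOneSpectrum (𝓞 F),
        w.asIdeal.comap (algebraMap (𝓞 k) (𝓞 F)) = v.asIdeal → w.valuation F (q.re - 1) < ε ∧
        w.valuation F q.imI < ε ∧ w.valuation F q.imJ < ε ∧ w.valuation F q.imK < ε ∧
        w.valuation F (nrd (q - 1)) < ε := by
  have hTT : T ^ 2 = algebraMap k F a := by
    apply ι.toRingHom.injective
    change ι (T ^ 2) = ι (algebraMap k F a)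
    rw [map_pow, hT, pow_two, ht.2, AlgHom.commutes]
  have hT0 : T ≠ 0 := by
    rintro rfl
    rw [zero_pow two_ne_zero, eq_comm, map_eq_zero] at hTT
    exact a.ne_zero hTT
  obtain ⟨Λ, hΛ⟩ := exists_coords8 hS h
  obtain ⟨φ, hφ⟩ := exists_qhom h
  have hφ' : ∀ q, qv ι i j q = φ q := fun q => (hφ q).symm
  have hιφ : ∀ x : F, φ (algebraMap F (Qt α β) x) = ι x := by
    intro x
    rw [hφ]
    simp [QuaternionAlgebra.algebraMap_eq]
  -- the bound for `κ`
  obtain ⟨π, hπ⟩ := exists_exp v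
  have hπ1 : v.valuation k π < 1 := by
    rw [hπ]
    exact WithZero.exp_lt_exp.mpr (by norm_num)
  have hπ0 : π ≠ 0 := by
    rintro rfl
    rw [map_zero] at hπ
    exact WithZero.exp_ne_zero hπ.symm
  obtain ⟨n, hn⟩ := exists_pow_lt₀ hπ1 (Units.mk0 ε hε)
  rw [Units.val_mk0, ← map_pow] at hn
  have hw0 : ∀ (w : HeightOneSpectrum (𝓞 F)) (x : F), x ≠ 0 → w.valuation F x ≠ 0 :=
    fun w x hx => (Valuation.ne_zero_iff _).mpr hx
  let ε₁ : HeightOneSpectrum (𝓞 F) → Z0 := fun w => min (min ε 1) (min (w.valuation F α)⁻¹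
    (min (w.valuation F β)⁻¹ (w.valuation F (α * β))⁻¹))
  have hε₁ : ∀ w, ε₁ w ≠ 0 := by
    intro w
    have h1 : (0 : Z0) < ε₁ w := by
      refine lt_min (lt_min (zero_lt_iff.mpr hε) one_pos) (lt_min ?_ (lt_min ?_ ?_))
      · exact zero_lt_iff.mpr (inv_ne_zero (hw0 w _ α.ne_zero))
      · exact zero_lt_iff.mpr (inv_ne_zero (hw0 w _ β.ne_zero))
      · exact zero_lt_iff.mpr (inv_ne_zero (hw0 w _ (mul_ne_zero α.ne_zero β.ne_zero)))
    exact h1.ne'
  let P : (((F × F) × (F × F)) × ((F × F) × (F × F))) →ₗ[k] ((F × F) × (F × F)) :=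
    LinearMap.fst k _ _
  let re₀ : D →ₗ[k] F := LinearMap.fst k F F ∘ₗ LinearMap.fst k (F × F) (F × F) ∘ₗ P ∘ₗ Λ
  let reI : D →ₗ[k] F := LinearMap.snd k F F ∘ₗ LinearMap.fst k (F × F) (F × F) ∘ₗ P ∘ₗ Λ
  let reJ : D →ₗ[k] F := LinearMap.fst k F F ∘ₗ LinearMap.snd k (F × F) (F × F) ∘ₗ P ∘ₗ Λ
  let reK : D →ₗ[k] F := LinearMap.snd k F F ∘ₗ LinearMap.snd k (F × F) (F × F) ∘ₗ P ∘ₗ Λ
  let re₁ : D →ₗ[k] F := LinearMap.fst k F F ∘ₗ LinearMap.fst k (F × F) (F × F) ∘ₗ
    LinearMap.snd k _ _ ∘ₗ Λ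
  obtain ⟨η₀, hη₀, H₀⟩ := near_lin B re₀ v hε₁
  obtain ⟨ηI, hηI, HI⟩ := near_lin B reI v hε₁
  obtain ⟨ηJ, hηJ, HJ⟩ := near_lin B reJ v hε₁
  obtain ⟨ηK, hηK, HK⟩ := near_lin B reK v hε₁
  obtain ⟨η₁, hη₁, H₁⟩ := near_lin B re₁ v (ε := fun w => w.valuation F (algebraMap k F (π ^ n)) *
    w.valuation F T) fun w => mul_ne_zero (hw0 w _ ((_root_.map_ne_zero _).mpr
      (pow_ne_zero n hπ0))) (hw0 w _ hT0)
  refine ⟨min (min (min η₀ ηI) (min ηJ ηK)) η₁,
    lt_min (lt_min (lt_min hη₀ hηI) (lt_min hηJ hηK)) hη₁, fun e κ q he hnear => ?_⟩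
  simp only [lt_min_iff] at hnear
  obtain ⟨⟨⟨n₀, nI⟩, nJ, nK⟩, n₁⟩ := hnear
  have he' : e - 1 = qv ι i j (q - 1) + algebraMap K D s *
      qv ι i j (algebraMap F (Qt α β) (algebraMap k F κ * T) * q) := by
    rw [he, hφ', hφ', hφ', map_sub, map_one, map_mul, hιφ, map_mul, AlgHom.commutes, hT, mul_add,
      mul_one]
    have e1 : φ q * (algebraMap k D κ * (algebraMap K D s * t)) =
        algebraMap K D s * (algebraMap k D κ * t * φ q) := by
      have e2 : φ q * ι T = ι T * φ q := by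
        rw [← hιφ, ← map_mul, ← map_mul, Algebra.commutes]
      rw [← hT, ← mul_assoc, ← Algebra.commutes κ (φ q), mul_assoc, ← mul_assoc (φ q),
        ← Algebra.commutes s (φ q), mul_assoc (algebraMap K D s), e2,
        ← mul_assoc (algebraMap k D κ), Algebra.commutes κ (algebraMap K D s), mul_assoc,
        mul_assoc (algebraMap k D κ)]
    rw [e1]
    abel
  have hΛe := hΛ (q - 1) (algebraMap F (Qt α β) (algebraMap k F κ * T) * q)
  rw [← he'] at hΛe
  have c₀ : re₀ (e - 1) = q.re - 1 := by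
    have := congrArg (fun z => z.1.1.1) hΛe
    exact this
  have cI : reI (e - 1) = q.imI := by
    have := congrArg (fun z => z.1.1.2) hΛe
    refine this.trans ?_
    change (q - 1).imI = q.imI
    rw [QuaternionAlgebra.imI_sub, QuaternionAlgebra.imI_one, sub_zero]
  have cJ : reJ (e - 1) = q.imJ := by
    have := congrArg (fun z => z.1.2.1) hΛe
    refine this.trans ?_
    change (q - 1).imJ = q.imJ
    rw [QuaternionAlgebra.imJ_sub, QuaternionAlgebra.imJ_one, sub_zero]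
  have cK : reK (e - 1) = q.imK := by
    have := congrArg (fun z => z.1.2.2) hΛe
    refine this.trans ?_
    change (q - 1).imK = q.imK
    rw [QuaternionAlgebra.imK_sub, QuaternionAlgebra.imK_one, sub_zero]
  have c₁ : re₁ (e - 1) = algebraMap k F κ * T * q.re := by
    have := congrArg (fun z => z.2.1.1) hΛe
    refine this.trans ?_
    change (algebraMap F (Qt α β) (algebraMap k F κ * T) * q).re = _
    simp [QuaternionAlgebra.algebraMap_eq]
  have main : ∀ w : HeightOneSpectrum (𝓞 F),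
      w.asIdeal.comap (algebraMap (𝓞 k) (𝓞 F)) = v.asIdeal → w.valuation F (q.re - 1) < ε₁ w ∧
      w.valuation F q.imI < ε₁ w ∧ w.valuation F q.imJ < ε₁ w ∧ w.valuation F q.imK < ε₁ w := by
    intro w hw
    refine ⟨?_, ?_, ?_, ?_⟩
    · rw [← c₀]; exact H₀ _ n₀ w hw
    · rw [← cI]; exact HI _ nI w hw
    · rw [← cJ]; exact HJ _ nJ w hw
    · rw [← cK]; exact HK _ nK w hw
  have le1 : ∀ w, ε₁ w ≤ ε := fun w => (min_le_left _ _).trans (min_le_left _ _)
  have le2 : ∀ w, ε₁ w ≤ 1 := fun w => (min_le_left _ _).trans (min_le_right _ _)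
  have le3 : ∀ w, ε₁ w ≤ (w.valuation F α)⁻¹ := fun w => (min_le_right _ _).trans (min_le_left _ _)
  have le4 : ∀ w, ε₁ w ≤ (w.valuation F β)⁻¹ := fun w =>
    (min_le_right _ _).trans ((min_le_right _ _).trans (min_le_left _ _))
  have le5 : ∀ w, ε₁ w ≤ (w.valuation F (α * β))⁻¹ := fun w =>
    (min_le_right _ _).trans ((min_le_right _ _).trans (min_le_right _ _))
  refine ⟨?_, fun w hw => ?_⟩
  · obtain ⟨w, hw⟩ := exists_above (E := F) v
    obtain ⟨m₀, -⟩ := main w hw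
    have h1 : w.valuation F q.re = 1 := by
      have h2 : q.re = 1 + (q.re - 1) := by ring
      rw [h2]
      exact Valuation.map_one_add_of_lt _ (m₀.trans_le (le2 w))
    have h2 := H₁ _ n₁ w hw
    rw [c₁, map_mul, map_mul, h1, mul_one] at h2
    have h3 := lt_of_mul_lt_mul_right h2 zero_le
    exact ((val_lt_val_iff hw _ _).mp h3).trans hn
  · obtain ⟨m₀, mI, mJ, mK⟩ := main w hw
    refine ⟨m₀.trans_le (le1 w), mI.trans_le (le1 w), mJ.trans_le (le1 w), mK.trans_le (le1 w), ?_⟩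
    have key : ∀ (c x : F), c ≠ 0 → w.valuation F x < ε₁ w → ε₁ w ≤ (w.valuation F c)⁻¹ →
        w.valuation F (c * x ^ 2) < ε := by
      intro c x hc hx hcε
      have h1 : w.valuation F c * w.valuation F x ≤ 1 := by
        calc w.valuation F c * w.valuation F x ≤ w.valuation F c * (w.valuation F c)⁻¹ :=
              mul_le_mul_right (hx.le.trans hcε) _
          _ = 1 := mul_inv_cancel₀ (hw0 w c hc)
      rw [pow_two, ← mul_assoc, map_mul, map_mul]
      calc w.valuation F c * w.valuation F x * w.valuation F x ≤ 1 * w.valuation F x :=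
            mul_le_mul_left h1 _
        _ = w.valuation F x := one_mul _
        _ < ε := hx.trans_le (le1 w)
    have h2 : nrd (q - 1) = 1 * (q.re - 1) ^ 2 - α * q.imI ^ 2 - β * q.imJ ^ 2 +
        α * β * q.imK ^ 2 := by
      rw [nrd, QuaternionAlgebra.re_sub, QuaternionAlgebra.imI_sub, QuaternionAlgebra.imJ_sub,
        QuaternionAlgebra.imK_sub, QuaternionAlgebra.re_one, QuaternionAlgebra.imI_one,
        QuaternionAlgebra.imJ_one, QuaternionAlgebra.imK_one]
      ring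
    rw [h2]
    refine Valuation.map_add_lt _ (lt_of_le_of_lt (Valuation.map_sub _ _ _) (max_lt
      (lt_of_le_of_lt (Valuation.map_sub _ _ _) (max_lt ?_ ?_)) ?_)) ?_
    · exact key 1 _ one_ne_zero m₀ (by rw [map_one, inv_one]; exact le2 w)
    · exact key α _ α.ne_zero mI (le3 w)
    · exact key β _ β.ne_zero mJ (le4 w)
    · exact key _ _ (mul_ne_zero α.ne_zero β.ne_zero) mK (le5 w)

end unit

end Vale.Agent.P011.One
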