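import Vale.Agent.P011.One.LocGroup
import Vale.Agent.P011.One.TwoSplit
import Vale.Agent.P011.Two.Cv

/-!
Continuity of the reduced norm at a place which splits the centre.
-/

open NumberField IsDedekindDomain TensorProduct Module Filter Topology

namespace Vale.Agent.P011.One

open Vale.Agent.P011.Even Vale.Agent.P011.Two Vale.Agent.P011.W

theorem exists_quot (R : Type) [CommRing R] [Nontrivial R] :
    ∃ (Ω : Type) (_ : Field Ω) (q : R →+* Ω), Function.Surjective q := by
  obtain ⟨m, hm⟩ := Ideal.exists_maximal R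
  exact ⟨R ⧸ m, Ideal.Quotient.field m, Ideal.Quotient.mk m, Ideal.Quotient.mk_surjective⟩

section

variable {k K D : Type} [Field k] [NumberField k] [Field K] [DivisionRing D] [Algebra k K]
  [Algebra k D] [Algebra K D] [IsScalarTower k K D] [FiniteDimensional K D]
  [Algebra.IsCentral K D] {n : ℕ}

omit [Algebra k D] [IsScalarTower k K D] in
/-- A splitting over a finite extension of the completion. -/
theorem exists_locsplit (hdeg : finrank K D = n ^ 2) (v : HeightOneSpectrum (𝓞 k))
    (φ : K →ₐ[k] v.adicCompletion k) :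
    ∃ (Ω : Type) (_ : Field Ω) (_ : Algebra (v.adicCompletion k) Ω) (_ : Algebra K Ω)
      (_ : Algebra k Ω) (_ : IsScalarTower k (v.adicCompletion k) Ω) (_ : IsScalarTower k K Ω)
      (_ : D →ₐ[K] Matrix (Fin n) (Fin n) Ω), Module.Finite (v.adicCompletion k) Ω ∧
        ∀ c : K, algebraMap K Ω c = algebraMap (v.adicCompletion k) Ω (φ c) := by
  obtain ⟨L, _, _, _, j, u, hL, -⟩ := exists_maxfield hdeg (1 : D)
  let _ : Algebra K (v.adicCompletion k) := (φ : K →+* v.adicCompletion k).toAlgebra
  obtain ⟨Ω, _, q, hq⟩ := exists_quot (v.adicCompletion k ⊗[K] L)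
  let ι : v.adicCompletion k →+* Ω := q.comp (algebraMap _ (v.adicCompletion k ⊗[K] L))
  let _ : Algebra (v.adicCompletion k) Ω := ι.toAlgebra
  let ψ : K →+* Ω := ι.comp (φ : K →+* v.adicCompletion k)
  let _ : Algebra K Ω := ψ.toAlgebra
  let _ : Algebra k Ω := (ι.comp (algebraMap k _)).toAlgebra
  have h1 : IsScalarTower k (v.adicCompletion k) Ω := IsScalarTower.of_algebraMap_eq' rfl
  have h2 : IsScalarTower k K Ω := IsScalarTower.of_algebraMap_eq fun c => by
    change ι (algebraMap k _ c) = ι (φ (algebraMap k K c))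
    rw [φ.commutes]
  have hspl : Spl D n (algebraMap K Ω) := by
    have h3 := (spl_of_maxfield hdeg hL j).comp
      (q.comp (Algebra.TensorProduct.includeRight : L →ₐ[K] v.adicCompletion k ⊗[K] L).toRingHom)
    convert h3 using 1
    ext c
    change q (algebraMap _ (v.adicCompletion k ⊗[K] L) (φ c)) =
      q ((Algebra.TensorProduct.includeRight : L →ₐ[K] v.adicCompletion k ⊗[K] L)
        (algebraMap K L c))
    rw [AlgHom.commutes]
    rfl
  obtain ⟨f⟩ := spl_iff.mp hspl
  refine ⟨Ω, _, _, _, _, h1, h2, f, ?_, fun c => rfl⟩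
  exact Module.Finite.of_surjective
    ({ toFun := q
       map_add' := map_add _
       map_smul' := fun a x => by
        rw [Algebra.smul_def, map_mul, RingHom.id_apply, Algebra.smul_def]
        rfl } : v.adicCompletion k ⊗[K] L →ₗ[v.adicCompletion k] Ω) hq

/-- The reduced norm is continuous. -/
theorem tendsto_nrd (hdeg : finrank K D = n ^ 2) {N : ℕ} (B : Basis (Fin N) k D)
    (v : HeightOneSpectrum (𝓞 k)) (φ : K →ₐ[k] v.adicCompletion k) {y : ℕ → D} {ν : ℕ → K}
    (hν : ∀ j, HasNrd K n (y j) (ν j)) {X : v.adicCompletion k ⊗[k] D}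
    (hX : NrdOneAt K n v X) (hy : Cv B v y X) :
    Tendsto (fun j => φ (ν j)) atTop (𝓝 1) := by
  obtain ⟨Ω, _, _, _, _, _, _, f, _, hc⟩ := exists_locsplit (k := k) hdeg v φ
  let _ : TopologicalSpace Ω := moduleTopology (v.adicCompletion k) Ω
  have _ : IsModuleTopology (v.adicCompletion k) Ω := ⟨rfl⟩
  have _ : IsTopologicalRing Ω := IsModuleTopology.isTopologicalRing (v.adicCompletion k) Ω
  obtain ⟨π, hπ⟩ := (Algebra.linearMap (v.adicCompletion k) Ω).exists_leftInverse_of_injective
    (LinearMap.ker_eq_bot.mpr (algebraMap (v.adicCompletion k) Ω).injective)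
  have hπ' : ∀ a : v.adicCompletion k, π (algebraMap (v.adicCompletion k) Ω a) = a := fun a =>
    LinearMap.congr_fun hπ a
  have hπc : Continuous π := IsModuleTopology.continuous_of_linearMap π
  -- the entries
  have hent : ∀ Y : v.adicCompletion k ⊗[k] D,
      evAt v f Y = ∑ i, cof B v Y i • f (B i) := by
    intro Y
    conv_lhs => rw [exp_tensor (B := B) Y]
    rw [map_sum]
    exact Finset.sum_congr rfl fun i _ => evAt_tmul v f _ _
  have h1 : Tendsto (fun j => evAt v f (1 ⊗ₜ y j)) atTop (𝓝 (evAt v f X)) := by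
    rw [hent, show (fun j => evAt v f (1 ⊗ₜ y j)) = fun j => ∑ i, cof B v (1 ⊗ₜ y j) i • f (B i)
      from funext fun j => hent _]
    refine tendsto_finsetSum _ fun i _ => ?_
    have h2 := (hy i)
    simp only [← cof_tmul B v] at h2
    exact h2.smul_const _
  have h2 : Tendsto (fun j => (evAt v f (1 ⊗ₜ y j)).det) atTop (𝓝 1) := by
    have h3 : Continuous fun M : Matrix (Fin n) (Fin n) Ω => M.det := Continuous.matrix_det continuous_id
    have h4 := (h3.tendsto (evAt v f X)).comp h1
    rwa [hX Ω f] at h4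
  have h3 : ∀ j, (evAt v f (1 ⊗ₜ y j)).det = algebraMap (v.adicCompletion k) Ω (φ (ν j)) := by
    intro j
    rw [evAt_tmul, one_smul, hν j Ω f, hc]
  have h4 : Tendsto (fun j => π ((evAt v f (1 ⊗ₜ y j)).det)) atTop (𝓝 (π 1)) :=
    (hπc.tendsto 1).comp h2
  simp only [h3, hπ'] at h4
  rwa [← map_one (algebraMap (v.adicCompletion k) Ω), hπ'] at h4

end

end Vale.Agent.P011.One
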