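import Vale.Agent.P011.One.WAa
import Vale.Agent.P011.One.Cayley
import Mathlib.FieldTheory.IsAlgClosed.Spectrum

/-!
Places above a place which splits the centre, and simultaneous approximation of local unitary
elements.
-/

open NumberField IsDedekindDomain TensorProduct Module Filter Topology

namespace Vale.Agent.P011.One

open Vale.Agent.P011.Arith Vale.Agent.P011.Even Vale.Agent.P011.Two Vale.Agent.P011.W

section places

variable {k K : Type} [Field k] [NumberField k] [Field K] [NumberField K] [Algebra k K]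
  {v : HeightOneSpectrum (𝓞 k)} {w : HeightOneSpectrum (𝓞 K)}

/-- Small elements at a place in terms of an embedding. -/
theorem val_lt_of_norm {R : Type} [NormedField R] {φ : K →+* R}
    (h : ∀ y : K, w.valuation K y ≤ 1 → ‖φ y‖ ≤ 1) {y : K} (hy : ‖φ y‖ < 1) :
    w.valuation K y < 1 := by
  by_contra hcon
  rw [not_lt] at hcon
  have hy0 : y ≠ 0 := by
    rintro rfl
    rw [map_zero] at hcon
    exact absurd hcon (not_le.mpr one_pos)
  have h1 : w.valuation K y⁻¹ ≤ 1 := by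
    rw [map_inv₀]
    exact inv_le_one_of_one_le₀ hcon
  have h2 := h _ h1
  rw [map_inv₀, norm_inv] at h2
  have h3 : 0 < ‖φ y‖ := norm_pos_iff.mpr ((_root_.map_ne_zero φ).mpr hy0)
  exact absurd h2 (not_le.mpr ((one_lt_inv₀ h3).mpr hy))

/-- Convergence at a place. -/
theorem eventually_val {R : Type} [NormedField R] {φ : K →+* R}
    (h : ∀ y : K, w.valuation K y ≤ 1 → ‖φ y‖ ≤ 1) {ν : ℕ → K}
    (hν : Tendsto (fun j => φ (ν j)) atTop (𝓝 1)) {γ : Z0} (hγ : γ ≠ 0) :
    ∀ᶠ j in atTop, w.valuation K (ν j - 1) < γ := by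
  obtain ⟨c, hc⟩ := w.valuation_surjective K γ
  have hc0 : c ≠ 0 := by
    rintro rfl
    rw [map_zero] at hc
    exact hγ hc.symm
  have h1 : Tendsto (fun j => ‖φ ((ν j - 1) * c⁻¹)‖) atTop (𝓝 0) := by
    have h2 := ((hν.sub_const 1).mul_const (φ c⁻¹)).norm
    rw [sub_self, zero_mul, norm_zero] at h2
    refine h2.congr fun j => ?_
    rw [map_mul, map_sub, map_one]
  filter_upwards [h1.eventually (Iio_mem_nhds one_pos)] with j hj
  have h3 := val_lt_of_norm h hj
  rw [map_mul, map_inv₀, hc] at h3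
  have h4 := mul_lt_mul_of_pos_right h3 (zero_lt_iff.mpr hγ)
  rwa [inv_mul_cancel_right₀ hγ, one_mul] at h4

/-- A place above a place `v` which splits comes from one of the two embeddings in the completion
at `v`. -/
theorem place_cases (σ : K ≃ₐ[k] K) (hσ : ∀ x : K, ∃ c : k, algebraMap k K c = x * σ x)
    (φ : K →ₐ[k] v.adicCompletion k) (hw : Ab w v) :
    ∃ φ' : K →ₐ[k] v.adicCompletion k, (∀ y : K, w.valuation K y ≤ 1 → ‖φ' y‖ ≤ 1) := by
  obtain ⟨w₁, hw₁, h₁, h₁'⟩ := exists_place_of_hom (φ : K →+* v.adicCompletion k)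
    (fun c => φ.commutes c)
  obtain ⟨w₂, hw₂, h₂, h₂'⟩ := exists_place_of_hom ((φ.comp σ : K →ₐ[k] _) :
    K →+* v.adicCompletion k) (fun c => (φ.comp (σ : K →ₐ[k] K)).commutes c)
  by_cases hc₁ : w = w₁
  · exact ⟨φ, hc₁ ▸ h₁⟩
  by_cases hc₂ : w = w₂
  · exact ⟨φ.comp (σ : K →ₐ[k] K), hc₂ ▸ h₂⟩
  exfalso
  have hmax := w.isMaximal
  have hn₁ : ¬ w.asIdeal ≤ w₁.asIdeal := fun h =>
    hc₁ (HeightOneSpectrum.ext (hmax.eq_of_le w₁.isPrime.ne_top h))
  have hn₂ : ¬ w.asIdeal ≤ w₂.asIdeal := fun h =>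
    hc₂ (HeightOneSpectrum.ext (hmax.eq_of_le w₂.isPrime.ne_top h))
  have hn : ¬ ((w.asIdeal : Set (𝓞 K)) ⊆ w₁.asIdeal ∪ w₂.asIdeal) := fun h => by
    rcases Ideal.subset_union.mp h with h | h
    · exact hn₁ h
    · exact hn₂ h
  rw [Set.not_subset] at hn
  obtain ⟨x, hx, hx'⟩ := hn
  rw [Set.mem_union, not_or] at hx'
  have hge : ∀ {w' : HeightOneSpectrum (𝓞 K)} {φ' : K →+* v.adicCompletion k},
      (∀ y : K, w'.valuation K y ≤ 1 → ‖φ' y‖ ≤ 1) → x ∉ w'.asIdeal → 1 ≤ ‖φ' (x : K)‖ := by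
    intro w' φ' h hx
    by_contra hcon
    rw [not_le] at hcon
    exact hx ((w'.valuation_lt_one_iff_mem x).mp (val_lt_of_norm h hcon))
  have h3 := hge h₁ hx'.1
  have h4 := hge h₂ hx'.2
  obtain ⟨c, hc⟩ := hσ (x : K)
  have h5 : w.valuation K (algebraMap k K c) < 1 := by
    rw [hc, map_mul]
    have h6 : w.valuation K (x : K) < 1 := (w.valuation_lt_one_iff_mem x).mpr hx
    have h7 : w.valuation K (σ (x : K)) ≤ 1 := by
      have h8 : IsIntegral ℤ (σ (x : K)) :=
        (RingOfIntegers.isIntegral_coe x).map ((σ : K →+* K).toIntAlgHom)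
      exact w.valuation_le_one (⟨σ (x : K), h8⟩ : 𝓞 K)
    exact (mul_le_mul_right h7 _).trans_lt (by rwa [mul_one])
  have h7 : ‖algebraMap k (v.adicCompletion k) c‖ < 1 := by
    rw [norm_lt_one_iff, valued_alg]
    exact (val_lt_one_iff hw c).mp h5
  have h8 : algebraMap k (v.adicCompletion k) c = φ (x : K) * φ (σ (x : K)) := by
    rw [← φ.commutes, hc, map_mul]
  rw [h8, norm_mul] at h7
  have h9 : 1 ≤ ‖φ (x : K)‖ * ‖φ (σ (x : K))‖ := one_le_mul_of_one_le_of_one_le h3 h4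
  exact absurd h7 (not_lt.mpr h9)

end places

section alg

/-- Almost all elements of a pencil are units. -/
theorem finite_bad {F R : Type} [Field F] [Ring R] [Nontrivial R] [Algebra F R]
    [FiniteDimensional F R] (a b : R) (c₀ : F) (h : IsUnit (a + c₀ • b)) :
    {c : F | ¬ IsUnit (a + c • b)}.Finite := by
  obtain ⟨u, hu⟩ := h
  obtain ⟨w, hw⟩ : ∃ w : R, w = (u⁻¹ : Rˣ) * b := ⟨_, rfl⟩
  have hint : IsIntegral F w := Algebra.IsIntegral.isIntegral w
  have hfin : (spectrum F w).Finite := by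
    refine ((minpoly F w).rootSet_finite F).subset fun r hr => ?_
    have h1 := spectrum.subset_polynomial_aeval w (minpoly F w) ⟨r, hr, rfl⟩
    rw [minpoly.aeval, spectrum.zero_eq, Set.mem_singleton_iff] at h1
    rw [Polynomial.mem_rootSet]
    exact ⟨minpoly.ne_zero hint, by rwa [Polynomial.coe_aeval_eq_eval]⟩
  refine (hfin.image fun r => c₀ - r⁻¹).subset fun c hc => ?_
  have hc0 : c - c₀ ≠ 0 := by
    intro h0
    rw [sub_eq_zero] at h0
    exact hc ⟨u, by rw [hu, h0]⟩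
  refine ⟨-(c - c₀)⁻¹, ?_, ?_⟩
  · rw [spectrum.mem_iff]
    intro h1
    apply hc
    have e : a + c • b = (u : R) * (-(algebraMap F R (c - c₀)) *
        (algebraMap F R (-(c - c₀)⁻¹) - w)) := by
      have h2 : (u : R) * w = b := by rw [hw, Units.mul_inv_cancel_left]
      have h3 : algebraMap F R (c - c₀) * algebraMap F R ((c - c₀)⁻¹) = 1 := by
        rw [← map_mul, mul_inv_cancel₀ hc0, map_one]
      have h4 : -(algebraMap F R (c - c₀)) * (algebraMap F R (-(c - c₀)⁻¹) - w) =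
          1 + (c - c₀) • w := by
        rw [mul_sub, map_neg, neg_mul_neg, h3, neg_mul, sub_neg_eq_add, Algebra.smul_def]
      rw [h4, mul_add, mul_one, mul_smul_comm, h2, hu, sub_smul, add_add_sub_cancel]
    rw [e]
    refine u.isUnit.mul (IsUnit.mul (IsUnit.neg ?_) h1)
    exact (IsUnit.mk0 _ hc0).map (algebraMap F R)
  · change c₀ - (-(c - c₀)⁻¹)⁻¹ = c
    rw [inv_neg, inv_inv, sub_neg_eq_add, add_sub_cancel]

end alg

section seq

variable {k D : Type} [Field k] [NumberField k] [DivisionRing D] [Algebra k D] {N : ℕ}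
  (B : Module.Basis (Fin N) k D)

/-- Simultaneous approximation. -/
theorem exists_seq_all {A : Set (HeightOneSpectrum (𝓞 k))} (hA : A.Finite)
    (Y : ∀ v : HeightOneSpectrum (𝓞 k), v.adicCompletion k ⊗[k] D) :
    ∃ y : ℕ → D, ∀ v ∈ A, Cv B v y (Y v) := by
  have h1 : ∀ (v : HeightOneSpectrum (𝓞 k)) (i : Fin N) (j : ℕ), ∃ t : k,
      ‖cof B v (Y v) i - algebraMap k _ t‖ < 1 / ((j : ℝ) + 1) := fun v i j =>
    dense v _ _ (by positivity)
  choose t ht using h1
  have h2 : ∀ (i : Fin N) (j : ℕ), ∃ c : k, ∀ v ∈ A,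
      ‖algebraMap k (v.adicCompletion k) (c - t v i j)‖ < 1 / ((j : ℝ) + 1) := by
    intro i j
    obtain ⟨c, hc⟩ := approx (F := k) (Sum.inl '' A) (hA.image _)
      (fun p => Sum.elim (fun v => t v i j) (fun _ => 0) p) (fun _ => 1 / ((j : ℝ) + 1))
      (fun _ => by positivity)
    refine ⟨c, fun v hv => ?_⟩
    have h3 := hc (Sum.inl v) ⟨v, hv, rfl⟩
    rw [plAbv_norm] at h3
    exact h3
  choose c hc using h2
  refine ⟨fun j => ∑ i, c i j • B i, fun v hv i => ?_⟩
  have h1 : ∀ j, B.repr (∑ i, c i j • B i) i = c i j := fun j => by rw [B.repr_sum_self]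
  simp only [h1]
  rw [tendsto_iff_dist_tendsto_zero]
  have h4 : Tendsto (fun j : ℕ => 1 / ((j : ℝ) + 1) + 1 / ((j : ℝ) + 1)) atTop (𝓝 0) := by
    have h5 := tendsto_one_div_add_atTop_nhds_zero_nat (𝕜 := ℝ)
    have := h5.add h5
    rwa [add_zero] at this
  refine squeeze_zero (fun _ => dist_nonneg) (fun j => ?_) h4
  rw [dist_eq_norm]
  have h5 := ht v i j
  have h6 := hc i j v hv
  rw [map_sub] at h6
  rw [norm_sub_rev] at h5
  calc ‖algebraMap k (v.adicCompletion k) (c i j) - cof B v (Y v) i‖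
      = ‖(algebraMap k (v.adicCompletion k) (c i j) - algebraMap k _ (t v i j)) +
        (algebraMap k _ (t v i j) - cof B v (Y v) i)‖ := by rw [sub_add_sub_cancel]
    _ ≤ _ := (norm_add_le _ _).trans (add_le_add h6.le h5.le)

end seq

end Vale.Agent.P011.One
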