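import Vale.Agent.P011.One.WAb
import Vale.Agent.P011.One.ChainLoc

/-!
Simultaneous approximation of local unitary elements at places which split the centre.
-/

open NumberField IsDedekindDomain TensorProduct Module Filter Topology

namespace Vale.Agent.P011.One

open Vale.Agent.P011.Arith Vale.Agent.P011.Even Vale.Agent.P011.Two Vale.Agent.P011.W

section ring

variable {R : Type} [Ring R]

/-- The pencil contains a unit. -/
theorem isUnit_pencil {x x' e : R} (h2 : IsUnit (2 : R)) (hx : x * x' = 1) (hx' : x' * x = 1)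
    (he : e * e = 1) (hex : e * x = x * e) (hex' : e * x' = x' * e) :
    IsUnit ((1 + e) + x * (1 - e)) := by
  have h4 : IsUnit (4 : R) := by
    have : (4 : R) = 2 * 2 := by norm_num
    rw [this]
    exact h2.mul h2
  have key : ∀ y y' : R, y * y' = 1 → y' * y = 1 → e * y = y * e → e * y' = y' * e →
      ((1 + e) + y * (1 - e)) * ((1 + e) + y' * (1 - e)) = 4 := by
    intro y y' h1 h2 h3 h4
    have e1 : (1 + e) * (1 - e) = 0 := by
      rw [mul_sub, mul_one, add_mul, one_mul, he, add_comm e, sub_self]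
    have e2 : (1 - e) * (1 + e) = 0 := by
      rw [sub_mul, one_mul, mul_add, mul_one, he, add_comm e, sub_self]
    have e3 : (1 + e) * (1 + e) = 2 * (1 + e) := by
      rw [mul_add, mul_one, add_mul, one_mul, he, add_comm e 1, two_mul]
    have e4 : (1 - e) * (1 - e) = 2 * (1 - e) := by
      rw [mul_sub, mul_one, sub_mul, one_mul, he, two_mul]
      abel
    have e5 : (1 - e) * y' = y' * (1 - e) := by
      rw [sub_mul, mul_sub, one_mul, mul_one, h4]
    have e6 : (1 + e) * y' = y' * (1 + e) := by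
      rw [add_mul, mul_add, one_mul, mul_one, h4]
    calc ((1 + e) + y * (1 - e)) * ((1 + e) + y' * (1 - e))
        = (1 + e) * (1 + e) + ((1 + e) * y') * (1 - e) + y * ((1 - e) * (1 + e)) +
          y * ((1 - e) * y') * (1 - e) := by noncomm_ring
      _ = 2 * (1 + e) + 2 * (1 - e) := by
        rw [e3, e6, mul_assoc y', e1, mul_zero, e2, mul_zero, e5, ← mul_assoc y, h1, one_mul, e4,
          add_zero, add_zero]
      _ = 4 := by
        rw [← mul_add, add_add_sub_cancel, one_add_one_eq_two]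
        norm_num
  have k1 := key x x' hx hx' hex hex'
  have k2 := key x' x hx' hx hex' hex
  obtain ⟨u, hu⟩ := h4
  refine ⟨⟨(1 + e) + x * (1 - e), ((1 + e) + x' * (1 - e)) * (u⁻¹ : Rˣ), ?_, ?_⟩, rfl⟩
  · rw [← mul_assoc, k1, ← hu, Units.mul_inv]
  · have hc : ∀ z : R, (u⁻¹ : Rˣ) * z = z * (u⁻¹ : Rˣ) := by
      intro z
      have h5 : (u : R) * z = z * u := by
        rw [hu]
        exact ((Nat.cast_commute 4 z : Commute ((4 : ℕ) : R) z)).eq
      calc (u⁻¹ : Rˣ) * z = (u⁻¹ : Rˣ) * (z * u) * (u⁻¹ : Rˣ) := by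
            rw [mul_assoc, Units.mul_inv_cancel_right]
        _ = z * (u⁻¹ : Rˣ) := by rw [← h5, Units.inv_mul_cancel_left]
    rw [mul_assoc, hc, ← mul_assoc, k2, ← hu, Units.mul_inv]

/-- The Cayley parameter of a unitary element. -/
theorem exists_param {σ : R → R} (hadd : ∀ a b, σ (a + b) = σ a + σ b)
    (hneg : ∀ a, σ (-a) = -σ a) (hmul : ∀ a b, σ (a * b) = σ b * σ a) (h1 : σ 1 = 1) {x q : R}
    (hq : q * 2 = 1) (hqc : ∀ y, q * y = y * q) (hx : x * σ x = 1) (hu : IsUnit (1 + x)) :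
    ∃ Y, σ Y = -Y ∧ (1 + Y) * (q * (1 + x)) = 1 ∧ (1 - Y) * (q * (1 + x)) = x := by
  obtain ⟨u, hu⟩ := hu
  obtain ⟨Λ, hΛ⟩ : ∃ Λ : R, Λ = (u⁻¹ : Rˣ) := ⟨_, rfl⟩
  have h2 : (1 + x) * Λ = 1 := by rw [hΛ, ← hu, Units.mul_inv]
  have h3 : Λ * (1 + x) = 1 := by rw [hΛ, ← hu, Units.inv_mul]
  have hcomm : Λ * (1 - x) = (1 - x) * Λ := by
    have h4 : (1 + x) * (1 - x) = (1 - x) * (1 + x) := by noncomm_ring
    calc Λ * (1 - x) = Λ * ((1 - x) * (1 + x)) * Λ := by
          rw [mul_assoc Λ, mul_assoc (1 - x), h2, mul_one]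
      _ = (1 - x) * Λ := by rw [← h4, ← mul_assoc, h3, one_mul]
  have h5 : σ Λ = Λ * x := by
    have h6 : (1 + σ x) * σ Λ = 1 := by rw [← h1, ← hadd, h1, ← hmul, h3, h1]
    have h7 : (1 + x) * σ Λ = x := by
      calc (1 + x) * σ Λ = x * ((1 + σ x) * σ Λ) := by
            rw [← mul_assoc, mul_add, hx, mul_one, add_comm x]
        _ = x := by rw [h6, mul_one]
    calc σ Λ = Λ * ((1 + x) * σ Λ) := by rw [← mul_assoc, h3, one_mul]
      _ = Λ * x := by rw [h7]
  refine ⟨(1 - x) * Λ, ?_, ?_, ?_⟩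
  · rw [hmul, h5, sub_eq_add_neg, hadd, hneg, h1, mul_assoc, mul_add, mul_neg, hx, mul_one,
      ← sub_eq_add_neg, ← sub_eq_add_neg, ← hcomm, ← mul_neg, neg_sub]
  · rw [hqc, ← mul_assoc, add_mul, one_mul, mul_assoc (1 - x), h3, mul_one, add_add_sub_cancel,
      one_add_one_eq_two, ← hqc, hq]
  · rw [hqc, ← mul_assoc, sub_mul, one_mul, mul_assoc (1 - x), h3, mul_one]
    have h8 : 1 + x - (1 - x) = 2 * x := by rw [two_mul]; abel
    rw [h8, ← hqc, ← mul_assoc, hq, one_mul]

end ring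

section main

variable {k K D : Type} [Field k] [NumberField k] [Field K] [StarRing K]
  [DivisionRing D] [StarRing D] [Algebra k K] [Algebra k D] [Algebra K D] [IsScalarTower k K D]
  {d : kˣ} {s : K}

omit [StarRing D] in
theorem tmul_central {v : HeightOneSpectrum (𝓞 k)} {S : D} (hSc : ∀ y : D, S * y = y * S)
    (Y : v.adicCompletion k ⊗[k] D) :
    ((1 : v.adicCompletion k) ⊗ₜ[k] S) * Y = Y * (1 ⊗ₜ S) := by
  induction Y using TensorProduct.induction_on with
  | zero => rw [mul_zero, zero_mul]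
  | add Y Y' h h' => rw [mul_add, add_mul, h, h']
  | tmul a y => rw [Algebra.TensorProduct.tmul_mul_tmul, Algebra.TensorProduct.tmul_mul_tmul,
      one_mul, mul_one, hSc]

/-- The parameters for which the twisted element is not in the domain of the Cayley transform. -/
theorem finite_bad_at (hS : Setting k K D d s) {v : HeightOneSpectrum (𝓞 k)}
    (φ : K →ₐ[k] v.adicCompletion k) {S : D} (hSd : S = algebraMap K D s)
    (x : (v.adicCompletion k ⊗[k] D)ˣ) :
    {c : k | ¬ IsUnit ((1 + (x : v.adicCompletion k ⊗[k] D)) +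
      (algebraMap k (v.adicCompletion k) c) •
        ((1 ⊗ₜ S) * (1 - (x : v.adicCompletion k ⊗[k] D))))}.Finite := by
  have := hS.fin_k
  have hs0 := hS.s_ne
  have hSc : ∀ y : D, S * y = y * S := fun y => by rw [hSd]; exact Algebra.commutes s y
  have hSS : S * S = algebraMap k D d := by
    rw [hSd, ← map_mul, ← sq, hS.sq, ← IsScalarTower.algebraMap_apply]
  have hnt : Nontrivial (v.adicCompletion k ⊗[k] D) :=
    (Algebra.TensorProduct.includeRight_injective (A := v.adicCompletion k) (R := k) (B := D)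
      (algebraMap k (v.adicCompletion k)).injective).nontrivial
  obtain ⟨X, hX⟩ : ∃ X, X = (x : v.adicCompletion k ⊗[k] D) := ⟨_, rfl⟩
  have hcv : CharZero (v.adicCompletion k) :=
    charZero_of_injective_algebraMap (algebraMap k (v.adicCompletion k)).injective
  have hφs : φ s * φ s = algebraMap k _ (d : k) := by
    rw [← map_mul, ← sq, hS.sq, φ.commutes]
  have hφs0 : φ s ≠ 0 := (_root_.map_ne_zero φ).mpr hs0
  have hSSv : ((1 : v.adicCompletion k) ⊗ₜ[k] S) * (1 ⊗ₜ S) =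
      algebraMap (v.adicCompletion k) _ (φ s * φ s) := by
    rw [Algebra.TensorProduct.tmul_mul_tmul, mul_one, hSS, hφs,
      Algebra.TensorProduct.algebraMap_apply, Algebra.algebraMap_self_apply,
      Algebra.algebraMap_eq_smul_one, Algebra.algebraMap_eq_smul_one, TensorProduct.tmul_smul,
      TensorProduct.smul_tmul']
  have hScv := tmul_central (v := v) hSc
  obtain ⟨e, he⟩ : ∃ e, e = (φ s)⁻¹ • ((1 : v.adicCompletion k) ⊗ₜ[k] S) := ⟨_, rfl⟩
  have hee : e * e = 1 := by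
    rw [he, smul_mul_smul_comm, hSSv, Algebra.smul_def, ← map_mul]
    have h3 : (φ s)⁻¹ * (φ s)⁻¹ * (φ s * φ s) = 1 := by field_simp
    rw [h3, map_one]
  have hec : ∀ Y : v.adicCompletion k ⊗[k] D, e * Y = Y * e := by
    intro Y
    rw [he, smul_mul_assoc, mul_smul_comm, hScv]
  have h2 : IsUnit (2 : v.adicCompletion k ⊗[k] D) := by
    have h3 : IsUnit (2 : v.adicCompletion k) := isUnit_iff_ne_zero.mpr two_ne_zero
    have h4 := h3.map (algebraMap (v.adicCompletion k) (v.adicCompletion k ⊗[k] D))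
    rwa [map_ofNat] at h4
  have hpen := isUnit_pencil (x := X) (x' := ((x)⁻¹ : (v.adicCompletion k ⊗[k] D)ˣ)) h2
    (by rw [hX, Units.mul_inv]) (by rw [hX, Units.inv_mul]) hee (hec _) (hec _)
  have hfb := finite_bad (F := v.adicCompletion k) (1 + X) ((1 ⊗ₜ S) * (1 - X)) (φ s)⁻¹ (by
    have e1 : (1 + X) + (φ s)⁻¹ • ((1 ⊗ₜ S) * (1 - X)) = (1 + e) + X * (1 - e) := by
      rw [← smul_mul_assoc, ← he, mul_sub, mul_sub, mul_one, mul_one, hec]
      abel
    rw [e1]
    exact hpen)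
  rw [hX] at hfb
  exact (hfb.preimage (f := algebraMap k (v.adicCompletion k))
    (algebraMap k (v.adicCompletion k)).injective.injOn)

/-- The Cayley parameter of a twisted local unitary element. -/
theorem exists_param_at {v : HeightOneSpectrum (𝓞 k)}
    (h : ∀ c : k, star (algebraMap k D c) = algebraMap k D c)
    {S Z ζ : D} (hSc : ∀ y : D, S * y = y * S) {c : k} (hZd : Z = c • S) (hZ1 : 1 + Z ≠ 0)
    (hζ1 : ζ * (1 + Z) = 1 - Z) (hζu : ζ * star ζ = 1)
    (x : (v.adicCompletion k ⊗[k] D)ˣ)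
    (hx : (x : v.adicCompletion k ⊗[k] D) * starAt h v x = 1)
    (hcu : IsUnit ((1 + (x : v.adicCompletion k ⊗[k] D)) +
      (algebraMap k (v.adicCompletion k) c) •
        ((1 ⊗ₜ S) * (1 - (x : v.adicCompletion k ⊗[k] D))))) :
    ∃ Y : v.adicCompletion k ⊗[k] D, starAt h v Y = -Y ∧ ∃ Λ, (1 + Y) * Λ = 1 ∧
        (1 - Y) * Λ = (x : v.adicCompletion k ⊗[k] D) * (1 ⊗ₜ ζ) := by
  have hu : IsUnit (1 + (x : v.adicCompletion k ⊗[k] D) * (1 ⊗ₜ ζ)) := by
    have h1 : ((1 + (x : v.adicCompletion k ⊗[k] D) * (1 ⊗ₜ ζ)) * (1 ⊗ₜ (1 + Z))) =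
        (1 + (x : v.adicCompletion k ⊗[k] D)) +
          (algebraMap k (v.adicCompletion k) c) •
          ((1 ⊗ₜ S) * (1 - (x : v.adicCompletion k ⊗[k] D))) := by
      have hScv := tmul_central (v := v) hSc
      have h2 : (1 : v.adicCompletion k) ⊗ₜ[k] Z =
          (algebraMap k (v.adicCompletion k) c) • (1 ⊗ₜ S) := by
        rw [hZd, TensorProduct.tmul_smul, TensorProduct.smul_tmul', TensorProduct.smul_tmul',
          Algebra.smul_def, smul_eq_mul]
      have h3 : ((1 : v.adicCompletion k) ⊗ₜ[k] ζ) * (1 ⊗ₜ (1 + Z)) =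
          1 - (algebraMap k (v.adicCompletion k) c) • (1 ⊗ₜ S) := by
        rw [Algebra.TensorProduct.tmul_mul_tmul, mul_one, hζ1, TensorProduct.tmul_sub, h2]
        rfl
      rw [add_mul, one_mul, mul_assoc, h3, TensorProduct.tmul_add, h2, mul_sub, mul_one,
        mul_sub, mul_one, hScv, smul_sub, mul_smul_comm]
      change 1 + _ + _ = _
      abel
    rw [← h1] at hcu
    have h3 : IsUnit ((1 : v.adicCompletion k) ⊗ₜ[k] (1 + Z)) :=
      (IsUnit.mk0 _ hZ1).map (Algebra.TensorProduct.includeRight :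
        D →ₐ[k] v.adicCompletion k ⊗[k] D)
    obtain ⟨t, ht⟩ := h3
    rw [← ht] at hcu
    exact (Units.isUnit_mul_units _ t).mp hcu
  have hnt : CharZero (v.adicCompletion k) :=
    charZero_of_injective_algebraMap (algebraMap k (v.adicCompletion k)).injective
  obtain ⟨Y, hY1, hY2, hY3⟩ := exists_param (σ := starAt h v)
    (q := algebraMap (v.adicCompletion k) _ (2 : v.adicCompletion k)⁻¹)
    (fun a b => map_add _ a b) (fun a => map_neg _ a) (starAt_mul h v) (starAt_one h v)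
    (by
      have h3 : (2 : v.adicCompletion k ⊗[k] D) = algebraMap (v.adicCompletion k) _ 2 :=
        (map_ofNat _ _).symm
      rw [h3, ← map_mul, inv_mul_cancel₀ two_ne_zero, map_one])
    (fun y => Algebra.commutes _ _) (x := (x : v.adicCompletion k ⊗[k] D) * (1 ⊗ₜ ζ))
    (by
      rw [starAt_mul, starAt_tmul, mul_assoc, ← mul_assoc (1 ⊗ₜ ζ),
        Algebra.TensorProduct.tmul_mul_tmul, hζu, mul_one]
      change _ * (1 * _) = _
      rw [one_mul, hx]) hu
  exact ⟨Y, hY1, _, hY2, hY3⟩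

/-- Skew approximations. -/
theorem cv_skew {v : HeightOneSpectrum (𝓞 k)}
    (h : ∀ c : k, star (algebraMap k D c) = algebraMap k D c) {N : ℕ}
    {B : Basis (Fin N) k D} {y : ℕ → D} {Y : v.adicCompletion k ⊗[k] D} (hy : Cv B v y Y)
    (hY : starAt h v Y = -Y) : Cv B v (fun j => (2 : k)⁻¹ • (y j - star (y j))) Y := by
  have h1 : Cv B v (fun j => star (y j)) (starAt h v Y) := Cv.linear (starLin h) hy
  have h2 := Lc.Cv.smulA (hy.sub h1) (2 : k)⁻¹
  rw [hY, sub_neg_eq_add, Lc.half_add] at h2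
  exact h2

/-- The unitary elements of `D` are dense in the product of the local unitary groups at finitely
many places which split the centre. -/
theorem exists_seq_unitary (hS : Setting k K D d s)
    (h : ∀ c : k, star (algebraMap k D c) = algebraMap k D c) {N : ℕ}
    (B : Basis (Fin N) k D) {A : Set (HeightOneSpectrum (𝓞 k))} (hA : A.Finite)
    (hφ : ∀ v ∈ A, Nonempty (K →ₐ[k] v.adicCompletion k))
    (x : ∀ v : HeightOneSpectrum (𝓞 k), (v.adicCompletion k ⊗[k] D)ˣ)
    (hx : ∀ v ∈ A, (x v : v.adicCompletion k ⊗[k] D) * starAt h v (x v) = 1) :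
    ∃ g : ℕ → D, (∀ j, g j * star (g j) = 1) ∧ ∀ v ∈ A, Cv B v g (x v) := by
  have hcharD : CharZero D := charZero_of_injective_algebraMap (algebraMap k D).injective
  obtain ⟨S, hSd⟩ : ∃ S : D, S = algebraMap K D s := ⟨_, rfl⟩
  have hSs : star S = -S := by rw [hSd, hS.star_alg, hS.star_s, map_neg]
  have hSc : ∀ y : D, S * y = y * S := fun y => by rw [hSd]; exact Algebra.commutes s y
  obtain ⟨c, hc⟩ := ((hA.biUnion fun v hv =>
    finite_bad_at hS (hφ v hv).some hSd (x v)).infinite_compl).nonempty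
  have hcu : ∀ v ∈ A, IsUnit ((1 + (x v : v.adicCompletion k ⊗[k] D)) +
      (algebraMap k (v.adicCompletion k) c) •
        ((1 ⊗ₜ S) * (1 - (x v : v.adicCompletion k ⊗[k] D)))) := by
    intro v hv
    by_contra hcon
    exact hc (Set.mem_biUnion hv hcon)
  -- the scalar unitary element
  obtain ⟨Z, hZd⟩ : ∃ Z : D, Z = c • S := ⟨_, rfl⟩
  have hZs : star Z = -Z := by
    rw [hZd, Algebra.smul_def, star_mul, h, hSs, neg_mul, Algebra.commutes]
  have hZ1 := skew_add_ne hZs
  obtain ⟨ζ, hζ⟩ : ∃ ζ, ζ = cay Z := ⟨_, rfl⟩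
  have hζu : ζ * star ζ = 1 := by rw [hζ]; exact cay_mul_star hZs
  have hζu' : star ζ * ζ = 1 := by rw [hζ]; exact cay_star_mul hZs
  have hζ1 : ζ * (1 + Z) = 1 - Z := by
    rw [hζ, cay, mul_assoc, inv_mul_cancel₀ hZ1, mul_one]
  have hpar : ∀ v : HeightOneSpectrum (𝓞 k), ∃ Y : v.adicCompletion k ⊗[k] D, v ∈ A →
      (starAt h v Y = -Y ∧ ∃ Λ, (1 + Y) * Λ = 1 ∧
        (1 - Y) * Λ = (x v : v.adicCompletion k ⊗[k] D) * (1 ⊗ₜ ζ)) := by
    intro v
    by_cases hv : v ∈ A
    · obtain ⟨Y, hY⟩ := exists_param_at h hSc hZd hZ1 hζ1 hζu (x v) (hx v hv) (hcu v hv)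
      exact ⟨Y, fun _ => hY⟩
    · exact ⟨0, fun h => absurd h hv⟩
  choose Y hY using hpar
  obtain ⟨y, hy⟩ := exists_seq_all B hA Y
  -- the skew elements
  obtain ⟨z, hz⟩ : ∃ z : ℕ → D, z = fun j => (2 : k)⁻¹ • (y j - star (y j)) := ⟨_, rfl⟩
  have hzs : ∀ j, star (z j) = -z j := by
    intro j
    have h1 : ∀ (c : k) (w : D), star (c • w) = c • star w := fun c w => by
      rw [Algebra.smul_def, star_mul, h, ← Algebra.commutes, ← Algebra.smul_def]
    rw [hz, h1, star_sub, star_star, ← smul_neg, neg_sub]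
  have hzY : ∀ v ∈ A, Cv B v z (Y v) := by
    intro v hv
    rw [hz]
    exact cv_skew h (hy v hv) (hY v hv).1
  refine ⟨fun j => cay (z j) * star ζ, fun j => ?_, fun v hv => ?_⟩
  · rw [star_mul, star_star, mul_assoc, ← mul_assoc (star ζ), hζu', one_mul,
      cay_mul_star (hzs j)]
  · obtain ⟨-, Λ, hΛ1, hΛ2⟩ := hY v hv
    have h1 : Cv B v (fun j => 1 + z j) (1 + Y v) := (Cv.const B v 1).add (hzY v hv)
    have h2 : Cv B v (fun j => 1 - z j) (1 - Y v) := (Cv.const B v 1).sub (hzY v hv)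
    have h3 := h1.inv hΛ1 (Eventually.of_forall fun j => skew_add_ne (hzs j))
    have h4 := (h2.mul h3).mul (Cv.const B v (star ζ))
    rw [hΛ2, mul_assoc, Algebra.TensorProduct.tmul_mul_tmul, hζu, mul_one] at h4
    change Cv B v _ (_ * 1) at h4
    rw [mul_one] at h4
    exact h4

end main

end Vale.Agent.P011.One
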