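import Vale.Agent.P011.One.WAc
import Vale.Agent.P011.One.QForm
import Vale.Agent.P011.Pow.NS
import Vale.Agent.P011.Pow.AvDiv

/-!
Weak approximation: the special unitary group of rank one of a division algebra of 2-power degree
is dense in the product of the local groups at the places where it is anisotropic.
-/

open NumberField IsDedekindDomain TensorProduct Module Filter Topology

set_option linter.unusedSectionVars false

namespace Vale.Agent.P011.One

open Vale.Agent.P011.Arith Vale.Agent.P011.Even Vale.Agent.P011.Two Vale.Agent.P011.W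
  Vale.Agent.P011.Pow

variable {k K D : Type} [Field k] [NumberField k] [Field K] [NumberField K] [StarRing K]
  [DivisionRing D] [StarRing D] [Algebra k K] [Algebra k D] [Algebra K D] [IsScalarTower k K D]
  {d : kˣ} {s : K}

theorem adiv_iff {v : HeightOneSpectrum (𝓞 k)} :
    v ∈ Adiv k K D ↔ (Sum.inl v : Pl k) ∈ Tdiv k K D := by
  constructor
  · rintro ⟨φ, h⟩
    exact ⟨v, rfl, φ, h⟩
  · rintro ⟨v', hv', φ, h⟩
    obtain rfl := Sum.inl_injective hv'
    exact ⟨φ, h⟩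

theorem adiv_finite [FiniteDimensional K D] [Algebra.IsCentral K D] {n : ℕ} (hn : 2 ≤ n)
    (hdeg : finrank K D = n ^ 2) : (Adiv k K D).Finite := by
  have h1 := (tdiv_finite (k := k) hn hdeg).preimage (f := (Sum.inl : _ → Pl k))
    Sum.inl_injective.injOn
  exact h1.subset fun v hv => adiv_iff.mp hv

/-- Sizes of the differences. -/
theorem szA_sub_tendsto {D : Type} [DivisionRing D] [Algebra k D] {N : ℕ}
    {B : Basis (Fin N) k D} {v : HeightOneSpectrum (𝓞 k)} {x : ℕ → D}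
    {X : v.adicCompletion k ⊗[k] D} (hx : Cv B v x X) :
    Tendsto (fun j => szA B v (1 ⊗ₜ x j - X)) atTop (𝓝 0) := by
  have h2 : (0 : ℝ) = ∑ i : Fin N, (0 : ℝ) := by simp
  rw [h2]
  refine tendsto_finsetSum _ fun i _ => ?_
  have h3 := ((hx i).sub_const (cof B v X i)).norm
  rw [sub_self, norm_zero] at h3
  refine h3.congr fun j => ?_
  rw [← cof_tmul, cof, cof, cof, map_sub, Finsupp.sub_apply]

theorem szA_tmul {D : Type} [DivisionRing D] [Algebra k D] {N : ℕ}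
    {B : Basis (Fin N) k D} {v : HeightOneSpectrum (𝓞 k)} (x : D) :
    szA B v (1 ⊗ₜ x) = nm B (.inl v) x := by
  rw [nm_inl]
  rfl

/-- The reduced norms of a convergent sequence of unitary elements. -/
theorem eventually_star (hS : Setting k K D d s) {n : ℕ} (hdeg : finrank K D = n ^ 2) {N : ℕ}
    (B : Basis (Fin N) k D) {v : HeightOneSpectrum (𝓞 k)} (hv : v ∈ Adiv k K D)
    {w : HeightOneSpectrum (𝓞 K)} (hw : Ab w v) {y : ℕ → D} {ν : ℕ → K}
    (hν : ∀ j, HasNrd K n (y j) (ν j)) {X : v.adicCompletion k ⊗[k] D}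
    (hX : NrdOneAt K n v X) (hy : Cv B v y X) {γ : Z0} (hγ : γ ≠ 0) :
    ∀ᶠ j in atTop, w.valuation K (ν j - 1) < γ ∧ w.valuation K (star (ν j) - 1) < γ := by
  have := hS.fin
  have := hS.cen
  obtain ⟨σ, hσ⟩ := exists_starAut hS
  obtain ⟨φ, -⟩ := hv
  obtain ⟨φ', hφ'⟩ := place_cases σ (fun x => by
    obtain ⟨c, hc⟩ := (hS.fix (x * star x)).mp (by rw [star_mul, star_star])
    exact ⟨c, by rw [hc, hσ]⟩) φ hw
  have h1 := tendsto_nrd hdeg B v φ' hν hX hy
  have h2 := tendsto_nrd hdeg B v (φ'.comp (σ : K →ₐ[k] K)) hν hX hy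
  have h3 := eventually_val (φ := (φ' : K →+* v.adicCompletion k)) hφ' h1 hγ
  have h4 := eventually_val (φ := (φ' : K →+* v.adicCompletion k)) (ν := fun j => star (ν j))
    hφ' (by
      refine h2.congr fun j => ?_
      change φ' (σ (ν j)) = φ' (star (ν j))
      rw [hσ]) hγ
  exact h3.and h4

/-- **Weak approximation.** -/
theorem dense_GAt (hS : Setting k K D d s) {e : ℕ} (he : 1 ≤ e) {n : ℕ} (hn : n = 2 ^ e)
    (hdeg : finrank K D = n ^ 2) {Ω : Type} [Field Ω] [Algebra K Ω]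
    (f : D →ₐ[K] Matrix (Fin n) (Fin n) Ω) {M : ℕ} (B : Basis (Fin M) k D)
    (h : ∀ c : k, star (algebraMap k D c) = algebraMap k D c)
    (x : ∀ v : Adiv k K D, GAt K h n (v : HeightOneSpectrum (𝓞 k))) (ε : ℝ) (hε : 0 < ε) :
    ∃ g : SUD f, ∀ (v : Adiv k K D) (i : Fin M),
      ‖(Algebra.TensorProduct.basis ((v : HeightOneSpectrum (𝓞 k)).adicCompletion k) B).repr
        (delta (Adiv k K D) ((g : Dˣ) : D) v -
          (((x v : GAt K h n v) : ((v : HeightOneSpectrum (𝓞 k)).adicCompletion k ⊗[k] D)ˣ) :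
            (v : HeightOneSpectrum (𝓞 k)).adicCompletion k ⊗[k] D)) i‖ < ε := by
  classical
  have := hS.fin
  have := hS.cen
  have hn2 : 2 ≤ n := by
    rw [hn]
    calc 2 = 2 ^ 1 := (pow_one 2).symm
      _ ≤ 2 ^ e := Nat.pow_le_pow_right (by norm_num) he
  have hA : (Adiv k K D).Finite := adiv_finite hn2 hdeg
  -- the local elements
  obtain ⟨X, hX⟩ : ∃ X : ∀ v : HeightOneSpectrum (𝓞 k), (v.adicCompletion k ⊗[k] D)ˣ,
      ∀ v : Adiv k K D, X v = (x v : ((v : HeightOneSpectrum (𝓞 k)).adicCompletion k ⊗[k] D)ˣ) :=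
    ⟨fun v => if hv : v ∈ Adiv k K D then (x ⟨v, hv⟩ : (v.adicCompletion k ⊗[k] D)ˣ) else 1,
      fun v => dif_pos v.2⟩
  have hXG : ∀ v ∈ Adiv k K D, X v ∈ GAt K h n v := fun v hv => by
    rw [hX ⟨v, hv⟩]
    exact (x ⟨v, hv⟩).2
  obtain ⟨y, hyu, hyX⟩ := exists_seq_unitary hS h B hA (fun v hv => by
    obtain ⟨φ, -⟩ := hv
    exact ⟨φ⟩) X fun v hv => (mem_GAt.mp (hXG v hv)).1
  choose ν hν using fun j => exists_nrd hdeg (y j)
  have hνs : ∀ j, ν j * star (ν j) = 1 := by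
    intro j
    have h1 : HasNrd K n (y j * star (y j)) (ν j * star (ν j)) :=
      (hν j).mul (HasNrd.star hS.star_alg (hν j))
    rw [hyu j] at h1
    exact h1.unique hdeg HasNrd.one
  -- the constants
  choose C hC hCm using fun v : HeightOneSpectrum (𝓞 k) => szA_mul B v
  choose C' hC' hCs using fun v : HeightOneSpectrum (𝓞 k) =>
    nm_linear (B := B) (p := (Sum.inl v : Pl k)) (starLin h)
  obtain ⟨β, hβ⟩ : ∃ β : HeightOneSpectrum (𝓞 k) → ℝ, ∀ v, β v = szA B v (X v) + 1 :=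
    ⟨_, fun _ => rfl⟩
  have hβ0 : ∀ v, 0 < β v := fun v => by
    have := szA_nonneg (B := B) (X v : v.adicCompletion k ⊗[k] D)
    rw [hβ]
    linarith
  obtain ⟨η, hη⟩ : ∃ η : HeightOneSpectrum (𝓞 k) → ℝ, ∀ v, η v = ε / (2 * (C v * β v * C' v)) :=
    ⟨_, fun _ => rfl⟩
  have hη0 : ∀ v, 0 < η v := fun v => by
    have h1 := hC v
    have h2 := hC' v
    have h3 := hβ0 v
    rw [hη]
    positivity
  have hγ : ∀ v : HeightOneSpectrum (𝓞 k), ∃ γ : Z0, γ ≠ 0 ∧ (v ∈ Adiv k K D →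
      ∀ w : HeightOneSpectrum (𝓞 K), Ab w v → ∀ g : D, g * star g = 1 →
      ∀ ρ : K, HasNrd K n (g - 1) ρ → w.valuation K ρ < γ → nm B (.inl v) (g - 1) < η v) := by
    intro v
    by_cases hv : v ∈ Adiv k K D
    · obtain ⟨γ, h1, h2⟩ := dn_tdiv hS hdeg (adiv_iff.mp hv) B (hη0 v)
      exact ⟨γ, h1, fun _ => h2⟩
    · exact ⟨1, one_ne_zero, fun h => absurd h hv⟩
  choose γ hγ0 hγ using hγ
  obtain ⟨γ₀, hγ₀, hγm⟩ := exists_min hA γ hγ0
  -- the places above
  obtain ⟨T, hTd⟩ : ∃ T : Set (HeightOneSpectrum (𝓞 K)), T = ⋃ v ∈ Adiv k K D,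
      {w : HeightOneSpectrum (𝓞 K) | Ab w v} := ⟨_, rfl⟩
  have hT : T.Finite := by
    rw [hTd]
    exact hA.biUnion fun v _ => above_finite v
  have hTm : ∀ w, w ∈ T ↔ ∃ v ∈ Adiv k K D, Ab w v := by
    intro w
    rw [hTd, Set.mem_iUnion₂]
    simp only [Set.mem_ofPred_eq, exists_prop]
  subst hn
  obtain ⟨δ, hδ0, hδ⟩ := nrd_near hS hdeg T hT (fun w hw => by
    obtain ⟨v, hv, hwv⟩ := (hTm w).mp hw
    exact ult_of_tdiv hS hdeg (adiv_iff.mp hv) hwv) (fun _ => γ₀) fun _ => hγ₀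
  have ev1 : ∀ᶠ j in atTop, ∀ w ∈ T, w.valuation K (ν j - 1) < δ w ∧
      w.valuation K (star (ν j) - 1) < δ w := by
    rw [eventually_all_finite hT]
    intro w hw
    obtain ⟨v, hv, hwv⟩ := (hTm w).mp hw
    exact eventually_star hS hdeg B hv hwv hν (mem_GAt.mp (hXG v hv)).2 (hyX v hv) (hδ0 w)
  have ev2 : ∀ᶠ j in atTop, ∀ v ∈ Adiv k K D,
      szA B v (1 ⊗ₜ y j - (X v : v.adicCompletion k ⊗[k] D)) < min 1 (ε / 2) := by
    rw [eventually_all_finite hA]
    intro v hv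
    exact (szA_sub_tendsto (hyX v hv)).eventually
      (Iio_mem_nhds (lt_min one_pos (half_pos hε)))
  obtain ⟨j, hj1, hj2⟩ := (ev1.and ev2).exists
  obtain ⟨u, z, hu, huν, huz, hz⟩ := hδ (ν j) (hνs j) (fun φ => by
    by_cases hφ : Spl D (2 ^ e) φ
    · exact Or.inl hφ
    · exact Or.inr (nrd_pos_of hdeg φ hφ (left_ne_zero_of_mul_eq_one (hyu j)) (hν j))) hj1
  have hu' : star u * u = 1 := by
    have h0 : u ≠ 0 := left_ne_zero_of_mul_eq_one hu
    rw [eq_inv_of_mul_eq_one_right hu, inv_mul_cancel₀ h0]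
  have hgu : (y j * star u) * star (y j * star u) = 1 := by
    rw [star_mul, star_star, mul_assoc, ← mul_assoc (star u), hu', one_mul, hyu j]
  have hgn : HasNrd K (2 ^ e) (y j * star u) 1 := by
    have h1 : HasNrd K (2 ^ e) (y j * star u) (ν j * star (ν j)) :=
      (hν j).mul (HasNrd.star hS.star_alg huν)
    rwa [hνs j] at h1
  refine ⟨⟨Units.mk0 (y j * star u) (left_ne_zero_of_mul_eq_one hgu), hgu, ?_⟩, fun v i => ?_⟩
  · rw [Units.val_mk0, hgn Ω f, map_one]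
  · obtain ⟨v, hv⟩ := v
    rw [← hX ⟨v, hv⟩]
    change ‖cof B v (1 ⊗ₜ (y j * star u) - (X v : v.adicCompletion k ⊗[k] D)) i‖ < ε
    refine (szA_coord _ i).trans_lt ?_
    obtain ⟨w, hw⟩ := exists_above (E := K) v
    have h1 : nm B (.inl v) (u - 1) < η v := hγ v hv w hw u hu z huz
      ((hz w ((hTm w).mpr ⟨v, hv, hw⟩)).trans_le (hγm v hv))
    have h2 := hj2 v hv
    rw [lt_min_iff] at h2
    have h3 : (1 : v.adicCompletion k) ⊗ₜ[k] (y j * star u) - (X v : v.adicCompletion k ⊗[k] D) =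
        (1 ⊗ₜ y j) * (1 ⊗ₜ star (u - 1)) + (1 ⊗ₜ y j - (X v : v.adicCompletion k ⊗[k] D)) := by
      rw [star_sub, star_one, TensorProduct.tmul_sub, mul_sub,
        Algebra.TensorProduct.tmul_mul_tmul, Algebra.TensorProduct.tmul_mul_tmul, one_mul,
        mul_one, sub_add_sub_cancel]
    have h4 : szA B v ((1 : v.adicCompletion k) ⊗ₜ[k] star (u - 1)) ≤ C' v * η v := by
      rw [szA_tmul]
      exact (hCs v (u - 1)).trans (mul_le_mul_of_nonneg_left h1.le (hC' v).le)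
    have h5 : szA B v ((1 : v.adicCompletion k) ⊗ₜ[k] y j) ≤ β v := by
      have h6 := szA_add (B := B) (X v : v.adicCompletion k ⊗[k] D)
        (1 ⊗ₜ y j - (X v : v.adicCompletion k ⊗[k] D))
      rw [add_sub_cancel] at h6
      rw [hβ]
      linarith [h2.1]
    rw [h3]
    refine (szA_add _ _).trans_lt ?_
    have h6 : szA B v ((1 ⊗ₜ y j) * (1 ⊗ₜ star (u - 1))) ≤ C v * β v * (C' v * η v) :=
      (hCm v _ _).trans (mul_le_mul (mul_le_mul_of_nonneg_left h5 (hC v).le) h4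
        (szA_nonneg _) (mul_nonneg (hC v).le (hβ0 v).le))
    have h7 : C v * β v * (C' v * η v) = ε / 2 := by
      have h8 := (hC v).ne'
      have h9 := (hC' v).ne'
      have h10 := (hβ0 v).ne'
      rw [hη]
      field_simp
    rw [h7] at h6
    linarith [h2.2]

end Vale.Agent.P011.One
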