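import Mathlib

/-!
A configuration of two hermitian matrices over the complex numbers, used for the existence of
symmetric square roots of central elements.
-/

open Matrix

namespace Vale.Agent.P011.One.XE

section poly

variable {R S : Type} [Ring R] [Ring S]

/-- The polynomial which vanishes at `0`, `1`, `3`. -/
def P3 (y : R) : R := y ^ 3 - 4 * y ^ 2 + 3 * y

/-- The polynomial which vanishes at `0`, `1`, `2`. -/
def P4 (y : R) : R := y ^ 3 - 3 * y ^ 2 + 2 * y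

theorem P3_map (f : R →+* S) (y : R) : f (P3 y) = P3 (f y) := by
  simp only [P3, map_add, map_sub, map_mul, map_pow, map_ofNat]

theorem P4_map (f : R →+* S) (y : R) : f (P4 y) = P4 (f y) := by
  simp only [P4, map_add, map_sub, map_mul, map_pow, map_ofNat]

end poly

/-- The product of the two values. -/
noncomputable def Fq (t : ℂ) (Y W : Matrix (Fin 4) (Fin 4) ℂ) : ℂ :=
  ((P3 Y * (Y * W - W * Y)⁻¹ * P3 Y).trace / t) * ((P4 Y * (Y * W - W * Y)⁻¹ * P4 Y).trace / t)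

/-- A hermitian matrix with zero diagonal. -/
def Gm (e : ℂ) : Matrix (Fin 4) (Fin 4) ℂ := !![0, 1, 1, 1; 1, 0, 1, e; 1, 1, 0, 0; 1, e, 0, 0]

/-- Its inverse, `r = 1 / (e - 1)`. -/
def Gi (e r : ℂ) : Matrix (Fin 4) (Fin 4) ℂ :=
  !![0, 0, e * r, -r; 0, 0, -r, r; e * r, -r, 2 * e * r ^ 2, -(1 + e) * r ^ 2;
    -r, r, -(1 + e) * r ^ 2, 2 * r ^ 2]

theorem Gm_mul_Gi {e r : ℂ} (h : (e - 1) * r = 1) : Gm e * Gi e r = 1 := by
  ext i j
  fin_cases i <;> fin_cases j <;>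
    simp [Gm, Gi, Matrix.mul_apply, Fin.sum_univ_four] <;>
    first
      | linear_combination h
      | linear_combination r * h
      | linear_combination -r * h
      | linear_combination -e * r * h

/-- The nodes. -/
def nd : Fin 4 → ℂ := ![0, 1, 2, 3]

/-- The second matrix of the model. -/
noncomputable def Mm (t e : ℂ) (l : Fin 4 → ℂ) : Matrix (Fin 4) (Fin 4) ℂ :=
  Matrix.of fun a b => Gm e a b / (t * (nd a - nd b) * l b)

theorem comm_eq {t e : ℂ} {l : Fin 4 → ℂ} (ht : t ≠ 0) (hl : ∀ i, l i ≠ 0) :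
    Matrix.diagonal nd * Mm t e l - Mm t e l * Matrix.diagonal nd =
      t⁻¹ • (Gm e * Matrix.diagonal fun i => (l i)⁻¹) := by
  ext a b
  rw [Matrix.sub_apply, Matrix.diagonal_mul, Matrix.mul_diagonal, Matrix.smul_apply,
    Matrix.mul_diagonal, Mm, Matrix.of_apply, smul_eq_mul]
  have h0 : nd a - nd b ≠ 0 ∨ Gm e a b = 0 := by
    fin_cases a <;> fin_cases b <;> simp [nd, Gm]
    all_goals norm_num
  rcases h0 with h0 | h0
  · have := hl b
    field_simp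
  · rw [h0]; simp

theorem inv_eq {t e r : ℂ} {l : Fin 4 → ℂ} (ht : t ≠ 0) (hl : ∀ i, l i ≠ 0)
    (h : (e - 1) * r = 1) :
    (Matrix.diagonal nd * Mm t e l - Mm t e l * Matrix.diagonal nd) *
      (t • (Matrix.diagonal l * Gi e r)) = 1 := by
  rw [comm_eq ht hl, smul_mul_smul_comm, inv_mul_cancel₀ ht, one_smul]
  calc Gm e * Matrix.diagonal (fun i => (l i)⁻¹) * (Matrix.diagonal l * Gi e r)
      = Gm e * (Matrix.diagonal (fun i => (l i)⁻¹) * Matrix.diagonal l) * Gi e r := by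
        simp only [Matrix.mul_assoc]
    _ = Gm e * Gi e r := by
        rw [Matrix.diagonal_mul_diagonal]
        have : (fun i => (l i)⁻¹ * l i) = fun _ => (1 : ℂ) := by
          funext i; exact inv_mul_cancel₀ (hl i)
        rw [this, Matrix.diagonal_one, Matrix.mul_one]
    _ = 1 := Gm_mul_Gi h

theorem nd_star (i : Fin 4) : star (nd i) = nd i := by
  fin_cases i <;> simp [nd]

theorem diag_herm {l : Fin 4 → ℝ} :
    (Matrix.diagonal nd * Matrix.diagonal fun i => ((l i : ℝ) : ℂ))ᴴ =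
      Matrix.diagonal nd * Matrix.diagonal fun i => ((l i : ℝ) : ℂ) := by
  rw [Matrix.diagonal_mul_diagonal, Matrix.diagonal_conjTranspose]
  congr 1
  funext i
  rw [Pi.star_apply, star_mul', nd_star]
  congr 1
  exact Complex.conj_ofReal _

theorem Mm_herm {t : ℂ} {e : ℝ} {l : Fin 4 → ℝ} (ht : star t = -t) (hl : ∀ i, l i ≠ 0) :
    (Mm t e (fun i => ((l i : ℝ) : ℂ)) * Matrix.diagonal fun i => ((l i : ℝ) : ℂ))ᴴ =
      Mm t e (fun i => ((l i : ℝ) : ℂ)) * Matrix.diagonal fun i => ((l i : ℝ) : ℂ) := by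
  have hG : ∀ a b, star (Gm e a b) = Gm e b a := by
    intro a b
    fin_cases a <;> fin_cases b <;> simp [Gm]
  have h1 : ∀ a b, (Mm t e (fun i => ((l i : ℝ) : ℂ)) * Matrix.diagonal fun i => ((l i : ℝ) : ℂ)) a b
      = Gm e a b / (t * (nd a - nd b)) := by
    intro a b
    rw [Matrix.mul_diagonal, Mm, Matrix.of_apply]
    have h2 : ((l b : ℝ) : ℂ) ≠ 0 := by exact_mod_cast hl b
    rw [div_mul_eq_mul_div, mul_div_mul_right _ _ h2]
  ext a b
  rw [Matrix.conjTranspose_apply, h1, h1, star_div₀, hG, star_mul', star_sub, nd_star, nd_star, ht]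
  congr 1
  ring

theorem P3_diag : P3 (Matrix.diagonal nd) = Matrix.diagonal ![0, 0, -2, 0] := by
  have h := P3_map (Matrix.diagonalRingHom (Fin 4) ℂ) nd
  change Matrix.diagonal (P3 nd) = P3 (Matrix.diagonal nd) at h
  rw [← h]
  congr 1
  funext i
  change nd i ^ 3 - 4 * nd i ^ 2 + 3 * nd i = _
  fin_cases i <;> simp [nd] <;> norm_num

theorem P4_diag : P4 (Matrix.diagonal nd) = Matrix.diagonal ![0, 0, 0, 6] := by
  have h := P4_map (Matrix.diagonalRingHom (Fin 4) ℂ) nd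
  change Matrix.diagonal (P4 nd) = P4 (Matrix.diagonal nd) at h
  rw [← h]
  congr 1
  funext i
  change nd i ^ 3 - 3 * nd i ^ 2 + 2 * nd i = _
  fin_cases i <;> simp [nd] <;> norm_num

theorem val3 {t e r : ℂ} {l : Fin 4 → ℂ} (ht : t ≠ 0) :
    (P3 (Matrix.diagonal nd) * (t • (Matrix.diagonal l * Gi e r)) *
      P3 (Matrix.diagonal nd)).trace / t = 8 * l 2 * e * r ^ 2 := by
  rw [P3_diag, Matrix.mul_smul, Matrix.smul_mul, Matrix.trace_smul, smul_eq_mul,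
    mul_div_cancel_left₀ _ ht]
  simp [Matrix.trace, Fin.sum_univ_four, Gi, Matrix.diagonal_mul]
  ring

theorem val4 {t e r : ℂ} {l : Fin 4 → ℂ} (ht : t ≠ 0) :
    (P4 (Matrix.diagonal nd) * (t • (Matrix.diagonal l * Gi e r)) *
      P4 (Matrix.diagonal nd)).trace / t = 72 * l 3 * r ^ 2 := by
  rw [P4_diag, Matrix.mul_smul, Matrix.smul_mul, Matrix.trace_smul, smul_eq_mul,
    mul_div_cancel_left₀ _ ht]
  simp [Matrix.trace, Fin.sum_univ_four, Gi, Matrix.diagonal_mul]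
  ring

theorem Fq_conj {t : ℂ} {U Y W C : Matrix (Fin 4) (Fin 4) ℂ} (h1 : Uᴴ * U = 1) (h2 : U * Uᴴ = 1)
    (h : (Y * W - W * Y) * C = 1) :
    Fq t (U * Y * Uᴴ) (U * W * Uᴴ) =
      ((P3 Y * C * P3 Y).trace / t) * ((P4 Y * C * P4 Y).trace / t) := by
  let f : Matrix (Fin 4) (Fin 4) ℂ →+* Matrix (Fin 4) (Fin 4) ℂ :=
    { toFun := fun X => U * X * Uᴴ
      map_one' := by rw [Matrix.mul_one, h2]
      map_zero' := by rw [Matrix.mul_zero, Matrix.zero_mul]
      map_add' := fun X Z => by rw [Matrix.mul_add, Matrix.add_mul]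
      map_mul' := fun X Z => by
        calc U * (X * Z) * Uᴴ = U * X * (1 * Z) * Uᴴ := by rw [Matrix.one_mul]; simp only [mul_assoc]
          _ = U * X * Uᴴ * (U * Z * Uᴴ) := by rw [← h1]; simp only [mul_assoc] }
  have hf : ∀ X, f X = U * X * Uᴴ := fun _ => rfl
  have htr : ∀ X, (f X).trace = X.trace := by
    intro X
    rw [hf, Matrix.trace_mul_cycle, h1, Matrix.one_mul]
  have hinv : (U * Y * Uᴴ * (U * W * Uᴴ) - U * W * Uᴴ * (U * Y * Uᴴ))⁻¹ = f C := by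
    apply Matrix.inv_eq_right_inv
    rw [← hf, ← hf, ← map_mul, ← map_mul, ← map_sub, ← map_mul, h, map_one]
  rw [Fq, hinv, ← hf, ← P3_map, ← P4_map, ← map_mul, ← map_mul, ← map_mul, ← map_mul, htr, htr]

/-- The model at a place. -/
theorem exists_model {A : Matrix (Fin 4) (Fin 4) ℂ} (hA : Aᴴ = A) (hu : IsUnit A) {t : ℂ}
    (ht : star t = -t) (ht0 : t ≠ 0) :
    ∃ Y W : Matrix (Fin 4) (Fin 4) ℂ, (Y * A)ᴴ = Y * A ∧ (W * A)ᴴ = W * A ∧
      (Y * W - W * Y).det ≠ 0 ∧ (Fq t Y W).re < 0 := by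
  have hG : A.IsHermitian := hA
  obtain ⟨U, hUd⟩ : ∃ U : Matrix (Fin 4) (Fin 4) ℂ, U = (hG.eigenvectorUnitary : Matrix _ _ ℂ) :=
    ⟨_, rfl⟩
  have hU1 : Uᴴ * U = 1 := by
    rw [hUd]; exact Matrix.mem_unitaryGroup_iff'.mp hG.eigenvectorUnitary.2
  have hU2 : U * Uᴴ = 1 := by
    rw [hUd]; exact Matrix.mem_unitaryGroup_iff.mp hG.eigenvectorUnitary.2
  have hspec : A = U * Matrix.diagonal (fun i => (hG.eigenvalues i : ℂ)) * Uᴴ := by
    rw [hUd]; exact hG.spectral_theorem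
  set μ := hG.eigenvalues with hμ
  have hμ0 : ∀ i, μ i ≠ 0 := by
    intro i h0
    have h1 : IsUnit (Matrix.diagonal (fun i => (μ i : ℂ))) := by
      have h2 : Matrix.diagonal (fun i => (μ i : ℂ)) = Uᴴ * A * U := by
        rw [hspec]
        calc _ = (Uᴴ * U) * Matrix.diagonal (fun i => (μ i : ℂ)) * (Uᴴ * U) := by
              rw [hU1, one_mul, mul_one]
          _ = _ := by simp only [mul_assoc]
      rw [h2]
      exact (IsUnit.mul ⟨⟨Uᴴ, U, hU1, hU2⟩, rfl⟩ hu).mul ⟨⟨U, Uᴴ, hU2, hU1⟩, rfl⟩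
    rw [Matrix.isUnit_diagonal, Pi.isUnit_iff] at h1
    have h2 := (h1 i).ne_zero
    rw [h0, Complex.ofReal_zero] at h2
    exact h2 rfl
  have hμc : ∀ i, ((μ i : ℝ) : ℂ) ≠ 0 := fun i => by exact_mod_cast hμ0 i
  obtain ⟨e, r, her, hsign⟩ : ∃ e r : ℝ, (e - 1) * r = 1 ∧ μ 2 * μ 3 * e < 0 := by
    rcases lt_or_gt_of_ne (mul_ne_zero (hμ0 2) (hμ0 3)) with h | h
    · exact ⟨2, 1, by norm_num, by linarith⟩
    · exact ⟨-1, -1 / 2, by norm_num, by linarith⟩
  have her' : ((e : ℂ) - 1) * (r : ℂ) = 1 := by exact_mod_cast her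
  have hr0 : r ≠ 0 := by
    rintro rfl
    simp at her
  have key := inv_eq (t := t) (l := fun i => ((μ i : ℝ) : ℂ)) ht0 hμc her'
  have hherm : ∀ X : Matrix (Fin 4) (Fin 4) ℂ,
      (X * Matrix.diagonal (fun i => (μ i : ℂ)))ᴴ = X * Matrix.diagonal (fun i => (μ i : ℂ)) →
      (U * X * Uᴴ * A)ᴴ = U * X * Uᴴ * A := by
    intro X hX
    have h1 : U * X * Uᴴ * A = U * (X * Matrix.diagonal (fun i => (μ i : ℂ))) * Uᴴ := by
      rw [hspec]
      calc _ = U * X * (Uᴴ * U) * Matrix.diagonal (fun i => (μ i : ℂ)) * Uᴴ := by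
            simp only [mul_assoc]
        _ = _ := by rw [hU1, mul_one]; simp only [mul_assoc]
    rw [h1, Matrix.conjTranspose_mul, Matrix.conjTranspose_mul, hX,
      Matrix.conjTranspose_conjTranspose]
    simp only [mul_assoc]
  refine ⟨U * Matrix.diagonal nd * Uᴴ, U * Mm t e (fun i => ((μ i : ℝ) : ℂ)) * Uᴴ,
    hherm _ diag_herm, hherm _ (Mm_herm ht hμ0), ?_, ?_⟩
  · have h1 : U * Matrix.diagonal nd * Uᴴ * (U * Mm t e (fun i => ((μ i : ℝ) : ℂ)) * Uᴴ) -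
        U * Mm t e (fun i => ((μ i : ℝ) : ℂ)) * Uᴴ * (U * Matrix.diagonal nd * Uᴴ) =
        U * (Matrix.diagonal nd * Mm t e (fun i => ((μ i : ℝ) : ℂ)) -
          Mm t e (fun i => ((μ i : ℝ) : ℂ)) * Matrix.diagonal nd) * Uᴴ := by
      have h3 : ∀ X Z : Matrix (Fin 4) (Fin 4) ℂ, U * X * Uᴴ * (U * Z * Uᴴ) = U * (X * Z) * Uᴴ := by
        intro X Z
        calc _ = U * X * (Uᴴ * U) * Z * Uᴴ := by simp only [mul_assoc]
          _ = _ := by rw [hU1, mul_one]; simp only [mul_assoc]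
      rw [h3, h3, ← Matrix.sub_mul, ← Matrix.mul_sub]
    rw [h1, Matrix.det_mul, Matrix.det_mul]
    have h2 := congrArg Matrix.det key
    rw [Matrix.det_mul, Matrix.det_one] at h2
    have h3 := congrArg Matrix.det hU2
    rw [Matrix.det_mul, Matrix.det_one] at h3
    exact mul_ne_zero (mul_ne_zero (left_ne_zero_of_mul_eq_one h3) (left_ne_zero_of_mul_eq_one h2))
      (right_ne_zero_of_mul_eq_one h3)
  · rw [Fq_conj hU1 hU2 key, val3 ht0, val4 ht0]
    have h1 : (8 * ((μ 2 : ℝ) : ℂ) * e * (r : ℂ) ^ 2) * (72 * ((μ 3 : ℝ) : ℂ) * (r : ℂ) ^ 2) =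
        ((576 * (μ 2 * μ 3 * e) * r ^ 4 : ℝ) : ℂ) := by push_cast; ring
    rw [h1, Complex.ofReal_re]
    have h2 : 0 < r ^ 4 := by positivity
    nlinarith

theorem exists_eps {p : Matrix (Fin 4) (Fin 4) ℂ × Matrix (Fin 4) (Fin 4) ℂ → Prop}
    {Y W : Matrix (Fin 4) (Fin 4) ℂ} (h : ∀ᶠ q in nhds (Y, W), p q) :
    ∃ ε : ℝ, 0 < ε ∧ ∀ Y' W' : Matrix (Fin 4) (Fin 4) ℂ,
      (∀ a b, ‖Y' a b - Y a b‖ < ε) → (∀ a b, ‖W' a b - W a b‖ < ε) → p (Y', W') := by
  let p' : (Fin 4 → Fin 4 → ℂ) × (Fin 4 → Fin 4 → ℂ) → Prop := p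
  have h5 : ∀ᶠ q in nhds ((Y, W) : (Fin 4 → Fin 4 → ℂ) × (Fin 4 → Fin 4 → ℂ)), p' q := h
  obtain ⟨ε, hε, h6⟩ := Metric.eventually_nhds_iff.mp h5
  refine ⟨ε, hε, fun Y' W' hY hW => h6 (y := (Y', W')) ?_⟩
  rw [Prod.dist_eq, max_lt_iff]
  constructor
  · rw [dist_pi_lt_iff hε]
    intro a
    rw [dist_pi_lt_iff hε]
    intro b
    rw [dist_eq_norm]
    exact hY a b
  · rw [dist_pi_lt_iff hε]
    intro a
    rw [dist_pi_lt_iff hε]
    intro b
    rw [dist_eq_norm]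
    exact hW a b

theorem continuousAt_inv {X n : Type} [TopologicalSpace X] [Fintype n] [DecidableEq n]
    {f : X → Matrix n n ℂ} {x : X} (hf : Continuous f) (hd : (f x).det ≠ 0) :
    ContinuousAt (fun x => (f x)⁻¹) x := by
  have h1 : (fun x => (f x)⁻¹) = fun x => ((f x).det)⁻¹ • (f x).adjugate := by
    funext x
    rw [Matrix.inv_def, Ring.inverse_eq_inv']
  rw [h1]
  exact ContinuousAt.smul (ContinuousAt.inv₀ hf.matrix_det.continuousAt hd)
    hf.matrix_adjugate.continuousAt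

/-- The condition is open. -/
theorem Fq_near {t : ℂ} {Y W : Matrix (Fin 4) (Fin 4) ℂ} (hd : (Y * W - W * Y).det ≠ 0)
    (hF : (Fq t Y W).re < 0) : ∃ ε : ℝ, 0 < ε ∧ ∀ Y' W' : Matrix (Fin 4) (Fin 4) ℂ,
      (∀ a b, ‖Y' a b - Y a b‖ < ε) → (∀ a b, ‖W' a b - W a b‖ < ε) → (Fq t Y' W').re < 0 := by
  have h1 : Continuous (fun p : Matrix (Fin 4) (Fin 4) ℂ × Matrix (Fin 4) (Fin 4) ℂ => P3 p.1) := by
    unfold P3; fun_prop
  have h1' : Continuous
      (fun p : Matrix (Fin 4) (Fin 4) ℂ × Matrix (Fin 4) (Fin 4) ℂ => P4 p.1) := by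
    unfold P4; fun_prop
  have h2 : Continuous (fun p : Matrix (Fin 4) (Fin 4) ℂ × Matrix (Fin 4) (Fin 4) ℂ =>
      p.1 * p.2 - p.2 * p.1) := by fun_prop
  have h3 : ContinuousAt (fun p : Matrix (Fin 4) (Fin 4) ℂ × Matrix (Fin 4) (Fin 4) ℂ =>
      (p.1 * p.2 - p.2 * p.1)⁻¹) (Y, W) := continuousAt_inv h2 hd
  have htr : Continuous (fun X : Matrix (Fin 4) (Fin 4) ℂ => X.trace) := continuous_id.matrix_trace
  have h4 : ContinuousAt (fun p : Matrix (Fin 4) (Fin 4) ℂ × Matrix (Fin 4) (Fin 4) ℂ =>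
      (Fq t p.1 p.2).re) (Y, W) := by
    unfold Fq
    apply Complex.continuous_re.continuousAt.comp
    apply ContinuousAt.mul
    · apply ContinuousAt.div_const
      exact htr.continuousAt.comp
        ((h1.continuousAt.mul h3).mul h1.continuousAt)
    · apply ContinuousAt.div_const
      exact htr.continuousAt.comp
        ((h1'.continuousAt.mul h3).mul h1'.continuousAt)
  exact exists_eps (p := fun p => (Fq t p.1 p.2).re < 0) (h4.eventually (gt_mem_nhds hF))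

end Vale.Agent.P011.One.XE
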